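import Mathlib

set_option linter.all false

section

namespace Vale.Agent.P002

open Matrix

/-- Free group on `a_0, b_0, ..., a_{g-1}, b_{g-1}`: `(i, false)` is `a_i` and `(i, true)` is `b_i`. -/
abbrev F (g : ℕ) := FreeGroup (Fin g × Bool)

/-- The generator `a_i`. -/
def ga {g : ℕ} (i : Fin g) : F g := FreeGroup.of (i, false)

/-- The generator `b_i`. -/
def gb {g : ℕ} (i : Fin g) : F g := FreeGroup.of (i, true)

/-- The commutator `[a_i, b_i]`. -/
def hcomm {g : ℕ} (i : Fin g) : F g := ga i * gb i * (ga i)⁻¹ * (gb i)⁻¹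

/-- The surface relator `[a_0,b_0] [a_1,b_1] ... [a_{g-1},b_{g-1}]`. -/
def relator (g : ℕ) : F g := (List.ofFn fun i : Fin g => hcomm i).prod

/-- Square matrices of size `r`. -/
abbrev Mat (r : ℕ) (S : Type*) := Matrix (Fin r) (Fin r) S

variable {g r : ℕ} {S T : Type*} [CommRing S] [CommRing T]

/-- Evaluation of a polynomial in the entries of all group words at a representation. -/
noncomputable def evalW [Algebra ℂ S] (x : F g →* (Mat r S)ˣ) :
    MvPolynomial (F g × Fin r × Fin r) ℂ →ₐ[ℂ] S :=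
  MvPolynomial.aeval fun p => (x p.1 : Mat r S) p.2.1 p.2.2

/-- Evaluation of a polynomial in the entries of the generators at a representation. -/
noncomputable def evalG [Algebra ℂ S] (x : F g →* (Mat r S)ˣ) :
    MvPolynomial ((Fin g × Bool) × Fin r × Fin r) ℂ →ₐ[ℂ] S :=
  MvPolynomial.aeval fun p => (x (FreeGroup.of p.1) : Mat r S) p.2.1 p.2.2

/-- `x` is an `S`-point of the Zariski closure of `D`. -/
def InZ [Algebra ℂ S] (D : Set (F g →* (Mat r ℂ)ˣ)) (x : F g →* (Mat r S)ˣ) : Prop :=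
  ∀ f : MvPolynomial (F g × Fin r × Fin r) ℂ, (∀ y ∈ D, evalW y f = 0) → evalW x f = 0

/-- `D` is stable under the automorphisms of the free group that preserve the relator up to
conjugation. -/
def AutStable (D : Set (F g →* (Mat r ℂ)ˣ)) : Prop :=
  ∀ y ∈ D, ∀ φ : F g ≃* F g, (∃ u : F g, φ (relator g) = u * relator g * u⁻¹) →
    y.comp φ.toMonoidHom ∈ D

/-- Change `b_j` to `b_j z`. -/
def flow (x : F g →* (Mat r S)ˣ) (j : Fin g) (z : (Mat r S)ˣ) : F g →* (Mat r S)ˣ :=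
  FreeGroup.lift fun k => if k = (j, true) then x (gb j) * z else x (FreeGroup.of k)

/-- The representation `a_i ↦ A_i`, `b_i ↦ 1`. -/
def handlebody (A : Fin g → (Mat r S)ˣ) : F g →* (Mat r S)ˣ :=
  FreeGroup.lift fun k => if k.2 = true then 1 else A k.1

/-- Base change of a representation. -/
def baseChange (θ : S →+* T) (x : F g →* (Mat r S)ˣ) : F g →* (Mat r T)ˣ :=
  (Units.map (RingHom.mapMatrix θ).toMonoidHom).comp x

/-- The scalar matrix `c` as a unit. -/
noncomputable def scalarU {r : ℕ} : ℂˣ →* (Mat r ℂ)ˣ :=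
  Units.map (algebraMap ℂ (Mat r ℂ)).toMonoidHom

/-- The invertible complex matrix attached to an element of `SL_r(R)` and a ring homomorphism. -/
noncomputable def slU {r : ℕ} {R : Type*} [CommRing R] (φ : R →+* ℂ) :
    SpecialLinearGroup (Fin r) R →* (Mat r ℂ)ˣ :=
  SpecialLinearGroup.toGL.comp (SpecialLinearGroup.map φ)

/-- Surface group representations into `SL_r(R)`, pushed to `GL_r(ℂ)` and twisted by a character. -/
def DInt (g r : ℕ) {R : Type*} [CommRing R] (φ : R →+* ℂ) : Set (F g →* (Mat r ℂ)ˣ) :=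
  {x | ∃ y : F g →* SpecialLinearGroup (Fin r) R, y (relator g) = 1 ∧
    ∃ χ : F g →* ℂˣ, ∀ w, x w = scalarU (χ w) * slU φ (y w)}

/-- `E` is a derivation over the representation `x`. -/
def IsDer (x : F g →* (Mat r ℂ)ˣ) (E : F g → Mat r ℂ) : Prop :=
  ∀ w w' : F g, E (w * w') = E w * (x w' : Mat r ℂ) + (x w : Mat r ℂ) * E w'

/-- A family of invertible matrices is semisimple: every invariant subspace has an invariant
complement. -/
def SS {G : Type*} [Group G] {r : ℕ} (x : G →* (Mat r ℂ)ˣ) : Prop :=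
  ∀ W : Submodule ℂ (Fin r → ℂ), (∀ w, ∀ v ∈ W, (x w : Mat r ℂ) *ᵥ v ∈ W) →
    ∃ W' : Submodule ℂ (Fin r → ℂ), (∀ w, ∀ v ∈ W', (x w : Mat r ℂ) *ᵥ v ∈ W') ∧ IsCompl W W'

/-- The relation of the surface group for a tuple of matrices. -/
noncomputable def relT (X : Fin g × Bool → Mat r ℂ) : Mat r ℂ :=
  (List.ofFn fun i : Fin g =>
    X (i, false) * X (i, true) * (X (i, false))⁻¹ * (X (i, true))⁻¹).prod

/-- Evaluation of a polynomial at a tuple of matrices. -/
noncomputable def evalT (X : Fin g × Bool → Mat r ℂ) :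
    MvPolynomial ((Fin g × Bool) × Fin r × Fin r) ℂ →ₐ[ℂ] ℂ :=
  MvPolynomial.aeval fun p => X p.1 p.2.1 p.2.2

/-- One of two indices. -/
def pick (i₀ i₁ : Fin g) (b : Bool) : Fin g := if b then i₁ else i₀

/-- Product of a word in `A_{i₀}, A_{i₁}`. -/
def wordProd (A : Fin g → (Mat r ℂ)ˣ) (i₀ i₁ : Fin g) : List Bool → Mat r ℂ
  | [] => 1
  | b :: p => (A (pick i₀ i₁ b) : Mat r ℂ) * wordProd A i₀ i₁ p

/-- Derivative of a word in `A_{i₀}, A_{i₁}` in the direction `A_i Y_i`. -/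
def wordDer (A : Fin g → (Mat r ℂ)ˣ) (Y : Fin g → Mat r ℂ) (i₀ i₁ : Fin g) :
    List Bool → Mat r ℂ
  | [] => 0
  | b :: p => (A (pick i₀ i₁ b) : Mat r ℂ) * Y (pick i₀ i₁ b) * wordProd A i₀ i₁ p +
      (A (pick i₀ i₁ b) : Mat r ℂ) * wordDer A Y i₀ i₁ p

/-! ### Equations (stated here so that they are generated in this file) -/

theorem ga_eqn (i : Fin g) : (ga i : F g) = FreeGroup.of (i, false) := by rw [ga]

theorem gb_eqn (i : Fin g) : (gb i : F g) = FreeGroup.of (i, true) := by rw [gb]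

theorem hcomm_eqn (i : Fin g) : (hcomm i : F g) = ga i * gb i * (ga i)⁻¹ * (gb i)⁻¹ := by
  rw [hcomm]

theorem relator_eqn (g : ℕ) : relator g = (List.ofFn fun i : Fin g => hcomm i).prod := by
  rw [relator]

end Vale.Agent.P002
end

section

namespace Vale.Agent.P002

open Matrix

variable {r : ℕ}

/-- Polynomials vanishing on the scaled integral unimodular matrices. -/
def VanT (f : MvPolynomial (Fin r × Fin r) ℂ) : Prop :=
  ∀ (c : ℂˣ) (X : SpecialLinearGroup (Fin r) ℤ),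
    MvPolynomial.eval (fun p => (c : ℂ) * ((X.1 p.1 p.2 : ℤ) : ℂ)) f = 0

/-- The Zariski closure of the scaled integral unimodular matrices. -/
def ZT (M : Mat r ℂ) : Prop :=
  ∀ f : MvPolynomial (Fin r × Fin r) ℂ, VanT f →
    MvPolynomial.eval (fun p => M p.1 p.2) f = 0

/-- Substitution of `A * M` for `M`. -/
noncomputable def lsub (A : Mat r ℂ) :
    MvPolynomial (Fin r × Fin r) ℂ →ₐ[ℂ] MvPolynomial (Fin r × Fin r) ℂ :=
  MvPolynomial.aeval fun p => ∑ k, MvPolynomial.C (A p.1 k) * MvPolynomial.X (k, p.2)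

theorem eval_lsub (A M : Mat r ℂ) (f : MvPolynomial (Fin r × Fin r) ℂ) :
    MvPolynomial.eval (fun p => M p.1 p.2) (lsub A f) =
      MvPolynomial.eval (fun p => (A * M) p.1 p.2) f := by
  induction f using MvPolynomial.induction_on with
  | C a => simp [lsub]
  | add f g hf hg => simp [map_add, hf, hg]
  | mul_X f p hf =>
    rw [map_mul, map_mul, map_mul, hf]
    congr 1
    simp [lsub, Matrix.mul_apply]

theorem ZT.scalar_mul {M : Mat r ℂ} (hM : ZT M) (c : ℂˣ) : ZT ((c : ℂ) • M) := by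
  intro f hf
  have h1 : VanT (lsub ((c : ℂ) • (1 : Mat r ℂ)) f) := by
    intro c' X
    have := eval_lsub ((c : ℂ) • (1 : Mat r ℂ))
      (Matrix.of fun i j => (c' : ℂ) * ((X.1 i j : ℤ) : ℂ)) f
    simp only [Matrix.of_apply] at this
    rw [this]
    have h2 := hf (c * c') X
    rw [← h2]
    congr 2
    ext p
    simp [mul_assoc]
  have h2 := hM _ h1
  rw [eval_lsub] at h2
  rw [← h2]
  congr 2
  simp

theorem ZT.transvection_int {M : Mat r ℂ} (hM : ZT M) {i j : Fin r} (hij : i ≠ j) (m : ℤ) :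
    ZT (transvection i j (m : ℂ) * M) := by
  intro f hf
  have h1 : VanT (lsub (transvection i j (m : ℂ)) f) := by
    intro c' X
    have := eval_lsub (transvection i j (m : ℂ))
      (Matrix.of fun i j => (c' : ℂ) * ((X.1 i j : ℤ) : ℂ)) f
    simp only [Matrix.of_apply] at this
    rw [this]
    have h2 := hf c' (SpecialLinearGroup.transvection hij m * X)
    rw [← h2]
    congr 2
    ext p
    have h3 : (SpecialLinearGroup.transvection hij m * X).1 =
      transvection i j m * X.1 := rfl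
    rw [h3]
    by_cases hp : p.1 = i
    · rw [hp, transvection_mul_apply_same, transvection_mul_apply_same]
      simp only [Matrix.of_apply]
      push_cast
      ring
    · rw [transvection_mul_apply_of_ne _ _ _ _ hp, transvection_mul_apply_of_ne _ _ _ _ hp]
      simp only [Matrix.of_apply]
  have h2 := hM _ h1
  rw [eval_lsub] at h2
  exact h2

/-- A polynomial along a transvection. -/
noncomputable def linePoly (M : Mat r ℂ) (i j : Fin r) (f : MvPolynomial (Fin r × Fin r) ℂ) :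
    Polynomial ℂ :=
  MvPolynomial.aeval (fun p => Polynomial.C (M p.1 p.2) +
    if p.1 = i then Polynomial.X * Polynomial.C (M j p.2) else 0) f

theorem eval_linePoly (M : Mat r ℂ) (i j : Fin r)
    (f : MvPolynomial (Fin r × Fin r) ℂ) (t : ℂ) :
    (linePoly M i j f).eval t =
      MvPolynomial.eval (fun p => (transvection i j t * M) p.1 p.2) f := by
  induction f using MvPolynomial.induction_on with
  | C a => simp [linePoly]
  | add f g hf hg =>
    rw [map_add, ← hf, ← hg]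
    simp [linePoly]
  | mul_X f p hf =>
    rw [map_mul, ← hf]
    have : linePoly M i j (f * MvPolynomial.X p) = linePoly M i j f *
        (Polynomial.C (M p.1 p.2) +
          if p.1 = i then Polynomial.X * Polynomial.C (M j p.2) else 0) := by
      simp [linePoly]
    rw [this, Polynomial.eval_mul]
    congr 1
    rw [MvPolynomial.eval_X]
    by_cases hp : p.1 = i
    · rw [if_pos hp, hp, transvection_mul_apply_same]
      simp only [Polynomial.eval_add, Polynomial.eval_mul, Polynomial.eval_C, Polynomial.eval_X]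
    · rw [if_neg hp, transvection_mul_apply_of_ne _ _ _ _ hp]
      simp

theorem ZT.transvection {M : Mat r ℂ} (hM : ZT M) {i j : Fin r} (hij : i ≠ j) (t : ℂ) :
    ZT (Matrix.transvection i j t * M) := by
  intro f hf
  have h0 : linePoly M i j f = 0 := by
    apply Polynomial.eq_zero_of_infinite_isRoot
    apply Set.Infinite.mono (s := Set.range fun m : ℤ => (m : ℂ))
    · rintro _ ⟨m, rfl⟩
      change (linePoly M i j f).eval (m : ℂ) = 0
      rw [eval_linePoly]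
      exact hM.transvection_int hij m f hf
    · exact Set.infinite_range_of_injective Int.cast_injective
  rw [← eval_linePoly, h0, Polynomial.eval_zero]

theorem tmul (i j : Fin r) (s : ℂ) (M : Mat r ℂ) (a b : Fin r) :
    (Matrix.transvection i j s * M) a b = M a b + if a = i then s * M j b else 0 := by
  by_cases ha : a = i
  · rw [if_pos ha, ha, transvection_mul_apply_same]
  · rw [if_neg ha, transvection_mul_apply_of_ne _ _ _ _ ha, add_zero]

/-- Whitehead's identity. -/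
theorem whitehead {i j : Fin r} (hij : i ≠ j) (s : ℂ) (hs : s ≠ 0) (M : Mat r ℂ) :
    diagonal (fun k => if k = i then s else if k = j then s⁻¹ else 1) * M =
      Matrix.transvection i j (s - 1) * (Matrix.transvection j i 1 *
        (Matrix.transvection i j (s⁻¹ - 1) * (Matrix.transvection j i (-s) * M))) := by
  have hji : j ≠ i := hij.symm
  ext a b
  rw [diagonal_mul]
  simp only [tmul]
  by_cases ha : a = i
  · subst ha
    simp only [if_true, if_neg hij, if_neg hji]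
    field_simp
    ring
  · by_cases ha' : a = j
    · subst ha'
      simp only [if_true, if_neg hij, if_neg hji]
      field_simp
      ring
    · simp only [if_neg ha, if_neg ha', one_mul, add_zero]

/-- Left multiplication by `A` preserves the closure. -/
def QT (A : Mat r ℂ) : Prop := ∀ M, ZT M → ZT (A * M)

theorem QT.mul {A B : Mat r ℂ} (hA : QT A) (hB : QT B) : QT (A * B) := by
  intro M hM
  rw [Matrix.mul_assoc]
  exact hA _ (hB _ hM)

theorem QT.transvection {i j : Fin r} (hij : i ≠ j) (t : ℂ) : QT (Matrix.transvection i j t) :=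
  fun _ hM => hM.transvection hij t

theorem QT.scalar (c : ℂˣ) : QT ((c : ℂ) • (1 : Mat r ℂ)) := by
  intro M hM
  rw [Matrix.smul_mul, Matrix.one_mul]
  exact hM.scalar_mul c

theorem QT.one : QT (1 : Mat r ℂ) := by
  intro M hM
  rwa [Matrix.one_mul]

theorem QT.white {i j : Fin r} (hij : i ≠ j) (s : ℂ) (hs : s ≠ 0) :
    QT (diagonal (fun k => if k = i then s else if k = j then s⁻¹ else 1)) := by
  intro M hM
  rw [whitehead hij s hs]
  exact (((hM.transvection hij.symm _).transvection hij _).transvection hij.symm _).transvection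
    hij _

theorem QT.diag_aux (i₀ : Fin r) (s : Fin r → ℂ) (hs : ∀ i, s i ≠ 0) (t : Finset (Fin r))
    (ht : i₀ ∉ t) :
    QT (diagonal (fun k => if k = i₀ then (∏ i ∈ t, s i)⁻¹ else if k ∈ t then s k else 1)) := by
  induction t using Finset.induction_on with
  | empty =>
    have : (diagonal (fun k => if k = i₀ then (∏ i ∈ (∅ : Finset (Fin r)), s i)⁻¹ else
        if k ∈ (∅ : Finset (Fin r)) then s k else 1)) = (1 : Mat r ℂ) := by
      rw [← diagonal_one]
      congr 1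
      ext k
      simp
    rw [this]
    exact QT.one
  | insert a t ha ih =>
    have h1 : a ≠ i₀ := fun h => ht (h ▸ Finset.mem_insert_self a t)
    have h2 : i₀ ∉ t := fun h => ht (Finset.mem_insert_of_mem h)
    have h3 := (QT.white h1 (s a) (hs a)).mul (ih h2)
    rw [diagonal_mul_diagonal] at h3
    refine (congrArg (fun d : Fin r → ℂ => QT (diagonal d)) (funext fun k => ?_)).mpr h3
    by_cases hk : k = i₀
    · subst hk
      rw [if_pos rfl, if_neg (Ne.symm h1), if_pos rfl, if_pos rfl, Finset.prod_insert ha, mul_inv]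
    · rw [if_neg hk, if_neg hk, if_neg hk]
      by_cases hka : k = a
      · subst hka
        rw [if_pos (Finset.mem_insert_self k t), if_pos rfl, if_neg ha, mul_one]
      · rw [if_neg hka, one_mul]
        congr 1
        simp [hka]

theorem QT.diag (hr : 0 < r) (s : Fin r → ℂ) (hs : ∀ i, s i ≠ 0) (hp : ∏ i, s i = 1) :
    QT (diagonal s) := by
  have h := QT.diag_aux ⟨0, hr⟩ s hs (Finset.univ.erase ⟨0, hr⟩) (Finset.notMem_erase _ _)
  refine (congrArg (fun d : Fin r → ℂ => QT (diagonal d)) (funext fun k => ?_)).mpr h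
  by_cases hk : k = ⟨0, hr⟩
  · subst hk
    rw [if_pos rfl]
    rw [← Finset.mul_prod_erase Finset.univ s (Finset.mem_univ ⟨0, hr⟩)] at hp
    exact eq_inv_of_mul_eq_one_left hp
  · rw [if_neg hk, if_pos (Finset.mem_erase.mpr ⟨hk, Finset.mem_univ k⟩)]

theorem QT.of_det_ne_zero (hr : 0 < r) (M : Mat r ℂ) (hM : M.det ≠ 0) : QT M := by
  refine diagonal_transvection_induction QT M ?_ ?_ ?_
  · intro D hD
    obtain ⟨c, hc⟩ := IsAlgClosed.exists_pow_nat_eq M.det hr
    have hc0 : c ≠ 0 := by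
      rintro rfl
      rw [zero_pow hr.ne'] at hc
      exact hM hc.symm
    have hD' : ∏ i, D i = c ^ r := by
      rw [hc, ← hD, det_diagonal]
    have hDi : ∀ i, D i ≠ 0 := by
      intro i hi
      apply pow_ne_zero r hc0
      rw [← hD']
      exact Finset.prod_eq_zero (Finset.mem_univ i) hi
    have h1 : (diagonal D : Mat r ℂ) =
        ((Units.mk0 c hc0 : ℂˣ) : ℂ) • (1 : Mat r ℂ) * diagonal (fun i => c⁻¹ * D i) := by
      rw [Matrix.smul_mul, Matrix.one_mul, ← diagonal_smul]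
      congr 1
      ext i
      simp [hc0]
    rw [h1]
    refine (QT.scalar _).mul (QT.diag hr _ (fun i => mul_ne_zero (inv_ne_zero hc0) (hDi i)) ?_)
    rw [Finset.prod_mul_distrib, hD', Finset.prod_const, Finset.card_univ, Fintype.card_fin,
      ← mul_pow, inv_mul_cancel₀ hc0, one_pow]
  · intro t
    exact QT.transvection t.hij t.c
  · intro A B hA hB
    exact hA.mul hB

theorem ZT.one : ZT (1 : Mat r ℂ) := by
  intro f hf
  have := hf 1 1
  rw [← this]
  congr 2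
  ext p
  have h : (1 : SpecialLinearGroup (Fin r) ℤ).1 = 1 := rfl
  rw [h, Matrix.one_apply, Matrix.one_apply]
  split <;> simp

theorem ZT.of_det_ne_zero (M : Mat r ℂ) (hM : M.det ≠ 0) : ZT M := by
  rcases Nat.eq_zero_or_pos r with hr | hr
  · subst hr
    have : M = 1 := Subsingleton.elim _ _
    rw [this]
    exact ZT.one
  · have h := QT.of_det_ne_zero hr M hM 1 ZT.one
    rwa [Matrix.mul_one] at h

theorem scaledSL_dense (f : MvPolynomial (Fin r × Fin r) ℂ)
    (hf : ∀ (c : ℂˣ) (X : SpecialLinearGroup (Fin r) ℤ),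
      MvPolynomial.eval (fun p => (c : ℂ) * ((X.1 p.1 p.2 : ℤ) : ℂ)) f = 0) : f = 0 := by
  have h1 : f * (mvPolynomialX (Fin r) (Fin r) ℂ).det = 0 := by
    apply MvPolynomial.funext
    intro x
    rw [map_mul, map_zero]
    have h2 : MvPolynomial.eval x (mvPolynomialX (Fin r) (Fin r) ℂ).det =
        (Matrix.of fun i j => x (i, j)).det := by
      rw [RingHom.map_det]
      congr 1
      ext i j
      simp [mvPolynomialX]
    by_cases h3 : (Matrix.of fun i j => x (i, j)).det = 0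
    · rw [h2, h3, mul_zero]
    · have h4 := ZT.of_det_ne_zero _ h3 f hf
      simp only [Matrix.of_apply] at h4
      have h5 : (fun p : Fin r × Fin r => x (p.1, p.2)) = x := rfl
      rw [h5] at h4
      rw [h4, zero_mul]
  rcases mul_eq_zero.mp h1 with h | h
  · exact h
  · exact absurd h (det_mvPolynomialX_ne_zero (Fin r) ℂ)

variable {g : ℕ}

/-- The version for several matrices. -/
theorem multi_dense (P : MvPolynomial (Fin g × Fin r × Fin r) ℂ)
    (hP : ∀ (c : Fin g → ℂˣ) (X : Fin g → SpecialLinearGroup (Fin r) ℤ),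
      MvPolynomial.eval (fun p => (c p.1 : ℂ) * (((X p.1).1 p.2.1 p.2.2 : ℤ) : ℂ)) P = 0) :
    P = 0 := by
  have key : ∀ (t : Finset (Fin g)) (M : Fin g → Mat r ℂ),
      (∀ i, i ∉ t → ∃ (c : ℂˣ) (X : SpecialLinearGroup (Fin r) ℤ), ∀ a b,
        M i a b = (c : ℂ) * ((X.1 a b : ℤ) : ℂ)) →
      MvPolynomial.eval (fun p => M p.1 p.2.1 p.2.2) P = 0 := by
    intro t
    induction t using Finset.induction_on with
    | empty =>
      intro M hM
      choose c X h using fun i => hM i (Finset.notMem_empty i)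
      rw [← hP c X]
      congr 2
      ext p
      exact h p.1 p.2.1 p.2.2
    | insert a t ha ih =>
      intro M hM
      obtain ⟨Pa, hPa⟩ : ∃ Pa : MvPolynomial (Fin r × Fin r) ℂ, Pa =
        MvPolynomial.aeval (fun p : Fin g × Fin r × Fin r =>
          if p.1 = a then MvPolynomial.X p.2 else MvPolynomial.C (M p.1 p.2.1 p.2.2)) P :=
        ⟨_, rfl⟩
      have h1 : ∀ N : Mat r ℂ, MvPolynomial.eval (fun p => N p.1 p.2) Pa =
          MvPolynomial.eval (fun p => (Function.update M a N) p.1 p.2.1 p.2.2) P := by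
        intro N
        rw [hPa]
        clear hP ih hM hPa
        induction P using MvPolynomial.induction_on with
        | C x => simp
        | add f g hf hg => simp only [map_add, hf, hg]
        | mul_X f p hf =>
          rw [map_mul, map_mul, map_mul, hf]
          congr 1
          rw [MvPolynomial.aeval_X, MvPolynomial.eval_X]
          by_cases hp : p.1 = a
          · rw [if_pos hp, MvPolynomial.eval_X, hp, Function.update_self]
          · rw [if_neg hp, MvPolynomial.eval_C, Function.update_of_ne hp]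
      have h2 : Pa = 0 := by
        refine scaledSL_dense Pa fun c X => ?_
        have h3 := h1 (Matrix.of fun i j => (c : ℂ) * ((X.1 i j : ℤ) : ℂ))
        simp only [Matrix.of_apply] at h3
        rw [h3]
        apply ih
        intro i hi
        by_cases hia : i = a
        · subst hia
          refine ⟨c, X, fun x y => ?_⟩
          rw [Function.update_self]
          rfl
        · rw [Function.update_of_ne hia]
          apply hM
          rw [Finset.mem_insert]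
          push Not
          exact ⟨hia, hi⟩
      have h3 := h1 (M a)
      rw [Function.update_eq_self] at h3
      rw [← h3, h2, map_zero]
  apply MvPolynomial.funext
  intro x
  rw [map_zero]
  exact key Finset.univ (fun i => Matrix.of fun a b => x (i, a, b))
    (fun i hi => absurd (Finset.mem_univ i) hi)

theorem single_mem_adjoin (d : Fin r → ℂ) (hd : Function.Injective d) (i : Fin r) :
    Matrix.single i i (1 : ℂ) ∈ Algebra.adjoin ℂ {(diagonal d : Mat r ℂ)} := by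
  have h1 : (Pi.single i 1 : Fin r → ℂ) ∈ Algebra.adjoin ℂ {d} := by
    have h2 : (∏ k ∈ Finset.univ.erase i, (d i - d k)) ≠ 0 := by
      rw [Finset.prod_ne_zero_iff]
      intro k hk
      rw [sub_ne_zero]
      exact fun h => (Finset.ne_of_mem_erase hk) (hd h).symm
    have h3 : (Pi.single i 1 : Fin r → ℂ) = (∏ k ∈ Finset.univ.erase i, (d i - d k))⁻¹ •
        ∏ k ∈ Finset.univ.erase i, (d - algebraMap ℂ (Fin r → ℂ) (d k)) := by
      ext j
      rw [Pi.smul_apply, Finset.prod_apply]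
      by_cases hj : j = i
      · subst hj
        rw [Pi.single_eq_same]
        simp only [Pi.sub_apply, Pi.algebraMap_apply, Algebra.algebraMap_self, RingHom.id_apply,
          smul_eq_mul]
        rw [inv_mul_cancel₀ h2]
      · rw [Pi.single_eq_of_ne hj]
        have h4 : ∏ c ∈ Finset.univ.erase i, (d - (algebraMap ℂ (Fin r → ℂ)) (d c)) j = 0 := by
          refine Finset.prod_eq_zero (Finset.mem_erase.mpr ⟨hj, Finset.mem_univ j⟩) ?_
          simp
        rw [h4, smul_zero]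
    rw [h3]
    apply Subalgebra.smul_mem
    apply Subalgebra.prod_mem
    intro k _
    apply Subalgebra.sub_mem
    · exact Algebra.subset_adjoin rfl
    · exact Subalgebra.algebraMap_mem _ _
  have h2 : (diagonalAlgHom ℂ : (Fin r → ℂ) →ₐ[ℂ] Mat r ℂ) (Pi.single i 1) ∈
      (Algebra.adjoin ℂ {d}).map (diagonalAlgHom ℂ) := Subalgebra.mem_map.mpr ⟨_, h1, rfl⟩
  rw [AlgHom.map_adjoin, Set.image_singleton] at h2
  have h3 : (diagonalAlgHom ℂ : (Fin r → ℂ) →ₐ[ℂ] Mat r ℂ) (Pi.single i 1) =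
      Matrix.single i i (1 : ℂ) := by
    rw [diagonalAlgHom_apply, diagonal_single]
  rw [h3] at h2
  exact h2

theorem adjoin_pair (A : Fin g → Mat r ℂ) (i₀ i₁ : Fin g)
    (h0 : A i₀ = diagonal fun k : Fin r => ((k : ℕ) : ℂ)) (h1 : A i₁ = Matrix.of fun _ _ => 1) :
    Algebra.adjoin ℂ (Set.range A) = ⊤ := by
  have hd : Function.Injective fun k : Fin r => ((k : ℕ) : ℂ) := by
    intro a b hab
    exact Fin.ext (Nat.cast_injective hab)
  have hs : ∀ i, Matrix.single i i (1 : ℂ) ∈ Algebra.adjoin ℂ (Set.range A) := by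
    intro i
    refine Algebra.adjoin_mono ?_ (single_mem_adjoin _ hd i)
    rintro _ rfl
    exact ⟨i₀, h0⟩
  have hJ : (Matrix.of fun _ _ => 1 : Mat r ℂ) ∈ Algebra.adjoin ℂ (Set.range A) :=
    Algebra.subset_adjoin ⟨i₁, h1⟩
  have hij : ∀ i j, Matrix.single i j (1 : ℂ) ∈ Algebra.adjoin ℂ (Set.range A) := by
    intro i j
    have : Matrix.single i j (1 : ℂ) =
        Matrix.single i i (1 : ℂ) * (Matrix.of fun _ _ => 1 : Mat r ℂ) * Matrix.single j j 1 := by
      rw [Matrix.single_mul_mul_single]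
      simp
    rw [this]
    exact Subalgebra.mul_mem _ (Subalgebra.mul_mem _ (hs i) hJ) (hs j)
  rw [eq_top_iff]
  intro M _
  rw [matrix_eq_sum_single M]
  refine Subalgebra.sum_mem _ fun i _ => Subalgebra.sum_mem _ fun j _ => ?_
  have : Matrix.single i j (M i j) = M i j • Matrix.single i j (1 : ℂ) := by
    rw [Matrix.smul_single, smul_eq_mul, mul_one]
  rw [this]
  exact Subalgebra.smul_mem _ (hij i j) _

/-- A polynomial condition that implies generation of the full matrix algebra. -/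
theorem exists_generating_poly (hg : 2 ≤ g) :
    ∃ h : MvPolynomial (Fin g × Fin r × Fin r) ℂ, h ≠ 0 ∧ ∀ A : Fin g → Mat r ℂ,
      MvPolynomial.eval (fun p => A p.1 p.2.1 p.2.2) h ≠ 0 →
        Algebra.adjoin ℂ (Set.range A) = ⊤ := by
  obtain ⟨B, hB⟩ : ∃ B : Fin g → Mat r ℂ, Algebra.adjoin ℂ (Set.range B) = ⊤ := by
    refine ⟨fun i => if (i : ℕ) = 0 then diagonal fun k : Fin r => ((k : ℕ) : ℂ) else
      Matrix.of fun _ _ => 1, ?_⟩
    refine adjoin_pair _ ⟨0, by omega⟩ ⟨1, by omega⟩ ?_ ?_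
    · simp
    · simp
  have hspan : Submodule.span ℂ (Set.range (FreeMonoid.lift B)) = ⊤ := by
    have h1 : Submodule.span ℂ (Submonoid.closure (Set.range B) : Set (Mat r ℂ)) = ⊤ := by
      rw [← Algebra.adjoin_eq_span, hB, Algebra.top_toSubmodule]
    rw [← h1]
    congr 1
    rw [← FreeMonoid.mrange_lift]
    rfl
  obtain ⟨κ, a, _, hsp, hli⟩ := exists_linearIndependent' ℂ (FreeMonoid.lift B)
  rw [hspan] at hsp
  let b : Module.Basis κ ℂ (Mat r ℂ) := Module.Basis.mk hli hsp.ge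
  let e : κ ≃ Fin r × Fin r := b.indexEquiv (Matrix.stdBasis ℂ (Fin r) (Fin r))
  let w : Fin r × Fin r → FreeMonoid (Fin g) := a ∘ e.symm
  have hw : LinearIndependent ℂ (fun k => FreeMonoid.lift B (w k)) :=
    hli.comp e.symm e.symm.injective
  let G : Fin g → Matrix (Fin r) (Fin r) (MvPolynomial (Fin g × Fin r × Fin r) ℂ) :=
    fun i => Matrix.of fun a b => MvPolynomial.X (i, a, b)
  let Mk : Matrix (Fin r × Fin r) (Fin r × Fin r) (MvPolynomial (Fin g × Fin r × Fin r) ℂ) :=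
    Matrix.of fun k p => (FreeMonoid.lift G (w k)) p.1 p.2
  have hev : ∀ A : Fin g → Mat r ℂ,
      MvPolynomial.eval (fun p => A p.1 p.2.1 p.2.2) Mk.det =
        (Matrix.of fun k p : Fin r × Fin r => (FreeMonoid.lift A (w k)) p.1 p.2).det := by
    intro A
    rw [RingHom.map_det]
    congr 1
    ext k p
    have h1 : ∀ u : FreeMonoid (Fin g),
        (MvPolynomial.eval (fun p : Fin g × Fin r × Fin r => A p.1 p.2.1 p.2.2)).mapMatrix
          (FreeMonoid.lift G u) = FreeMonoid.lift A u := by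
      intro u
      induction u using FreeMonoid.inductionOn' with
      | one => simp
      | of_mul x xs ih =>
        rw [map_mul, map_mul, map_mul, ih]
        congr 1
        rw [FreeMonoid.lift_eval_of, FreeMonoid.lift_eval_of]
        ext i j
        simp [G]
    have h2 := congrFun (congrFun (h1 (w k)) p.1) p.2
    exact h2
  refine ⟨Mk.det, ?_, ?_⟩
  · intro h0
    have h1 := hev B
    rw [h0, map_zero] at h1
    obtain ⟨v, hv, hv'⟩ := Matrix.exists_vecMul_eq_zero_iff.mpr h1.symm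
    apply hv
    have h2 : ∑ k, v k • FreeMonoid.lift B (w k) = 0 := by
      ext i j
      have h3 := congrFun hv' (i, j)
      rw [Matrix.sum_apply]
      simpa [Matrix.vecMul, dotProduct] using h3
    have h3 := (Fintype.linearIndependent_iff.mp hw) v h2
    ext k
    exact h3 k
  · intro A hA
    rw [hev A] at hA
    have hli' : LinearIndependent ℂ (fun k => FreeMonoid.lift A (w k)) := by
      rw [Fintype.linearIndependent_iff]
      intro v hv k
      by_contra hk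
      apply hA
      apply Matrix.exists_vecMul_eq_zero_iff.mp
      refine ⟨v, fun h => hk (congrFun h k), ?_⟩
      ext p
      have h3 := congrFun (congrFun hv p.1) p.2
      rw [Matrix.sum_apply] at h3
      simpa [Matrix.vecMul, dotProduct] using h3
    have hsp' : Submodule.span ℂ (Set.range fun k => FreeMonoid.lift A (w k)) = ⊤ := by
      apply hli'.span_eq_top_of_card_eq_finrank'
      rw [Module.finrank_matrix]
      simp
    have h4 : Submodule.span ℂ (Set.range fun k => FreeMonoid.lift A (w k)) ≤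
        Subalgebra.toSubmodule (Algebra.adjoin ℂ (Set.range A)) := by
      rw [Submodule.span_le]
      rintro _ ⟨k, rfl⟩
      have h5 : FreeMonoid.lift A (w k) ∈ Submonoid.closure (Set.range A) := by
        rw [← FreeMonoid.mrange_lift]
        exact ⟨w k, rfl⟩
      change FreeMonoid.lift A (w k) ∈ Algebra.adjoin ℂ (Set.range A)
      exact (Submonoid.closure_le (S := (Algebra.adjoin ℂ (Set.range A)).toSubsemiring.toSubmonoid)).mpr
        Algebra.subset_adjoin h5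
    rw [hsp'] at h4
    rw [eq_top_iff]
    intro M _
    exact h4 (Submodule.mem_top (x := M))

theorem evalW_baseChange {S T : Type*} [CommRing S] [CommRing T] [Algebra ℂ S] [Algebra ℂ T]
    (θ : S →ₐ[ℂ] T) (x : F g →* (Mat r S)ˣ) (f : MvPolynomial (F g × Fin r × Fin r) ℂ) :
    evalW (baseChange θ.toRingHom x) f = θ (evalW x f) := by
  unfold evalW
  rw [← AlgHom.comp_apply, MvPolynomial.comp_aeval]
  rfl

theorem baseChange_handlebody {S T : Type*} [CommRing S] [CommRing T] (θ : S →+* T)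
    (A : Fin g → (Mat r S)ˣ) (A' : Fin g → (Mat r T)ˣ)
    (h : ∀ i, (A' i : Mat r T) = (A i : Mat r S).map θ) :
    baseChange θ (handlebody A) = handlebody A' := by
  unfold handlebody baseChange
  ext k : 1
  rw [MonoidHom.comp_apply, FreeGroup.lift_apply_of, FreeGroup.lift_apply_of]
  by_cases hk : k.2 = true
  · rw [if_pos hk, if_pos hk, map_one]
  · rw [if_neg hk, if_neg hk]
    apply Units.ext
    rw [h]
    rfl

/-- The matrices of variables. -/
noncomputable def gm (g r : ℕ) (i : Fin g) :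
    Matrix (Fin r) (Fin r) (MvPolynomial (Fin g × Fin r × Fin r) ℂ) :=
  Matrix.of fun a b => MvPolynomial.X (i, a, b)

/-- The product of the determinants of the matrices of variables. -/
noncomputable def gdelta (g r : ℕ) : MvPolynomial (Fin g × Fin r × Fin r) ℂ :=
  ∏ i, (gm g r i).det

/-- The coordinate ring of `GL_r ^ g`. -/
abbrev GU (g r : ℕ) : Type := Localization.Away (gdelta g r)

theorem gm_det_isUnit (i : Fin g) :
    IsUnit ((gm g r i).map (algebraMap (MvPolynomial (Fin g × Fin r × Fin r) ℂ) (GU g r))) := by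
  rw [Matrix.isUnit_iff_isUnit_det]
  have h1 : ((gm g r i).map (algebraMap (MvPolynomial (Fin g × Fin r × Fin r) ℂ)
      (GU g r))).det = algebraMap _ (GU g r) (gm g r i).det := by
    rw [RingHom.map_det]
    rfl
  rw [h1]
  refine IsLocalization.Away.isUnit_of_dvd (gdelta g r) ?_
  exact Finset.dvd_prod_of_mem _ (Finset.mem_univ i)

/-- The universal tuple of invertible matrices. -/
noncomputable def gun (g r : ℕ) (i : Fin g) : (Mat r (GU g r))ˣ := (gm_det_isUnit i).unit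

theorem gun_univ {T : Type*} [CommRing T] [Algebra ℂ T] (A : Fin g → (Mat r T)ˣ) :
    ∃ φ : GU g r →ₐ[ℂ] T, (∀ p : MvPolynomial (Fin g × Fin r × Fin r) ℂ,
      φ (algebraMap (MvPolynomial (Fin g × Fin r × Fin r) ℂ) (GU g r) p) =
      MvPolynomial.aeval (fun p : Fin g × Fin r × Fin r => (A p.1 : Mat r T) p.2.1 p.2.2) p) ∧
      ∀ f, evalW (handlebody A) f = φ (evalW (handlebody (gun g r)) f) := by
  have hu : IsUnit (MvPolynomial.aeval
      (fun p : Fin g × Fin r × Fin r => (A p.1 : Mat r T) p.2.1 p.2.2) (gdelta g r)) := by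
    unfold gdelta
    rw [map_prod, IsUnit.prod_iff]
    intro i _
    have h1 : MvPolynomial.aeval
        (fun p : Fin g × Fin r × Fin r => (A p.1 : Mat r T) p.2.1 p.2.2) (gm g r i).det =
          (A i : Mat r T).det := by
      rw [AlgHom.map_det]
      congr 1
      ext a b
      simp [gm]
    rw [h1]
    exact (Matrix.isUnit_iff_isUnit_det _).mp (A i).isUnit
  refine ⟨IsLocalization.Away.liftAlgHom (gdelta g r) hu, fun p => ?_, fun f => ?_⟩
  · rw [IsLocalization.Away.liftAlgHom_apply, IsLocalization.Away.lift_eq]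
    rfl
  · rw [← evalW_baseChange]
    congr 1
    rw [baseChange_handlebody _ _ A]
    intro i
    ext a b
    have h1 : (gun g r i : Mat r (GU g r)) a b =
        algebraMap (MvPolynomial (Fin g × Fin r × Fin r) ℂ) (GU g r)
          (MvPolynomial.X (i, a, b)) := rfl
    rw [Matrix.map_apply, h1]
    change _ = (IsLocalization.Away.liftAlgHom (gdelta g r) hu) _
    rw [IsLocalization.Away.liftAlgHom_apply, IsLocalization.Away.lift_eq]
    change _ = MvPolynomial.aeval _ _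
    rw [MvPolynomial.aeval_X]

theorem inZ_handlebody (hg : 2 ≤ g) {D : Set (F g →* (Mat r ℂ)ˣ)}
    (hD : ∀ (c : Fin g → ℂˣ) (X : Fin g → SpecialLinearGroup (Fin r) ℤ),
      Algebra.adjoin ℂ (Set.range fun i => (slU (Int.castRingHom ℂ) (X i) : Mat r ℂ)) = ⊤ →
      handlebody (fun i => scalarU (c i) * slU (Int.castRingHom ℂ) (X i)) ∈ D)
    {S : Type*} [CommRing S] [Algebra ℂ S] (A : Fin g → (Mat r S)ˣ) :
    InZ D (handlebody A) := by
  intro f hf
  obtain ⟨h, h0, hgen⟩ := exists_generating_poly (g := g) (r := r) hg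
  obtain ⟨n, a, ha⟩ := IsLocalization.Away.surj (gdelta g r) (evalW (handlebody (gun g r)) f)
  have ha0 : a * h = 0 := by
    apply multi_dense
    intro c X
    rw [map_mul]
    by_cases hh : MvPolynomial.eval (fun p : Fin g × Fin r × Fin r =>
        (c p.1 : ℂ) * (((X p.1).1 p.2.1 p.2.2 : ℤ) : ℂ)) h = 0
    · rw [hh, mul_zero]
    · have h1 := hgen (fun i => Matrix.of fun a b => (c i : ℂ) * (((X i).1 a b : ℤ) : ℂ)) hh
      have h2 : ∀ i, (Matrix.of fun a b => (c i : ℂ) * (((X i).1 a b : ℤ) : ℂ) : Mat r ℂ) =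
          (c i : ℂ) • (slU (Int.castRingHom ℂ) (X i) : Mat r ℂ) := by
        intro i
        ext a b
        rfl
      have h3 : Algebra.adjoin ℂ (Set.range fun i =>
          (slU (Int.castRingHom ℂ) (X i) : Mat r ℂ)) = ⊤ := by
        rw [eq_top_iff, ← h1]
        apply Algebra.adjoin_le
        rintro _ ⟨i, rfl⟩
        have h8 : (slU (Int.castRingHom ℂ) (X i) : Mat r ℂ) ∈ Algebra.adjoin ℂ
            (Set.range fun i => (slU (Int.castRingHom ℂ) (X i) : Mat r ℂ)) :=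
          Algebra.subset_adjoin (Set.mem_range_self i)
        have h9 := Subalgebra.smul_mem _ h8 (c i : ℂ)
        rw [← h2] at h9
        exact h9
      have h4 := hf _ (hD c X h3)
      obtain ⟨φ, hφ1, hφ2⟩ := gun_univ
        (fun i => scalarU (c i) * slU (Int.castRingHom ℂ) (X i) : Fin g → (Mat r ℂ)ˣ)
      rw [hφ2] at h4
      have h5 := congrArg φ ha
      rw [map_mul, h4, zero_mul, hφ1] at h5
      have h6 : MvPolynomial.eval (fun p : Fin g × Fin r × Fin r =>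
          (c p.1 : ℂ) * (((X p.1).1 p.2.1 p.2.2 : ℤ) : ℂ)) a = 0 := by
        rw [h5, MvPolynomial.aeval_def, Algebra.algebraMap_self, ← MvPolynomial.eval₂_id]
        congr 1
        ext p
        change _ = (((algebraMap ℂ (Mat r ℂ)) (c p.1)) *
          (slU (Int.castRingHom ℂ) (X p.1) : Mat r ℂ)) p.2.1 p.2.2
        rw [← Algebra.smul_def, Matrix.smul_apply]
        rfl
      rw [h6, zero_mul]
  have ha1 : a = 0 := by
    rcases mul_eq_zero.mp ha0 with h1 | h1
    · exact h1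
    · exact absurd h1 h0
  rw [ha1, map_zero] at ha
  have h7 : evalW (handlebody (gun g r)) f = 0 := by
    have hu : IsUnit (algebraMap (MvPolynomial (Fin g × Fin r × Fin r) ℂ) (GU g r)
        (gdelta g r) ^ n) := (IsLocalization.Away.algebraMap_isUnit (gdelta g r)).pow n
    exact (hu.mul_left_eq_zero).mp ha
  obtain ⟨φ, _, hφ2⟩ := gun_univ A
  rw [hφ2, h7, map_zero]

end Vale.Agent.P002
end

section

/-! TASK L: reducible representations. -/

namespace Vale.Agent.P002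

open Matrix

section SemiSimple

variable {G : Type*} [Group G] {r r₁ r₂ : ℕ}

/-- invariant subspaces -/
def InvS (x : G →* (Mat r ℂ)ˣ) (W : Submodule ℂ (Fin r → ℂ)) : Prop :=
  ∀ w, ∀ v ∈ W, (x w : Mat r ℂ) *ᵥ v ∈ W

/-- relative semisimplicity of an invariant subspace -/
def RelSS (x : G →* (Mat r ℂ)ˣ) (E : Submodule ℂ (Fin r → ℂ)) : Prop :=
  ∀ W ≤ E, InvS x W → ∃ W' ≤ E, InvS x W' ∧ W ⊓ W' = ⊥ ∧ W ⊔ W' = E

theorem InvS.inf {x : G →* (Mat r ℂ)ˣ} {W W' : Submodule ℂ (Fin r → ℂ)} (h : InvS x W)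
    (h' : InvS x W') : InvS x (W ⊓ W') := fun w v hv => ⟨h w v hv.1, h' w v hv.2⟩

theorem InvS.sup {x : G →* (Mat r ℂ)ˣ} {W W' : Submodule ℂ (Fin r → ℂ)} (h : InvS x W)
    (h' : InvS x W') : InvS x (W ⊔ W') := by
  intro w v hv
  obtain ⟨a, ha, b, hb, rfl⟩ := Submodule.mem_sup.mp hv
  rw [mulVec_add]
  exact Submodule.mem_sup.mpr ⟨_, h w a ha, _, h' w b hb, rfl⟩

theorem ss_iff_relSS_top (x : G →* (Mat r ℂ)ˣ) : SS x ↔ RelSS x ⊤ := by
  constructor
  · intro h W _ hW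
    obtain ⟨W', h1, h2⟩ := h W hW
    exact ⟨W', le_top, h1, h2.inf_eq_bot, h2.sup_eq_top⟩
  · intro h W hW
    obtain ⟨W', _, h1, h2, h3⟩ := h W le_top hW
    exact ⟨W', h1, isCompl_iff.mpr ⟨disjoint_iff.mpr h2, codisjoint_iff.mpr h3⟩⟩

theorem RelSS.of_top {x : G →* (Mat r ℂ)ˣ} (h : RelSS x ⊤) {E : Submodule ℂ (Fin r → ℂ)}
    (hE : InvS x E) : RelSS x E := by
  intro W hW hinv
  obtain ⟨W', _, h1, h2, h3⟩ := h W le_top hinv
  refine ⟨W' ⊓ E, inf_le_right, h1.inf hE, ?_, ?_⟩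
  · rw [← inf_assoc, h2, bot_inf_eq]
  · rw [← sup_inf_assoc_of_le W' hW, h3, top_inf_eq]

theorem RelSS.of_compl {x : G →* (Mat r ℂ)ˣ} {E₁ E₂ : Submodule ℂ (Fin r → ℂ)}
    (hc : IsCompl E₁ E₂) (h1 : InvS x E₁) (h2 : InvS x E₂) (s1 : RelSS x E₁) (s2 : RelSS x E₂) :
    RelSS x ⊤ := by
  intro W _ hW
  obtain ⟨C₁, hC₁, i1, d1, c1⟩ := s1 (W ⊓ E₁) inf_le_right (hW.inf h1)
  obtain ⟨C₂, hC₂, i2, d2, c2⟩ := s2 ((W ⊔ E₁) ⊓ E₂) inf_le_right ((hW.sup h1).inf h2)
  refine ⟨C₁ ⊔ C₂, le_top, i1.sup i2, ?_, ?_⟩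
  · rw [eq_bot_iff]
    rintro v ⟨hv, hvC⟩
    obtain ⟨a, ha, b, hb, rfl⟩ := Submodule.mem_sup.mp hvC
    have hbW : b ∈ (W ⊔ E₁) ⊓ E₂ := by
      refine ⟨?_, hC₂ hb⟩
      refine Submodule.mem_sup.mpr ⟨a + b, hv, -a, E₁.neg_mem (hC₁ ha), by abel⟩
    have hb0 : b ∈ ((W ⊔ E₁) ⊓ E₂) ⊓ C₂ := ⟨hbW, hb⟩
    rw [d2, Submodule.mem_bot] at hb0
    subst hb0
    rw [add_zero] at hv ⊢
    have ha0 : a ∈ (W ⊓ E₁) ⊓ C₁ := ⟨⟨hv, hC₁ ha⟩, ha⟩
    rw [d1] at ha0
    exact ha0
  · rw [eq_top_iff, ← hc.sup_eq_top]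
    have hE1 : E₁ ≤ W ⊔ (C₁ ⊔ C₂) := by
      rw [← c1]
      exact sup_le (inf_le_left.trans le_sup_left) (le_sup_left.trans le_sup_right)
    refine sup_le hE1 ?_
    conv_lhs => rw [← c2]
    refine sup_le (inf_le_left.trans (sup_le le_sup_left hE1)) (le_sup_right.trans le_sup_right)

/-- transport along an injective intertwining map -/
theorem SS.relSS_range {x : G →* (Mat r ℂ)ˣ} {y : G →* (Mat r₁ ℂ)ˣ}
    (ι : (Fin r₁ → ℂ) →ₗ[ℂ] (Fin r → ℂ)) (hι : Function.Injective ι)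
    (c : G → ℂ) (hc : ∀ w, c w ≠ 0)
    (hxy : ∀ w v, (x w : Mat r ℂ) *ᵥ ι v = c w • ι ((y w : Mat r₁ ℂ) *ᵥ v)) (h : SS y) :
    RelSS x (LinearMap.range ι) := by
  intro W hW hinv
  have hinv0 : InvS y (W.comap ι) := by
    intro w v hv
    rw [Submodule.mem_comap] at hv ⊢
    have h1 := hinv w _ hv
    rw [hxy] at h1
    have h2 := W.smul_mem (c w)⁻¹ h1
    rwa [smul_smul, inv_mul_cancel₀ (hc w), one_smul] at h2
  obtain ⟨W', h1, h2⟩ := h _ hinv0
  have hWm : (W.comap ι).map ι = W := by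
    rw [Submodule.map_comap_eq, inf_eq_right.mpr hW]
  refine ⟨W'.map ι, ?_, ?_, ?_, ?_⟩
  · exact LinearMap.map_le_range
  · intro w v hv
    obtain ⟨v', hv', rfl⟩ := Submodule.mem_map.mp hv
    rw [hxy]
    exact Submodule.smul_mem _ _ (Submodule.mem_map_of_mem (h1 w v' hv'))
  · conv_lhs => rw [← hWm]
    rw [← Submodule.map_inf ι hι, h2.inf_eq_bot, Submodule.map_bot]
  · conv_lhs => rw [← hWm]
    rw [← Submodule.map_sup, h2.sup_eq_top, Submodule.map_top]

theorem RelSS.ss_of_range {x : G →* (Mat r ℂ)ˣ} {y : G →* (Mat r₁ ℂ)ˣ}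
    (ι : (Fin r₁ → ℂ) →ₗ[ℂ] (Fin r → ℂ)) (hι : Function.Injective ι)
    (hxy : ∀ w v, (x w : Mat r ℂ) *ᵥ ι v = ι ((y w : Mat r₁ ℂ) *ᵥ v))
    (h : RelSS x (LinearMap.range ι)) : SS y := by
  intro W hinv
  have hinv1 : InvS x (W.map ι) := by
    intro w v hv
    obtain ⟨v', hv', rfl⟩ := Submodule.mem_map.mp hv
    rw [hxy]
    exact Submodule.mem_map_of_mem (hinv w v' hv')
  obtain ⟨W', hle, h1, h2, h3⟩ := h (W.map ι) LinearMap.map_le_range hinv1
  refine ⟨W'.comap ι, ?_, ?_⟩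
  · intro w v hv
    rw [Submodule.mem_comap] at hv ⊢
    rw [← hxy]
    exact h1 w _ hv
  · refine isCompl_iff.mpr ⟨disjoint_iff.mpr ?_, codisjoint_iff.mpr ?_⟩
    · rw [eq_bot_iff]
      rintro v ⟨hv, hv'⟩
      have : ι v ∈ W.map ι ⊓ W' := ⟨Submodule.mem_map_of_mem hv, hv'⟩
      rw [h2, Submodule.mem_bot] at this
      rw [Submodule.mem_bot]
      exact hι (by rw [this, map_zero])
    · rw [eq_top_iff]
      intro v _
      have hv : ι v ∈ W.map ι ⊔ W' := by rw [h3]; exact LinearMap.mem_range_self ι v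
      obtain ⟨a, ha, b, hb, hab⟩ := Submodule.mem_sup.mp hv
      obtain ⟨a', ha', rfl⟩ := Submodule.mem_map.mp ha
      obtain ⟨b', rfl⟩ := hle hb
      rw [← map_add] at hab
      rw [← hι hab]
      exact Submodule.add_mem _ (Submodule.mem_sup_left ha')
        (Submodule.mem_sup_right (by simpa [Submodule.mem_comap] using hb))

end SemiSimple

section Eval

variable {g r : ℕ} {S T : Type*} [CommRing S] [CommRing T] [Algebra ℂ S] [Algebra ℂ T]

/-- evaluation of a polynomial at a tuple of matrices over an algebra -/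
noncomputable def evS (X : Fin g × Bool → Mat r S) :
    MvPolynomial ((Fin g × Bool) × Fin r × Fin r) ℂ →ₐ[ℂ] S :=
  MvPolynomial.aeval fun p => X p.1 p.2.1 p.2.2

theorem evS_map (θ : S →ₐ[ℂ] T) (X : Fin g × Bool → Mat r S)
    (f : MvPolynomial ((Fin g × Bool) × Fin r × Fin r) ℂ) :
    θ (evS X f) = evS (fun k => (X k).map θ) f := by
  unfold evS
  rw [← AlgHom.comp_apply, MvPolynomial.comp_aeval]
  rfl

theorem evalG_eq_evS (x : F g →* (Mat r S)ˣ)
    (f : MvPolynomial ((Fin g × Bool) × Fin r × Fin r) ℂ) :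
    evalG x f = evS (fun k => (x (FreeGroup.of k) : Mat r S)) f := rfl

end Eval

section Dec

/-- a decomposition of `ℂ^r` in two pieces, by matrices -/
structure Dec (r r₁ r₂ : ℕ) where
  P₁ : Matrix (Fin r) (Fin r₁) ℂ
  P₂ : Matrix (Fin r) (Fin r₂) ℂ
  Q₁ : Matrix (Fin r₁) (Fin r) ℂ
  Q₂ : Matrix (Fin r₂) (Fin r) ℂ
  h11 : Q₁ * P₁ = 1
  h12 : Q₁ * P₂ = 0
  h21 : Q₂ * P₁ = 0
  h22 : Q₂ * P₂ = 1
  hs : P₁ * Q₁ + P₂ * Q₂ = 1

variable {r r₁ r₂ : ℕ} {S T : Type*} [CommRing S] [CommRing T] [Algebra ℂ S] [Algebra ℂ T]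

/-- block matrices over an algebra -/
def Dec.blk (D : Dec r r₁ r₂) (A : Mat r₁ S) (B : Mat r₂ S) : Mat r S :=
  D.P₁.map (algebraMap ℂ S) * A * D.Q₁.map (algebraMap ℂ S) +
    D.P₂.map (algebraMap ℂ S) * B * D.Q₂.map (algebraMap ℂ S)

theorem Dec.blk_map (D : Dec r r₁ r₂) (θ : S →ₐ[ℂ] T) (A : Mat r₁ S) (B : Mat r₂ S) :
    (D.blk A B).map θ = D.blk (A.map θ) (B.map θ) := by
  have h : ∀ {m n : ℕ} (M : Matrix (Fin m) (Fin n) ℂ),
      (M.map (algebraMap ℂ S)).map θ = M.map (algebraMap ℂ T) := by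
    intro m n M
    ext i j
    simp
  unfold Dec.blk
  rw [Matrix.map_add _ (map_add θ), Matrix.map_mul, Matrix.map_mul, Matrix.map_mul,
    Matrix.map_mul, h, h, h, h]

theorem Dec.blk_complex (D : Dec r r₁ r₂) (A : Mat r₁ ℂ) (B : Mat r₂ ℂ) :
    D.blk A B = D.P₁ * A * D.Q₁ + D.P₂ * B * D.Q₂ := by
  have h : ∀ {m n : ℕ} (M : Matrix (Fin m) (Fin n) ℂ), M.map (algebraMap ℂ ℂ) = M := by
    intro m n M
    ext i j
    simp
  unfold Dec.blk
  rw [h, h, h, h]

theorem Dec.blk_mul (D : Dec r r₁ r₂) (A A' : Mat r₁ ℂ) (B B' : Mat r₂ ℂ) :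
    D.blk A B * D.blk A' B' = D.blk (A * A') (B * B') := by
  simp only [Dec.blk_complex]
  have e1 : D.P₁ * A * D.Q₁ * (D.P₁ * A' * D.Q₁) = D.P₁ * (A * A') * D.Q₁ := by
    calc D.P₁ * A * D.Q₁ * (D.P₁ * A' * D.Q₁) = D.P₁ * A * (D.Q₁ * D.P₁) * A' * D.Q₁ := by
          simp only [Matrix.mul_assoc]
      _ = _ := by rw [D.h11]; simp only [Matrix.mul_assoc, Matrix.one_mul]
  have e2 : D.P₁ * A * D.Q₁ * (D.P₂ * B' * D.Q₂) = 0 := by
    calc D.P₁ * A * D.Q₁ * (D.P₂ * B' * D.Q₂) = D.P₁ * A * (D.Q₁ * D.P₂) * B' * D.Q₂ := by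
          simp only [Matrix.mul_assoc]
      _ = _ := by rw [D.h12]; simp
  have e3 : D.P₂ * B * D.Q₂ * (D.P₁ * A' * D.Q₁) = 0 := by
    calc D.P₂ * B * D.Q₂ * (D.P₁ * A' * D.Q₁) = D.P₂ * B * (D.Q₂ * D.P₁) * A' * D.Q₁ := by
          simp only [Matrix.mul_assoc]
      _ = _ := by rw [D.h21]; simp
  have e4 : D.P₂ * B * D.Q₂ * (D.P₂ * B' * D.Q₂) = D.P₂ * (B * B') * D.Q₂ := by
    calc D.P₂ * B * D.Q₂ * (D.P₂ * B' * D.Q₂) = D.P₂ * B * (D.Q₂ * D.P₂) * B' * D.Q₂ := by
          simp only [Matrix.mul_assoc]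
      _ = _ := by rw [D.h22]; simp only [Matrix.mul_assoc, Matrix.one_mul]
  rw [Matrix.add_mul, Matrix.mul_add, Matrix.mul_add, e1, e2, e3, e4]
  simp

theorem Dec.blk_one (D : Dec r r₁ r₂) : D.blk (1 : Mat r₁ ℂ) (1 : Mat r₂ ℂ) = 1 := by
  rw [Dec.blk_complex, Matrix.mul_one, Matrix.mul_one, D.hs]

/-- block sum of two representations -/
noncomputable def Dec.hom {G : Type*} [Group G] (D : Dec r r₁ r₂) (x₁ : G →* (Mat r₁ ℂ)ˣ)
    (x₂ : G →* (Mat r₂ ℂ)ˣ) : G →* (Mat r ℂ)ˣ :=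
  MonoidHom.toHomUnits
    { toFun := fun w => D.blk (x₁ w : Mat r₁ ℂ) (x₂ w : Mat r₂ ℂ)
      map_one' := by simp [Dec.blk_one]
      map_mul' := by intro a b; simp [Dec.blk_mul] }

theorem Dec.hom_apply {G : Type*} [Group G] (D : Dec r r₁ r₂) (x₁ : G →* (Mat r₁ ℂ)ˣ)
    (x₂ : G →* (Mat r₂ ℂ)ˣ) (w : G) :
    (D.hom x₁ x₂ w : Mat r ℂ) = D.blk (x₁ w : Mat r₁ ℂ) (x₂ w : Mat r₂ ℂ) := by
  simp [Dec.hom]

theorem Dec.blk_mulVec₁ (D : Dec r r₁ r₂) (A : Mat r₁ ℂ) (B : Mat r₂ ℂ) (v : Fin r₁ → ℂ) :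
    D.blk A B *ᵥ (D.P₁ *ᵥ v) = D.P₁ *ᵥ (A *ᵥ v) := by
  rw [Dec.blk_complex, add_mulVec, mulVec_mulVec, mulVec_mulVec, mulVec_mulVec,
    Matrix.mul_assoc (D.P₁ * A), D.h11, Matrix.mul_assoc (D.P₂ * B), D.h21]
  simp

theorem Dec.blk_mulVec₂ (D : Dec r r₁ r₂) (A : Mat r₁ ℂ) (B : Mat r₂ ℂ) (v : Fin r₂ → ℂ) :
    D.blk A B *ᵥ (D.P₂ *ᵥ v) = D.P₂ *ᵥ (B *ᵥ v) := by
  rw [Dec.blk_complex, add_mulVec, mulVec_mulVec, mulVec_mulVec, mulVec_mulVec,
    Matrix.mul_assoc (D.P₁ * A), D.h12, Matrix.mul_assoc (D.P₂ * B), D.h22]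
  simp

theorem Dec.inj₁ (D : Dec r r₁ r₂) : Function.Injective (Matrix.mulVecLin D.P₁) := by
  intro v v' h
  have h' := congrArg (fun z => D.Q₁ *ᵥ z) h
  simpa [mulVec_mulVec, D.h11] using h'

theorem Dec.inj₂ (D : Dec r r₁ r₂) : Function.Injective (Matrix.mulVecLin D.P₂) := by
  intro v v' h
  have h' := congrArg (fun z => D.Q₂ *ᵥ z) h
  simpa [mulVec_mulVec, D.h22] using h'

theorem Dec.compl (D : Dec r r₁ r₂) :
    IsCompl (LinearMap.range (Matrix.mulVecLin D.P₁)) (LinearMap.range (Matrix.mulVecLin D.P₂)) := by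
  refine isCompl_iff.mpr ⟨disjoint_iff.mpr ?_, codisjoint_iff.mpr ?_⟩
  · rw [eq_bot_iff]
    rintro v ⟨⟨a, rfl⟩, ⟨b, hb⟩⟩
    have h1 : a = 0 := by
      have h' := congrArg (fun z => D.Q₁ *ᵥ z) hb
      simpa [mulVec_mulVec, D.h11, D.h12] using h'.symm
    rw [h1]; simp
  · rw [eq_top_iff]
    intro v _
    have : v = D.P₁ *ᵥ (D.Q₁ *ᵥ v) + D.P₂ *ᵥ (D.Q₂ *ᵥ v) := by
      rw [mulVec_mulVec, mulVec_mulVec, ← add_mulVec, D.hs, one_mulVec]
    rw [this]
    exact Submodule.add_mem _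
      (Submodule.mem_sup_left (LinearMap.mem_range.mpr ⟨D.Q₁ *ᵥ v, by simp⟩))
      (Submodule.mem_sup_right (LinearMap.mem_range.mpr ⟨D.Q₂ *ᵥ v, by simp⟩))

/-- a twisted block sum of semisimple representations is semisimple -/
theorem Dec.ss {G : Type*} [Group G] (D : Dec r r₁ r₂) (x : G →* (Mat r ℂ)ˣ)
    (x₁ : G →* (Mat r₁ ℂ)ˣ) (x₂ : G →* (Mat r₂ ℂ)ˣ) (c₁ c₂ : G → ℂ) (h₁ : ∀ w, c₁ w ≠ 0)
    (h₂ : ∀ w, c₂ w ≠ 0)
    (hx : ∀ w, (x w : Mat r ℂ) = D.blk (c₁ w • (x₁ w : Mat r₁ ℂ)) (c₂ w • (x₂ w : Mat r₂ ℂ)))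
    (s₁ : SS x₁) (s₂ : SS x₂) : SS x := by
  rw [ss_iff_relSS_top]
  have e1 : ∀ w v, (x w : Mat r ℂ) *ᵥ (Matrix.mulVecLin D.P₁ v)
      = c₁ w • Matrix.mulVecLin D.P₁ ((x₁ w : Mat r₁ ℂ) *ᵥ v) := by
    intro w v
    rw [hx, Matrix.mulVecLin_apply, Dec.blk_mulVec₁, smul_mulVec, mulVec_smul]
    simp
  have e2 : ∀ w v, (x w : Mat r ℂ) *ᵥ (Matrix.mulVecLin D.P₂ v)
      = c₂ w • Matrix.mulVecLin D.P₂ ((x₂ w : Mat r₂ ℂ) *ᵥ v) := by
    intro w v
    rw [hx, Matrix.mulVecLin_apply, Dec.blk_mulVec₂, smul_mulVec, mulVec_smul]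
    simp
  refine RelSS.of_compl D.compl ?_ ?_
    (SS.relSS_range (Matrix.mulVecLin D.P₁) D.inj₁ c₁ h₁ e1 s₁)
    (SS.relSS_range (Matrix.mulVecLin D.P₂) D.inj₂ c₂ h₂ e2 s₂)
  · rintro w v ⟨a, rfl⟩
    rw [e1]
    exact Submodule.smul_mem _ _ (LinearMap.mem_range_self _ _)
  · rintro w v ⟨a, rfl⟩
    rw [e2]
    exact Submodule.smul_mem _ _ (LinearMap.mem_range_self _ _)

theorem SS.scale {G : Type*} [Group G] {r : ℕ} {x y : G →* (Mat r ℂ)ˣ} (c : G → ℂ)
    (hc : ∀ w, c w ≠ 0) (h : ∀ w, (x w : Mat r ℂ) = c w • (y w : Mat r ℂ)) (hy : SS y) : SS x := by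
  intro W hW
  have hW' : ∀ w, ∀ v ∈ W, (y w : Mat r ℂ) *ᵥ v ∈ W := by
    intro w v hv
    have h1 := W.smul_mem (c w)⁻¹ (hW w v hv)
    rw [h, smul_mulVec, smul_smul, inv_mul_cancel₀ (hc w), one_smul] at h1
    exact h1
  obtain ⟨W', h1, h2⟩ := hy W hW'
  refine ⟨W', ?_, h2⟩
  intro w v hv
  rw [h, smul_mulVec]
  exact W'.smul_mem _ (h1 w v hv)

theorem SS.conj {G : Type*} [Group G] {r : ℕ} {x y : G →* (Mat r ℂ)ˣ} (X : (Mat r ℂ)ˣ)
    (h : ∀ w, x w = X * y w * X⁻¹) (hy : SS y) : SS x := by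
  rw [ss_iff_relSS_top]
  have hinj : Function.Injective (Matrix.mulVecLin (X : Mat r ℂ)) := by
    intro v v' h
    have h' := congrArg (fun z => ((X⁻¹ : (Mat r ℂ)ˣ) : Mat r ℂ) *ᵥ z) h
    simpa [mulVec_mulVec] using h'
  have hsurj : LinearMap.range (Matrix.mulVecLin (X : Mat r ℂ)) = ⊤ := by
    rw [LinearMap.range_eq_top]
    intro v
    refine ⟨((X⁻¹ : (Mat r ℂ)ˣ) : Mat r ℂ) *ᵥ v, ?_⟩
    simp [mulVec_mulVec]
  rw [← hsurj]
  refine SS.relSS_range (y := y) (Matrix.mulVecLin (X : Mat r ℂ)) hinj (fun _ => 1)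
    (fun _ => one_ne_zero) ?_ hy
  intro w v
  rw [h]
  simp [mulVec_mulVec, Matrix.mul_assoc]

end Dec

section Homog

theorem exists_homog {σ : Type*} (f : MvPolynomial σ ℂ) :
    ∃ (N : ℕ) (H : MvPolynomial (Option σ) ℂ), ∀ (t : ℂ), t ≠ 0 → ∀ v : σ → ℂ,
      MvPolynomial.eval (fun o => o.elim t v) H =
        t ^ N * MvPolynomial.eval (fun i => t⁻¹ * v i) f := by
  induction f using MvPolynomial.induction_on with
  | C a => exact ⟨0, MvPolynomial.C a, by intro t ht v; simp⟩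
  | add p q hp hq =>
    obtain ⟨N, H, h⟩ := hp
    obtain ⟨M, K, k⟩ := hq
    refine ⟨N + M, MvPolynomial.X none ^ M * H + MvPolynomial.X none ^ N * K, ?_⟩
    intro t ht v
    simp only [map_add, map_mul, map_pow, MvPolynomial.eval_X, Option.elim_none, h t ht v,
      k t ht v]
    ring
  | mul_X p i hp =>
    obtain ⟨N, H, h⟩ := hp
    refine ⟨N + 1, H * MvPolynomial.X (some i), ?_⟩
    intro t ht v
    simp only [map_mul, MvPolynomial.eval_X, Option.elim_some, h t ht v]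
    field_simp
    ring

end Homog

section Conj

variable {g r : ℕ}

/-- conjugate of a representation -/
noncomputable def conjH (U : (Mat r ℂ)ˣ) (y : F g →* (Mat r ℂ)ˣ) : F g →* (Mat r ℂ)ˣ :=
  (MulAut.conj U).toMonoidHom.comp y

theorem conjH_apply (U : (Mat r ℂ)ˣ) (y : F g →* (Mat r ℂ)ˣ) (w : F g) :
    conjH U y w = U * y w * U⁻¹ := by
  simp [conjH, MulAut.conj_apply]

theorem conjH_mem {R : Type*} [CommRing R] (φ : R →+* ℂ) {y : F g →* (Mat r ℂ)ˣ}
    (hy : y ∈ DInt g r φ) (X : SpecialLinearGroup (Fin r) ℤ) :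
    conjH (slU (Int.castRingHom ℂ) X) y ∈ DInt g r φ := by
  obtain ⟨z, hz, χ, h⟩ := hy
  have hX : slU (Int.castRingHom ℂ) X =
      slU φ (SpecialLinearGroup.map (Int.castRingHom R) X) := by
    apply Units.ext
    ext i j
    simp [slU]
  refine ⟨(MulAut.conj (SpecialLinearGroup.map (Int.castRingHom R) X)).toMonoidHom.comp z,
    ?_, χ, ?_⟩
  · simp [hz]
  · intro w
    rw [conjH_apply, h, hX]
    have hc : ∀ U : (Mat r ℂ)ˣ, U * scalarU (χ w) = scalarU (χ w) * U := by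
      intro U
      apply Units.ext
      simp only [Units.val_mul, scalarU, Units.coe_map, RingHom.toMonoidHom_eq_coe,
        MonoidHom.coe_coe]
      exact (Algebra.commutes _ _).symm
    simp only [MonoidHom.comp_apply, MulEquiv.coe_toMonoidHom, MulAut.conj_apply, map_mul,
      map_inv]
    rw [← mul_assoc, hc]
    simp only [mul_assoc]

theorem conj_vanish {R : Type*} [CommRing R] (φ : R →+* ℂ)
    (f : MvPolynomial ((Fin g × Bool) × Fin r × Fin r) ℂ)
    (hf : ∀ y ∈ DInt g r φ, SS y → evalG y f = 0) (y : F g →* (Mat r ℂ)ˣ)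
    (hy : y ∈ DInt g r φ) (hs : SS y) (U : (Mat r ℂ)ˣ) : evalG (conjH U y) f = 0 := by
  classical
  obtain ⟨N, H, hH⟩ := exists_homog f
  let 𝕏 : Mat r (MvPolynomial (Fin r × Fin r) ℂ) := Matrix.of fun i j => MvPolynomial.X (i, j)
  let Y : Fin g × Bool → Mat r ℂ := fun k => (y (FreeGroup.of k) : Mat r ℂ)
  let Z : Fin g × Bool → Mat r (MvPolynomial (Fin r × Fin r) ℂ) := fun k =>
    𝕏 * (Y k).map MvPolynomial.C * 𝕏.adjugate
  let G : MvPolynomial (Fin r × Fin r) ℂ :=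
    MvPolynomial.aeval (fun o : Option ((Fin g × Bool) × Fin r × Fin r) =>
      o.elim 𝕏.det fun p => Z p.1 p.2.1 p.2.2) H
  have key : ∀ U : (Mat r ℂ)ˣ, MvPolynomial.eval (fun p => (U : Mat r ℂ) p.1 p.2) G =
      (U : Mat r ℂ).det ^ N * evalG (conjH U y) f := by
    intro U
    let ev : MvPolynomial (Fin r × Fin r) ℂ →ₐ[ℂ] ℂ :=
      MvPolynomial.aeval fun p => (U : Mat r ℂ) p.1 p.2
    have hev : ∀ q, MvPolynomial.eval (fun p => (U : Mat r ℂ) p.1 p.2) q = ev q := by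
      intro q
      rw [← MvPolynomial.coe_aeval_eq_eval]
      rfl
    have h1 : 𝕏.map ev = (U : Mat r ℂ) := by
      ext i j
      simp [𝕏, ev]
    have hdet : ev 𝕏.det = (U : Mat r ℂ).det := by
      rw [← h1]
      exact AlgHom.map_det ev 𝕏
    have hadj : 𝕏.adjugate.map ev = (U : Mat r ℂ).adjugate := by
      rw [← h1]
      exact AlgHom.map_adjugate ev 𝕏
    have hY : ∀ k, ((Y k).map MvPolynomial.C).map ev = Y k := by
      intro k
      ext i j
      simp [ev]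
    have hd0 : (U : Mat r ℂ).det ≠ 0 := by
      have := (Matrix.isUnit_iff_isUnit_det _).mp U.isUnit
      exact this.ne_zero
    rw [hev]
    simp only [G]
    rw [← AlgHom.comp_apply, MvPolynomial.comp_aeval]
    have h2 : (fun o : Option ((Fin g × Bool) × Fin r × Fin r) =>
        ev (o.elim 𝕏.det fun p => Z p.1 p.2.1 p.2.2)) =
        fun o => o.elim (U : Mat r ℂ).det
          fun p => ((U : Mat r ℂ) * Y p.1 * (U : Mat r ℂ).adjugate) p.2.1 p.2.2 := by
      funext o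
      cases o with
      | none => simpa using hdet
      | some p =>
        simp only [Option.elim_some]
        have h3 : (Z p.1).map ev =
            (U : Mat r ℂ) * Y p.1 * (U : Mat r ℂ).adjugate := by
          simp only [Z]
          rw [Matrix.map_mul, Matrix.map_mul, h1, hY, hadj]
        rw [← h3]
        rfl
    have h4 := hH (U : Mat r ℂ).det hd0
      (fun p => ((U : Mat r ℂ) * Y p.1 * (U : Mat r ℂ).adjugate) p.2.1 p.2.2)
    rw [← MvPolynomial.coe_aeval_eq_eval] at h4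
    rw [h2]
    refine h4.trans ?_
    congr 1
    rw [evalG_eq_evS, ← MvPolynomial.coe_aeval_eq_eval]
    unfold evS
    have h5 : (fun p : (Fin g × Bool) × Fin r × Fin r => (U : Mat r ℂ).det⁻¹ *
        ((U : Mat r ℂ) * Y p.1 * (U : Mat r ℂ).adjugate) p.2.1 p.2.2) =
        fun p => ((conjH U y (FreeGroup.of p.1) : (Mat r ℂ)ˣ) : Mat r ℂ) p.2.1 p.2.2 := by
      funext p
      have h6 : ((U⁻¹ : (Mat r ℂ)ˣ) : Mat r ℂ) =
          (U : Mat r ℂ).det⁻¹ • (U : Mat r ℂ).adjugate := by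
        rw [Matrix.coe_units_inv, Matrix.inv_def, Ring.inverse_eq_inv']
      rw [conjH_apply, Units.val_mul, Units.val_mul, h6, Matrix.mul_smul, Matrix.smul_apply,
        smul_eq_mul]
    rw [h5]
    rfl
  have hG : G = 0 := by
    apply scaledSL_dense
    intro c X
    let U : (Mat r ℂ)ˣ := scalarU c * slU (Int.castRingHom ℂ) X
    have hU : (fun p : Fin r × Fin r => (c : ℂ) * ((X.1 p.1 p.2 : ℤ) : ℂ)) =
        fun p => (U : Mat r ℂ) p.1 p.2 := by
      funext p
      simp only [U, Units.val_mul, scalarU, Units.coe_map, RingHom.toMonoidHom_eq_coe,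
        MonoidHom.coe_coe]
      rw [← Algebra.smul_def, Matrix.smul_apply, smul_eq_mul]
      simp [slU]
    rw [hU, key]
    have hc : conjH U y = conjH (slU (Int.castRingHom ℂ) X) y := by
      ext1 w
      rw [conjH_apply, conjH_apply]
      have hcc : ∀ V : (Mat r ℂ)ˣ, V * scalarU c = scalarU c * V := by
        intro V
        apply Units.ext
        simp only [Units.val_mul, scalarU, Units.coe_map, RingHom.toMonoidHom_eq_coe,
          MonoidHom.coe_coe]
        exact (Algebra.commutes _ _).symm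
      have : U * y (FreeGroup.of w) * U⁻¹ = scalarU c * (slU (Int.castRingHom ℂ) X *
          y (FreeGroup.of w) * (slU (Int.castRingHom ℂ) X)⁻¹) * (scalarU c)⁻¹ := by
        simp only [U]
        group
      rw [this, ← hcc]
      group
    rw [hc, hf _ (conjH_mem φ hy X) (SS.conj (slU (Int.castRingHom ℂ) X)
      (fun w => conjH_apply _ _ w) hs), mul_zero]
  have h := key U
  rw [hG, map_zero] at h
  have hd0 : (U : Mat r ℂ).det ≠ 0 := by
    have := (Matrix.isUnit_iff_isUnit_det _).mp U.isUnit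
    exact this.ne_zero
  rcases mul_eq_zero.mp h.symm with h | h
  · exact absurd h (pow_ne_zero _ hd0)
  · exact h

end Conj


section Std

variable {r r₁ r₂ : ℕ}

/-- the standard decomposition attached to a bijection -/
noncomputable def stdDec (e : Fin r₁ ⊕ Fin r₂ ≃ Fin r) : Dec r r₁ r₂ where
  P₁ := Matrix.of fun i j => if e (Sum.inl j) = i then 1 else 0
  P₂ := Matrix.of fun i j => if e (Sum.inr j) = i then 1 else 0
  Q₁ := Matrix.of fun j i => if e (Sum.inl j) = i then 1 else 0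
  Q₂ := Matrix.of fun j i => if e (Sum.inr j) = i then 1 else 0
  h11 := by
    ext i j
    simp [Matrix.mul_apply, Matrix.one_apply, eq_comm]
  h12 := by
    ext i j
    simp [Matrix.mul_apply]
  h21 := by
    ext i j
    simp [Matrix.mul_apply]
  h22 := by
    ext i j
    simp [Matrix.mul_apply, Matrix.one_apply, eq_comm]
  hs := by
    ext i j
    obtain ⟨i, rfl⟩ := e.surjective i
    obtain ⟨j, rfl⟩ := e.surjective j
    rcases i with i | i <;> rcases j with j | j <;>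
      simp [Matrix.mul_apply, Matrix.one_apply, eq_comm]

theorem stdDec_blk (e : Fin r₁ ⊕ Fin r₂ ≃ Fin r) (A : Mat r₁ ℂ) (B : Mat r₂ ℂ) :
    (stdDec e).blk A B = Matrix.reindex e e (fromBlocks A 0 0 B) := by
  rw [Dec.blk_complex]
  ext i j
  obtain ⟨i, rfl⟩ := e.surjective i
  obtain ⟨j, rfl⟩ := e.surjective j
  rcases i with i | i <;> rcases j with j | j <;>
    simp [Matrix.mul_apply, stdDec]

/-- change of decomposition -/
noncomputable def Dec.change (D D' : Dec r r₁ r₂) : (Mat r ℂ)ˣ where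
  val := D.P₁ * D'.Q₁ + D.P₂ * D'.Q₂
  inv := D'.P₁ * D.Q₁ + D'.P₂ * D.Q₂
  val_inv := by
    have e1 : D.P₁ * D'.Q₁ * (D'.P₁ * D.Q₁) = D.P₁ * D.Q₁ := by
      rw [Matrix.mul_assoc, ← Matrix.mul_assoc D'.Q₁, D'.h11, Matrix.one_mul]
    have e2 : D.P₁ * D'.Q₁ * (D'.P₂ * D.Q₂) = 0 := by
      rw [Matrix.mul_assoc, ← Matrix.mul_assoc D'.Q₁, D'.h12, Matrix.zero_mul, Matrix.mul_zero]
    have e3 : D.P₂ * D'.Q₂ * (D'.P₁ * D.Q₁) = 0 := by
      rw [Matrix.mul_assoc, ← Matrix.mul_assoc D'.Q₂, D'.h21, Matrix.zero_mul, Matrix.mul_zero]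
    have e4 : D.P₂ * D'.Q₂ * (D'.P₂ * D.Q₂) = D.P₂ * D.Q₂ := by
      rw [Matrix.mul_assoc, ← Matrix.mul_assoc D'.Q₂, D'.h22, Matrix.one_mul]
    rw [Matrix.add_mul, Matrix.mul_add, Matrix.mul_add, e1, e2, e3, e4, add_zero, zero_add, D.hs]
  inv_val := by
    have e1 : D'.P₁ * D.Q₁ * (D.P₁ * D'.Q₁) = D'.P₁ * D'.Q₁ := by
      rw [Matrix.mul_assoc, ← Matrix.mul_assoc D.Q₁, D.h11, Matrix.one_mul]
    have e2 : D'.P₁ * D.Q₁ * (D.P₂ * D'.Q₂) = 0 := by
      rw [Matrix.mul_assoc, ← Matrix.mul_assoc D.Q₁, D.h12, Matrix.zero_mul, Matrix.mul_zero]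
    have e3 : D'.P₂ * D.Q₂ * (D.P₁ * D'.Q₁) = 0 := by
      rw [Matrix.mul_assoc, ← Matrix.mul_assoc D.Q₂, D.h21, Matrix.zero_mul, Matrix.mul_zero]
    have e4 : D'.P₂ * D.Q₂ * (D.P₂ * D'.Q₂) = D'.P₂ * D'.Q₂ := by
      rw [Matrix.mul_assoc, ← Matrix.mul_assoc D.Q₂, D.h22, Matrix.one_mul]
    rw [Matrix.add_mul, Matrix.mul_add, Matrix.mul_add, e1, e2, e3, e4, add_zero, zero_add, D'.hs]

theorem Dec.change_conj (D D' : Dec r r₁ r₂) (A : Mat r₁ ℂ) (B : Mat r₂ ℂ) :
    (D.change D' : Mat r ℂ) * D'.blk A B * (((D.change D')⁻¹ : (Mat r ℂ)ˣ) : Mat r ℂ) =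
      D.blk A B := by
  change (D.P₁ * D'.Q₁ + D.P₂ * D'.Q₂) * D'.blk A B * (D'.P₁ * D.Q₁ + D'.P₂ * D.Q₂) = _
  simp only [Dec.blk_complex]
  have e1 : (D.P₁ * D'.Q₁ + D.P₂ * D'.Q₂) * (D'.P₁ * A * D'.Q₁ + D'.P₂ * B * D'.Q₂) =
      D.P₁ * A * D'.Q₁ + D.P₂ * B * D'.Q₂ := by
    have a1 : D.P₁ * D'.Q₁ * (D'.P₁ * A * D'.Q₁) = D.P₁ * (D'.Q₁ * D'.P₁) * A * D'.Q₁ := by
      simp only [Matrix.mul_assoc]
    have a2 : D.P₁ * D'.Q₁ * (D'.P₂ * B * D'.Q₂) = D.P₁ * (D'.Q₁ * D'.P₂) * B * D'.Q₂ := by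
      simp only [Matrix.mul_assoc]
    have a3 : D.P₂ * D'.Q₂ * (D'.P₁ * A * D'.Q₁) = D.P₂ * (D'.Q₂ * D'.P₁) * A * D'.Q₁ := by
      simp only [Matrix.mul_assoc]
    have a4 : D.P₂ * D'.Q₂ * (D'.P₂ * B * D'.Q₂) = D.P₂ * (D'.Q₂ * D'.P₂) * B * D'.Q₂ := by
      simp only [Matrix.mul_assoc]
    rw [Matrix.add_mul, Matrix.mul_add, Matrix.mul_add, a1, a2, a3, a4, D'.h11, D'.h12, D'.h21,
      D'.h22]
    simp
  rw [e1]
  have b1 : D.P₁ * A * D'.Q₁ * (D'.P₁ * D.Q₁) = D.P₁ * A * (D'.Q₁ * D'.P₁) * D.Q₁ := by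
    simp only [Matrix.mul_assoc]
  have b2 : D.P₁ * A * D'.Q₁ * (D'.P₂ * D.Q₂) = D.P₁ * A * (D'.Q₁ * D'.P₂) * D.Q₂ := by
    simp only [Matrix.mul_assoc]
  have b3 : D.P₂ * B * D'.Q₂ * (D'.P₁ * D.Q₁) = D.P₂ * B * (D'.Q₂ * D'.P₁) * D.Q₁ := by
    simp only [Matrix.mul_assoc]
  have b4 : D.P₂ * B * D'.Q₂ * (D'.P₂ * D.Q₂) = D.P₂ * B * (D'.Q₂ * D'.P₂) * D.Q₂ := by
    simp only [Matrix.mul_assoc]
  rw [Matrix.add_mul, Matrix.mul_add, Matrix.mul_add, b1, b2, b3, b4, D'.h11, D'.h12, D'.h21,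
      D'.h22]
  simp

end Std

section SLBlock

variable {r r₁ r₂ : ℕ} {R : Type*} [CommRing R]

theorem sl_ext {A B : SpecialLinearGroup (Fin r) R} (h : (A : Mat r R) = (B : Mat r R)) :
    A = B := by
  apply Matrix.SpecialLinearGroup.ext
  intro i j
  exact congrFun (congrFun h i) j

/-- the block diagonal matrix `(u^(n r₂) A, u^(-n r₁) B)` in `SL_r(R)` -/
noncomputable def slBlk (e : Fin r₁ ⊕ Fin r₂ ≃ Fin r) (u : Rˣ) (n : Multiplicative ℤ)
    (A : SpecialLinearGroup (Fin r₁) R) (B : SpecialLinearGroup (Fin r₂) R) :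
    SpecialLinearGroup (Fin r) R :=
  ⟨Matrix.reindex e e (fromBlocks (((u ^ (n.toAdd * r₂) : Rˣ) : R) • (A : Mat r₁ R)) 0 0
      (((u ^ (-(n.toAdd * r₁)) : Rˣ) : R) • (B : Mat r₂ R))), by
    rw [Matrix.det_reindex_self, Matrix.det_fromBlocks_zero₂₁, Matrix.det_smul, Matrix.det_smul,
      A.det_coe, B.det_coe, mul_one, mul_one, Fintype.card_fin, Fintype.card_fin, ← Units.val_pow_eq_pow_val,
      ← Units.val_pow_eq_pow_val, ← Units.val_mul, ← zpow_natCast, ← zpow_natCast,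
      ← _root_.zpow_mul, ← _root_.zpow_mul, ← _root_.zpow_add]
    have : n.toAdd * (r₂ : ℤ) * (r₁ : ℤ) + -(n.toAdd * (r₁ : ℤ)) * (r₂ : ℤ) = 0 := by ring
    rw [this, zpow_zero, Units.val_one]⟩

theorem slBlk_coe (e : Fin r₁ ⊕ Fin r₂ ≃ Fin r) (u : Rˣ) (n : Multiplicative ℤ)
    (A : SpecialLinearGroup (Fin r₁) R) (B : SpecialLinearGroup (Fin r₂) R) :
    (slBlk e u n A B : Mat r R) = Matrix.reindex e e (fromBlocks
      (((u ^ (n.toAdd * r₂) : Rˣ) : R) • (A : Mat r₁ R)) 0 0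
      (((u ^ (-(n.toAdd * r₁)) : Rˣ) : R) • (B : Mat r₂ R))) := rfl

theorem slBlk_mul (e : Fin r₁ ⊕ Fin r₂ ≃ Fin r) (u : Rˣ) (n n' : Multiplicative ℤ)
    (A A' : SpecialLinearGroup (Fin r₁) R) (B B' : SpecialLinearGroup (Fin r₂) R) :
    slBlk e u (n * n') (A * A') (B * B') = slBlk e u n A B * slBlk e u n' A' B' := by
  have e1 : u ^ ((n * n').toAdd * (r₂ : ℤ)) = u ^ (n.toAdd * (r₂ : ℤ)) *
      u ^ (n'.toAdd * (r₂ : ℤ)) := by
    rw [← _root_.zpow_add, toAdd_mul, add_mul]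
  have e2 : u ^ (-((n * n').toAdd * (r₁ : ℤ))) = u ^ (-(n.toAdd * (r₁ : ℤ))) *
      u ^ (-(n'.toAdd * (r₁ : ℤ))) := by
    rw [← _root_.zpow_add, toAdd_mul, add_mul, neg_add]
  apply sl_ext
  rw [Matrix.SpecialLinearGroup.coe_mul, slBlk_coe, slBlk_coe, slBlk_coe, Matrix.reindex_apply,
    Matrix.reindex_apply, Matrix.reindex_apply, Matrix.submatrix_mul_equiv,
    Matrix.fromBlocks_multiply, e1, e2]
  simp only [Matrix.mul_zero, Matrix.zero_mul, add_zero, zero_add, Matrix.smul_mul,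
    Matrix.mul_smul, smul_smul, Matrix.SpecialLinearGroup.coe_mul, Units.val_mul, smul_zero]
  rw [mul_comm ((u ^ (n.toAdd * (r₂ : ℤ)) : Rˣ) : R), mul_comm ((u ^ (-(n.toAdd * (r₁ : ℤ))) : Rˣ) : R)]

theorem slBlk_one (e : Fin r₁ ⊕ Fin r₂ ≃ Fin r) (u : Rˣ) :
    slBlk e u 1 1 1 = (1 : SpecialLinearGroup (Fin r) R) := by
  apply sl_ext
  rw [slBlk_coe]
  simp

end SLBlock

section TwoBlock

variable {g r r₁ r₂ : ℕ} {R : Type*} [CommRing R]

/-- the block sum, twisted by powers of a unit -/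
noncomputable def blkHom (e : Fin r₁ ⊕ Fin r₂ ≃ Fin r) (u : Rˣ) (ν : F g →* Multiplicative ℤ)
    (z₁ : F g →* SpecialLinearGroup (Fin r₁) R) (z₂ : F g →* SpecialLinearGroup (Fin r₂) R) :
    F g →* SpecialLinearGroup (Fin r) R where
  toFun w := slBlk e u (ν w) (z₁ w) (z₂ w)
  map_one' := by rw [map_one, map_one, map_one, slBlk_one]
  map_mul' a b := by rw [map_mul, map_mul, map_mul, slBlk_mul]

theorem hom_comm_relator {A : Type*} [CommGroup A] (ν : F g →* A) : ν (relator g) = 1 := by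
  unfold relator
  rw [map_list_prod]
  apply List.prod_eq_one
  intro a ha
  simp only [List.mem_map, List.mem_ofFn] at ha
  obtain ⟨b, ⟨i, rfl⟩, rfl⟩ := ha
  simp only [hcomm, map_mul, map_inv]
  rw [mul_right_comm (ν (ga i)), mul_inv_cancel, one_mul, mul_inv_cancel]

theorem slU_coe (φ : R →+* ℂ) (A : SpecialLinearGroup (Fin r) R) :
    (slU φ A : Mat r ℂ) = (A : Mat r R).map φ := by
  ext i j
  simp [slU]

theorem scalarU_mul_coe (c : ℂˣ) (U : (Mat r ℂ)ˣ) :
    ((scalarU c * U : (Mat r ℂ)ˣ) : Mat r ℂ) = (c : ℂ) • (U : Mat r ℂ) := by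
  simp only [Units.val_mul, scalarU, Units.coe_map, RingHom.toMonoidHom_eq_coe,
    MonoidHom.coe_coe]
  rw [← Algebra.smul_def]

theorem slU_slBlk (φ : R →+* ℂ) (e : Fin r₁ ⊕ Fin r₂ ≃ Fin r) (u : Rˣ) (n : Multiplicative ℤ)
    (A : SpecialLinearGroup (Fin r₁) R) (B : SpecialLinearGroup (Fin r₂) R) :
    (slU φ (slBlk e u n A B) : Mat r ℂ) = (stdDec e).blk
      (φ (u ^ (n.toAdd * (r₂ : ℤ)) : Rˣ) • (slU φ A : Mat r₁ ℂ))
      (φ (u ^ (-(n.toAdd * (r₁ : ℤ))) : Rˣ) • (slU φ B : Mat r₂ ℂ)) := by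
  rw [stdDec_blk, slU_coe, slU_coe, slU_coe, slBlk_coe]
  ext i j
  obtain ⟨i, rfl⟩ := e.surjective i
  obtain ⟨j, rfl⟩ := e.surjective j
  rcases i with i | i <;> rcases j with j | j <;> simp

theorem two_block_special (φ : R →+* ℂ) (u : Rˣ) (D : Dec r r₁ r₂) (hr : r₁ + r₂ = r)
    (z₁ : F g →* SpecialLinearGroup (Fin r₁) R) (z₂ : F g →* SpecialLinearGroup (Fin r₂) R)
    (h₁ : z₁ (relator g) = 1) (h₂ : z₂ (relator g) = 1)
    (s₁ : SS ((slU φ).comp z₁)) (s₂ : SS ((slU φ).comp z₂))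
    (f : MvPolynomial ((Fin g × Bool) × Fin r × Fin r) ℂ)
    (hf : ∀ y ∈ DInt g r φ, SS y → evalG y f = 0)
    (n : Fin g × Bool → ℤ) (c : Fin g × Bool → ℂˣ) :
    evS (fun k => D.blk
      (((c k : ℂ) * φ (u ^ (n k * (r₂ : ℤ)) : Rˣ)) • (slU φ (z₁ (FreeGroup.of k)) : Mat r₁ ℂ))
      (((c k : ℂ) * φ (u ^ (-(n k * (r₁ : ℤ))) : Rˣ)) •
        (slU φ (z₂ (FreeGroup.of k)) : Mat r₂ ℂ))) f = 0 := by
  let e : Fin r₁ ⊕ Fin r₂ ≃ Fin r := finSumFinEquiv.trans (finCongr hr)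
  let ν : F g →* Multiplicative ℤ := FreeGroup.lift fun k => Multiplicative.ofAdd (n k)
  let χ : F g →* ℂˣ := FreeGroup.lift c
  let z : F g →* SpecialLinearGroup (Fin r) R := blkHom e u ν z₁ z₂
  let y : F g →* (Mat r ℂ)ˣ :=
    { toFun := fun w => scalarU (χ w) * slU φ (z w)
      map_one' := by simp
      map_mul' := by
        intro a b
        rw [map_mul, map_mul, map_mul, map_mul]
        have hc : slU φ (z a) * scalarU (χ b) = scalarU (χ b) * slU φ (z a) := by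
          apply Units.ext
          simp only [Units.val_mul, scalarU, Units.coe_map, RingHom.toMonoidHom_eq_coe,
            MonoidHom.coe_coe]
          exact (Algebra.commutes _ _).symm
        rw [mul_assoc, mul_assoc, ← mul_assoc (scalarU (χ b)), ← hc, mul_assoc] }
  have hy : y ∈ DInt g r φ := by
    refine ⟨z, ?_, χ, fun w => rfl⟩
    change slBlk e u (ν (relator g)) (z₁ (relator g)) (z₂ (relator g)) = 1
    rw [hom_comm_relator, h₁, h₂, slBlk_one]
  have hyw : ∀ w, (y w : Mat r ℂ) = (stdDec e).blk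
      (((χ w : ℂ) * φ (u ^ ((ν w).toAdd * (r₂ : ℤ)) : Rˣ)) • (slU φ (z₁ w) : Mat r₁ ℂ))
      (((χ w : ℂ) * φ (u ^ (-((ν w).toAdd * (r₁ : ℤ))) : Rˣ)) • (slU φ (z₂ w) : Mat r₂ ℂ)) := by
    intro w
    change ((scalarU (χ w) * slU φ (slBlk e u (ν w) (z₁ w) (z₂ w)) : (Mat r ℂ)ˣ) : Mat r ℂ) = _
    rw [scalarU_mul_coe, slU_slBlk, Dec.blk_complex, Dec.blk_complex, smul_add]
    simp only [Matrix.mul_smul, Matrix.smul_mul, smul_smul]
  have hunit : ∀ (w : F g) (m : ℤ), (χ w : ℂ) * φ (u ^ m : Rˣ) ≠ 0 := by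
    intro w m
    refine mul_ne_zero (χ w).ne_zero ?_
    exact ((u ^ m).isUnit.map φ).ne_zero
  have hys : SS y := Dec.ss (stdDec e) y ((slU φ).comp z₁) ((slU φ).comp z₂) _ _
    (fun w => hunit w _) (fun w => hunit w _) hyw s₁ s₂
  have h := conj_vanish φ f hf y hy hys (D.change (stdDec e))
  rw [evalG_eq_evS] at h
  refine Eq.trans ?_ h
  congr 1
  congr 1
  funext k
  rw [conjH_apply, Units.val_mul, Units.val_mul, hyw, Dec.change_conj]
  simp [χ, ν]


theorem two_block_all (φ : R →+* ℂ) (u : Rˣ) (hu : ∀ n : ℕ, 0 < n → φ (u : R) ^ n ≠ 1)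
    (hr0 : 0 < r) (D : Dec r r₁ r₂) (hr : r₁ + r₂ = r)
    (z₁ : F g →* SpecialLinearGroup (Fin r₁) R) (z₂ : F g →* SpecialLinearGroup (Fin r₂) R)
    (h₁ : z₁ (relator g) = 1) (h₂ : z₂ (relator g) = 1)
    (s₁ : SS ((slU φ).comp z₁)) (s₂ : SS ((slU φ).comp z₂))
    (f : MvPolynomial ((Fin g × Bool) × Fin r × Fin r) ℂ)
    (hf : ∀ y ∈ DInt g r φ, SS y → evalG y f = 0)
    (s t : Fin g × Bool → ℂˣ) :
    evS (fun k => D.blk
      ((s k : ℂ) • (slU φ (z₁ (FreeGroup.of k)) : Mat r₁ ℂ))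
      ((t k : ℂ) • (slU φ (z₂ (FreeGroup.of k)) : Mat r₂ ℂ))) f = 0 := by
  let L := MvPolynomial (Fin g × Bool) ℂ
  let G : L := evS (fun k => D.blk
    ((MvPolynomial.X k * MvPolynomial.C (t k : ℂ) : L) •
      (slU φ (z₁ (FreeGroup.of k)) : Mat r₁ ℂ).map MvPolynomial.C)
    ((MvPolynomial.C (t k : ℂ) : L) •
      (slU φ (z₂ (FreeGroup.of k)) : Mat r₂ ℂ).map MvPolynomial.C)) f
  have hG : ∀ ρ : Fin g × Bool → ℂ, MvPolynomial.eval ρ G =
      evS (fun k => D.blk ((ρ k * (t k : ℂ)) • (slU φ (z₁ (FreeGroup.of k)) : Mat r₁ ℂ))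
      ((t k : ℂ) • (slU φ (z₂ (FreeGroup.of k)) : Mat r₂ ℂ))) f := by
    intro ρ
    have h0 : MvPolynomial.eval ρ G = (MvPolynomial.aeval ρ : L →ₐ[ℂ] ℂ) G := by
      rw [← MvPolynomial.coe_aeval_eq_eval]
      rfl
    rw [h0]
    simp only [G]
    rw [evS_map]
    refine congrArg (fun X => evS X f) (funext fun k => ?_)
    rw [Dec.blk_map]
    congr 1
    · ext i j
      simp
    · ext i j
      simp
  have hφu : φ (u : R) ≠ 0 := (u.isUnit.map φ).ne_zero
  let Λ : Set ℂ := Set.range fun m : ℕ => (φ (u : R) ^ r) ^ m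
  have hΛ : Λ.Infinite := by
    apply Set.infinite_range_of_injective
    have hne : ∀ m : ℕ, 0 < m → (φ (u : R) ^ r) ^ m ≠ 1 := by
      intro m hm
      rw [← pow_mul]
      exact hu _ (Nat.mul_pos hr0 hm)
    have aux : ∀ a b : ℕ, a < b → (φ (u : R) ^ r) ^ a ≠ (φ (u : R) ^ r) ^ b := by
      intro a b hab h
      obtain ⟨d, hd, rfl⟩ : ∃ d, 0 < d ∧ b = a + d := ⟨b - a, by omega, by omega⟩
      rw [pow_add] at h
      have h0 : (φ (u : R) ^ r) ^ a ≠ 0 := pow_ne_zero _ (pow_ne_zero _ hφu)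
      exact hne d hd (mul_left_cancel₀ h0 (by rw [mul_one]; exact h.symm))
    intro a b h
    by_contra hab
    rcases lt_or_gt_of_ne hab with h' | h'
    · exact aux a b h' h
    · exact aux b a h' h.symm
  have hG0 : G = 0 := by
    refine MvPolynomial.funext_set (fun _ => Λ) (fun _ => hΛ) ?_
    intro ρ hρ
    rw [map_zero, hG]
    choose m hm using fun k => hρ k (Set.mem_univ k)
    let c : Fin g × Bool → ℂˣ := fun k =>
      t k * (Units.map (φ : R →* ℂ) u) ^ ((m k : ℤ) * (r₁ : ℤ))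
    have h := two_block_special φ u D hr z₁ z₂ h₁ h₂ s₁ s₂ f hf (fun k => (m k : ℤ)) c
    refine Eq.trans (congrArg (fun X => evS X f) (funext fun k => ?_)) h
    have hpow : ∀ a : ℤ, φ ((u ^ a : Rˣ) : R) = (((Units.map (φ : R →* ℂ) u) ^ a : ℂˣ) : ℂ) := by
      intro a
      rw [← map_zpow]
      rfl
    have e1 : ρ k * (t k : ℂ) = (c k : ℂ) * φ ((u ^ ((m k : ℤ) * (r₂ : ℤ)) : Rˣ) : R) := by
      rw [hpow]
      simp only [c]
      rw [← Units.val_mul, mul_assoc, ← _root_.zpow_add]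
      have : (m k : ℤ) * (r₁ : ℤ) + (m k : ℤ) * (r₂ : ℤ) = ((r * m k : ℕ) : ℤ) := by
        push_cast [← hr]
        ring
      have hmk : ρ k = φ (u : R) ^ (r * m k) := by
        rw [← hm k]
        exact (pow_mul _ _ _).symm
      rw [this, zpow_natCast, hmk, Units.val_mul, Units.val_pow_eq_pow_val, mul_comm]
      rfl
    have e2 : (t k : ℂ) = (c k : ℂ) * φ ((u ^ (-((m k : ℤ) * (r₁ : ℤ))) : Rˣ) : R) := by
      rw [hpow]
      simp only [c]
      rw [← Units.val_mul, mul_assoc, ← _root_.zpow_add, add_neg_cancel, zpow_zero, mul_one]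
    rw [e1, ← e2]
  have h := hG fun k => (s k : ℂ) * ((t k)⁻¹ : ℂˣ)
  rw [hG0, map_zero] at h
  refine Eq.trans (congrArg (fun X => evS X f) (funext fun k => ?_)) h.symm
  rw [mul_assoc, ← Units.val_mul, inv_mul_cancel, Units.val_one, mul_one]

theorem two_block_DInt (φ : R →+* ℂ) (u : Rˣ) (hu : ∀ n : ℕ, 0 < n → φ (u : R) ^ n ≠ 1)
    (hr0 : 0 < r) (D : Dec r r₁ r₂) (hr : r₁ + r₂ = r)
    (f : MvPolynomial ((Fin g × Bool) × Fin r × Fin r) ℂ)
    (hf : ∀ y ∈ DInt g r φ, SS y → evalG y f = 0)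
    (y₁ : F g →* (Mat r₁ ℂ)ˣ) (hy₁ : y₁ ∈ DInt g r₁ φ) (s₁ : SS y₁)
    (y₂ : F g →* (Mat r₂ ℂ)ˣ) (hy₂ : y₂ ∈ DInt g r₂ φ) (s₂ : SS y₂) :
    evS (fun k => D.blk (y₁ (FreeGroup.of k) : Mat r₁ ℂ) (y₂ (FreeGroup.of k) : Mat r₂ ℂ)) f
      = 0 := by
  obtain ⟨z₁, h₁, χ₁, hw₁⟩ := hy₁
  obtain ⟨z₂, h₂, χ₂, hw₂⟩ := hy₂
  have t₁ : SS ((slU φ).comp z₁) := by
    refine SS.scale (fun w => (((χ₁ w)⁻¹ : ℂˣ) : ℂ)) (fun w => ((χ₁ w)⁻¹).ne_zero) ?_ s₁
    intro w
    rw [hw₁, scalarU_mul_coe, smul_smul, ← Units.val_mul, inv_mul_cancel, Units.val_one, one_smul]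
    rfl
  have t₂ : SS ((slU φ).comp z₂) := by
    refine SS.scale (fun w => (((χ₂ w)⁻¹ : ℂˣ) : ℂ)) (fun w => ((χ₂ w)⁻¹).ne_zero) ?_ s₂
    intro w
    rw [hw₂, scalarU_mul_coe, smul_smul, ← Units.val_mul, inv_mul_cancel, Units.val_one, one_smul]
    rfl
  have h := two_block_all φ u hu hr0 D hr z₁ z₂ h₁ h₂ t₁ t₂ f hf
    (fun k => χ₁ (FreeGroup.of k)) (fun k => χ₂ (FreeGroup.of k))
  refine Eq.trans (congrArg (fun X => evS X f) (funext fun k => ?_)) h
  rw [hw₁, hw₂, scalarU_mul_coe, scalarU_mul_coe]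

/-- the polynomial in the first block -/
theorem exists_poly₁ (D : Dec r r₁ r₂) (f : MvPolynomial ((Fin g × Bool) × Fin r × Fin r) ℂ)
    (Y₂ : Fin g × Bool → Mat r₂ ℂ) :
    ∃ f₁ : MvPolynomial ((Fin g × Bool) × Fin r₁ × Fin r₁) ℂ,
      ∀ y₁ : F g →* (Mat r₁ ℂ)ˣ, evalG y₁ f₁ =
        evS (fun k => D.blk (y₁ (FreeGroup.of k) : Mat r₁ ℂ) (Y₂ k)) f := by
  let L := MvPolynomial ((Fin g × Bool) × Fin r₁ × Fin r₁) ℂ
  refine ⟨evS (fun k => D.blk (Matrix.of fun i j => (MvPolynomial.X (k, i, j) : L))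
    ((Y₂ k).map MvPolynomial.C)) f, ?_⟩
  intro y₁
  unfold evalG
  rw [evS_map]
  refine congrArg (fun X => evS X f) (funext fun k => ?_)
  rw [Dec.blk_map]
  congr 1
  · ext i j
    simp
  · ext i j
    simp

theorem exists_poly₂ (D : Dec r r₁ r₂) (f : MvPolynomial ((Fin g × Bool) × Fin r × Fin r) ℂ)
    (Y₁ : Fin g × Bool → Mat r₁ ℂ) :
    ∃ f₂ : MvPolynomial ((Fin g × Bool) × Fin r₂ × Fin r₂) ℂ,
      ∀ y₂ : F g →* (Mat r₂ ℂ)ˣ, evalG y₂ f₂ =
        evS (fun k => D.blk (Y₁ k) (y₂ (FreeGroup.of k) : Mat r₂ ℂ)) f := by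
  let L := MvPolynomial ((Fin g × Bool) × Fin r₂ × Fin r₂) ℂ
  refine ⟨evS (fun k => D.blk ((Y₁ k).map MvPolynomial.C)
    (Matrix.of fun i j => (MvPolynomial.X (k, i, j) : L))) f, ?_⟩
  intro y₂
  unfold evalG
  rw [evS_map]
  refine congrArg (fun X => evS X f) (funext fun k => ?_)
  rw [Dec.blk_map]
  congr 1
  · ext i j
    simp
  · ext i j
    simp

end TwoBlock

section Main

variable {g : ℕ}

/-- a decomposition adapted to two complementary subspaces -/
theorem exists_dec {r : ℕ} (E₁ E₂ : Submodule ℂ (Fin r → ℂ)) (h : IsCompl E₁ E₂) :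
    ∃ D : Dec r (Module.finrank ℂ E₁) (Module.finrank ℂ E₂),
      LinearMap.range (Matrix.mulVecLin D.P₁) = E₁ ∧
        LinearMap.range (Matrix.mulVecLin D.P₂) = E₂ := by
  let b₁ := Module.finBasis ℂ E₁
  let b₂ := Module.finBasis ℂ E₂
  let b := Pi.basisFun ℂ (Fin r)
  let P₁ := LinearMap.toMatrix b₁ b E₁.subtype
  let P₂ := LinearMap.toMatrix b₂ b E₂.subtype
  let Q₁ := LinearMap.toMatrix b b₁ (E₁.projectionOnto E₂ h)
  let Q₂ := LinearMap.toMatrix b b₂ (E₂.projectionOnto E₁ h.symm)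
  have hr1 : LinearMap.range (Matrix.mulVecLin P₁) = E₁ := by
    have : Matrix.mulVecLin P₁ = E₁.subtype ∘ₗ (b₁.equivFun.symm : _ →ₗ[ℂ] E₁) := by
      ext i j
      simp [P₁, LinearMap.toMatrix_apply, b]
    rw [this, LinearMap.range_comp, LinearEquiv.range, Submodule.map_top, Submodule.range_subtype]
  have hr2 : LinearMap.range (Matrix.mulVecLin P₂) = E₂ := by
    have : Matrix.mulVecLin P₂ = E₂.subtype ∘ₗ (b₂.equivFun.symm : _ →ₗ[ℂ] E₂) := by
      ext i j
      simp [P₂, LinearMap.toMatrix_apply, b]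
    rw [this, LinearMap.range_comp, LinearEquiv.range, Submodule.map_top, Submodule.range_subtype]
  refine ⟨⟨P₁, P₂, Q₁, Q₂, ?_, ?_, ?_, ?_, ?_⟩, hr1, hr2⟩
  · rw [← LinearMap.toMatrix_comp, Submodule.projectionOnto_comp_subtype, LinearMap.toMatrix_id]
  · rw [← LinearMap.toMatrix_comp]
    have : (E₁.projectionOnto E₂ h) ∘ₗ E₂.subtype = 0 := by
      ext v
      simp
    rw [this, map_zero]
  · rw [← LinearMap.toMatrix_comp]
    have : (E₂.projectionOnto E₁ h.symm) ∘ₗ E₁.subtype = 0 := by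
      ext v
      simp
    rw [this, map_zero]
  · rw [← LinearMap.toMatrix_comp, Submodule.projectionOnto_comp_subtype, LinearMap.toMatrix_id]
  · rw [← LinearMap.toMatrix_comp, ← LinearMap.toMatrix_comp, ← map_add]
    have : E₁.subtype ∘ₗ (E₁.projectionOnto E₂ h) + E₂.subtype ∘ₗ (E₂.projectionOnto E₁ h.symm)
        = LinearMap.id := Submodule.projection_add_projection_eq_id h
    rw [this, LinearMap.toMatrix_id]

theorem Dec.mul_P₁ {r r₁ r₂ : ℕ} (D : Dec r r₁ r₂) (M : Mat r ℂ)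
    (h : ∀ v ∈ LinearMap.range (Matrix.mulVecLin D.P₁),
      M *ᵥ v ∈ LinearMap.range (Matrix.mulVecLin D.P₁)) :
    M * D.P₁ = D.P₁ * (D.Q₁ * M * D.P₁) := by
  have : ∀ v : Fin r₁ → ℂ, (M * D.P₁) *ᵥ v = (D.P₁ * (D.Q₁ * M * D.P₁)) *ᵥ v := by
    intro v
    obtain ⟨a, ha⟩ := h (D.P₁ *ᵥ v) ⟨v, rfl⟩
    rw [Matrix.mulVecLin_apply] at ha
    have e1 : (M * D.P₁) *ᵥ v = D.P₁ *ᵥ a := by rw [ha, mulVec_mulVec]
    have e2 : (D.Q₁ * M * D.P₁) *ᵥ v = a := by
      rw [Matrix.mul_assoc, ← mulVec_mulVec, e1, mulVec_mulVec, D.h11, one_mulVec]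
    rw [e1, ← mulVec_mulVec, e2]
  ext i j
  have := congrFun (this (Pi.single j 1)) i
  simpa using this

theorem Dec.mul_P₂ {r r₁ r₂ : ℕ} (D : Dec r r₁ r₂) (M : Mat r ℂ)
    (h : ∀ v ∈ LinearMap.range (Matrix.mulVecLin D.P₂),
      M *ᵥ v ∈ LinearMap.range (Matrix.mulVecLin D.P₂)) :
    M * D.P₂ = D.P₂ * (D.Q₂ * M * D.P₂) := by
  have : ∀ v : Fin r₂ → ℂ, (M * D.P₂) *ᵥ v = (D.P₂ * (D.Q₂ * M * D.P₂)) *ᵥ v := by
    intro v
    obtain ⟨a, ha⟩ := h (D.P₂ *ᵥ v) ⟨v, rfl⟩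
    rw [Matrix.mulVecLin_apply] at ha
    have e1 : (M * D.P₂) *ᵥ v = D.P₂ *ᵥ a := by rw [ha, mulVec_mulVec]
    have e2 : (D.Q₂ * M * D.P₂) *ᵥ v = a := by
      rw [Matrix.mul_assoc, ← mulVec_mulVec, e1, mulVec_mulVec, D.h22, one_mulVec]
    rw [e1, ← mulVec_mulVec, e2]
  ext i j
  have := congrFun (this (Pi.single j 1)) i
  simpa using this

/-- compression of a representation to an invariant piece -/
noncomputable def compr {G : Type*} [Group G] {r r₁ : ℕ} (x : G →* (Mat r ℂ)ˣ)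
    (P : Matrix (Fin r) (Fin r₁) ℂ) (Q : Matrix (Fin r₁) (Fin r) ℂ) (h1 : Q * P = 1)
    (h : ∀ w, (x w : Mat r ℂ) * P = P * (Q * (x w : Mat r ℂ) * P)) : G →* (Mat r₁ ℂ)ˣ :=
  MonoidHom.toHomUnits
    { toFun := fun w => Q * (x w : Mat r ℂ) * P
      map_one' := by simp [h1]
      map_mul' := by
        intro a b
        rw [map_mul, Units.val_mul]
        calc Q * ((x a : Mat r ℂ) * (x b : Mat r ℂ)) * P
            = Q * (x a : Mat r ℂ) * ((x b : Mat r ℂ) * P) := by simp only [Matrix.mul_assoc]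
          _ = Q * (x a : Mat r ℂ) * (P * (Q * (x b : Mat r ℂ) * P)) := by rw [h b]
          _ = _ := by simp only [Matrix.mul_assoc] }

theorem compr_apply {G : Type*} [Group G] {r r₁ : ℕ} (x : G →* (Mat r ℂ)ˣ)
    (P : Matrix (Fin r) (Fin r₁) ℂ) (Q : Matrix (Fin r₁) (Fin r) ℂ) (h1 : Q * P = 1)
    (h : ∀ w, (x w : Mat r ℂ) * P = P * (Q * (x w : Mat r ℂ) * P)) (w : G) :
    (compr x P Q h1 h w : Mat r₁ ℂ) = Q * (x w : Mat r ℂ) * P := by
  simp [compr]

theorem compr_ss {G : Type*} [Group G] {r r₁ : ℕ} (x : G →* (Mat r ℂ)ˣ) (hx : SS x)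
    (P : Matrix (Fin r) (Fin r₁) ℂ) (Q : Matrix (Fin r₁) (Fin r) ℂ) (h1 : Q * P = 1)
    (h : ∀ w, (x w : Mat r ℂ) * P = P * (Q * (x w : Mat r ℂ) * P)) :
    SS (compr x P Q h1 h) := by
  have hι : Function.Injective (Matrix.mulVecLin P) := by
    intro v v' hv
    have h' := congrArg (fun z => Q *ᵥ z) hv
    simpa [mulVec_mulVec, h1] using h'
  have hxy : ∀ w v, (x w : Mat r ℂ) *ᵥ (Matrix.mulVecLin P v) =
      Matrix.mulVecLin P ((compr x P Q h1 h w : Mat r₁ ℂ) *ᵥ v) := by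
    intro w v
    rw [compr_apply, Matrix.mulVecLin_apply, Matrix.mulVecLin_apply, mulVec_mulVec,
      mulVec_mulVec, ← h]
  refine RelSS.ss_of_range (Matrix.mulVecLin P) hι hxy ?_
  refine RelSS.of_top ((ss_iff_relSS_top x).mp hx) ?_
  rintro w v ⟨a, rfl⟩
  rw [hxy]
  exact LinearMap.mem_range_self _ _

/-- TASK L (file Reducible.lean) -/
theorem partIV {R : Type*} [CommRing R] (φ : R →+* ℂ) (u : Rˣ)
    (hu : ∀ n : ℕ, 0 < n → φ (u : R) ^ n ≠ 1) (r : ℕ)
    (hirr : ∀ r' ≤ r, 0 < r' → ∀ x : F g →* (Mat r' ℂ)ˣ, x (relator g) = 1 →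
      (∀ N : Mat r' ℂ, (∀ w, Commute N (x w : Mat r' ℂ)) → ∃ c : ℂ, N = c • (1 : Mat r' ℂ)) →
      ∀ f : MvPolynomial ((Fin g × Bool) × Fin r' × Fin r') ℂ,
        (∀ y ∈ DInt g r' φ, SS y → evalG y f = 0) → evalG x f = 0)
    (x : F g →* (Mat r ℂ)ˣ) (hx : SS x) (hrel : x (relator g) = 1)
    (f : MvPolynomial ((Fin g × Bool) × Fin r × Fin r) ℂ)
    (hf : ∀ y ∈ DInt g r φ, SS y → evalG y f = 0) : evalG x f = 0 := by
  induction r using Nat.strong_induction_on with
  | _ r ih =>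
  rcases Nat.eq_zero_or_pos r with rfl | hr0
  · refine hf x ⟨1, rfl, 1, fun w => ?_⟩ hx
    apply Units.ext
    exact Subsingleton.elim _ _
  by_cases hc : ∀ N : Mat r ℂ, (∀ w, Commute N (x w : Mat r ℂ)) → ∃ c : ℂ, N = c • (1 : Mat r ℂ)
  · exact hirr r le_rfl hr0 x hrel hc f hf
  push Not at hc
  obtain ⟨N, hN, hNs⟩ := hc
  have : Nonempty (Fin r) := ⟨⟨0, hr0⟩⟩
  obtain ⟨μ, hμ⟩ := Module.End.exists_eigenvalue (Matrix.mulVecLin N)
  let E₁ : Submodule ℂ (Fin r → ℂ) := Module.End.eigenspace (Matrix.mulVecLin N) μ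
  have hE1 : E₁ ≠ ⊥ := hμ
  have hE1' : E₁ ≠ ⊤ := by
    intro htop
    apply hNs μ
    ext i j
    have hm : (Pi.single j 1 : Fin r → ℂ) ∈ E₁ := by rw [htop]; trivial
    rw [Module.End.mem_eigenspace_iff, Matrix.mulVecLin_apply] at hm
    have := congrFun hm i
    simpa [Matrix.one_apply, Pi.single_apply, eq_comm] using this
  have hinv1 : InvS x E₁ := by
    intro w v hv
    rw [Module.End.mem_eigenspace_iff, Matrix.mulVecLin_apply] at hv ⊢
    rw [mulVec_mulVec, (hN w).eq, ← mulVec_mulVec, hv, mulVec_smul]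
  obtain ⟨E₂, hinv2, hcompl⟩ := hx E₁ hinv1
  obtain ⟨D, hD1, hD2⟩ := exists_dec E₁ E₂ hcompl
  have hsum : Module.finrank ℂ E₁ + Module.finrank ℂ E₂ = r := by
    rw [Submodule.finrank_add_eq_of_isCompl hcompl]
    simp
  have hlt1 : Module.finrank ℂ E₁ < r := by
    have := Submodule.finrank_lt hE1'
    simpa using this
  have hpos1 : 0 < Module.finrank ℂ E₁ := by
    rw [Module.finrank_pos_iff]
    exact Submodule.nontrivial_iff_ne_bot.mpr hE1
  have hlt2 : Module.finrank ℂ E₂ < r := by omega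
  have hm1 : ∀ w, (x w : Mat r ℂ) * D.P₁ = D.P₁ * (D.Q₁ * (x w : Mat r ℂ) * D.P₁) := by
    intro w
    apply D.mul_P₁
    rw [hD1]
    exact hinv1 w
  have hm2 : ∀ w, (x w : Mat r ℂ) * D.P₂ = D.P₂ * (D.Q₂ * (x w : Mat r ℂ) * D.P₂) := by
    intro w
    apply D.mul_P₂
    rw [hD2]
    exact hinv2 w
  set x₁ := compr x D.P₁ D.Q₁ D.h11 hm1 with hx1
  set x₂ := compr x D.P₂ D.Q₂ D.h22 hm2 with hx2
  have hs1 : SS x₁ := compr_ss x hx _ _ _ _
  have hs2 : SS x₂ := compr_ss x hx _ _ _ _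
  have hrel1 : x₁ (relator g) = 1 := by
    apply Units.ext
    rw [hx1, compr_apply, hrel]
    simp [D.h11]
  have hrel2 : x₂ (relator g) = 1 := by
    apply Units.ext
    rw [hx2, compr_apply, hrel]
    simp [D.h22]
  have hblk : ∀ w, (x w : Mat r ℂ) = D.blk (x₁ w : Mat _ ℂ) (x₂ w : Mat _ ℂ) := by
    intro w
    rw [Dec.blk_complex, hx1, hx2, compr_apply, compr_apply, ← hm1, ← hm2, Matrix.mul_assoc,
      Matrix.mul_assoc, ← Matrix.mul_add, D.hs, Matrix.mul_one]
  have step1 : ∀ y₂ ∈ DInt g (Module.finrank ℂ E₂) φ, SS y₂ →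
      evS (fun k => D.blk (x₁ (FreeGroup.of k) : Mat _ ℂ) (y₂ (FreeGroup.of k) : Mat _ ℂ)) f
        = 0 := by
    intro y₂ hy₂ hsy₂
    obtain ⟨f₁, hf₁⟩ := exists_poly₁ D f (fun k => (y₂ (FreeGroup.of k) : Mat _ ℂ))
    rw [← hf₁]
    refine ih _ hlt1 (fun r' hr' => hirr r' (hr'.trans hlt1.le)) x₁ hs1 hrel1 f₁ ?_
    intro y₁ hy₁ hsy₁
    rw [hf₁]
    exact two_block_DInt φ u hu hr0 D hsum f hf y₁ hy₁ hsy₁ y₂ hy₂ hsy₂
  have step2 : evS (fun k => D.blk (x₁ (FreeGroup.of k) : Mat _ ℂ)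
      (x₂ (FreeGroup.of k) : Mat _ ℂ)) f = 0 := by
    obtain ⟨f₂, hf₂⟩ := exists_poly₂ D f (fun k => (x₁ (FreeGroup.of k) : Mat _ ℂ))
    rw [← hf₂]
    refine ih _ hlt2 (fun r' hr' => hirr r' (hr'.trans hlt2.le)) x₂ hs2 hrel2 f₂ ?_
    intro y₂ hy₂ hsy₂
    rw [hf₂]
    exact step1 y₂ hy₂ hsy₂
  rw [evalG_eq_evS]
  refine Eq.trans (congrArg (fun X => evS X f) (funext fun k => ?_)) step2
  exact hblk _

end Main

end Vale.Agent.P002
end

section

/-!
# Statement of the density theorem: definitions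
-/

namespace Vale.Agent.P002R.Statement

open Matrix NumberField

variable {g n r : ℕ}

/-- Generators of the fundamental group of a surface of genus `g` with `n` punctures:
`inl (i, false) = a_i`, `inl (i, true) = b_i` for `i < g`, and `inr j = c_j`, the boundary loop
around the `j`-th puncture. -/
abbrev Gens (g n : ℕ) := (Fin g × Bool) ⊕ Fin n

/-- `Rep_r(X)(A)`: tuples `(A_i, B_i, C_j)` in `SL_r(A)` with `∏ [A_i, B_i] * ∏ C_j = 1`, that is,
representations of the fundamental group `⟨a_i, b_i, c_j | ∏ [a_i, b_i] * ∏ c_j⟩`. -/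
def IsRep {A : Type*} [CommRing A] (X : Gens g n → SpecialLinearGroup (Fin r) A) : Prop :=
  (List.ofFn fun i : Fin g => X (Sum.inl (i, false)) * X (Sum.inl (i, true)) *
    (X (Sum.inl (i, false)))⁻¹ * (X (Sum.inl (i, true)))⁻¹).prod *
  (List.ofFn fun j : Fin n => X (Sum.inr j)).prod = 1

/-- The value of a polynomial in the matrix entries of the generators. -/
noncomputable def value {S A : Type*} [CommRing S] [CommRing A] [Algebra S A]
    (F : MvPolynomial (Gens g n × Fin r × Fin r) S)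
    (X : Gens g n → SpecialLinearGroup (Fin r) A) : A :=
  MvPolynomial.eval₂ (algebraMap S A) (fun p => (X p.1).1 p.2.1 p.2.2) F

/-- `F` defines an element of `𝒪(Rep_r)^{SL_r}` over `S`: a function on the scheme of
representations (over `S`) which is invariant under conjugation by the group scheme `SL_r`. -/
def IsInvariant {S : Type} [CommRing S] (F : MvPolynomial (Gens g n × Fin r × Fin r) S) : Prop :=
  ∀ (A : Type) [CommRing A] [Algebra S A] (X : Gens g n → SpecialLinearGroup (Fin r) A)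
    (P : SpecialLinearGroup (Fin r) A), IsRep X → value F (fun k => P * X k * P⁻¹) = value F X

/-- `W` is an invariant subspace. -/
def IsInvSubspace (X : Gens g n → SpecialLinearGroup (Fin r) ℂ)
    (W : Submodule ℂ (Fin r → ℂ)) : Prop :=
  ∀ k, ∀ v ∈ W, (X k).1 *ᵥ v ∈ W

/-- The points of `Y`, represented by the semisimple representations (every invariant subspace has
an invariant complement) with `ρ(c_j)` in the conjugacy class of `C j`. -/
def Y (g : ℕ) (C : Fin n → SpecialLinearGroup (Fin r) ℂ) :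
    Set (Gens g n → SpecialLinearGroup (Fin r) ℂ) :=
  {X | IsRep X ∧ (∀ W, IsInvSubspace X W → ∃ W', IsInvSubspace X W' ∧ IsCompl W W') ∧
    ∀ j, IsConj (C j) (X (Sum.inr j))}

/-- `z` is an eigenvalue of `M`. -/
def IsEigenvalue (M : SpecialLinearGroup (Fin r) ℂ) (z : ℂ) : Prop := M.1.charpoly.IsRoot z

/-- The `𝓞 L`-integral points of `M_r(X)(ℂ)`: all conjugation-invariant functions defined over
`ℤ` take values in `𝓞 L`. -/
def IsIntegralPoint (L : IntermediateField ℚ ℂ) (X : Gens g n → SpecialLinearGroup (Fin r) ℂ) :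
    Prop :=
  ∀ F : MvPolynomial (Gens g n × Fin r × Fin r) ℤ, IsInvariant F → ∃ a : 𝓞 L, value F X = a.1.1

/-- All matrices have entries in `𝓞 L`, that is, `X` comes from a representation into
`SL_r(𝓞 L)`. -/
def IsIntegralRep (L : IntermediateField ℚ ℂ) (X : Gens g n → SpecialLinearGroup (Fin r) ℂ) :
    Prop :=
  ∀ k i j, ∃ a : 𝓞 L, (X k).1 i j = a.1.1

/-- The classes of the elements of `S ⊆ T` are Zariski dense in the image of `T` in
`M_r(X)(ℂ)`: every invariant function that vanishes on `S` vanishes on `T`. -/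
def IsZariskiDense (S T : Set (Gens g n → SpecialLinearGroup (Fin r) ℂ)) : Prop :=
  S ⊆ T ∧ ∀ F : MvPolynomial (Gens g n × Fin r × Fin r) ℂ, IsInvariant F →
    (∀ X ∈ S, value F X = 0) → ∀ X ∈ T, value F X = 0

/-- `S ⊆ T` is Zariski dense in `T` as a set of points of the representation variety. -/
def IsZariskiDenseRep (S T : Set (Gens g n → SpecialLinearGroup (Fin r) ℂ)) : Prop :=
  S ⊆ T ∧ ∀ F : MvPolynomial (Gens g n × Fin r × Fin r) ℂ,
    (∀ X ∈ S, value F X = 0) → ∀ X ∈ T, value F X = 0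

end Vale.Agent.P002R.Statement
end

section

/-!
# P002 TASK I: products of commutators are open maps to `SL_r` at tuples with scalar centralizer
-/

namespace Vale.Agent.P002

open Matrix

variable {g r : ℕ}

section normed

open scoped Matrix.Norms.Operator

/-- A linear functional on matrices is `M ↦ trace (N * M)`. -/
theorem exists_trace_repr (φ : Mat r ℂ →ₗ[ℂ] ℂ) : ∃ N : Mat r ℂ, ∀ M, φ M = trace (N * M) := by
  refine ⟨Matrix.of fun i j => φ (Matrix.single j i 1), fun M => ?_⟩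
  conv_lhs => rw [Matrix.matrix_eq_sum_single M]
  rw [map_sum]
  simp only [map_sum]
  rw [Matrix.trace]
  simp only [Matrix.diag_apply, Matrix.mul_apply, Matrix.of_apply]
  rw [Finset.sum_comm]
  refine Finset.sum_congr rfl fun i _ => Finset.sum_congr rfl fun j _ => ?_
  have : Matrix.single j i (M j i) = M j i • Matrix.single j i (1 : ℂ) := by
    rw [Matrix.smul_single, smul_eq_mul, mul_one]
  rw [this, map_smul, smul_eq_mul, mul_comm]

theorem eq_of_trace_eq {N N' : Mat r ℂ} (h : ∀ H : Mat r ℂ, trace (N * H) = trace (N' * H)) :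
    N = N' := by
  ext i j
  have := h (Matrix.single j i 1)
  simpa [Matrix.trace_mul_single] using this

/-- Strict derivative of the inverse. -/
theorem hasStrictFDerivAt_inv' {A : Mat r ℂ} (hA : IsUnit A) :
    HasStrictFDerivAt (fun X : Mat r ℂ => X⁻¹)
      (-(ContinuousLinearMap.mulLeftRight ℂ (Mat r ℂ) A⁻¹) A⁻¹) A := by
  obtain ⟨u, rfl⟩ := hA
  have h := hasStrictFDerivAt_ringInverse (𝕜 := ℂ) u
  have h1 : ((u⁻¹ : (Mat r ℂ)ˣ) : Mat r ℂ) = (u : Mat r ℂ)⁻¹ := Matrix.coe_units_inv u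
  rw [h1] at h
  have h2 : (fun X : Mat r ℂ => X⁻¹) = Ring.inverse := by
    funext X; exact Matrix.nonsing_inv_eq_ringInverse X
  rw [h2]
  exact h

/-- The commutator. -/
noncomputable def cm (A B : Mat r ℂ) : Mat r ℂ := A * B * A⁻¹ * B⁻¹

section derivs
variable {E : Type*} [NormedAddCommGroup E] [NormedSpace ℂ E]

theorem exists_deriv_mul {f h : E → Mat r ℂ} {f' h' : E →L[ℂ] Mat r ℂ} {x : E}
    (hf : HasStrictFDerivAt f f' x) (hh : HasStrictFDerivAt h h' x) :
    ∃ D : E →L[ℂ] Mat r ℂ, HasStrictFDerivAt (fun y => f y * h y) D x ∧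
      ∀ H, D H = f' H * h x + f x * h' H := by
  refine ⟨_, hf.mul' hh, fun H => ?_⟩
  rw [add_comm]
  rfl

theorem exists_deriv_inv {f : E → Mat r ℂ} {f' : E →L[ℂ] Mat r ℂ} {x : E}
    (hf : HasStrictFDerivAt f f' x) (hu : IsUnit (f x)) :
    ∃ D : E →L[ℂ] Mat r ℂ, HasStrictFDerivAt (fun y => (f y)⁻¹) D x ∧
      ∀ H, D H = -((f x)⁻¹ * f' H * (f x)⁻¹) :=
  ⟨_, (hasStrictFDerivAt_inv' hu).comp x hf, fun _ => rfl⟩

theorem exists_deriv_cm {f h : E → Mat r ℂ} {f' h' : E →L[ℂ] Mat r ℂ} {x : E}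
    (hf : HasStrictFDerivAt f f' x) (hh : HasStrictFDerivAt h h' x)
    (hfu : IsUnit (f x)) (hhu : IsUnit (h x)) :
    ∃ D : E →L[ℂ] Mat r ℂ, HasStrictFDerivAt (fun y => cm (f y) (h y)) D x ∧
      ∀ H, D H = f' H * h x * (f x)⁻¹ * (h x)⁻¹ + f x * h' H * (f x)⁻¹ * (h x)⁻¹ -
        f x * h x * (f x)⁻¹ * f' H * (f x)⁻¹ * (h x)⁻¹ -
        f x * h x * (f x)⁻¹ * (h x)⁻¹ * h' H * (h x)⁻¹ := by
  obtain ⟨D1, h1, e1⟩ := exists_deriv_inv hf hfu
  obtain ⟨D2, h2, e2⟩ := exists_deriv_inv hh hhu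
  obtain ⟨D3, h3, e3⟩ := exists_deriv_mul hf hh
  obtain ⟨D4, h4, e4⟩ := exists_deriv_mul h3 h1
  obtain ⟨D5, h5, e5⟩ := exists_deriv_mul h4 h2
  refine ⟨D5, h5, fun H => ?_⟩
  rw [e5, e4, e3, e1, e2]
  noncomm_ring

end derivs

/-- The algebra of one commutator. -/
theorem commute_of_trace {A B S : Mat r ℂ} (hA : IsUnit A) (hB : IsUnit B)
    (h : ∀ H K : Mat r ℂ, trace (S * (H * B * A⁻¹ * B⁻¹ + A * K * A⁻¹ * B⁻¹ -
        A * B * A⁻¹ * H * A⁻¹ * B⁻¹ - A * B * A⁻¹ * B⁻¹ * K * B⁻¹)) = 0) :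
    Commute (S * cm A B) A ∧ Commute (S * cm A B) B := by
  have hAd : IsUnit A.det := (Matrix.isUnit_iff_isUnit_det A).1 hA
  have hBd : IsUnit B.det := (Matrix.isUnit_iff_isUnit_det B).1 hB
  have a1 : A * A⁻¹ = 1 := Matrix.mul_nonsing_inv A hAd
  have a2 : A⁻¹ * A = 1 := Matrix.nonsing_inv_mul A hAd
  have b1 : B * B⁻¹ = 1 := Matrix.mul_nonsing_inv B hBd
  have b2 : B⁻¹ * B = 1 := Matrix.nonsing_inv_mul B hBd
  -- first variation
  have hH : B * A⁻¹ * B⁻¹ * S = A⁻¹ * B⁻¹ * S * A * B * A⁻¹ := by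
    refine eq_of_trace_eq fun H => ?_
    have h0 := h H 0
    have e : S * (H * B * A⁻¹ * B⁻¹ + A * 0 * A⁻¹ * B⁻¹ -
        A * B * A⁻¹ * H * A⁻¹ * B⁻¹ - A * B * A⁻¹ * B⁻¹ * 0 * B⁻¹) =
        (S * H) * (B * A⁻¹ * B⁻¹) - (S * A * B * A⁻¹ * H) * (A⁻¹ * B⁻¹) := by
      noncomm_ring
    rw [e, trace_sub, Matrix.trace_mul_comm (S * H), Matrix.trace_mul_comm (S * A * B * A⁻¹ * H),
      sub_eq_zero] at h0
    simpa only [Matrix.mul_assoc] using h0
  have hK : A⁻¹ * B⁻¹ * S * A = B⁻¹ * S * A * B * A⁻¹ * B⁻¹ := by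
    refine eq_of_trace_eq fun K => ?_
    have h0 := h 0 K
    have e : S * (0 * B * A⁻¹ * B⁻¹ + A * K * A⁻¹ * B⁻¹ -
        A * B * A⁻¹ * 0 * A⁻¹ * B⁻¹ - A * B * A⁻¹ * B⁻¹ * K * B⁻¹) =
        (S * A * K) * (A⁻¹ * B⁻¹) - (S * A * B * A⁻¹ * B⁻¹ * K) * B⁻¹ := by
      noncomm_ring
    rw [e, trace_sub, Matrix.trace_mul_comm (S * A * K),
      Matrix.trace_mul_comm (S * A * B * A⁻¹ * B⁻¹ * K), sub_eq_zero] at h0
    simpa only [Matrix.mul_assoc] using h0
  obtain ⟨T, hT⟩ : ∃ T, T = B⁻¹ * S * A * B * A⁻¹ := ⟨_, rfl⟩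
  have i1 : A⁻¹ * B⁻¹ * S * A = T * B⁻¹ := by rw [hK, hT]
  have i2 : A⁻¹ * B⁻¹ * S * A * B = T := by rw [i1, Matrix.mul_assoc, b2, Matrix.mul_one]
  have i3 : B⁻¹ * S * A * B = T * A := by rw [hT, Matrix.mul_assoc _ A⁻¹ A, a2, Matrix.mul_one]
  have i4 : S * A * B * A⁻¹ = B * T := by
    rw [hT]
    simp only [← Matrix.mul_assoc]
    rw [b1, Matrix.one_mul]
  have cA : Commute T A := by
    have e1 : A * T = B⁻¹ * S * A * B := by
      rw [← i2]
      simp only [← Matrix.mul_assoc]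
      rw [a1, Matrix.one_mul]
    show T * A = A * T
    rw [e1, i3]
  have cB : Commute T B := by
    have e1 : B * A⁻¹ * B⁻¹ * S * A = T := by
      rw [hH, i2, Matrix.mul_assoc, a2, Matrix.mul_one]
    have e2 : B * (A⁻¹ * B⁻¹ * S * A) = T := by
      rw [← e1]; simp only [Matrix.mul_assoc]
    rw [i1, ← Matrix.mul_assoc] at e2
    show T * B = B * T
    calc T * B = B * T * B⁻¹ * B := by rw [e2]
      _ = B * T := by rw [Matrix.mul_assoc, b2, Matrix.mul_one]
  have hS : S * cm A B = T := by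
    unfold cm
    have : S * (A * B * A⁻¹ * B⁻¹) = S * A * B * A⁻¹ * B⁻¹ := by simp only [Matrix.mul_assoc]
    rw [this, i4, ← cB.eq, Matrix.mul_assoc, b1, Matrix.mul_one]
  rw [hS]
  exact ⟨cA, cB⟩

theorem relT_succ (X : Fin (g + 1) × Bool → Mat r ℂ) :
    relT X = cm (X (0, false)) (X (0, true)) * relT fun k : Fin g × Bool => X (k.1.succ, k.2) := by
  unfold relT cm
  rw [List.ofFn_succ, List.prod_cons]

theorem isUnit_cm {A B : Mat r ℂ} (hA : IsUnit A) (hB : IsUnit B) : IsUnit (cm A B) := by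
  have hAd : IsUnit A.det := (Matrix.isUnit_iff_isUnit_det A).1 hA
  have hBd : IsUnit B.det := (Matrix.isUnit_iff_isUnit_det B).1 hB
  unfold cm
  exact ((hA.mul hB).mul (Matrix.isUnit_nonsing_inv_iff.2 hA)).mul
    (Matrix.isUnit_nonsing_inv_iff.2 hB)

theorem det_cm {A B : Mat r ℂ} (hA : IsUnit A) (hB : IsUnit B) : (cm A B).det = 1 := by
  have hAd : IsUnit A.det := (Matrix.isUnit_iff_isUnit_det A).1 hA
  have hBd : IsUnit B.det := (Matrix.isUnit_iff_isUnit_det B).1 hB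
  unfold cm
  rw [det_mul, det_mul, det_mul, det_nonsing_inv, det_nonsing_inv]
  have h1 := Ring.mul_inverse_cancel _ hAd
  have h2 := Ring.mul_inverse_cancel _ hBd
  calc A.det * B.det * Ring.inverse A.det * Ring.inverse B.det
      = (A.det * Ring.inverse A.det) * (B.det * Ring.inverse B.det) := by ring
    _ = 1 := by rw [h1, h2, one_mul]

theorem isUnit_relT : ∀ {g : ℕ} {X : Fin g × Bool → Mat r ℂ}, (∀ k, IsUnit (X k)) →
    IsUnit (relT X)
  | 0, X, _ => by simp [relT]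
  | g + 1, X, h => by
    rw [relT_succ]
    exact (isUnit_cm (h _) (h _)).mul (isUnit_relT fun k => h _)

theorem det_relT : ∀ {g : ℕ} {X : Fin g × Bool → Mat r ℂ}, (∀ k, IsUnit (X k)) →
    (relT X).det = 1
  | 0, X, _ => by simp [relT]
  | g + 1, X, h => by
    rw [relT_succ, det_mul, det_cm (h _) (h _), det_relT fun k => h _, one_mul]

theorem commute_inv {T A : Mat r ℂ} (hA : IsUnit A) (h : Commute T A) : Commute T A⁻¹ := by
  have hAd : IsUnit A.det := (Matrix.isUnit_iff_isUnit_det A).1 hA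
  have a1 : A * A⁻¹ = 1 := Matrix.mul_nonsing_inv A hAd
  have a2 : A⁻¹ * A = 1 := Matrix.nonsing_inv_mul A hAd
  show T * A⁻¹ = A⁻¹ * T
  calc T * A⁻¹ = A⁻¹ * A * T * A⁻¹ := by rw [a2, Matrix.one_mul]
    _ = A⁻¹ * (A * T) * A⁻¹ := by simp only [Matrix.mul_assoc]
    _ = A⁻¹ * (T * A) * A⁻¹ := by rw [h.eq]
    _ = A⁻¹ * T * (A * A⁻¹) := by simp only [Matrix.mul_assoc]
    _ = A⁻¹ * T := by rw [a1, Matrix.mul_one]

theorem commute_cm {T A B : Mat r ℂ} (hA : IsUnit A) (hB : IsUnit B) (h1 : Commute T A)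
    (h2 : Commute T B) : Commute T (cm A B) := by
  unfold cm
  exact ((h1.mul_right h2).mul_right (commute_inv hA h1)).mul_right (commute_inv hB h2)

theorem commute_relT {T : Mat r ℂ} : ∀ {g : ℕ} {X : Fin g × Bool → Mat r ℂ}, (∀ k, IsUnit (X k)) →
    (∀ k, Commute T (X k)) → Commute T (relT X)
  | 0, X, _, _ => by simp [relT]
  | g + 1, X, h, h' => by
    rw [relT_succ]
    exact (commute_cm (h _) (h _) (h' _) (h' _)).mul_right
      (commute_relT (fun k => h _) fun k => h' _)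

/-- Strict differentiability of the product of commutators, and the dual description of the image
of the derivative. -/
theorem exists_deriv_relT : ∀ (g : ℕ) (X : Fin g × Bool → Mat r ℂ), (∀ k, IsUnit (X k)) →
    ∃ W' : (Fin g × Bool → Mat r ℂ) →L[ℂ] Mat r ℂ, HasStrictFDerivAt relT W' X ∧
      ∀ N : Mat r ℂ, (∀ H, trace (N * W' H) = 0) → ∀ k, Commute (N * relT X) (X k)
  | 0, X, _ => by
    refine ⟨0, ?_, fun N _ k => k.1.elim0⟩
    have : (relT : (Fin 0 × Bool → Mat r ℂ) → Mat r ℂ) = fun _ => 1 := by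
      funext X; simp [relT]
    rw [this]
    exact hasStrictFDerivAt_const _ _
  | g + 1, X, h => by
    obtain ⟨W, hW, hWN⟩ := exists_deriv_relT g (fun k => X (k.1.succ, k.2)) (fun k => h _)
    have hp : ∀ k : Fin (g + 1) × Bool,
        HasStrictFDerivAt (fun Y : Fin (g + 1) × Bool → Mat r ℂ => Y k)
          (ContinuousLinearMap.proj k : (Fin (g + 1) × Bool → Mat r ℂ) →L[ℂ] Mat r ℂ) X :=
      fun k => (ContinuousLinearMap.proj k :
        (Fin (g + 1) × Bool → Mat r ℂ) →L[ℂ] Mat r ℂ).hasStrictFDerivAt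
    obtain ⟨D1, h1, e1⟩ := exists_deriv_cm (hp (0, false)) (hp (0, true)) (h _) (h _)
    obtain ⟨L, hLdef⟩ : ∃ L : (Fin (g + 1) × Bool → Mat r ℂ) →L[ℂ] (Fin g × Bool → Mat r ℂ),
        ∀ Y k, L Y k = Y (k.1.succ, k.2) :=
      ⟨ContinuousLinearMap.pi fun k => ContinuousLinearMap.proj (k.1.succ, k.2),
        fun _ _ => rfl⟩
    have hLX : L X = fun k => X (k.1.succ, k.2) := funext fun k => hLdef X k
    have hL : HasStrictFDerivAt (fun Y => relT (L Y)) (W.comp L) X := by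
      rw [← hLX] at hW
      exact hW.comp X L.hasStrictFDerivAt
    obtain ⟨D2, h2, e2⟩ := exists_deriv_mul h1 hL
    refine ⟨D2, ?_, ?_⟩
    · have : relT = fun Y : Fin (g + 1) × Bool → Mat r ℂ =>
          cm (Y (0, false)) (Y (0, true)) * relT (L Y) := by
        funext Y
        rw [relT_succ]
        congr 2
        exact (funext fun k => hLdef Y k).symm
      rw [this]
      exact h2
    · intro N hN0
      have hN : ∀ H : Fin (g + 1) × Bool → Mat r ℂ, trace (N *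
          ((H (0, false) * X (0, true) * (X (0, false))⁻¹ * (X (0, true))⁻¹ +
            X (0, false) * H (0, true) * (X (0, false))⁻¹ * (X (0, true))⁻¹ -
            X (0, false) * X (0, true) * (X (0, false))⁻¹ * H (0, false) * (X (0, false))⁻¹ *
              (X (0, true))⁻¹ -
            X (0, false) * X (0, true) * (X (0, false))⁻¹ * (X (0, true))⁻¹ * H (0, true) *
              (X (0, true))⁻¹) * relT (L X) +
            cm (X (0, false)) (X (0, true)) * W (L H))) = 0 := fun H =>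
        ((congrArg (fun M => trace (N * (M * relT (L X) + cm (X (0, false)) (X (0, true)) *
          W (L H)))) (e1 H)).symm.trans
          (congrArg (fun M => trace (N * M)) (e2 H)).symm).trans (hN0 H)
      have hR : relT (L X) = relT fun k : Fin g × Bool => X (k.1.succ, k.2) := by rw [hLX]
      -- variations supported on the last handles
      have c1 : ∀ k : Fin g × Bool,
          Commute (N * cm (X (0, false)) (X (0, true)) *
            relT fun k : Fin g × Bool => X (k.1.succ, k.2)) (X (k.1.succ, k.2)) := by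
        refine hWN _ fun K => ?_
        obtain ⟨H, hH⟩ : ∃ H : Fin (g + 1) × Bool → Mat r ℂ,
            H = fun k => Fin.cases (0 : Mat r ℂ) (fun i => K (i, k.2)) k.1 := ⟨_, rfl⟩
        have hH0 : ∀ b, H (0, b) = 0 := fun b => by rw [hH]; rfl
        have hH1 : L H = K := by
          funext k; rw [hLdef, hH]; rfl
        have := hN H
        simp only [hH0, hH1] at this
        simpa [Matrix.mul_assoc] using this
      have c2 : Commute ((relT fun k : Fin g × Bool => X (k.1.succ, k.2)) * N *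
            cm (X (0, false)) (X (0, true))) (X (0, false)) ∧
          Commute ((relT fun k : Fin g × Bool => X (k.1.succ, k.2)) * N *
            cm (X (0, false)) (X (0, true))) (X (0, true)) := by
        refine commute_of_trace (h _) (h _) fun H0 K0 => ?_
        obtain ⟨H, hH⟩ : ∃ H : Fin (g + 1) × Bool → Mat r ℂ,
            H = fun k => Fin.cases (if k.2 then K0 else H0) (fun _ => 0) k.1 := ⟨_, rfl⟩
        have hH0 : H (0, false) = H0 := by rw [hH]; rfl
        have hH0' : H (0, true) = K0 := by rw [hH]; rfl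
        have hH1 : L H = 0 := by
          funext k; rw [hLdef, hH]; rfl
        have := hN H
        rw [hH0, hH0', hH1, map_zero, Matrix.mul_zero, add_zero, hR,
          ← Matrix.mul_assoc, Matrix.trace_mul_comm] at this
        rw [Matrix.mul_assoc]
        exact this
      have hU : ∀ k : Fin g × Bool, IsUnit (X (k.1.succ, k.2)) := fun k => h _
      have hRU := isUnit_relT hU
      have c3 := commute_relT hU c1
      rw [relT_succ]
      obtain ⟨R, hRdef⟩ : ∃ R, R = relT fun k : Fin g × Bool => X (k.1.succ, k.2) := ⟨_, rfl⟩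
      obtain ⟨C, hCdef⟩ : ∃ C, C = cm (X (0, false)) (X (0, true)) := ⟨_, rfl⟩
      rw [← hRdef, ← hCdef] at c3 c2
      rw [← hRdef] at hRU
      rw [← hRdef, ← hCdef]
      simp only [← hRdef, ← hCdef] at c1
      have key : R * N * C = N * C * R := by
        have hRd : IsUnit R.det := (Matrix.isUnit_iff_isUnit_det R).1 hRU
        have r1 : R * R⁻¹ = 1 := Matrix.mul_nonsing_inv R hRd
        have : R * (N * C * R) * R⁻¹ = N * C * R * R * R⁻¹ := by rw [c3.eq]
        calc R * N * C = R * (N * C * R) * R⁻¹ := by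
              simp only [Matrix.mul_assoc]; rw [r1, Matrix.mul_one]
          _ = N * C * R * R * R⁻¹ := this
          _ = N * C * R := by rw [Matrix.mul_assoc _ R R⁻¹, r1, Matrix.mul_one]
      rw [key] at c2
      rw [← Matrix.mul_assoc]
      rintro ⟨k, b⟩
      refine Fin.cases ?_ (fun i => ?_) k
      · cases b
        · exact c2.1
        · exact c2.2
      · exact c1 (i, b)

/-- Products of commutators are open maps to `SL_r` (topology of the operator norm). -/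
theorem open_relT_norm (X : Fin g × Bool → Mat r ℂ) (hX : ∀ k, IsUnit (X k))
    (hc : ∀ N : Mat r ℂ, (∀ k, Commute N (X k)) → ∃ c : ℂ, N = c • (1 : Mat r ℂ))
    (U : Set (Fin g × Bool → Mat r ℂ)) (hU : U ∈ nhds X) :
    ∃ V ∈ nhds (relT X), ∀ M ∈ V, M.det = 1 → ∃ X' ∈ U, relT X' = M := by
  rcases Nat.eq_zero_or_pos r with hr | hr
  · subst hr
    exact ⟨Set.univ, Filter.univ_mem, fun M _ _ => ⟨X, mem_of_mem_nhds hU,
      Subsingleton.elim _ _⟩⟩
  obtain ⟨W, hW, hN⟩ := exists_deriv_relT g X hX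
  have hfst : HasStrictFDerivAt (fun p : (Fin g × Bool → Mat r ℂ) × ℂ => relT p.1)
      (W.comp (ContinuousLinearMap.fst ℂ (Fin g × Bool → Mat r ℂ) ℂ)) (X, (1 : ℂ)) :=
    HasStrictFDerivAt.comp (X, (1 : ℂ)) hW
      (ContinuousLinearMap.fst ℂ (Fin g × Bool → Mat r ℂ) ℂ).hasStrictFDerivAt
  have hsnd : HasStrictFDerivAt (fun p : (Fin g × Bool → Mat r ℂ) × ℂ => p.2)
      (ContinuousLinearMap.snd ℂ (Fin g × Bool → Mat r ℂ) ℂ) (X, (1 : ℂ)) :=
    (ContinuousLinearMap.snd ℂ (Fin g × Bool → Mat r ℂ) ℂ).hasStrictFDerivAt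
  obtain ⟨D, hD, hDe⟩ : ∃ D : ((Fin g × Bool → Mat r ℂ) × ℂ) →L[ℂ] Mat r ℂ,
      HasStrictFDerivAt (fun p : (Fin g × Bool → Mat r ℂ) × ℂ => p.2 • relT p.1) D (X, (1 : ℂ)) ∧
        ∀ H γ, D (H, γ) = W H + γ • relT X :=
    ⟨_, hsnd.smul hfst, fun H γ => by
      show (1 : ℂ) • W H + γ • relT X = _
      rw [one_smul]⟩
  have hsurj : D.range = ⊤ := by
    by_contra hne
    obtain ⟨φ, hφ, hle⟩ := Submodule.exists_le_ker_of_lt_top _ (lt_top_iff_ne_top.2 hne)
    obtain ⟨N, hNφ⟩ := exists_trace_repr φ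
    have h0 : ∀ p, trace (N * D p) = 0 := fun p => by
      have := hle (LinearMap.mem_range_self D.toLinearMap p)
      rw [LinearMap.mem_ker, hNφ] at this
      exact this
    have h1 : ∀ H, trace (N * W H) = 0 := fun H => by
      have := h0 (H, 0)
      rw [hDe, zero_smul, add_zero] at this
      exact this
    obtain ⟨c, hcN⟩ := hc _ (hN N h1)
    have h2 : trace (N * relT X) = 0 := by
      have := h0 (0, 1)
      rw [hDe, map_zero, one_smul, zero_add] at this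
      exact this
    rw [hcN, trace_smul, trace_one, smul_eq_mul, Fintype.card_fin] at h2
    have hc0 : c = 0 := by
      rcases mul_eq_zero.1 h2 with h | h
      · exact h
      · exact absurd (Nat.cast_eq_zero.1 h) hr.ne'
    rw [hc0, zero_smul] at hcN
    have hRU := isUnit_relT hX
    have hN0 : N = 0 := (hRU.mul_left_eq_zero).1 hcN
    apply hφ
    ext1 M
    rw [hNφ, hN0, Matrix.zero_mul, trace_zero, LinearMap.zero_apply]
  have hmap := hD.map_nhds_eq_of_surj hsurj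
  -- the neighbourhood
  have hUn : {Y : Fin g × Bool → Mat r ℂ | ∀ k, IsUnit (Y k)} ∈ nhds X := by
    have : {Y : Fin g × Bool → Mat r ℂ | ∀ k, IsUnit (Y k)} =
        ⋂ k, {Y : Fin g × Bool → Mat r ℂ | (Y k).det ≠ 0} := by
      ext Y
      simp only [Set.mem_ofPred_eq, Set.mem_iInter]
      exact forall_congr' fun k => by rw [Matrix.isUnit_iff_isUnit_det, isUnit_iff_ne_zero]
    rw [this]
    refine (isOpen_iInter_of_finite fun k => ?_).mem_nhds ?_
    · exact isOpen_ne.preimage (Continuous.matrix_det (continuous_apply k))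
    · simp only [Set.mem_iInter, Set.mem_ofPred_eq]
      intro k
      rw [← isUnit_iff_ne_zero, ← Matrix.isUnit_iff_isUnit_det]
      exact hX k
  have hCn : {c : ℂ | c ^ r = 1 → c = 1} ∈ nhds (1 : ℂ) := by
    have hfin : ({c : ℂ | c ^ r = 1 ∧ c ≠ 1}).Finite := by
      refine (Multiset.finite_toSet (Polynomial.nthRoots r (1 : ℂ))).subset ?_
      rintro c ⟨h1, -⟩
      exact (Polynomial.mem_nthRoots hr).2 h1
    have h1 : {c : ℂ | c ^ r = 1 → c = 1} = {c : ℂ | c ^ r = 1 ∧ c ≠ 1}ᶜ := by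
      ext c
      simp only [Set.mem_ofPred_eq, Set.mem_compl_iff, not_and, not_not]
    rw [h1]
    refine hfin.isClosed.isOpen_compl.mem_nhds ?_
    simp
  have hprod : (U ∩ {Y : Fin g × Bool → Mat r ℂ | ∀ k, IsUnit (Y k)}) ×ˢ
      {c : ℂ | c ^ r = 1 → c = 1} ∈ nhds (X, (1 : ℂ)) :=
    prod_mem_nhds (Filter.inter_mem hU hUn) hCn
  refine ⟨(fun p : (Fin g × Bool → Mat r ℂ) × ℂ => p.2 • relT p.1) ''
    ((U ∩ {Y : Fin g × Bool → Mat r ℂ | ∀ k, IsUnit (Y k)}) ×ˢ
      {c : ℂ | c ^ r = 1 → c = 1}), ?_, ?_⟩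
  · have h1 := Filter.image_mem_map (m := fun p : (Fin g × Bool → Mat r ℂ) × ℂ =>
      p.2 • relT p.1) hprod
    have h2 := hmap.ge h1
    have h3 : (X, (1 : ℂ)).2 • relT (X, (1 : ℂ)).1 = relT X := one_smul _ _
    rw [h3] at h2
    exact h2
  · rintro M ⟨⟨Y, c⟩, ⟨⟨hYU, hYn⟩, hcC⟩, rfl⟩ hdet
    have hdet' : c ^ r = 1 := by
      have := hdet
      simp only [det_smul, Fintype.card_fin, det_relT hYn, mul_one] at this
      exact this
    have hc1 : c = 1 := hcC hdet'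
    refine ⟨Y, hYU, ?_⟩
    simp only [hc1, one_smul]

end normed

/-- Products of commutators are open maps to `SL_r` at tuples with scalar centralizer. -/
theorem open_relT (X : Fin g × Bool → Mat r ℂ) (hX : ∀ k, IsUnit (X k))
    (hc : ∀ N : Mat r ℂ, (∀ k, Commute N (X k)) → ∃ c : ℂ, N = c • (1 : Mat r ℂ))
    (U : Set (Fin g × Bool → Mat r ℂ)) (hU : U ∈ nhds X) :
    ∃ V ∈ nhds (relT X), ∀ M ∈ V, M.det = 1 → ∃ X' ∈ U, relT X' = M :=
  open_relT_norm X hX hc U hU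

end Vale.Agent.P002
end

section

/-!
# P002 TASK M: from scaled representations to representations into `SL_r`
-/

namespace Vale.Agent.P002

open Matrix

variable {g r : ℕ}

/-- Fourier inversion over a product of groups of `r`-th roots of unity. -/
theorem fourier_inversion {G M : Type*} [Fintype G] [DecidableEq G] {z : ℂ}
    (hz : IsPrimitiveRoot z r) (hr : 0 < r) (s : Finset M) (a : M → G → ℕ) (T : M → ℂ)
    (h : ∀ e : G → ℕ, ∑ m ∈ s, (∏ k, (z ^ e k) ^ a m k) * T m = 0) (δ : G → ℕ) :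
    ∑ m ∈ s with (fun k => z ^ a m k) = (fun k => z ^ δ k), T m = 0 := by
  classical
  have hz0 : z ≠ 0 := hz.ne_zero hr.ne'
  have hsum : ∀ m ∈ s, ∏ k, ∑ j : Fin r, ((z ^ δ k)⁻¹ * z ^ a m k) ^ (j : ℕ) =
      if (fun k => z ^ a m k) = (fun k => z ^ δ k) then (r : ℂ) ^ Fintype.card G else 0 := by
    intro m _
    split_ifs with hm
    · have : ∀ k, ∑ j : Fin r, ((z ^ δ k)⁻¹ * z ^ a m k) ^ (j : ℕ) = (r : ℂ) := by
        intro k
        have h1 : z ^ a m k = z ^ δ k := congrFun hm k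
        rw [h1, inv_mul_cancel₀ (pow_ne_zero _ hz0)]
        simp
      rw [Finset.prod_congr rfl fun k _ => this k, Finset.prod_const, Finset.card_univ]
    · obtain ⟨k, hk⟩ : ∃ k, z ^ a m k ≠ z ^ δ k := by
        by_contra hcon
        push Not at hcon
        exact hm (funext hcon)
      refine Finset.prod_eq_zero (Finset.mem_univ k) ?_
      rw [Fin.sum_univ_eq_sum_range (fun j => ((z ^ δ k)⁻¹ * z ^ a m k) ^ j) r]
      have hu : (z ^ δ k)⁻¹ * z ^ a m k ≠ 1 := by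
        intro h1
        apply hk
        rw [inv_mul_eq_one₀ (pow_ne_zero _ hz0)] at h1
        exact h1.symm
      have hur : ((z ^ δ k)⁻¹ * z ^ a m k) ^ r = 1 := by
        rw [mul_pow, inv_pow, ← pow_mul, ← pow_mul, mul_comm (δ k), mul_comm (a m k), pow_mul,
          pow_mul, hz.pow_eq_one, one_pow, one_pow, inv_one, one_mul]
      rw [geom_sum_eq hu, hur, sub_self, zero_div]
  have h1 : ∑ e : G → Fin r, (∏ k, ((z ^ δ k)⁻¹) ^ (e k : ℕ)) *
      ∑ m ∈ s, (∏ k, (z ^ (e k : ℕ)) ^ a m k) * T m = 0 :=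
    Finset.sum_eq_zero fun e _ => by rw [h fun k => (e k : ℕ), mul_zero]
  have h2 : ∑ e : G → Fin r, (∏ k, ((z ^ δ k)⁻¹) ^ (e k : ℕ)) *
      ∑ m ∈ s, (∏ k, (z ^ (e k : ℕ)) ^ a m k) * T m =
      ∑ m ∈ s, (∏ k, ∑ j : Fin r, ((z ^ δ k)⁻¹ * z ^ a m k) ^ (j : ℕ)) * T m := by
    simp only [Finset.mul_sum]
    rw [Finset.sum_comm]
    refine Finset.sum_congr rfl fun m _ => ?_
    rw [Fintype.prod_sum, Finset.sum_mul]
    refine Finset.sum_congr rfl fun e _ => ?_
    rw [← mul_assoc, ← Finset.prod_mul_distrib]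
    congr 1
    refine Finset.prod_congr rfl fun k _ => ?_
    rw [mul_pow, ← pow_mul, ← pow_mul, mul_comm (e k : ℕ)]
  rw [h2, Finset.sum_congr rfl fun m hm => by rw [hsum m hm]] at h1
  simp only [ite_mul, zero_mul] at h1
  rw [← Finset.sum_filter, ← Finset.mul_sum] at h1
  have h3 : (r : ℂ) ^ Fintype.card G ≠ 0 := pow_ne_zero _ (Nat.cast_ne_zero.2 hr.ne')
  exact (mul_eq_zero.1 h1).resolve_left h3

/-- Multidegree of an exponent with respect to the matrices. -/
noncomputable def mdeg (m : ((Fin g × Bool) × Fin r × Fin r) →₀ ℕ) : (Fin g × Bool) →₀ ℕ :=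
  Finsupp.mapDomain Prod.fst m

theorem evalG_monomial_twist (x x' : F g →* (Mat r ℂ)ˣ) (t : Fin g × Bool → ℂ)
    (h : ∀ k, (x' (FreeGroup.of k) : Mat r ℂ) = t k • (x (FreeGroup.of k) : Mat r ℂ))
    (m : ((Fin g × Bool) × Fin r × Fin r) →₀ ℕ) (c : ℂ) :
    evalG x' (MvPolynomial.monomial m c) =
      (∏ k, t k ^ mdeg m k) * evalG x (MvPolynomial.monomial m c) := by
  unfold evalG
  rw [MvPolynomial.aeval_monomial, MvPolynomial.aeval_monomial]
  have h1 : (m.prod fun p n => ((x' (FreeGroup.of p.1) : Mat r ℂ) p.2.1 p.2.2) ^ n) =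
      (m.prod fun p n => t p.1 ^ n) *
        m.prod fun p n => ((x (FreeGroup.of p.1) : Mat r ℂ) p.2.1 p.2.2) ^ n := by
    rw [← Finsupp.prod_mul]
    refine Finsupp.prod_congr fun p _ => ?_
    rw [h, Matrix.smul_apply, smul_eq_mul, mul_pow]
  have h2 : (m.prod fun p n => t p.1 ^ n) = ∏ k, t k ^ mdeg m k := by
    rw [mdeg, ← Finsupp.prod_fintype (Finsupp.mapDomain Prod.fst m) (fun k n => t k ^ n)
      (fun k => pow_zero _), Finsupp.prod_mapDomain_index (fun k => pow_zero _)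
        (fun k a b => pow_add _ _ _)]
  rw [h1, h2]
  ring

theorem evalG_eq_sum (x : F g →* (Mat r ℂ)ˣ)
    (f : MvPolynomial ((Fin g × Bool) × Fin r × Fin r) ℂ) :
    evalG x f = ∑ m ∈ f.support, evalG x (MvPolynomial.monomial m (MvPolynomial.coeff m f)) := by
  conv_lhs => rw [MvPolynomial.as_sum f]
  rw [map_sum]

/-- Semisimplicity is unchanged under twisting. -/
theorem SS.twist {x x' : F g →* (Mat r ℂ)ˣ} (c : F g → ℂ) (hc : ∀ w, c w ≠ 0)
    (h : ∀ w, (x' w : Mat r ℂ) = c w • (x w : Mat r ℂ)) (hx : SS x) : SS x' := by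
  have key : ∀ W : Submodule ℂ (Fin r → ℂ), (∀ w, ∀ v ∈ W, (x' w : Mat r ℂ) *ᵥ v ∈ W) ↔
      (∀ w, ∀ v ∈ W, (x w : Mat r ℂ) *ᵥ v ∈ W) := by
    intro W
    refine forall_congr' fun w => forall_congr' fun v => forall_congr' fun hv => ?_
    rw [h, Matrix.smul_mulVec, Submodule.smul_mem_iff _ (hc w)]
  intro W hW
  obtain ⟨W', h1, h2⟩ := hx W ((key W).1 hW)
  exact ⟨W', (key W').2 h1, h2⟩

/-- The determinant of the generic matrix of a generator. -/
noncomputable def detX (k : Fin g × Bool) : MvPolynomial ((Fin g × Bool) × Fin r × Fin r) ℂ :=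
  det (Matrix.of fun i j => (MvPolynomial.X (k, i, j) :
    MvPolynomial ((Fin g × Bool) × Fin r × Fin r) ℂ))

theorem evalG_detX (x : F g →* (Mat r ℂ)ˣ) (k : Fin g × Bool) :
    evalG x (detX k) = (x (FreeGroup.of k) : Mat r ℂ).det := by
  unfold detX
  rw [AlgHom.map_det]
  congr 1
  ext i j
  simp [evalG]

theorem coe_scalarU_mul (c : ℂˣ) (u : (Mat r ℂ)ˣ) :
    ((scalarU c * u : (Mat r ℂ)ˣ) : Mat r ℂ) = (c : ℂ) • (u : Mat r ℂ) := by
  rw [Units.val_mul]
  show algebraMap ℂ (Mat r ℂ) (c : ℂ) * (u : Mat r ℂ) = _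
  rw [Algebra.algebraMap_eq_smul_one, Matrix.smul_mul, Matrix.one_mul]

theorem coe_slU {R : Type*} [CommRing R] (φ : R →+* ℂ) (y : SpecialLinearGroup (Fin r) R) :
    ((slU φ y : (Mat r ℂ)ˣ) : Mat r ℂ) = (y : Mat r R).map φ := rfl

/-- Twisting an integral representation by powers of a root of unity. -/
theorem exists_twist {R : Type*} [CommRing R] (ζ : R) (hζ : ζ ^ r = 1) (hr : 0 < r)
    (y : F g →* SpecialLinearGroup (Fin r) R) (e : Fin g × Bool → ℕ) :
    ∃ (y' : F g →* SpecialLinearGroup (Fin r) R) (χ : F g →* Rˣ),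
      (∀ w, (y' w : Mat r R) = (χ w : R) • (y w : Mat r R)) ∧
        ∀ k, (χ (FreeGroup.of k) : R) = ζ ^ e k := by
  obtain ⟨ζu, hζu⟩ : ∃ ζu : Rˣ, (ζu : R) = ζ := by
    refine ⟨⟨ζ, ζ ^ (r - 1), ?_, ?_⟩, rfl⟩
    · rw [← pow_succ', Nat.sub_add_cancel hr, hζ]
    · rw [← pow_succ, Nat.sub_add_cancel hr, hζ]
  obtain ⟨χ, hχ⟩ : ∃ χ : F g →* Rˣ, ∀ k, χ (FreeGroup.of k) = ζu ^ e k :=
    ⟨FreeGroup.lift fun k => ζu ^ e k, fun k => FreeGroup.lift_apply_of⟩
  have hχr : ∀ w, (χ w) ^ r = 1 := by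
    intro w
    have : (powMonoidHom r).comp χ = 1 := by
      refine FreeGroup.ext_hom _ _ fun k => ?_
      rw [MonoidHom.comp_apply, hχ, powMonoidHom_apply, MonoidHom.one_apply, ← pow_mul,
        mul_comm, pow_mul]
      have : ζu ^ r = 1 := by
        apply Units.ext
        rw [Units.val_pow_eq_pow_val, hζu, hζ, Units.val_one]
      rw [this, one_pow]
    exact DFunLike.congr_fun this w
  have hdet : ∀ w, ((χ w : R) • (y w : Mat r R)).det = 1 := by
    intro w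
    rw [det_smul, Fintype.card_fin, Matrix.SpecialLinearGroup.det_coe, mul_one,
      ← Units.val_pow_eq_pow_val, hχr, Units.val_one]
  refine ⟨⟨⟨fun w => ⟨(χ w : R) • (y w : Mat r R), hdet w⟩, ?_⟩, ?_⟩, χ, fun w => rfl,
    fun k => ?_⟩
  · apply Subtype.ext
    show (χ 1 : R) • (y 1 : Mat r R) = 1
    rw [map_one, map_one, Units.val_one, one_smul]
    rfl
  · intro w w'
    apply Subtype.ext
    show (χ (w * w') : R) • (y (w * w') : Mat r R) =
      ((χ w : R) • (y w : Mat r R)) * ((χ w' : R) • (y w' : Mat r R))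
    rw [map_mul, map_mul, Units.val_mul, Matrix.SpecialLinearGroup.coe_mul, Matrix.smul_mul,
      Matrix.mul_smul, smul_smul]
  · rw [hχ, Units.val_pow_eq_pow_val, hζu]

/-- TASK M -/
theorem unscale {R : Type*} [CommRing R] (φ : R →+* ℂ) (ζ : R) (hζ : ζ ^ r = 1)
    (hζ' : IsPrimitiveRoot (φ ζ) r) (hr : 0 < r)
    (f : MvPolynomial ((Fin g × Bool) × Fin r × Fin r) ℂ)
    (hf : ∀ y : F g →* SpecialLinearGroup (Fin r) R, y (relator g) = 1 →
      SS ((slU φ).comp y) → evalG ((slU φ).comp y) f = 0)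
    (x : F g →* (Mat r ℂ)ˣ) (hdet : ∀ w, (x w : Mat r ℂ).det = 1)
    (hall : ∀ f' : MvPolynomial ((Fin g × Bool) × Fin r × Fin r) ℂ,
      (∀ y ∈ DInt g r φ, SS y → evalG y f' = 0) → evalG x f' = 0) :
    evalG x f = 0 := by
  classical
  obtain ⟨z, hz⟩ : ∃ z, z = φ ζ := ⟨_, rfl⟩
  rw [← hz] at hζ'
  have hz0 : z ≠ 0 := hζ'.ne_zero hr.ne'
  -- the components of `f` vanish at integral representations
  have comp : ∀ y : F g →* SpecialLinearGroup (Fin r) R, y (relator g) = 1 →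
      SS ((slU φ).comp y) → ∀ δ : Fin g × Bool → ℕ,
        ∑ m ∈ f.support with (fun k => z ^ mdeg m k) = (fun k => z ^ δ k),
          evalG ((slU φ).comp y) (MvPolynomial.monomial m (MvPolynomial.coeff m f)) = 0 := by
    intro y hy hyS
    refine fourier_inversion hζ' hr f.support (fun m k => mdeg m k) _ fun e => ?_
    obtain ⟨y', χ, h1, h2⟩ := exists_twist ζ hζ hr y e
    have hy' : y' (relator g) = 1 := by
      apply Subtype.ext
      rw [h1, hy]
      have : χ (relator g) = 1 := by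
        rw [relator, map_list_prod]
        refine List.prod_eq_one fun c hc => ?_
        rw [List.mem_map] at hc
        obtain ⟨w, hw, rfl⟩ := hc
        rw [List.mem_ofFn] at hw
        obtain ⟨i, rfl⟩ := hw
        rw [hcomm, map_mul, map_mul, map_mul, map_inv, map_inv, mul_inv_cancel_comm,
          mul_inv_cancel]
      rw [this, Units.val_one, one_smul]
    have h3 : ∀ w, (((slU φ).comp y' w : (Mat r ℂ)ˣ) : Mat r ℂ) =
        φ (χ w : R) • (((slU φ).comp y w : (Mat r ℂ)ˣ) : Mat r ℂ) := by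
      intro w
      rw [MonoidHom.comp_apply, MonoidHom.comp_apply, coe_slU, coe_slU, h1]
      ext i j
      simp
    have hy'S : SS ((slU φ).comp y') :=
      hyS.twist (fun w => φ (χ w : R)) (fun w => ((χ w).isUnit.map φ).ne_zero) h3
    have h4 := hf y' hy' hy'S
    rw [evalG_eq_sum] at h4
    rw [← h4]
    refine Finset.sum_congr rfl fun m _ => ?_
    rw [evalG_monomial_twist ((slU φ).comp y) ((slU φ).comp y') (fun k => z ^ e k) ?_]
    intro k
    rw [h3, h2, map_pow, hz]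
  -- now the components of `f` vanish at `x`
  have compx : ∀ m₀ ∈ f.support,
      ∑ m ∈ f.support with (fun k => z ^ mdeg m k) = (fun k => z ^ mdeg m₀ k),
        evalG x (MvPolynomial.monomial m (MvPolynomial.coeff m f)) = 0 := by
    intro m₀ hm₀
    obtain ⟨B, hB⟩ : ∃ B : ℕ, ∀ m ∈ f.support, ∀ k, mdeg m k ≤ B := by
      refine ⟨∑ m ∈ f.support, ∑ k, mdeg m k, fun m hm k => ?_⟩
      exact (Finset.single_le_sum (f := fun k => mdeg m k) (fun _ _ => Nat.zero_le _)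
        (Finset.mem_univ k)).trans (Finset.single_le_sum (f := fun m => ∑ k, mdeg m k)
          (fun _ _ => Nat.zero_le _) hm)
    obtain ⟨N, hN⟩ : ∃ N : Fin g × Bool → ℕ, ∀ k, N k = mdeg m₀ k + r * B := ⟨_, fun k => rfl⟩
    obtain ⟨q, hq⟩ : ∃ q : (((Fin g × Bool) × Fin r × Fin r) →₀ ℕ) → Fin g × Bool → ℕ,
        ∀ m ∈ f.support, (fun k => z ^ mdeg m k) = (fun k => z ^ mdeg m₀ k) →
          ∀ k, N k = mdeg m k + r * q m k := by
      have : ∀ m : ((Fin g × Bool) × Fin r × Fin r) →₀ ℕ, ∀ k, ∃ q : ℕ, m ∈ f.support →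
          (fun k => z ^ mdeg m k) = (fun k => z ^ mdeg m₀ k) → N k = mdeg m k + r * q := by
        intro m k
        by_cases hm : m ∈ f.support ∧ (fun k => z ^ mdeg m k) = (fun k => z ^ mdeg m₀ k)
        · have h1 : z ^ mdeg m k = z ^ mdeg m₀ k := congrFun hm.2 k
          have h2 : z ^ mdeg m k = z ^ N k := by
            rw [h1, hN, pow_add, pow_mul, hζ'.pow_eq_one, one_pow, mul_one]
          have hfin : IsOfFinOrder z := isOfFinOrder_iff_pow_eq_one.2 ⟨r, hr, hζ'.pow_eq_one⟩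
          rw [hfin.pow_eq_pow_iff_modEq, ← hζ'.eq_orderOf] at h2
          have h3 : mdeg m k ≤ N k := by
            rw [hN]
            calc mdeg m k ≤ B := hB m hm.1 k
              _ ≤ r * B := Nat.le_mul_of_pos_left B hr
              _ ≤ _ := Nat.le_add_left _ _
          obtain ⟨q, hq⟩ := (Nat.modEq_iff_dvd' h3).1 h2
          exact ⟨q, fun _ _ => by omega⟩
        · exact ⟨0, fun h1 h2 => absurd ⟨h1, h2⟩ hm⟩
      choose q hq using this
      exact ⟨q, fun m h1 h2 k => hq m k h1 h2⟩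
    -- the homogenized component
    obtain ⟨f', hf'⟩ : ∃ f' : MvPolynomial ((Fin g × Bool) × Fin r × Fin r) ℂ, f' =
        ∑ m ∈ f.support with (fun k => z ^ mdeg m k) = (fun k => z ^ mdeg m₀ k),
          MvPolynomial.monomial m (MvPolynomial.coeff m f) * ∏ k, detX k ^ q m k := ⟨_, rfl⟩
    have heval : ∀ (x₀ x' : F g →* (Mat r ℂ)ˣ) (t : Fin g × Bool → ℂ),
        (∀ k, (x' (FreeGroup.of k) : Mat r ℂ) = t k • (x₀ (FreeGroup.of k) : Mat r ℂ)) →
        (∀ k, (x₀ (FreeGroup.of k) : Mat r ℂ).det = 1) →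
        evalG x' f' = (∏ k, t k ^ N k) *
          ∑ m ∈ f.support with (fun k => z ^ mdeg m k) = (fun k => z ^ mdeg m₀ k),
            evalG x₀ (MvPolynomial.monomial m (MvPolynomial.coeff m f)) := by
      intro x₀ x' t h1 h2
      rw [hf', map_sum, Finset.mul_sum]
      refine Finset.sum_congr rfl fun m hm => ?_
      rw [Finset.mem_filter] at hm
      rw [map_mul, map_prod, evalG_monomial_twist x₀ x' t h1, mul_right_comm]
      congr 1
      rw [← Finset.prod_mul_distrib]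
      refine Finset.prod_congr rfl fun k _ => ?_
      rw [map_pow, evalG_detX, h1, det_smul, h2, mul_one, Fintype.card_fin, ← pow_mul, ← pow_add,
        hq m hm.1 hm.2 k]
    have hx' := hall f' ?_
    · rw [heval x x (fun _ => 1) (fun k => (one_smul _ _).symm) (fun k => hdet _)] at hx'
      simpa using hx'
    · rintro y' ⟨y, hy, χ, hχ⟩ hyS
      have h1 : ∀ w, (y' w : Mat r ℂ) = (χ w : ℂ) • (((slU φ).comp y w : (Mat r ℂ)ˣ) : Mat r ℂ) := by
        intro w
        rw [hχ, coe_scalarU_mul, MonoidHom.comp_apply]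
      have hyS' : SS ((slU φ).comp y) := by
        refine hyS.twist (fun w => ((χ w)⁻¹ : ℂˣ)) (fun w => Units.ne_zero _) fun w => ?_
        rw [h1, smul_smul, Units.inv_mul, one_smul]
      rw [heval ((slU φ).comp y) y' (fun k => (χ (FreeGroup.of k) : ℂ)) (fun k => h1 _)
        (fun k => ?_), comp y hy hyS' (fun k => mdeg m₀ k), mul_zero]
      rw [MonoidHom.comp_apply, coe_slU]
      have := (φ.map_det (y (FreeGroup.of k) : Mat r R))
      rw [Matrix.SpecialLinearGroup.det_coe, map_one] at this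
      exact this.symm
  rw [evalG_eq_sum, ← Finset.sum_fiberwise_of_maps_to
    (g := fun m => (fun k => z ^ mdeg m k : Fin g × Bool → ℂ))
    (t := f.support.image fun m => (fun k => z ^ mdeg m k : Fin g × Bool → ℂ))
    (fun m hm => Finset.mem_image_of_mem _ hm)]
  refine Finset.sum_eq_zero fun δ hδ => ?_
  rw [Finset.mem_image] at hδ
  obtain ⟨m₀, hm₀, rfl⟩ := hδ
  exact compx m₀ hm₀

end Vale.Agent.P002
end
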