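import Mathlib

set_option linter.all false

section

/-!
# P002, relative version: surface groups with punctures and prescribed boundary classes
-/

namespace Vale.Agent.P002R

open Matrix

/-- Square matrices of size `r`. -/
abbrev Mat (r : ℕ) (S : Type*) := Matrix (Fin r) (Fin r) S

section general

variable {κ : Type*} {r : ℕ} {S T : Type*} [CommRing S] [CommRing T]

/-- Evaluation of a polynomial in the entries of all group words at a representation. -/
noncomputable def evalW [Algebra ℂ S] (x : FreeGroup κ →* (Mat r S)ˣ) :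
    MvPolynomial (FreeGroup κ × Fin r × Fin r) ℂ →ₐ[ℂ] S :=
  MvPolynomial.aeval fun p => (x p.1 : Mat r S) p.2.1 p.2.2

/-- Evaluation of a polynomial in the entries of the generators and of their inverses at a tuple
of invertible matrices. -/
noncomputable def evalP [Algebra ℂ S] (X : κ → (Mat r S)ˣ) :
    MvPolynomial (κ × Bool × Fin r × Fin r) ℂ →ₐ[ℂ] S :=
  MvPolynomial.aeval fun p => if p.2.1 then (((X p.1)⁻¹ : (Mat r S)ˣ) : Mat r S) p.2.2.1 p.2.2.2
    else (X p.1 : Mat r S) p.2.2.1 p.2.2.2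

/-- The same for a tuple of complex matrices (with the nonsingular inverse). -/
noncomputable def evalM (X : κ → Mat r ℂ) :
    MvPolynomial (κ × Bool × Fin r × Fin r) ℂ →ₐ[ℂ] ℂ :=
  MvPolynomial.aeval fun p => if p.2.1 then (X p.1)⁻¹ p.2.2.1 p.2.2.2
    else X p.1 p.2.2.1 p.2.2.2

/-- Evaluation of a polynomial in the entries of the generators at a representation. -/
noncomputable def evalG (x : FreeGroup κ →* (Mat r ℂ)ˣ) :
    MvPolynomial (κ × Fin r × Fin r) ℂ →ₐ[ℂ] ℂ :=
  MvPolynomial.aeval fun p => (x (FreeGroup.of p.1) : Mat r ℂ) p.2.1 p.2.2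

/-- `x` is an `S`-point of the Zariski closure of `D`. -/
def InZ [Algebra ℂ S] (D : Set (FreeGroup κ →* (Mat r ℂ)ˣ)) (x : FreeGroup κ →* (Mat r S)ˣ) :
    Prop :=
  ∀ f : MvPolynomial (FreeGroup κ × Fin r × Fin r) ℂ, (∀ y ∈ D, evalW y f = 0) → evalW x f = 0

/-- Change the value at the generator `k` from `x k` to `x k * z`. -/
def flow [DecidableEq κ] (x : FreeGroup κ →* (Mat r S)ˣ) (k : κ) (z : (Mat r S)ˣ) :
    FreeGroup κ →* (Mat r S)ˣ :=
  FreeGroup.lift fun l => if l = k then x (FreeGroup.of k) * z else x (FreeGroup.of l)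

/-- Base change of a representation. -/
def baseChange (θ : S →+* T) (x : FreeGroup κ →* (Mat r S)ˣ) : FreeGroup κ →* (Mat r T)ˣ :=
  (Units.map (RingHom.mapMatrix θ).toMonoidHom).comp x

/-- `E` is a derivation over the representation `x`. -/
def IsDer (x : FreeGroup κ →* (Mat r ℂ)ˣ) (E : FreeGroup κ → Mat r ℂ) : Prop :=
  ∀ w w' : FreeGroup κ, E (w * w') = E w * (x w' : Mat r ℂ) + (x w : Mat r ℂ) * E w'

/-- A family of invertible matrices is semisimple: every invariant subspace has an invariant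
complement. -/
def SS {G : Type*} [Group G] {r : ℕ} (x : G →* (Mat r ℂ)ˣ) : Prop :=
  ∀ W : Submodule ℂ (Fin r → ℂ), (∀ w, ∀ v ∈ W, (x w : Mat r ℂ) *ᵥ v ∈ W) →
    ∃ W' : Submodule ℂ (Fin r → ℂ), (∀ w, ∀ v ∈ W', (x w : Mat r ℂ) *ᵥ v ∈ W') ∧ IsCompl W W'

end general

/-! ### Integral matrices up to scalars -/

/-- The scalar matrix `c` as a unit. -/
noncomputable def scalarU {r : ℕ} : ℂˣ →* (Mat r ℂ)ˣ :=
  Units.map (algebraMap ℂ (Mat r ℂ)).toMonoidHom

/-- The invertible complex matrix attached to an element of `SL_r(R)` and a ring homomorphism. -/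
noncomputable def slU {r : ℕ} {R : Type*} [CommRing R] (φ : R →+* ℂ) :
    SpecialLinearGroup (Fin r) R →* (Mat r ℂ)ˣ :=
  SpecialLinearGroup.toGL.comp (SpecialLinearGroup.map φ)

theorem scalarU_comm {r : ℕ} (c : ℂˣ) (x : (Mat r ℂ)ˣ) : scalarU c * x = x * scalarU c := by
  ext1
  simp only [Units.val_mul]
  exact Algebra.commutes (c : ℂ) (x : Mat r ℂ)

/-- The group `ℂ^* · SL_r(R)`. -/
noncomputable def GR (r : ℕ) {R : Type*} [CommRing R] (φ : R →+* ℂ) : Subgroup (Mat r ℂ)ˣ where
  carrier := {x | ∃ (c : ℂˣ) (y : SpecialLinearGroup (Fin r) R), x = scalarU c * slU φ y}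
  mul_mem' := by
    rintro a b ⟨c, y, rfl⟩ ⟨c', y', rfl⟩
    refine ⟨c * c', y * y', ?_⟩
    rw [map_mul, map_mul, mul_assoc, ← mul_assoc (slU φ y), ← scalarU_comm c' (slU φ y),
      mul_assoc, mul_assoc]
  one_mem' := ⟨1, 1, by simp⟩
  inv_mem' := by
    rintro a ⟨c, y, rfl⟩
    refine ⟨c⁻¹, y⁻¹, ?_⟩
    rw [_root_.mul_inv_rev, map_inv (slU φ), map_inv scalarU, ← map_inv scalarU, scalarU_comm]

/-! ### The framed surface group: generators `a_i, b_i, d_j, e_j` and `c_j = d_j e_j d_j⁻¹` -/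

/-- Generators: `inl (i, false) = a_i`, `inl (i, true) = b_i`, `inr (j, false) = d_j`,
`inr (j, true) = e_j`. -/
abbrev Gen (g n : ℕ) := (Fin g × Bool) ⊕ (Fin n × Bool)

/-- The free group on the `a_i, b_i, d_j, e_j`. -/
abbrev FF (g n : ℕ) := FreeGroup (Gen g n)

variable {g m n r : ℕ}

/-- The generator `a_i`. -/
def gA (i : Fin g) : FF g n := FreeGroup.of (Sum.inl (i, false))

/-- The generator `b_i`. -/
def gB (i : Fin g) : FF g n := FreeGroup.of (Sum.inl (i, true))

/-- The generator `d_j`. -/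
def gD (j : Fin n) : FF g n := FreeGroup.of (Sum.inr (j, false))

/-- The generator `e_j`. -/
def gE (j : Fin n) : FF g n := FreeGroup.of (Sum.inr (j, true))

/-- The boundary loop `c_j = d_j e_j d_j⁻¹`. -/
def gC (j : Fin n) : FF g n := gD j * gE j * (gD j)⁻¹

/-- The commutator `[a_i, b_i]`. -/
def hcomm (i : Fin g) : FF g n := gA i * gB i * (gA i)⁻¹ * (gB i)⁻¹

/-- The surface relator `c_0 ... c_{n-1} [a_0,b_0] ... [a_{g-1},b_{g-1}]`. -/
def relator (g n : ℕ) : FF g n :=
  (List.ofFn fun j : Fin n => gC j).prod * (List.ofFn fun i : Fin g => hcomm i).prod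

/-- The subgroup generated by the `a_i, b_i, c_j`. -/
def Fc (g n : ℕ) : Subgroup (FF g n) :=
  Subgroup.closure ({w | ∃ k, w = FreeGroup.of (Sum.inl k)} ∪ {w | ∃ j, w = gC j})

/-- Admissible automorphisms. -/
structure Adm (τ : FF g n ≃* FF g n) : Prop where
  rel : τ (relator g n) = relator g n
  he : ∀ j, τ (gE j) = gE j
  hd : ∀ j, ∃ u ∈ Fc g n, τ (gD j) = u * gD j
  hab : ∀ k, τ (FreeGroup.of (Sum.inl k)) ∈ Fc g n

/-- Framed representations of the surface group which are integral up to scalars, with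
`e_j ↦ J_j`. -/
def DFr {R : Type*} [CommRing R] (φ : R →+* ℂ) (J : Fin n → (Mat r ℂ)ˣ) :
    Set (FF g n →* (Mat r ℂ)ˣ) :=
  {x | x (relator g n) = 1 ∧ (∀ j, x (gE j) = J j) ∧
    (∀ k, x (FreeGroup.of (Sum.inl k)) ∈ GR r φ) ∧ ∀ j, x (gC j) ∈ GR r φ}

/-- The relation for a tuple of matrices. -/
noncomputable def relM (X : Gen g n → Mat r ℂ) : Mat r ℂ :=
  (List.ofFn fun j : Fin n =>
    X (Sum.inr (j, false)) * X (Sum.inr (j, true)) * (X (Sum.inr (j, false)))⁻¹).prod *
  (List.ofFn fun i : Fin g =>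
    X (Sum.inl (i, false)) * X (Sum.inl (i, true)) * (X (Sum.inl (i, false)))⁻¹ *
      (X (Sum.inl (i, true)))⁻¹).prod

/-! ### Slides of the last handle -/

/-- Loops around which the last handle is slid: `inl j` is `c_j`, `inr (i, false)` is
`b_i a_i⁻¹ b_i⁻¹` and `inr (i, true)` is `b_i⁻¹` (each conjugated, see `loopW`). -/
abbrev Loop (m n : ℕ) := Fin n ⊕ (Fin m × Bool)

/-- The blocks of the relator before the last handle. -/
def blocks (m n : ℕ) : List (Fin n ⊕ Fin m) :=
  (List.finRange n).map Sum.inl ++ (List.finRange m).map Sum.inr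

/-- The word of a block. -/
def bw : Fin n ⊕ Fin m → FF (m + 1) n
  | Sum.inl j => gC j
  | Sum.inr i => hcomm i.castSucc

/-- The product of the blocks of the list `l` after the (first) block `b`. -/
def aftL (b : Fin n ⊕ Fin m) : List (Fin n ⊕ Fin m) → FF (m + 1) n
  | [] => 1
  | b' :: l => if b' = b then (l.map bw).prod else aftL b l

/-- The block of a loop. -/
def blk : Loop m n → Fin n ⊕ Fin m
  | Sum.inl j => Sum.inl j
  | Sum.inr (i, _) => Sum.inr i

/-- The product of the blocks after the block of the loop `q`, before the last handle. -/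
def kap (q : Loop m n) : FF (m + 1) n := aftL (blk q) (blocks m n)

/-- The unconjugated loop. -/
def loop0 : Loop m n → FF (m + 1) n
  | Sum.inl j => gC j
  | Sum.inr (i, false) => gB i.castSucc * (gA i.castSucc)⁻¹ * (gB i.castSucc)⁻¹
  | Sum.inr (i, true) => (gB i.castSucc)⁻¹

/-- The loop around which the last handle is slid. -/
def loopW (q : Loop m n) : FF (m + 1) n := (kap q)⁻¹ * loop0 q * kap q

/-- The effect of a slide on derivations. -/
noncomputable def Lam (x : FF (m + 1) n →* (Mat r ℂ)ˣ) (q : Loop m n) (ε : Mat r ℂ)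
    (k : Gen (m + 1) n) : Mat r ℂ :=
  let ε' : Mat r ℂ := (x (kap q) : Mat r ℂ) * ε * (((x (kap q))⁻¹ : (Mat r ℂ)ˣ) : Mat r ℂ)
  match q with
  | Sum.inl j => if k = Sum.inr (j, false) then -(ε' * (x (gD j) : Mat r ℂ)) else 0
  | Sum.inr (i, false) =>
      if k = Sum.inl (i.castSucc, true) then -(ε' * (x (gB i.castSucc) : Mat r ℂ)) else 0
  | Sum.inr (i, true) =>
      if k = Sum.inl (i.castSucc, false) then (x (gA i.castSucc) : Mat r ℂ) * ε'
      else if k = Sum.inl (i.castSucc, true) then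
        (x (gB i.castSucc) : Mat r ℂ) * ε' - ε' * (x (gB i.castSucc) : Mat r ℂ)
      else 0

/-! ### The dual lemma -/

/-- Products of three of the numbers determine the multiset of the indices. -/
def Reg3 (α : Fin r → ℂ) : Prop :=
  (∀ i, α i ≠ 0) ∧ ∀ s t : Multiset (Fin r), s.card = 3 → t.card = 3 →
    (s.map α).prod = (t.map α).prod → s = t

/-- Genericity conditions on a matrix. -/
def Gen3 (A : Mat r ℂ) : Prop :=
  (∀ i j, A i j ≠ 0) ∧ ∀ i j k, i ≠ j → j ≠ k → i ≠ k →
    A i j * A j k * A k i ≠ A i k * A k j * A j i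

/-- Product of a word. -/
def wP {L : Type*} (P : L → (Mat r ℂ)ˣ) : List L → (Mat r ℂ)ˣ
  | [] => 1
  | q :: p => P q * wP P p

/-- The cocycle of a word. -/
def theta {L : Type*} (P : L → (Mat r ℂ)ˣ) (R : L → Mat r ℂ) : List L → Mat r ℂ
  | [] => 0
  | q :: p => R q + (P q : Mat r ℂ) * theta P R p * (((P q)⁻¹ : (Mat r ℂ)ˣ) : Mat r ℂ)

/-! ### The base representation -/

/-- The representation with `a_m ↦ B`, `d_j ↦ k_j` and the other generators as in `ρ`. -/
noncomputable def baseRep {S : Type*} [CommRing S] [Algebra ℂ S]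
    (ρ : FF (m + 1) n →* (Mat r ℂ)ˣ) (B : (Mat r S)ˣ) (k : Fin n → (Mat r S)ˣ) :
    FF (m + 1) n →* (Mat r S)ˣ :=
  FreeGroup.lift fun l =>
    match l with
    | Sum.inl i => if i = (Fin.last m, false) then B
        else baseChange (algebraMap ℂ S) ρ (FreeGroup.of (Sum.inl i))
    | Sum.inr (j, false) => k j
    | Sum.inr (j, true) => baseChange (algebraMap ℂ S) ρ (FreeGroup.of (Sum.inr (j, true)))

/-! ### The unframed surface group -/

/-- Generators: `inl (i, false) = a_i`, `inl (i, true) = b_i`, `inr j = c_j`. -/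
abbrev GenU (g n : ℕ) := (Fin g × Bool) ⊕ Fin n

/-- The free group on the `a_i, b_i, c_j`. -/
abbrev FU (g n : ℕ) := FreeGroup (GenU g n)

/-- The surface relator `c_0 ... c_{n-1} [a_0,b_0] ... [a_{g-1},b_{g-1}]`. -/
def relatorU (g n : ℕ) : FU g n :=
  (List.ofFn fun j : Fin n => (FreeGroup.of (Sum.inr j) : FU g n)).prod *
  (List.ofFn fun i : Fin g => (FreeGroup.of (Sum.inl (i, false)) * FreeGroup.of (Sum.inl (i, true)) *
    (FreeGroup.of (Sum.inl (i, false)))⁻¹ * (FreeGroup.of (Sum.inl (i, true)))⁻¹ : FU g n)).prod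

/-- Semisimple representations of the surface group with boundary classes `C_j`. -/
def YU (g : ℕ) (C : Fin n → (Mat r ℂ)ˣ) : Set (FU g n →* (Mat r ℂ)ˣ) :=
  {x | x (relatorU g n) = 1 ∧ (∀ j, IsConj (C j) (x (FreeGroup.of (Sum.inr j)))) ∧ SS x}

/-- Semisimple representations of the surface group with boundary classes `C_j` which are
integral up to scalars. -/
def DU (g : ℕ) {R : Type*} [CommRing R] (φ : R →+* ℂ) (C : Fin n → (Mat r ℂ)ˣ) :
    Set (FU g n →* (Mat r ℂ)ˣ) :=
  {x | x ∈ YU g C ∧ ∀ k, x (FreeGroup.of k) ∈ GR r φ}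

/-! ### Equations (stated here so that they are generated in this file) -/

theorem gA_eqn (i : Fin g) : (gA i : FF g n) = FreeGroup.of (Sum.inl (i, false)) := by rw [gA]

theorem gB_eqn (i : Fin g) : (gB i : FF g n) = FreeGroup.of (Sum.inl (i, true)) := by rw [gB]

theorem gD_eqn (j : Fin n) : (gD j : FF g n) = FreeGroup.of (Sum.inr (j, false)) := by rw [gD]

theorem gE_eqn (j : Fin n) : (gE j : FF g n) = FreeGroup.of (Sum.inr (j, true)) := by rw [gE]

theorem gC_eqn (j : Fin n) : (gC j : FF g n) = gD j * gE j * (gD j)⁻¹ := by rw [gC]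

theorem hcomm_eqn (i : Fin g) : (hcomm i : FF g n) = gA i * gB i * (gA i)⁻¹ * (gB i)⁻¹ := by
  rw [hcomm]

theorem relator_eqn : relator g n =
    (List.ofFn fun j : Fin n => gC j).prod * (List.ofFn fun i : Fin g => hcomm i).prod := by
  rw [relator]

theorem relatorU_eqn : relatorU g n = (List.ofFn fun j : Fin n =>
    (FreeGroup.of (Sum.inr j) : FU g n)).prod * (List.ofFn fun i : Fin g =>
      (FreeGroup.of (Sum.inl (i, false)) * FreeGroup.of (Sum.inl (i, true)) *
        (FreeGroup.of (Sum.inl (i, false)))⁻¹ * (FreeGroup.of (Sum.inl (i, true)))⁻¹ :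
          FU g n)).prod := by
  rw [relatorU]

theorem kap_eqn (q : Loop m n) : kap q = aftL (blk q) (blocks m n) := by rw [kap]

theorem loopW_eqn (q : Loop m n) : loopW q = (kap q)⁻¹ * loop0 q * kap q := by rw [loopW]

theorem aftL_nil_eqn (b : Fin n ⊕ Fin m) : aftL b [] = 1 := by rw [aftL]

theorem aftL_cons_eqn (b b' : Fin n ⊕ Fin m) (l : List (Fin n ⊕ Fin m)) :
    aftL b (b' :: l) = if b' = b then (l.map bw).prod else aftL b l := by rw [aftL]

theorem aftL_cases_eqn (b : Fin n ⊕ Fin m) (l : List (Fin n ⊕ Fin m)) :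
    aftL b l = 1 ∨ l ≠ [] := by
  unfold aftL
  split
  · exact Or.inl rfl
  · exact Or.inr (List.cons_ne_nil _ _)

theorem wP_nil_eqn {L : Type*} (P : L → (Mat r ℂ)ˣ) : wP P [] = 1 := by rw [wP]

theorem wP_cons_eqn {L : Type*} (P : L → (Mat r ℂ)ˣ) (q : L) (p : List L) :
    wP P (q :: p) = P q * wP P p := by rw [wP]

theorem wP_cases_eqn {L : Type*} (P : L → (Mat r ℂ)ˣ) (p : List L) : wP P p = 1 ∨ p ≠ [] := by
  unfold wP
  split
  · exact Or.inl rfl
  · exact Or.inr (List.cons_ne_nil _ _)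

theorem theta_nil_eqn {L : Type*} (P : L → (Mat r ℂ)ˣ) (R : L → Mat r ℂ) :
    theta P R [] = 0 := by rw [theta]

theorem theta_cons_eqn {L : Type*} (P : L → (Mat r ℂ)ˣ) (R : L → Mat r ℂ) (q : L) (p : List L) :
    theta P R (q :: p) = R q + (P q : Mat r ℂ) * theta P R p * (((P q)⁻¹ : (Mat r ℂ)ˣ) : Mat r ℂ) := by
  rw [theta]

theorem blk_eqn (j : Fin n) : blk (Sum.inl j : Loop m n) = Sum.inl j := by rw [blk]

theorem bw_eqn (j : Fin n) : (bw (Sum.inl j) : FF (m + 1) n) = gC j := by rw [bw]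

theorem loop0_eqn₁ (j : Fin n) : loop0 (Sum.inl j : Loop m n) = gC j := by rw [loop0]

theorem loop0_cases_eqn (q : Loop m n) : loop0 q = loop0 q := by
  unfold loop0
  split <;> rfl

theorem Lam_eqn₁ (x : FF (m + 1) n →* (Mat r ℂ)ˣ) (j : Fin n) (ε : Mat r ℂ)
    (k : Gen (m + 1) n) : Lam x (Sum.inl j) ε k =
      let ε' : Mat r ℂ := (x (kap (Sum.inl j)) : Mat r ℂ) * ε *
        (((x (kap (Sum.inl j)))⁻¹ : (Mat r ℂ)ˣ) : Mat r ℂ)
      if k = Sum.inr (j, false) then -(ε' * (x (gD j) : Mat r ℂ)) else 0 := by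
  rw [Lam]

theorem evalG_eqn {κ : Type*} (x : FreeGroup κ →* (Mat r ℂ)ˣ)
    (f : MvPolynomial (κ × Fin r × Fin r) ℂ) : evalG x f =
      MvPolynomial.aeval (fun p => (x (FreeGroup.of p.1) : Mat r ℂ) p.2.1 p.2.2) f := by
  rw [evalG]

theorem evalW_eqn {κ S : Type*} [CommRing S] [Algebra ℂ S] (x : FreeGroup κ →* (Mat r S)ˣ)
    (f : MvPolynomial (FreeGroup κ × Fin r × Fin r) ℂ) : evalW x f =
      MvPolynomial.aeval (fun p => (x p.1 : Mat r S) p.2.1 p.2.2) f := by
  rw [evalW]

end Vale.Agent.P002R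
end

section

/-!
# General groups and general coefficient rings: definitions
-/

namespace Vale.Agent.P002R

open Matrix

/-- Conditions on the coefficient ring. `E` is a group of complex numbers that contains `-1` and
all eigenvalues of the boundary classes; the ring contains all `k`-th roots of elements of `E`,
`k ≤ r`, and a unit which is free modulo `E`. -/
structure CoefOK {R : Type*} [CommRing R] (φ : R →+* ℂ) (E : Subgroup ℂˣ) (r : ℕ) : Prop where
  inj : Function.Injective φ
  neg : (-1 : ℂˣ) ∈ E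
  root : ∀ k : ℕ, 0 < k → k ≤ r → ∀ z : ℂˣ, z ^ k ∈ E → (z : ℂ) ∈ Set.range φ
  unit : ∃ u : Rˣ, ∀ k : ℕ, 0 < k → Units.map (φ : R →* ℂ) u ^ k ∉ E

/-- All eigenvalues are in `E`. -/
def EigIn (E : Subgroup ℂˣ) {r : ℕ} (M : Mat r ℂ) : Prop :=
  ∀ z : ℂ, M.charpoly.IsRoot z → ∃ e ∈ E, (e : ℂ) = z

variable {κ ι κ₁ ι₁ κ₂ ι₂ : Type} {r : ℕ}

/-- Semisimple representations of the group with generators `κ ⊕ ι` and relators `Rel`, with the
boundary generator `j : ι` in the class of `C j`. -/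
def YG (Rel : Set (FreeGroup (κ ⊕ ι))) (C : ι → (Mat r ℂ)ˣ) :
    Set (FreeGroup (κ ⊕ ι) →* (Mat r ℂ)ˣ) :=
  {x | (∀ w ∈ Rel, x w = 1) ∧ (∀ j, IsConj (C j) (x (FreeGroup.of (Sum.inr j)))) ∧ SS x}

/-- Those which are integral up to scalars. -/
def DG (Rel : Set (FreeGroup (κ ⊕ ι))) {R : Type*} [CommRing R] (φ : R →+* ℂ)
    (C : ι → (Mat r ℂ)ˣ) : Set (FreeGroup (κ ⊕ ι) →* (Mat r ℂ)ˣ) :=
  {x | x ∈ YG Rel C ∧ ∀ k, x (FreeGroup.of k) ∈ GR r φ}

/-- Those which are integral up to scalars and absolutely irreducible. -/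
def DGT (Rel : Set (FreeGroup (κ ⊕ ι))) {R : Type*} [CommRing R] (φ : R →+* ℂ)
    (C : ι → (Mat r ℂ)ˣ) : Set (FreeGroup (κ ⊕ ι) →* (Mat r ℂ)ˣ) :=
  {x | x ∈ DG Rel φ C ∧ Algebra.adjoin ℂ (Set.range fun w => (x w : Mat r ℂ)) = ⊤}

/-- Characters which are trivial on the boundary generators respect the relators. -/
def CharOK (Rel : Set (FreeGroup (κ ⊕ ι))) : Prop :=
  ∀ w ∈ Rel, ∀ (A : Type) [CommGroup A] (χ : FreeGroup (κ ⊕ ι) →* A),
    (∀ j, χ (FreeGroup.of (Sum.inr j)) = 1) → χ w = 1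

/-- Irreducible representations of dimension `r` are in the Zariski closure of the irreducible
integral ones (integral up to scalars), with the same boundary classes. -/
def IrrDense (Rel : Set (FreeGroup (κ ⊕ ι))) {R : Type*} [CommRing R] (φ : R →+* ℂ)
    (E : Subgroup ℂˣ) (r : ℕ) : Prop :=
  ∀ C : ι → (Mat r ℂ)ˣ, (∀ j, EigIn E (C j : Mat r ℂ)) → ∀ x ∈ YG Rel C,
    (∀ M : Mat r ℂ, (∀ w, Commute M (x w : Mat r ℂ)) → ∃ c : ℂ, M = c • (1 : Mat r ℂ)) →
    ∀ f : MvPolynomial ((κ ⊕ ι) × Fin r × Fin r) ℂ, (∀ y ∈ DGT Rel φ C, evalG y f = 0) →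
      evalG x f = 0

/-! ### Products -/

/-- Inclusion of the generators of the first factor. -/
def inc₁ : κ₁ ⊕ ι₁ → (κ₁ ⊕ κ₂) ⊕ (ι₁ ⊕ ι₂) := Sum.map Sum.inl Sum.inl

/-- Inclusion of the generators of the second factor. -/
def inc₂ : κ₂ ⊕ ι₂ → (κ₁ ⊕ κ₂) ⊕ (ι₁ ⊕ ι₂) := Sum.map Sum.inr Sum.inr

/-- The relators of the product of two groups. -/
def prodRel (Rel₁ : Set (FreeGroup (κ₁ ⊕ ι₁))) (Rel₂ : Set (FreeGroup (κ₂ ⊕ ι₂))) :
    Set (FreeGroup ((κ₁ ⊕ κ₂) ⊕ (ι₁ ⊕ ι₂))) :=
  (FreeGroup.map inc₁ '' Rel₁) ∪ (FreeGroup.map inc₂ '' Rel₂) ∪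
    {w | ∃ (k : κ₁ ⊕ ι₁) (l : κ₂ ⊕ ι₂), w =
      FreeGroup.of (inc₁ k) * FreeGroup.of (inc₂ l) * (FreeGroup.of (inc₁ k))⁻¹ *
        (FreeGroup.of (inc₂ l))⁻¹}

/-! ### Block data over a general coefficient ring -/

/-- Multiplicative independence modulo `E`, up to degree `D`. -/
def FreeMod (E : Subgroup ℂˣ) (D : ℕ) (τ : Fin r → ℂ) : Prop :=
  ∀ e e' : Fin r → ℕ, ∑ i, e i = ∑ i, e' i → ∑ i, e i ≤ D →
    (∃ ε ∈ E, ∏ i, τ i ^ e i = (ε : ℂ) * ∏ i, τ i ^ e' i) → e = e'

/-- Block data: after conjugation by `U` the matrices `P q` are block upper triangular for the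
block function `c`, the blocks are irreducible, `P q₀` is diagonal with distinct entries `α`, which
are the product of a block scalar `τ`, multiplicatively independent modulo `E`, and of elements of
`E`. -/
structure BlockDataE (E : Subgroup ℂˣ) {L : Type*} (P : L → (Mat r ℂ)ˣ) (q₀ : L) (U : (Mat r ℂ)ˣ)
    (α : Fin r → ℂ) (c : Fin r → Fin r) (τ : Fin r → ℂ) : Prop where
  diag : (P q₀ : Mat r ℂ) = (U : Mat r ℂ) * diagonal α * ((U⁻¹ : (Mat r ℂ)ˣ) : Mat r ℂ)
  inj : Function.Injective α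
  tri : ∀ q i j, c j < c i → ((U⁻¹ * P q * U : (Mat r ℂ)ˣ) : Mat r ℂ) i j = 0
  conn : ∀ i j, c i = c j → Relation.ReflTransGen
    (fun i j => ∃ q, ((U⁻¹ * P q * U : (Mat r ℂ)ˣ) : Mat r ℂ) i j ≠ 0) i j
  fac : ∀ i, ∃ ε ∈ E, α i = τ (c i) * (ε : ℂ)
  free : FreeMod E (2 * r + 3) τ

end Vale.Agent.P002R
end

section

/-! Jordan normal form over `ℂ`, with integral nilpotent part of arbitrary scale. -/

namespace Vale.Agent.P002

open Matrix

universe u

theorem jordan_vector {V : Type u} [AddCommGroup V] [Module ℂ V] [FiniteDimensional ℂ V]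
    [Nontrivial V] (T : Module.End ℂ V) :
    ∃ (lam : ℂ) (m : ℕ) (v : V) (φ : V →ₗ[ℂ] ℂ), 0 < m ∧ ((T - lam • 1) ^ m) v = 0 ∧
      (∀ x, φ (((T - lam • 1) ^ m) x) = 0) ∧ φ (((T - lam • 1) ^ (m - 1)) v) ≠ 0 := by
  classical
  obtain ⟨lam, hlam⟩ := Module.End.exists_eigenvalue T
  set N : Module.End ℂ V := T - lam • 1 with hN
  have hex : ∃ k : ℕ, LinearMap.ker (N ^ k) = LinearMap.ker (N ^ (k + 1)) := by
    obtain ⟨k, _, hk⟩ := Module.End.exists_ker_pow_eq_ker_pow_succ N
    exact ⟨k, hk⟩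
  have hspec := Nat.find_spec hex
  set m := Nat.find hex with hm
  have hm0 : 0 < m := by
    rcases Nat.eq_zero_or_pos m with h0 | h0
    · exfalso
      rw [h0] at hspec
      have h1 : LinearMap.ker N = ⊥ := by
        rw [zero_add, pow_one, pow_zero] at hspec
        rw [← hspec]
        exact LinearMap.ker_id
      apply hlam
      change Module.End.eigenspace T lam = ⊥
      rw [Module.End.eigenspace_def]
      exact h1
    · exact h0
  have hmin : LinearMap.ker (N ^ (m - 1)) ≠ LinearMap.ker (N ^ m) := by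
    have := Nat.find_min hex (m := m - 1) (by omega)
    rwa [Nat.sub_add_cancel hm0] at this
  have hle : LinearMap.ker (N ^ (m - 1)) ≤ LinearMap.ker (N ^ m) := by
    intro x hx
    rw [LinearMap.mem_ker] at hx ⊢
    have : N ^ m = N * N ^ (m - 1) := by
      rw [← pow_succ', Nat.sub_add_cancel hm0]
    rw [this, Module.End.mul_apply, hx, map_zero]
  obtain ⟨v, hv, hv'⟩ : ∃ v ∈ LinearMap.ker (N ^ m), v ∉ LinearMap.ker (N ^ (m - 1)) := by
    by_contra hcon
    push Not at hcon
    exact hmin (le_antisymm hle hcon)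
  have hnot : (N ^ (m - 1)) v ∉ LinearMap.range (N ^ m) := by
    rintro ⟨w, hw⟩
    have h1 : (N ^ (m + 1)) w = 0 := by
      rw [pow_succ', Module.End.mul_apply, hw]
      have : N ^ m = N * N ^ (m - 1) := by
        rw [← pow_succ', Nat.sub_add_cancel hm0]
      rw [LinearMap.mem_ker, this, Module.End.mul_apply] at hv
      exact hv
    have h2 : w ∈ LinearMap.ker (N ^ m) := by
      rw [hspec]
      exact h1
    rw [LinearMap.mem_ker] at h2 hv'
    rw [h2] at hw
    exact hv' hw.symm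
  obtain ⟨φ, hφ1, hφ2⟩ := Submodule.exists_le_ker_of_notMem hnot
  exact ⟨lam, m, v, φ, hm0, hv, fun x => hφ2 ⟨x, rfl⟩, hφ1⟩

/-- a Jordan basis indexed by a finite type -/
def HasJordan (V : Type u) [AddCommGroup V] [Module ℂ V] (T : Module.End ℂ V) : Prop :=
  ∃ (ι : Type) (_ : Fintype ι) (_ : DecidableEq ι) (b : Module.Basis ι ℂ V) (d : ι → ℂ)
    (pre : ι → Option ι) (h : ι → ℕ),
    (∀ j, T (b j) = d j • b j + (pre j).elim 0 b) ∧ ∀ i j, pre j = some i → h j = h i + 1

theorem exists_jordan_aux (n : ℕ) : ∀ (V : Type u) [AddCommGroup V] [Module ℂ V]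
    [FiniteDimensional ℂ V] (T : Module.End ℂ V), Module.finrank ℂ V = n → HasJordan V T := by
  classical
  induction n using Nat.strong_induction_on with
  | _ n ih =>
  intro V _ _ _ T hV
  rcases Nat.eq_zero_or_pos n with rfl | hn
  · have : Subsingleton V := Module.finrank_zero_iff.mp hV
    exact ⟨Empty, inferInstance, inferInstance, Module.Basis.empty V, fun j => j.elim,
      fun j => j.elim, fun j => j.elim, fun j => j.elim, fun i => i.elim⟩
  have : Nontrivial V := Module.finrank_pos_iff.mp (by omega : 0 < Module.finrank ℂ V)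
  obtain ⟨lam, m, v, φ, hm, hv, hφ0, hφ1⟩ := jordan_vector T
  set N : Module.End ℂ V := T - lam • 1 with hN
  have hT : ∀ x, T x = lam • x + N x := by
    intro x
    simp [hN]
  let α : (Fin m → ℂ) →ₗ[ℂ] V := Fintype.linearCombination ℂ fun k : Fin m => (N ^ (k : ℕ)) v
  have hα : ∀ a, α a = ∑ k, a k • (N ^ (k : ℕ)) v := fun a =>
    Fintype.linearCombination_apply ℂ _ a
  let β : V →ₗ[ℂ] (Fin m → ℂ) := LinearMap.pi fun k : Fin m => φ ∘ₗ (N ^ (k : ℕ))
  have hβ : ∀ x k, β x k = φ ((N ^ (k : ℕ)) x) := fun x k => rfl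
  have hvbig : ∀ k, m ≤ k → (N ^ k) v = 0 := by
    intro k hk
    obtain ⟨l, rfl⟩ := Nat.exists_eq_add_of_le' hk
    rw [pow_add, Module.End.mul_apply, hv, map_zero]
  have hinj : ∀ a, β (α a) = 0 → a = 0 := by
    intro a ha
    by_contra hne
    have hex : ∃ k : ℕ, ∃ hk : k < m, a ⟨k, hk⟩ ≠ 0 := by
      by_contra hcon
      push Not at hcon
      exact hne (funext fun k => hcon k k.2)
    obtain ⟨hk, hak⟩ := Nat.find_spec hex
    set k₀ := Nat.find hex with hk₀
    have hmin : ∀ k (hk : k < m), k < k₀ → a ⟨k, hk⟩ = 0 := by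
      intro k hk' hlt
      by_contra hcon
      exact Nat.find_min hex hlt ⟨hk', hcon⟩
    have h1 := congrFun ha ⟨m - 1 - k₀, by omega⟩
    rw [hβ, hα, map_sum, map_sum, Finset.sum_eq_single ⟨k₀, hk⟩] at h1
    · rw [map_smul, map_smul, ← Module.End.mul_apply, ← pow_add, smul_eq_mul] at h1
      simp only [Pi.zero_apply] at h1
      have e : m - 1 - k₀ + k₀ = m - 1 := by omega
      rw [e] at h1
      rcases mul_eq_zero.mp h1 with h2 | h2
      · exact hak h2
      · exact hφ1 h2
    · intro k _ hkne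
      rcases lt_or_ge (k : ℕ) k₀ with hlt | hge
      · rw [hmin k k.2 hlt, zero_smul, map_zero, map_zero]
      · have hgt : k₀ < (k : ℕ) := by
          rcases Nat.lt_or_eq_of_le hge with h | h
          · exact h
          · exact absurd (Fin.ext h.symm) hkne
        rw [map_smul, ← Module.End.mul_apply, ← pow_add, hvbig _ (by
          simp only
          omega), smul_zero, map_zero]
    · intro h
      exact absurd (Finset.mem_univ _) h
  let U := LinearMap.ker β
  have hUN : ∀ x ∈ U, N x ∈ U := by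
    intro x hx
    rw [LinearMap.mem_ker] at hx ⊢
    funext k
    rw [hβ, ← Module.End.mul_apply, ← pow_succ]
    by_cases hk : (k : ℕ) + 1 < m
    · have := congrFun hx ⟨(k : ℕ) + 1, hk⟩
      rw [hβ] at this
      exact this
    · have : (k : ℕ) + 1 = m := by omega
      rw [this, hφ0]
      rfl
  have hUT : ∀ x ∈ U, T x ∈ U := by
    intro x hx
    rw [hT]
    exact U.add_mem (U.smul_mem _ hx) (hUN x hx)
  let Φ : ((Fin m → ℂ) × U) →ₗ[ℂ] V := LinearMap.coprod α U.subtype
  have hΦ : ∀ p, Φ p = α p.1 + (p.2 : V) := fun p => rfl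
  have hβU : ∀ x : U, β (x : V) = 0 := fun x => x.2
  have hΦinj : Function.Injective Φ := by
    rw [← LinearMap.ker_eq_bot, LinearMap.ker_eq_bot']
    rintro ⟨a, x⟩ hp
    rw [hΦ] at hp
    have h1 : β (α a) = 0 := by
      have := congrArg β hp
      rw [map_add, hβU, add_zero, map_zero] at this
      exact this
    have ha := hinj a h1
    subst ha
    rw [map_zero, zero_add] at hp
    ext1
    · rfl
    · exact Subtype.ext hp
  have hsurj0 : Function.Surjective (β ∘ₗ α) := by
    rw [← LinearMap.injective_iff_surjective, ← LinearMap.ker_eq_bot, LinearMap.ker_eq_bot']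
    exact hinj
  have hΦsurj : Function.Surjective Φ := by
    intro x
    obtain ⟨a, ha⟩ := hsurj0 (β x)
    refine ⟨(a, ⟨x - α a, ?_⟩), ?_⟩
    · rw [LinearMap.mem_ker, map_sub, ← ha]
      exact sub_self _
    · rw [hΦ]
      simp
  let Ψ : ((Fin m → ℂ) × U) ≃ₗ[ℂ] V := LinearEquiv.ofBijective Φ ⟨hΦinj, hΦsurj⟩
  have hdim : Module.finrank ℂ U < n := by
    have h1 := Ψ.finrank_eq
    rw [Module.finrank_prod, Module.finrank_fin_fun, hV] at h1
    omega
  obtain ⟨ι, _, _, b, d, pre, h, hb1, hb2⟩ := ih _ hdim U (T.restrict hUT) rfl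
  refine ⟨Fin m ⊕ ι, inferInstance, inferInstance,
    (Module.Basis.prod (Pi.basisFun ℂ (Fin m)) b).map Ψ,
    Sum.elim (fun _ => lam) d,
    Sum.elim (fun k => if hk : (k : ℕ) + 1 < m then some (Sum.inl ⟨(k : ℕ) + 1, hk⟩) else none)
      (fun j => (pre j).map Sum.inr),
    Sum.elim (fun k => m - 1 - (k : ℕ)) h, ?_, ?_⟩
  · have hl : ∀ k : Fin m, ((Module.Basis.prod (Pi.basisFun ℂ (Fin m)) b).map Ψ) (Sum.inl k) =
        (N ^ (k : ℕ)) v := by
      intro k
      rw [Module.Basis.map_apply]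
      change Φ _ = _
      rw [hΦ, hα]
      simp [Pi.single_apply]
    have hr : ∀ j : ι, ((Module.Basis.prod (Pi.basisFun ℂ (Fin m)) b).map Ψ) (Sum.inr j) =
        (b j : V) := by
      intro j
      rw [Module.Basis.map_apply]
      change Φ _ = _
      rw [hΦ, hα]
      simp
    rintro (k | j)
    · simp only [hl, Sum.elim_inl]
      rw [hT, ← Module.End.mul_apply, ← pow_succ']
      congr 1
      by_cases hk : (k : ℕ) + 1 < m
      · rw [dif_pos hk, Option.elim_some, hl]
      · rw [dif_neg hk, Option.elim_none]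
        exact hvbig _ (by omega)
    · simp only [hr, Sum.elim_inr]
      have h1 := congrArg (fun z : U => (z : V)) (hb1 j)
      simp only [LinearMap.coe_restrict_apply, Submodule.coe_add, Submodule.coe_smul] at h1
      rw [h1]
      congr 1
      cases pre j with
      | none => rfl
      | some i => simp [hr]
  · rintro (i | i) (j | j) hij
    · simp only [Sum.elim_inl] at hij ⊢
      by_cases hk : (j : ℕ) + 1 < m
      · rw [dif_pos hk] at hij
        have : (i : ℕ) = (j : ℕ) + 1 := by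
          have := Sum.inl.inj (Option.some.inj hij)
          rw [← this]
        omega
      · rw [dif_neg hk] at hij
        exact absurd hij (by simp)
    · simp only [Sum.elim_inr] at hij
      cases hp : pre j with
      | none => rw [hp] at hij; simp at hij
      | some i' => rw [hp] at hij; simp at hij
    · simp only [Sum.elim_inl] at hij
      by_cases hk : (j : ℕ) + 1 < m
      · rw [dif_pos hk] at hij
        simp at hij
      · rw [dif_neg hk] at hij
        exact absurd hij (by simp)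
    · simp only [Sum.elim_inr] at hij ⊢
      cases hp : pre j with
      | none => rw [hp] at hij; simp at hij
      | some i' =>
        rw [hp] at hij
        simp only [Option.map_some, Option.some.injEq, Sum.inr.injEq] at hij
        subst hij
        exact hb2 _ _ hp


theorem charpoly_diag_add {r : ℕ} (d : Fin r → ℂ) (ν : Matrix (Fin r) (Fin r) ℤ)
    (hν : ∀ i j, ¬ i < j → ν i j = 0) (N₀ : ℂ) :
    (diagonal d + N₀ • ν.map (Int.cast : ℤ → ℂ)).charpoly =
      ∏ i, (Polynomial.X - Polynomial.C (d i)) := by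
  rw [Matrix.charpoly_of_isUpperTriangular]
  · refine Finset.prod_congr rfl fun k _ => ?_
    rw [Matrix.add_apply, Matrix.diagonal_apply_eq, Matrix.smul_apply, Matrix.map_apply,
      hν k k (lt_irrefl k)]
    simp
  · intro i j hij
    have hji : j < i := hij
    have h1 : (diagonal d + N₀ • ν.map (Int.cast : ℤ → ℂ)) i j = 0 := by
      rw [Matrix.add_apply, Matrix.smul_apply, Matrix.map_apply,
        hν i j (not_lt.mpr (le_of_lt hji)), Matrix.diagonal_apply_ne _ (ne_of_gt hji)]
      simp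
    exact h1

/-- JORDAN FORM. Every complex matrix is conjugate to `diagonal d + N • ν` with `ν` a strictly
upper triangular matrix of zeros and ones, for every nonzero scale `N`. -/
theorem exists_jordan {r : ℕ} (C : Matrix (Fin r) (Fin r) ℂ) :
    ∃ (d : Fin r → ℂ) (ν : Matrix (Fin r) (Fin r) ℤ),
      (∀ i j, ν i j = 0 ∨ ν i j = 1) ∧ (∀ i j, ¬ i < j → ν i j = 0) ∧
      C.charpoly = ∏ i, (Polynomial.X - Polynomial.C (d i)) ∧
      ∀ N₀ : ℂ, N₀ ≠ 0 → ∃ P : (Matrix (Fin r) (Fin r) ℂ)ˣ,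
        C = (P : Matrix (Fin r) (Fin r) ℂ) * (diagonal d + N₀ • ν.map (Int.cast : ℤ → ℂ)) *
          ((P⁻¹ : (Matrix (Fin r) (Fin r) ℂ)ˣ) : Matrix (Fin r) (Fin r) ℂ) := by
  classical
  obtain ⟨ι, _, _, b, d, pre, h, hb, hpre⟩ :=
    exists_jordan_aux r (Fin r → ℂ) (Matrix.mulVecLin C) (by simp)
  have hcard : Fintype.card ι = r := by
    rw [← Module.finrank_eq_card_basis b]
    simp
  let e₀ : ι ≃ Fin r := Fintype.equivFinOfCardEq hcard
  let f : Fin r → ℕ := fun k => h (e₀.symm k)
  let τ : Equiv.Perm (Fin r) := Tuple.sort f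
  have hmono : Monotone (f ∘ τ) := Tuple.monotone_sort f
  let e : ι ≃ Fin r := e₀.trans τ.symm
  have he : ∀ k, h (e.symm k) = (f ∘ τ) k := fun k => rfl
  have hlt : ∀ i j, h i < h j → e i < e j := by
    intro i j hij
    by_contra hcon
    push Not at hcon
    have := hmono hcon
    rw [← he, ← he, Equiv.symm_apply_apply, Equiv.symm_apply_apply] at this
    omega
  let ν : Matrix (Fin r) (Fin r) ℤ := Matrix.of fun i j =>
    if pre (e.symm j) = some (e.symm i) then 1 else 0
  have hν : ∀ i j, ν i j = if pre (e.symm j) = some (e.symm i) then 1 else 0 := fun i j => rfl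
  have hνlt : ∀ i j, ¬ i < j → ν i j = 0 := by
    intro i j hij
    rw [hν]
    by_cases hp : pre (e.symm j) = some (e.symm i)
    · exfalso
      apply hij
      have h1 := hpre _ _ hp
      have h2 := hlt (e.symm i) (e.symm j) (by omega)
      simpa using h2
    · rw [if_neg hp]
  have hconj : ∀ N₀ : ℂ, N₀ ≠ 0 → ∃ P : (Matrix (Fin r) (Fin r) ℂ)ˣ,
        C = (P : Matrix (Fin r) (Fin r) ℂ) * (diagonal (fun k => d (e.symm k)) +
          N₀ • ν.map (Int.cast : ℤ → ℂ)) *
          ((P⁻¹ : (Matrix (Fin r) (Fin r) ℂ)ˣ) : Matrix (Fin r) (Fin r) ℂ) := by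
    intro N₀ hN₀
    let b' : Module.Basis (Fin r) ℂ (Fin r → ℂ) := b.reindex e
    let b'' : Module.Basis (Fin r) ℂ (Fin r → ℂ) :=
      b'.unitsSMul fun k => (Units.mk0 N₀ hN₀) ^ (h (e.symm k))
    have hb'' : ∀ k, b'' k = N₀ ^ (h (e.symm k)) • b (e.symm k) := by
      intro k
      simp only [b'', b', Module.Basis.unitsSMul_apply, Module.Basis.reindex_apply]
      rw [Units.smul_def]
      simp
    let P₀ : Matrix (Fin r) (Fin r) ℂ := (Pi.basisFun ℂ (Fin r)).toMatrix b''
    have hP₀ : ∀ i j, P₀ i j = b'' j i := by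
      intro i j
      simp [P₀, Module.Basis.toMatrix_apply]
    have hu : IsUnit P₀ := by
      have := (Pi.basisFun ℂ (Fin r)).invertibleToMatrix b''
      exact isUnit_of_invertible _
    obtain ⟨P, hP⟩ := hu
    refine ⟨P, ?_⟩
    have key : C * P₀ = P₀ * (diagonal (fun k => d (e.symm k)) +
        N₀ • ν.map (Int.cast : ℤ → ℂ)) := by
      ext i j
      have h1 := congrFun (hb (e.symm j)) i
      rw [Matrix.mulVecLin_apply] at h1
      have h2 : (C * P₀) i j = N₀ ^ (h (e.symm j)) * (C *ᵥ (b (e.symm j))) i := by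
        rw [Matrix.mul_apply, Matrix.mulVec, dotProduct, Finset.mul_sum]
        refine Finset.sum_congr rfl fun k _ => ?_
        rw [hP₀, hb'', Pi.smul_apply, smul_eq_mul]
        ring
      rw [h2, h1, Matrix.mul_add, Matrix.add_apply, Matrix.mul_diagonal, hP₀, hb'']
      simp only [Pi.add_apply, Pi.smul_apply, smul_eq_mul, mul_add]
      congr 1
      · ring
      · rw [Matrix.mul_smul, Matrix.smul_apply, smul_eq_mul, Matrix.mul_apply]
        cases hp : pre (e.symm j) with
        | none =>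
          rw [Option.elim_none]
          rw [Finset.sum_eq_zero]
          · simp
          · intro k _
            rw [Matrix.map_apply, hν, hp]
            simp
        | some i' =>
          rw [Option.elim_some, Finset.sum_eq_single (e i')]
          · rw [Matrix.map_apply, hν, hp, Equiv.symm_apply_apply, if_pos rfl, hP₀, hb'',
              Equiv.symm_apply_apply, Pi.smul_apply, smul_eq_mul, Int.cast_one, mul_one,
              hpre _ _ hp, pow_succ]
            ring
          · intro k _ hk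
            rw [Matrix.map_apply, hν, hp, if_neg, Int.cast_zero, mul_zero]
            intro hcon
            apply hk
            rw [Option.some.inj hcon, Equiv.apply_symm_apply]
          · intro hcon
            exact absurd (Finset.mem_univ _) hcon
    rw [← hP] at key
    rw [← key, Matrix.mul_assoc, ← Units.val_mul, mul_inv_cancel, Units.val_one, Matrix.mul_one]
  refine ⟨fun k => d (e.symm k), ν, ?_, hνlt, ?_, hconj⟩
  · intro i j
    rw [hν]
    by_cases hp : pre (e.symm j) = some (e.symm i)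
    · right; rw [if_pos hp]
    · left; rw [if_neg hp]
  · obtain ⟨P, hP⟩ := hconj 1 one_ne_zero
    rw [hP, Matrix.mul_assoc, Matrix.charpoly_mul_comm, Matrix.mul_assoc, ← Units.val_mul,
      inv_mul_cancel, Units.val_one, Matrix.mul_one]
    exact charpoly_diag_add _ ν hνlt 1

end Vale.Agent.P002
end

section

/-! TASK Q: Jordan form. -/

namespace Vale.Agent.P002R

open Matrix

variable {r : ℕ}

theorem nilpotent_eigen (C : Mat r ℂ) (N : ℕ) (hC : IsNilpotent (C ^ N - 1)) (c : ℂ)
    (hc : C.charpoly.IsRoot c) : c ^ N = 1 := by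
  have h0 : (Matrix.scalar (Fin r) c - C).det = 0 := by
    rw [← Matrix.eval_charpoly]
    exact hc
  obtain ⟨v, hv0, hv⟩ := Matrix.exists_mulVec_eq_zero_iff.mpr h0
  have h1 : C *ᵥ v = c • v := by
    rw [Matrix.sub_mulVec, sub_eq_zero] at hv
    rw [← hv]
    ext i
    simp [Matrix.mulVec_diagonal]
  have h2 : ∀ k : ℕ, (C ^ k) *ᵥ v = c ^ k • v := by
    intro k
    induction k with
    | zero => simp
    | succ k ih =>
      rw [pow_succ', ← mulVec_mulVec, ih, mulVec_smul, h1, smul_smul, pow_succ]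
  have h3 : (C ^ N - 1) *ᵥ v = (c ^ N - 1) • v := by
    rw [Matrix.sub_mulVec, h2, one_mulVec, sub_smul, one_smul]
  have h4 : ∀ k : ℕ, ((C ^ N - 1) ^ k) *ᵥ v = (c ^ N - 1) ^ k • v := by
    intro k
    induction k with
    | zero => simp
    | succ k ih =>
      rw [pow_succ', ← mulVec_mulVec, ih, mulVec_smul, h3, smul_smul, pow_succ]
  obtain ⟨k, hk⟩ := hC
  have h5 := h4 k
  rw [hk, zero_mulVec] at h5
  have h6 : (c ^ N - 1) ^ k = 0 := by
    rcases smul_eq_zero.mp h5.symm with h | h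
    · exact h
    · exact absurd h hv0
  exact sub_eq_zero.mp (eq_zero_of_pow_eq_zero h6)

/-- TASK Q (file RJordan.lean) -/
theorem exists_jordan (C : Mat r ℂ) (N : ℕ) (_hN : 0 < N) (hC : IsNilpotent (C ^ N - 1)) :
    ∃ (d : Fin r → ℂ) (ν : Matrix (Fin r) (Fin r) ℤ), (∀ i, d i ^ N = 1) ∧
      (∀ i j, ¬ i < j → ν i j = 0) ∧ ∀ c : ℂ, c ≠ 0 → ∃ P : (Mat r ℂ)ˣ,
        C = (P : Mat r ℂ) * (diagonal d + c • ν.map (Int.castRingHom ℂ)) *
          ((P⁻¹ : (Mat r ℂ)ˣ) : Mat r ℂ) := by
  obtain ⟨d, ν, _, h2, h3, h4⟩ := P002.exists_jordan C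
  refine ⟨d, ν, ?_, h2, fun c hc => ?_⟩
  · intro i
    apply nilpotent_eigen C N hC
    rw [h3]
    simp only [Polynomial.IsRoot.def, Polynomial.eval_prod]
    apply Finset.prod_eq_zero (Finset.mem_univ i)
    simp
  · obtain ⟨P, hP⟩ := h4 c hc
    exact ⟨P, hP⟩

end Vale.Agent.P002R
end

section

/-! TASK G: arc lemma. -/

namespace Vale.Agent.P002

theorem coeff_zero_aeval {σ : Type*} (Ψ : MvPolynomial σ ℂ) (c : σ → PowerSeries ℂ) :
    PowerSeries.coeff 0 (MvPolynomial.aeval c Ψ) =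
      MvPolynomial.eval (fun i => PowerSeries.coeff 0 (c i)) Ψ := by
  induction Ψ using MvPolynomial.induction_on with
  | C a => simp
  | add p q hp hq => rw [map_add, map_add, map_add, hp, hq]
  | mul_X p i hp => simp at hp ⊢

theorem coeff_one_aeval {σ : Type*} [Fintype σ] (Ψ : MvPolynomial σ ℂ)
    (c : σ → PowerSeries ℂ) :
    PowerSeries.coeff 1 (MvPolynomial.aeval c Ψ) =
      ∑ i, MvPolynomial.eval (fun i => PowerSeries.coeff 0 (c i)) (MvPolynomial.pderiv i Ψ) *
        PowerSeries.coeff 1 (c i) := by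
  classical
  induction Ψ using MvPolynomial.induction_on with
  | C a => 
    rw [MvPolynomial.aeval_C]
    simp
  | add p q hp hq =>
    rw [map_add, map_add, hp, hq, ← Finset.sum_add_distrib]
    refine Finset.sum_congr rfl fun i _ => ?_
    rw [map_add, map_add, add_mul]
  | mul_X p i hp =>
    rw [map_mul, MvPolynomial.aeval_X, PowerSeries.coeff_one_mul,
      ← PowerSeries.coeff_zero_eq_constantCoeff_apply,
      ← PowerSeries.coeff_zero_eq_constantCoeff_apply, coeff_zero_aeval, hp, Finset.sum_mul]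
    have : ∀ j, MvPolynomial.eval (fun i => PowerSeries.coeff 0 (c i))
        (MvPolynomial.pderiv j (p * MvPolynomial.X i)) * PowerSeries.coeff 1 (c j) =
        MvPolynomial.eval (fun i => PowerSeries.coeff 0 (c i)) (MvPolynomial.pderiv j p) *
          PowerSeries.coeff 1 (c j) * PowerSeries.coeff 0 (c i) +
        (if j = i then PowerSeries.coeff 1 (c j) *
          MvPolynomial.eval (fun i => PowerSeries.coeff 0 (c i)) p else 0) := by
      intro j
      rw [Derivation.leibniz, MvPolynomial.pderiv_X]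
      simp only [smul_eq_mul, map_add, map_mul, MvPolynomial.eval_X]
      by_cases hji : j = i
      · subst hji
        rw [if_pos rfl, Pi.single_eq_same, map_one]
        ring
      · rw [if_neg hji, Pi.single_eq_of_ne (Ne.symm hji), map_zero]
        ring
    simp only [this]
    rw [Finset.sum_add_distrib, Finset.sum_ite_eq' Finset.univ i]
    simp

/-- telescoping -/
theorem sub_mem_pow_mul {A B : Type*} [CommRing A] [CommRing B] [Algebra ℂ A] [Algebra ℂ B]
    (α β : A →ₐ[ℂ] B) (m : Ideal A)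
    (N J : Ideal B) (hα : ∀ a ∈ m, α a ∈ N) (hβ : ∀ a ∈ m, β a ∈ N) (h : ∀ a, α a - β a ∈ J)
    (n : ℕ) : ∀ q ∈ m ^ (n + 1), α q - β q ∈ N ^ n * J := by
  induction n with
  | zero =>
    intro q _
    rw [pow_zero, Ideal.one_eq_top, Ideal.top_mul]
    exact h q
  | succ n ih =>
    intro q hq
    rw [pow_succ] at hq
    refine Submodule.mul_induction_on hq ?_ ?_
    · intro a ha b hb
      have e : α (a * b) - β (a * b) = (α a - β a) * α b + β a * (α b - β b) := by
        rw [map_mul, map_mul]; ring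
      rw [e]
      refine Ideal.add_mem _ ?_ ?_
      · have := Ideal.mul_mem_mul (ih a ha) (hα b hb)
        rw [pow_succ, mul_assoc, mul_comm N J, ← mul_assoc]
        exact this
      · refine Ideal.mul_mem_mul ?_ (h b)
        have : m ^ (n + 1) ≤ (N ^ (n + 1)).comap (β : A →+* B) := by
          refine le_trans (Ideal.pow_right_mono (I := m) (J := N.comap (β : A →+* B)) hβ (n + 1)) ?_
          exact Ideal.le_comap_pow (β : A →+* B) (n + 1)
        exact this ha
    · intro a b ha hb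
      have e : α (a + b) - β (a + b) = (α a - β a) + (α b - β b) := by
        rw [map_add, map_add]; ring
      rw [e]
      exact Ideal.add_mem _ ha hb

theorem map_pow_mem {A B : Type*} [CommRing A] [CommRing B] [Algebra ℂ A] [Algebra ℂ B]
    (θ : A →ₐ[ℂ] B) (m : Ideal A) (N : Ideal B) (h : ∀ a ∈ m, θ a ∈ N) (k : ℕ) :
    ∀ a ∈ m ^ k, θ a ∈ N ^ k := by
  intro a ha
  have : m ^ k ≤ (N ^ k).comap (θ : A →+* B) := by
    refine le_trans (Ideal.pow_right_mono (I := m) (J := N.comap (θ : A →+* B)) h k) ?_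
    exact Ideal.le_comap_pow (θ : A →+* B) k
  exact this ha

theorem algHom_sub_mem {σ B : Type*} [CommRing B] [Algebra ℂ B]
    (α β : MvPolynomial σ ℂ →ₐ[ℂ] B) (J : Ideal B)
    (h : ∀ i, α (MvPolynomial.X i) - β (MvPolynomial.X i) ∈ J) (a : MvPolynomial σ ℂ) :
    α a - β a ∈ J := by
  have : (Ideal.Quotient.mkₐ ℂ J).comp α = (Ideal.Quotient.mkₐ ℂ J).comp β := by
    apply MvPolynomial.algHom_ext
    intro i
    exact Ideal.Quotient.eq.mpr (h i)
  exact Ideal.Quotient.eq.mp (DFunLike.congr_fun this a)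

open MvPolynomial in
/-- linear part -/
theorem sub_linear_mem {σ : Type*} [Fintype σ] (q : MvPolynomial σ ℂ) :
    q - C (eval 0 q) - ∑ i, C (eval 0 (pderiv i q)) * X i ∈ idealOfVars σ ℂ ^ 2 := by
  classical
  induction q using MvPolynomial.induction_on with
  | C a => simp
  | add p q hp hq =>
    have := Ideal.add_mem _ hp hq
    convert this using 1
    simp only [map_add, add_mul, Finset.sum_add_distrib]
    ring
  | mul_X p j hp =>
    have h1 : ∑ i, C (eval 0 (pderiv i (p * X j))) * X i = C (eval 0 p) * X j := by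
      rw [Finset.sum_eq_single j]
      · rw [Derivation.leibniz, pderiv_X_self]
        simp
      · intro i _ hi
        rw [Derivation.leibniz, pderiv_X_of_ne hi.symm]
        simp
      · simp
    rw [h1, map_mul, eval_X]
    have h2 : p * X j - C (eval 0 p * (0 : σ → ℂ) j) - C (eval 0 p) * X j =
        (p - C (eval 0 p)) * X j := by
      simp; ring
    rw [h2, pow_two]
    refine Ideal.mul_mem_mul ?_ (Ideal.subset_span ⟨j, rfl⟩)
    have h3 := (mem_pow_idealOfVars_iff' 1 (p - C (eval 0 p))).mpr (by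
      intro x hx
      have hx0 : x = 0 := by
        rw [← Finsupp.degree_eq_zero_iff]; omega
      subst hx0
      rw [coeff_sub, coeff_zero_C, ← constantCoeff_eq, ← eval_zero, sub_self])
    rwa [pow_one] at h3


open MvPolynomial in
theorem mem_pow_succ_of_lines {σ : Type*} [Fintype σ] (q : MvPolynomial σ ℂ) (k : ℕ)
    (hq : q ∈ idealOfVars σ ℂ ^ k)
    (h : ∀ x : σ → ℂ, PowerSeries.coeff k
      (aeval (fun i => PowerSeries.C (x i) * PowerSeries.X : σ → PowerSeries ℂ) q) = 0) :
    q ∈ idealOfVars σ ℂ ^ (k + 1) := by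
  classical
  have hcoeff : ∀ (x : σ → ℂ) (p : MvPolynomial σ ℂ), PowerSeries.coeff k
      (aeval (fun i => PowerSeries.C (x i) * PowerSeries.X : σ → PowerSeries ℂ) p) =
      eval x (homogeneousComponent k p) := by
    intro x p
    induction p using MvPolynomial.induction_on' with
    | monomial d a =>
      rw [aeval_monomial]
      have h1 : d.prod (fun i n => (PowerSeries.C (x i) * PowerSeries.X : PowerSeries ℂ) ^ n) =
          PowerSeries.C (d.prod fun i n => x i ^ n) * PowerSeries.X ^ d.degree := by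
        have hdeg : d.degree = ∑ i ∈ d.support, d i := rfl
        rw [Finsupp.prod, Finsupp.prod, hdeg, map_prod, ← Finset.prod_pow_eq_pow_sum,
          ← Finset.prod_mul_distrib]
        refine Finset.prod_congr rfl fun i _ => ?_
        rw [mul_pow, map_pow]
      rw [h1]
      have h2 : homogeneousComponent k (monomial d a : MvPolynomial σ ℂ) =
          if d.degree = k then monomial d a else 0 := by
        by_cases hd : d.degree = k
        · rw [if_pos hd]
          exact homogeneousComponent_eq_self (isHomogeneous_monomial a hd)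
        · rw [if_neg hd]
          apply homogeneousComponent_eq_zero'
          intro e he
          rw [mem_support_iff, coeff_monomial] at he
          by_cases hde : d = e
          · subst hde; exact hd
          · rw [if_neg hde] at he; exact absurd rfl he
      rw [h2]
      have h3 : (algebraMap ℂ (PowerSeries ℂ) a) = PowerSeries.C a := rfl
      rw [h3, ← mul_assoc, ← map_mul, PowerSeries.coeff_C_mul, PowerSeries.coeff_X_pow]
      by_cases hd : d.degree = k
      · rw [if_pos hd, if_pos hd.symm, eval_monomial, mul_one]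
      · rw [if_neg hd, if_neg (Ne.symm hd), map_zero, mul_zero]
    | add p q hp hq => rw [map_add, map_add, map_add, map_add, hp, hq]
  have h0 : homogeneousComponent k q = 0 := by
    apply MvPolynomial.funext
    intro x
    rw [← hcoeff, h x, map_zero]
  rw [mem_pow_idealOfVars_iff'] at hq ⊢
  intro x hx
  by_cases hxk : x.degree = k
  · have := congrArg (coeff x) h0
    rwa [coeff_homogeneousComponent, if_pos hxk, coeff_zero] at this
  · exact hq x (by omega)



/-- linear forms as polynomials -/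
noncomputable def linPoly {σ : Type*} [Fintype σ] [DecidableEq σ] :
    ((σ → ℂ) →ₗ[ℂ] ℂ) →ₗ[ℂ] MvPolynomial σ ℂ where
  toFun := fun ψ => ∑ i, MvPolynomial.C (ψ (Pi.single i 1)) * MvPolynomial.X i
  map_add' := by
    intro a b
    simp only [LinearMap.add_apply, map_add, add_mul, Finset.sum_add_distrib]
  map_smul' := by
    intro c a
    simp only [LinearMap.smul_apply, smul_eq_mul, map_mul, RingHom.id_apply,
      Finset.smul_sum, MvPolynomial.smul_eq_C_mul, mul_assoc]

theorem linPoly_apply {σ : Type*} [Fintype σ] [DecidableEq σ] (ψ : (σ → ℂ) →ₗ[ℂ] ℂ) :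
    linPoly ψ = ∑ i, MvPolynomial.C (ψ (Pi.single i 1)) * MvPolynomial.X i := rfl

theorem exists_proj {σ ι : Type*} [Fintype σ] [DecidableEq σ] [Finite ι]
    (φ : ι → ((σ → ℂ) →ₗ[ℂ] ℂ)) :
    ∃ P : (σ → ℂ) →ₗ[ℂ] (σ → ℂ), (∀ v j, φ j (P v) = 0) ∧
      ∀ i, MvPolynomial.X i - linPoly ((LinearMap.proj i).comp P) ∈
        Ideal.span (Set.range fun j => linPoly (φ j)) := by
  let K : Submodule ℂ (σ → ℂ) := ⨅ j, LinearMap.ker (φ j)
  have hK : ∀ u, u ∈ K ↔ ∀ j, φ j u = 0 := by
    intro u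
    simp [K]
  obtain ⟨K', hKK'⟩ := Submodule.exists_isCompl K
  refine ⟨K.projection K' hKK', ?_, ?_⟩
  · intro v
    rw [← hK]
    exact (K.projectionOnto K' hKK' v).2
  · intro i
    have h1 : (LinearMap.proj i : (σ → ℂ) →ₗ[ℂ] ℂ) - (LinearMap.proj i).comp
        (K.projection K' hKK') ∈ Submodule.span ℂ (Set.range φ) := by
      apply mem_span_of_iInf_ker_le_ker
      intro u hu
      rw [LinearMap.mem_ker, LinearMap.sub_apply, LinearMap.comp_apply,
        (Submodule.projection_eq_self_iff hKK' u).mpr hu, sub_self]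
    have h2 : MvPolynomial.X i - linPoly ((LinearMap.proj i).comp (K.projection K' hKK')) =
        linPoly ((LinearMap.proj i : (σ → ℂ) →ₗ[ℂ] ℂ) -
        (LinearMap.proj i).comp (K.projection K' hKK')) := by
      rw [map_sub]
      congr 1
      rw [linPoly_apply, Finset.sum_eq_single i]
      · simp
      · intro b _ hb
        simp [hb.symm]
      · simp
    rw [h2]
    have h3 := Submodule.mem_map_of_mem (f := linPoly) h1
    rw [Submodule.map_span, ← Set.range_comp] at h3
    exact Submodule.span_le_restrictScalars ℂ (MvPolynomial σ ℂ) _ h3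

theorem idealOfVars_map_le {σ A : Type*} [CommRing A] [Algebra ℂ A]
    (α : MvPolynomial σ ℂ →ₐ[ℂ] A) (N : Ideal A) (h : ∀ i, α (MvPolynomial.X i) ∈ N) :
    ∀ a ∈ MvPolynomial.idealOfVars σ ℂ, α a ∈ N := by
  intro a ha
  have : MvPolynomial.idealOfVars σ ℂ ≤ N.comap (α : MvPolynomial σ ℂ →+* A) := by
    rw [MvPolynomial.idealOfVars, Ideal.span_le]
    rintro _ ⟨i, rfl⟩
    exact h i
  exact this ha

/-- a function in the `k`-th power of the maximal ideal, evaluated along an arc -/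
theorem coeff_arc {σ : Type*} [Fintype σ] (H : MvPolynomial σ ℂ) (k : ℕ)
    (hH : H ∈ MvPolynomial.idealOfVars σ ℂ ^ (k + 1)) (u : σ → ℂ) (c : σ → PowerSeries ℂ)
    (hc0 : ∀ i, PowerSeries.coeff 0 (c i) = 0) (hc1 : ∀ i, PowerSeries.coeff 1 (c i) = u i)
    (hcH : MvPolynomial.aeval c H = 0) :
    PowerSeries.coeff (k + 1) (MvPolynomial.aeval
      (fun i => PowerSeries.C (u i) * PowerSeries.X : σ → PowerSeries ℂ) H) = 0 := by
  let α : MvPolynomial σ ℂ →ₐ[ℂ] PowerSeries ℂ :=
    MvPolynomial.aeval (fun i => PowerSeries.C (u i) * PowerSeries.X)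
  let β : MvPolynomial σ ℂ →ₐ[ℂ] PowerSeries ℂ := MvPolynomial.aeval c
  let N : Ideal (PowerSeries ℂ) := Ideal.span {PowerSeries.X}
  have hmem : α H - β H ∈ N ^ k * N ^ 2 := by
    refine sub_mem_pow_mul α β (MvPolynomial.idealOfVars σ ℂ) N (N ^ 2) ?_ ?_ ?_ k H hH
    · refine idealOfVars_map_le α N ?_
      intro i
      simp only [α, MvPolynomial.aeval_X]
      exact Ideal.mul_mem_left _ _ (Ideal.subset_span rfl)
    · refine idealOfVars_map_le β N ?_
      intro i
      simp only [β, MvPolynomial.aeval_X]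
      rw [Ideal.mem_span_singleton, PowerSeries.X_dvd_iff,
        ← PowerSeries.coeff_zero_eq_constantCoeff_apply]
      exact hc0 i
    · intro b
      refine algHom_sub_mem α β (N ^ 2) ?_ b
      intro i
      simp only [α, β, MvPolynomial.aeval_X, N]
      rw [Ideal.span_singleton_pow, Ideal.mem_span_singleton, PowerSeries.X_pow_dvd_iff]
      intro n hn
      interval_cases n
      · rw [map_sub, hc0 i]; simp
      · rw [map_sub, hc1 i, PowerSeries.coeff_C_mul, PowerSeries.coeff_one_X, mul_one,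
          sub_self]
  have hβ : β H = 0 := hcH
  rw [hβ, sub_zero, ← pow_add, Ideal.span_singleton_pow, Ideal.mem_span_singleton,
    PowerSeries.X_pow_dvd_iff] at hmem
  exact hmem (k + 1) (by omega)

theorem aeval_lin {σ : Type*} [Fintype σ] [DecidableEq σ] (P : (σ → ℂ) →ₗ[ℂ] (σ → ℂ))
    (x : σ → ℂ) (H : MvPolynomial σ ℂ) :
    MvPolynomial.aeval (fun i => PowerSeries.C (x i) * PowerSeries.X : σ → PowerSeries ℂ)
      (MvPolynomial.aeval (fun i => linPoly ((LinearMap.proj i).comp P)) H) =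
    MvPolynomial.aeval (fun i => PowerSeries.C (P x i) * PowerSeries.X : σ → PowerSeries ℂ) H := by
  rw [← AlgHom.comp_apply, MvPolynomial.comp_aeval]
  congr 2
  funext i
  rw [linPoly_apply, map_sum]
  have hx : P x i = ∑ l, P (Pi.single l 1) i * x l := by
    conv_lhs => rw [← Finset.univ_sum_single x, map_sum, Finset.sum_apply]
    refine Finset.sum_congr rfl fun l _ => ?_
    have : (Pi.single l (x l) : σ → ℂ) = x l • Pi.single l 1 := by
      rw [← Pi.single_smul, smul_eq_mul, mul_one]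
    rw [this, map_smul, Pi.smul_apply, smul_eq_mul, mul_comm]
  rw [hx, map_sum, Finset.sum_mul]
  refine Finset.sum_congr rfl fun l _ => ?_
  rw [map_mul, MvPolynomial.aeval_X, map_mul, ← mul_assoc]
  congr 2
  exact MvPolynomial.aeval_C _ _

open MvPolynomial in
theorem arc_step {σ ι : Type*} [Fintype σ] [Finite ι] (Ψ : ι → MvPolynomial σ ℂ)
    (f : MvPolynomial σ ℂ) (hp : ∀ j, eval 0 (Ψ j) = 0)
    (harc : ∀ u : σ → ℂ,
      (∀ j, ∑ i, eval 0 (pderiv i (Ψ j)) * u i = 0) →
      ∃ c : σ → PowerSeries ℂ, (∀ i, PowerSeries.coeff 0 (c i) = 0) ∧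
        (∀ i, PowerSeries.coeff 1 (c i) = u i) ∧ aeval c f = 0 ∧
        ∀ j, aeval c (Ψ j) = 0) (k : ℕ) :
    f ∈ Ideal.span (Set.range Ψ) ⊔ idealOfVars σ ℂ ^ (k + 1) := by
  classical
  set I := Ideal.span (Set.range Ψ) with hI
  set m := idealOfVars σ ℂ with hm
  have hXm : ∀ i, (X i : MvPolynomial σ ℂ) ∈ m := fun i => Ideal.subset_span ⟨i, rfl⟩
  induction k with
  | zero =>
    obtain ⟨c, hc0, -, hcf, -⟩ := harc 0 (by simp)
    have h1 := coeff_zero_aeval f c
    rw [hcf, map_zero] at h1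
    have h2 : (fun i => PowerSeries.coeff 0 (c i)) = (0 : σ → ℂ) := funext hc0
    rw [h2] at h1
    refine Ideal.mem_sup_right ?_
    rw [mem_pow_idealOfVars_iff']
    intro x hx
    have hx0 : x = 0 := by
      rw [← Finsupp.degree_eq_zero_iff]; omega
    subst hx0
    rw [← constantCoeff_eq, ← eval_zero]
    exact h1.symm
  | succ k ih =>
    obtain ⟨a, ha, H, hH, rfl⟩ := Submodule.mem_sup.mp ih
    let φ : ι → ((σ → ℂ) →ₗ[ℂ] ℂ) := fun j =>
      ∑ i, (eval 0 (pderiv i (Ψ j))) • LinearMap.proj i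
    have hφ : ∀ j u, φ j u = ∑ i, eval 0 (pderiv i (Ψ j)) * u i := by
      intro j u
      simp [φ]
    obtain ⟨P, hP1, hXY⟩ := exists_proj φ
    set J : Ideal (MvPolynomial σ ℂ) := Ideal.span (Set.range fun j => linPoly (φ j)) with hJdef
    let θ : MvPolynomial σ ℂ →ₐ[ℂ] MvPolynomial σ ℂ :=
      aeval fun i => linPoly ((LinearMap.proj i).comp P)
    have hθX : ∀ i, θ (X i) = linPoly ((LinearMap.proj i).comp P) := fun i => aeval_X _ _
    have hθJ : ∀ a, (AlgHom.id ℂ (MvPolynomial σ ℂ)) a - θ a ∈ J := by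
      intro a
      refine algHom_sub_mem _ θ J (fun i => ?_) a
      rw [hθX]
      exact hXY i
    have hθm : ∀ a ∈ m, θ a ∈ m := by
      refine idealOfVars_map_le θ m ?_
      intro i
      rw [hθX, linPoly_apply]
      exact Ideal.sum_mem _ fun l _ => Ideal.mul_mem_left _ _ (hXm l)
    have h1 : H - θ H ∈ m ^ k * J :=
      sub_mem_pow_mul (AlgHom.id ℂ (MvPolynomial σ ℂ)) θ m m J (fun a h => h) hθm hθJ k H hH
    have hJ : J ≤ I ⊔ m ^ 2 := by
      rw [hJdef, Ideal.span_le]
      rintro _ ⟨j, rfl⟩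
      have h2 := sub_linear_mem (Ψ j)
      rw [hp j, map_zero, sub_zero] at h2
      have h3 : linPoly (φ j) = ∑ i, C (eval 0 (pderiv i (Ψ j))) * X i := by
        rw [linPoly_apply]
        refine Finset.sum_congr rfl fun i _ => ?_
        rw [hφ, Finset.sum_eq_single i]
        · simp
        · intro b _ hb
          simp [hb]
        · simp
      rw [← h3] at h2
      have h4 : linPoly (φ j) = Ψ j - (Ψ j - linPoly (φ j)) := by ring
      rw [SetLike.mem_coe]
      change linPoly (φ j) ∈ _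
      rw [h4]
      exact Ideal.sub_mem _ (Ideal.mem_sup_left (Ideal.subset_span ⟨j, rfl⟩))
        (Ideal.mem_sup_right h2)
    have h5 : H - θ H ∈ I ⊔ m ^ (k + 1 + 1) := by
      have h6 : m ^ k * J ≤ I ⊔ m ^ (k + 1 + 1) := by
        refine (Ideal.mul_mono_right hJ).trans ?_
        rw [Ideal.mul_sup]
        refine sup_le_sup Ideal.mul_le_right ?_
        rw [← pow_add]
      exact h6 h1
    have h7 : θ H ∈ m ^ (k + 1 + 1) := by
      apply mem_pow_succ_of_lines
      · exact map_pow_mem θ m m hθm (k + 1) H hH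
      · intro x
        obtain ⟨c, hc0, hc1, hcf, hcΨ⟩ := harc (P x) (fun j => by
          rw [← hφ]; exact hP1 x j)
        have hca : aeval c a = 0 := by
          have : I ≤ RingHom.ker (aeval c : MvPolynomial σ ℂ →ₐ[ℂ] PowerSeries ℂ) := by
            rw [hI, Ideal.span_le]
            rintro _ ⟨j, rfl⟩
            exact hcΨ j
          exact this ha
        have hcH : aeval c H = 0 := by
          rw [map_add, hca, zero_add] at hcf
          exact hcf
        rw [aeval_lin]
        exact coeff_arc H k hH (P x) c hc0 hc1 hcH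
    have h8 : a + H = a + (H - θ H) + θ H := by rw [add_assoc, sub_add_cancel]
    rw [h8]
    exact Ideal.add_mem _ (Ideal.add_mem _ (Ideal.mem_sup_left ha) h5) (Ideal.mem_sup_right h7)


open MvPolynomial in
theorem arc_lemma_zero {σ ι : Type*} [Fintype σ] [Finite ι] (Ψ : ι → MvPolynomial σ ℂ)
    (f : MvPolynomial σ ℂ) (hp : ∀ j, eval 0 (Ψ j) = 0)
    (harc : ∀ u : σ → ℂ,
      (∀ j, ∑ i, eval 0 (pderiv i (Ψ j)) * u i = 0) →
      ∃ c : σ → PowerSeries ℂ, (∀ i, PowerSeries.coeff 0 (c i) = 0) ∧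
        (∀ i, PowerSeries.coeff 1 (c i) = u i) ∧ aeval c f = 0 ∧
        ∀ j, aeval c (Ψ j) = 0) :
    ∃ h : MvPolynomial σ ℂ, eval 0 h ≠ 0 ∧ h * f ∈ Ideal.span (Set.range Ψ) := by
  set I := Ideal.span (Set.range Ψ) with hI
  set m := idealOfVars σ ℂ with hm
  have hall : ∀ k, f ∈ I ⊔ m ^ k := by
    intro k
    cases k with
    | zero => simp
    | succ k => exact arc_step Ψ f hp harc k
  let M := MvPolynomial σ ℂ ⧸ I
  let mk : MvPolynomial σ ℂ →ₗ[MvPolynomial σ ℂ] M := Submodule.mkQ I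
  have hx : mk f ∈ (⨅ i : ℕ, m ^ i • ⊤ : Submodule (MvPolynomial σ ℂ) M) := by
    rw [Submodule.mem_iInf]
    intro k
    obtain ⟨a, ha, b, hb, hab⟩ := Submodule.mem_sup.mp (hall k)
    have h1 : mk f = b • mk 1 := by
      rw [← hab, map_add, ← map_smul, smul_eq_mul, mul_one]
      have : mk a = 0 := (Submodule.Quotient.mk_eq_zero I).mpr ha
      rw [this, zero_add]
    rw [h1]
    exact Submodule.smul_mem_smul hb trivial
  obtain ⟨r, hr⟩ := (Ideal.mem_iInf_smul_pow_eq_bot_iff m (mk f)).mp hx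
  refine ⟨1 - (r : MvPolynomial σ ℂ), ?_, ?_⟩
  · have h0 : eval 0 (r : MvPolynomial σ ℂ) = 0 := by
      have := (mem_pow_idealOfVars_iff' 1 (r : MvPolynomial σ ℂ)).mp (by
        rw [pow_one]; exact r.2) 0 (by simp)
      rw [← constantCoeff_eq, ← eval_zero] at this
      exact this
    rw [map_sub, map_one, h0, sub_zero]
    exact one_ne_zero
  · have h2 : mk ((1 - (r : MvPolynomial σ ℂ)) * f) = 0 := by
      have : (1 - (r : MvPolynomial σ ℂ)) * f = f - (r : MvPolynomial σ ℂ) • f := by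
        rw [sub_mul, one_mul, smul_eq_mul]
      rw [this, map_sub, map_smul, hr, sub_self]
    exact (Submodule.Quotient.mk_eq_zero I).mp h2

/-- translation of variables -/
noncomputable def transl {σ : Type*} (p : σ → ℂ) : MvPolynomial σ ℂ →ₐ[ℂ] MvPolynomial σ ℂ :=
  MvPolynomial.aeval fun i => MvPolynomial.X i + MvPolynomial.C (p i)

theorem transl_X {σ : Type*} (p : σ → ℂ) (i : σ) :
    transl p (MvPolynomial.X i) = MvPolynomial.X i + MvPolynomial.C (p i) :=
  MvPolynomial.aeval_X _ _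

theorem transl_C {σ : Type*} (p : σ → ℂ) (a : ℂ) :
    transl p (MvPolynomial.C a) = MvPolynomial.C a :=
  MvPolynomial.aeval_C _ _

theorem transl_neg_transl {σ : Type*} (p : σ → ℂ) (q : MvPolynomial σ ℂ) :
    transl (-p) (transl p q) = q := by
  induction q using MvPolynomial.induction_on with
  | C a => rw [transl_C, transl_C]
  | add a b ha hb => rw [map_add, map_add, ha, hb]
  | mul_X a i ha =>
    rw [map_mul, map_mul, ha, transl_X, map_add, transl_X, transl_C, Pi.neg_apply, map_neg,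
      neg_add_cancel_right]

theorem eval_transl {σ : Type*} (p p' : σ → ℂ) (q : MvPolynomial σ ℂ) :
    MvPolynomial.eval p' (transl p q) = MvPolynomial.eval (p' + p) q := by
  induction q using MvPolynomial.induction_on with
  | C a => rw [transl_C, MvPolynomial.eval_C, MvPolynomial.eval_C]
  | add a b ha hb => rw [map_add, map_add, map_add, ha, hb]
  | mul_X a i ha =>
    rw [map_mul, map_mul, map_mul, ha, transl_X, map_add, MvPolynomial.eval_X,
      MvPolynomial.eval_C, MvPolynomial.eval_X, Pi.add_apply]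

theorem pderiv_transl {σ : Type*} (p : σ → ℂ) (q : MvPolynomial σ ℂ) (i : σ) :
    MvPolynomial.pderiv i (transl p q) = transl p (MvPolynomial.pderiv i q) := by
  classical
  induction q using MvPolynomial.induction_on with
  | C a => rw [transl_C, MvPolynomial.pderiv_C, map_zero]
  | add a b ha hb => rw [map_add, map_add, map_add, map_add, ha, hb]
  | mul_X a j ha =>
    rw [map_mul, Derivation.leibniz, Derivation.leibniz, ha, transl_X, map_add,
      MvPolynomial.pderiv_C, add_zero, smul_eq_mul, smul_eq_mul, smul_eq_mul, smul_eq_mul,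
      map_add, map_mul, map_mul, transl_X]
    congr 2
    by_cases hij : i = j
    · subst hij
      rw [MvPolynomial.pderiv_X_self, map_one]
    · rw [MvPolynomial.pderiv_X_of_ne (Ne.symm hij), map_zero]

theorem aeval_transl {σ : Type*} (p : σ → ℂ) (c : σ → PowerSeries ℂ) (q : MvPolynomial σ ℂ) :
    MvPolynomial.aeval (fun i => c i - PowerSeries.C (p i)) (transl p q) =
      MvPolynomial.aeval c q := by
  induction q using MvPolynomial.induction_on with
  | C a => rw [transl_C, MvPolynomial.aeval_C, MvPolynomial.aeval_C]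
  | add a b ha hb => rw [map_add, map_add, map_add, ha, hb]
  | mul_X a i ha =>
    have h1 : (MvPolynomial.aeval fun i => c i - PowerSeries.C (p i))
        (MvPolynomial.C (p i) : MvPolynomial σ ℂ) = PowerSeries.C (p i) :=
      MvPolynomial.aeval_C _ _
    rw [map_mul, map_mul, map_mul, ha, transl_X, map_add, MvPolynomial.aeval_X,
      MvPolynomial.aeval_X, h1, sub_add_cancel]

theorem arc_lemma {σ ι : Type*} [Fintype σ] [Finite ι] (Ψ : ι → MvPolynomial σ ℂ)
    (f : MvPolynomial σ ℂ) (p : σ → ℂ) (hp : ∀ j, MvPolynomial.eval p (Ψ j) = 0)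
    (harc : ∀ u : σ → ℂ,
      (∀ j, ∑ i, MvPolynomial.eval p (MvPolynomial.pderiv i (Ψ j)) * u i = 0) →
      ∃ c : σ → PowerSeries ℂ, (∀ i, PowerSeries.coeff 0 (c i) = p i) ∧
        (∀ i, PowerSeries.coeff 1 (c i) = u i) ∧ MvPolynomial.aeval c f = 0 ∧
        ∀ j, MvPolynomial.aeval c (Ψ j) = 0) :
    ∃ h : MvPolynomial σ ℂ, MvPolynomial.eval p h ≠ 0 ∧
      h * f ∈ Ideal.span (Set.range Ψ) := by
  obtain ⟨h, hh0, hhf⟩ := arc_lemma_zero (fun j => transl p (Ψ j)) (transl p f)
    (fun j => by rw [eval_transl, zero_add, hp j])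
    (by
      intro u hu
      obtain ⟨c, hc0, hc1, hcf, hcΨ⟩ := harc u (fun j => by
        rw [← hu j]
        refine Finset.sum_congr rfl fun i _ => ?_
        rw [pderiv_transl, eval_transl, zero_add])
      refine ⟨fun i => c i - PowerSeries.C (p i), ?_, ?_, ?_, ?_⟩
      · intro i
        rw [map_sub, hc0 i]
        simp
      · intro i
        rw [map_sub, hc1 i, PowerSeries.coeff_C]
        simp
      · rw [aeval_transl, hcf]
      · intro j
        rw [aeval_transl, hcΨ])
  refine ⟨transl (-p) h, ?_, ?_⟩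
  · rw [eval_transl, add_neg_cancel]
    exact hh0
  · have h1 := Ideal.mem_map_of_mem (transl (-p)) hhf
    rw [Ideal.map_span, map_mul, transl_neg_transl, ← Set.range_comp] at h1
    have h2 : (transl (-p)) ∘ (fun j => transl p (Ψ j)) = Ψ := by
      funext j
      exact transl_neg_transl p (Ψ j)
    rwa [h2] at h1

end Vale.Agent.P002
end

section

/-!
# P002R TASK S: slides of the last handle
-/

namespace Vale.Agent.P002R

namespace Slides

open Matrix

variable {m n r : ℕ}

theorem relator_eq_blocks (m n : ℕ) :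
    relator (m + 1) n = ((blocks m n).map bw).prod * hcomm (Fin.last m) := by
  unfold relator blocks
  rw [List.ofFn_succ', List.concat_eq_append, List.prod_append, List.map_append,
    List.prod_append, List.map_map, List.map_map, List.prod_singleton, ← mul_assoc,
    List.ofFn_eq_map, List.ofFn_eq_map]
  rfl

theorem blocks_nodup (m n : ℕ) : (blocks m n).Nodup := by
  unfold blocks
  rw [List.nodup_append]
  refine ⟨(List.nodup_finRange n).map Sum.inl_injective,
    (List.nodup_finRange m).map Sum.inr_injective, ?_⟩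
  intro a ha b hb
  rw [List.mem_map] at ha hb
  obtain ⟨i, -, rfl⟩ := ha
  obtain ⟨j, -, rfl⟩ := hb
  exact Sum.inl_ne_inr

theorem mem_blocks (b : Fin n ⊕ Fin m) : b ∈ blocks m n := by
  unfold blocks
  rw [List.mem_append, List.mem_map, List.mem_map]
  rcases b with j | i
  · exact Or.inl ⟨j, List.mem_finRange j, rfl⟩
  · exact Or.inr ⟨i, List.mem_finRange i, rfl⟩

theorem blocks_split (b : Fin n ⊕ Fin m) : ∃ l₁ l₂ : List (Fin n ⊕ Fin m),
    blocks m n = l₁ ++ b :: l₂ ∧ b ∉ l₁ ∧ b ∉ l₂ := by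
  obtain ⟨s, t, hst⟩ := List.append_of_mem (mem_blocks b)
  have hnd := blocks_nodup m n
  rw [hst, List.nodup_append] at hnd
  obtain ⟨_, h2, h3⟩ := hnd
  rw [List.nodup_cons] at h2
  exact ⟨s, t, hst, fun h => h3 b h b List.mem_cons_self rfl, h2.1⟩

theorem aftL_append (b : Fin n ⊕ Fin m) (l₁ l₂ : List (Fin n ⊕ Fin m)) (h : b ∉ l₁) :
    aftL b (l₁ ++ b :: l₂) = (l₂.map bw).prod := by
  induction l₁ with
  | nil => simp [aftL]
  | cons a l ih =>
    rw [List.mem_cons, not_or] at h
    rw [List.cons_append, aftL, if_neg fun hh => h.1 hh.symm, ih h.2]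

/-- The homomorphism `σ` fixes the generators outside the block `b` and the last handle, and
`b_m`. -/
structure Fix (b : Fin n ⊕ Fin m) (σ : FF (m + 1) n →* FF (m + 1) n) : Prop where
  hd : ∀ j, b ≠ Sum.inl j → σ (gD j) = gD j
  he : ∀ j, σ (gE j) = gE j
  ha : ∀ i : Fin m, b ≠ Sum.inr i → σ (gA i.castSucc) = gA i.castSucc
  hb : ∀ i : Fin m, b ≠ Sum.inr i → σ (gB i.castSucc) = gB i.castSucc
  hl : σ (gB (Fin.last m)) = gB (Fin.last m)

theorem Fix.bw_eq {b : Fin n ⊕ Fin m} {σ : FF (m + 1) n →* FF (m + 1) n} (hσ : Fix b σ)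
    (b' : Fin n ⊕ Fin m) (h : b ≠ b') : σ (bw b') = bw b' := by
  rcases b' with j | i
  · rw [bw, gC, map_mul, map_mul, map_inv, hσ.hd j h, hσ.he j]
  · rw [bw, Vale.Agent.P002R.hcomm, map_mul, map_mul, map_mul, map_inv, map_inv, hσ.ha i h,
      hσ.hb i h]

theorem Fix.prod_eq {b : Fin n ⊕ Fin m} {σ : FF (m + 1) n →* FF (m + 1) n} (hσ : Fix b σ)
    (l : List (Fin n ⊕ Fin m)) (h : b ∉ l) : σ (l.map bw).prod = (l.map bw).prod := by
  induction l with
  | nil => simp
  | cons a l ih =>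
    rw [List.mem_cons, not_or] at h
    rw [List.map_cons, List.prod_cons, map_mul, ih h.2, hσ.bw_eq a h.1]

theorem gC_mem (j : Fin n) : gC j ∈ Fc (m + 1) n :=
  Subgroup.subset_closure (Or.inr ⟨j, rfl⟩)

theorem inl_mem (k : Fin (m + 1) × Bool) : FreeGroup.of (Sum.inl k) ∈ Fc (m + 1) n :=
  Subgroup.subset_closure (Or.inl ⟨k, rfl⟩)

theorem bw_mem (b : Fin n ⊕ Fin m) : bw b ∈ Fc (m + 1) n := by
  rcases b with j | i
  · exact gC_mem j
  · exact mul_mem (mul_mem (mul_mem (inl_mem _) (inl_mem _)) (inv_mem (inl_mem _)))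
      (inv_mem (inl_mem _))

theorem prod_mem' (l : List (Fin n ⊕ Fin m)) : (l.map bw).prod ∈ Fc (m + 1) n := by
  refine list_prod_mem fun w hw => ?_
  rw [List.mem_map] at hw
  obtain ⟨b, -, rfl⟩ := hw
  exact bw_mem b

/-- The part of the block of `q` before `loop0 q`. -/
def preW : Loop m n → FF (m + 1) n
  | Sum.inl _ => 1
  | Sum.inr (i, false) => gA i.castSucc
  | Sum.inr (i, true) => gA i.castSucc * gB i.castSucc * (gA i.castSucc)⁻¹

theorem bw_blk (q : Loop m n) : bw (blk q) = preW q * loop0 q := by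
  rcases q with j | ⟨i, b⟩
  · rw [preW, one_mul]
    rfl
  · cases b
    · show Vale.Agent.P002R.hcomm i.castSucc = gA i.castSucc *
        (gB i.castSucc * (gA i.castSucc)⁻¹ * (gB i.castSucc)⁻¹)
      rw [Vale.Agent.P002R.hcomm]
      group
    · show Vale.Agent.P002R.hcomm i.castSucc = gA i.castSucc * gB i.castSucc *
        (gA i.castSucc)⁻¹ * (gB i.castSucc)⁻¹
      rw [Vale.Agent.P002R.hcomm]

theorem loop0_mem (q : Loop m n) : loop0 q ∈ Fc (m + 1) n := by
  rcases q with j | ⟨i, b⟩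
  · exact gC_mem j
  · cases b
    · exact mul_mem (mul_mem (inl_mem _) (inv_mem (inl_mem _))) (inv_mem (inl_mem _))
    · exact inv_mem (inl_mem _)

/-- The conjugate of `b_m` used in the slide. -/
def Xt (q : Loop m n) : FF (m + 1) n :=
  kap q * (gA (Fin.last m) * gB (Fin.last m) * (gA (Fin.last m))⁻¹) * (kap q)⁻¹

theorem kap_mem (q : Loop m n) : kap q ∈ Fc (m + 1) n := by
  obtain ⟨l₁, l₂, h1, h2, _⟩ := blocks_split (blk q)
  rw [kap, h1, aftL_append _ _ _ h2]
  exact prod_mem' l₂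

theorem Xt_mem (q : Loop m n) : Xt q ∈ Fc (m + 1) n :=
  mul_mem (mul_mem (kap_mem q) (mul_mem (mul_mem (inl_mem _) (inl_mem _)) (inv_mem (inl_mem _))))
    (inv_mem (kap_mem q))

theorem Fix.kap_eq {q : Loop m n} {σ : FF (m + 1) n →* FF (m + 1) n} (hσ : Fix (blk q) σ) :
    σ (kap q) = kap q := by
  obtain ⟨l₁, l₂, h1, h2, h3⟩ := blocks_split (blk q)
  rw [kap, h1, aftL_append _ _ _ h2, hσ.prod_eq l₂ h3]

theorem relator_split (q : Loop m n) : ∃ w : FF (m + 1) n,
    relator (m + 1) n = w * preW q * loop0 q * Xt q * kap q * (gB (Fin.last m))⁻¹ ∧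
      ∀ σ, Fix (blk q) σ → σ w = w := by
  obtain ⟨l₁, l₂, h1, h2, h3⟩ := blocks_split (blk q)
  refine ⟨(l₁.map bw).prod, ?_, fun σ hσ => hσ.prod_eq l₁ h2⟩
  have hk : kap q = (l₂.map bw).prod := by rw [kap, h1, aftL_append _ _ _ h2]
  rw [relator_eq_blocks, h1, List.map_append, List.map_cons, List.prod_append, List.prod_cons,
    bw_blk, ← hk, Xt, Vale.Agent.P002R.hcomm]
  group

theorem slide_rel {q : Loop m n} {σ : FF (m + 1) n →* FF (m + 1) n} (hσ : Fix (blk q) σ)
    (hC : σ (gA (Fin.last m)) = (kap q)⁻¹ * loop0 q * kap q * gA (Fin.last m))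
    (hq : σ (loop0 q) = loop0 q * Xt q * loop0 q * (Xt q)⁻¹ * (loop0 q)⁻¹)
    (hp : σ (preW q) = preW q) :
    σ (Xt q) = loop0 q * Xt q * (loop0 q)⁻¹ ∧ σ (relator (m + 1) n) = relator (m + 1) n := by
  have hX : σ (Xt q) = loop0 q * Xt q * (loop0 q)⁻¹ := by
    rw [Xt]
    simp only [map_mul, map_inv, hσ.kap_eq, hC, hσ.hl]
    group
  refine ⟨hX, ?_⟩
  obtain ⟨w, hw, hw'⟩ := relator_split q
  rw [hw]
  simp only [map_mul, map_inv, hσ.kap_eq, hq, hX, hσ.hl, hp, hw' σ hσ]
  group

theorem slide_rel_inv {q : Loop m n} {τ : FF (m + 1) n →* FF (m + 1) n} (hτ : Fix (blk q) τ)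
    (hC : τ (gA (Fin.last m)) =
      (kap q)⁻¹ * (Xt q)⁻¹ * (loop0 q)⁻¹ * Xt q * kap q * gA (Fin.last m))
    (hq : τ (loop0 q) = (Xt q)⁻¹ * loop0 q * Xt q)
    (hp : τ (preW q) = preW q) :
    τ (Xt q) = (Xt q)⁻¹ * (loop0 q)⁻¹ * Xt q * loop0 q * Xt q ∧
      τ (relator (m + 1) n) = relator (m + 1) n := by
  have hX : τ (Xt q) = (Xt q)⁻¹ * (loop0 q)⁻¹ * Xt q * loop0 q * Xt q := by
    have h1 : τ (Xt q) = (Xt q)⁻¹ * (loop0 q)⁻¹ * Xt q * (kap q *
        (gA (Fin.last m) * gB (Fin.last m) * (gA (Fin.last m))⁻¹) * (kap q)⁻¹) *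
        ((Xt q)⁻¹ * loop0 q * Xt q) := by
      have h2 : τ (Xt q) = τ (kap q * (gA (Fin.last m) * gB (Fin.last m) *
        (gA (Fin.last m))⁻¹) * (kap q)⁻¹) := rfl
      rw [h2]
      simp only [map_mul, map_inv, hτ.kap_eq, hC, hτ.hl]
      group
    rw [h1]
    show (Xt q)⁻¹ * (loop0 q)⁻¹ * Xt q * Xt q * ((Xt q)⁻¹ * loop0 q * Xt q) = _
    group
  refine ⟨hX, ?_⟩
  obtain ⟨w, hw, hw'⟩ := relator_split q
  rw [hw]
  simp only [map_mul, map_inv, hτ.kap_eq, hq, hX, hτ.hl, hp, hw' τ hτ]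
  group

/-- General construction of the slide from formulas on the block. -/
theorem slide_build (q : Loop m n) (σ τ : FF (m + 1) n →* FF (m + 1) n)
    (hσ : Fix (blk q) σ) (hτ : Fix (blk q) τ)
    (σC : σ (gA (Fin.last m)) = (kap q)⁻¹ * loop0 q * kap q * gA (Fin.last m))
    (τC : τ (gA (Fin.last m)) =
      (kap q)⁻¹ * (Xt q)⁻¹ * (loop0 q)⁻¹ * Xt q * kap q * gA (Fin.last m))
    (σq : σ (loop0 q) = loop0 q * Xt q * loop0 q * (Xt q)⁻¹ * (loop0 q)⁻¹)
    (τq : τ (loop0 q) = (Xt q)⁻¹ * loop0 q * Xt q)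
    (σp : σ (preW q) = preW q) (τp : τ (preW q) = preW q)
    (σd : ∀ j, ∃ u ∈ Fc (m + 1) n, σ (gD j) = u * gD j)
    (τd : ∀ j, ∃ u ∈ Fc (m + 1) n, τ (gD j) = u * gD j)
    (σab : ∀ k, σ (FreeGroup.of (Sum.inl k)) ∈ Fc (m + 1) n)
    (τab : ∀ k, τ (FreeGroup.of (Sum.inl k)) ∈ Fc (m + 1) n)
    (hτσ : ∀ k, k ≠ Sum.inl (Fin.last m, false) → τ (σ (FreeGroup.of k)) = FreeGroup.of k)
    (hστ : ∀ k, k ≠ Sum.inl (Fin.last m, false) → σ (τ (FreeGroup.of k)) = FreeGroup.of k) :
    ∃ e : FF (m + 1) n ≃* FF (m + 1) n, (∀ w, e w = σ w) ∧ (∀ w, e.symm w = τ w) ∧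
      Adm e ∧ Adm e.symm := by
  obtain ⟨σX, σR⟩ := slide_rel hσ σC σq σp
  obtain ⟨τX, τR⟩ := slide_rel_inv hτ τC τq τp
  have h1 : τ.comp σ = MonoidHom.id _ := by
    refine FreeGroup.ext_hom _ _ fun k => ?_
    rw [MonoidHom.comp_apply, MonoidHom.id_apply]
    by_cases hk : k = Sum.inl (Fin.last m, false)
    · subst hk
      show τ (σ (gA (Fin.last m))) = gA (Fin.last m)
      rw [σC]
      simp only [map_mul, map_inv, hτ.kap_eq, τC, τq]
      group
    · exact hτσ k hk
  have h2 : σ.comp τ = MonoidHom.id _ := by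
    refine FreeGroup.ext_hom _ _ fun k => ?_
    rw [MonoidHom.comp_apply, MonoidHom.id_apply]
    by_cases hk : k = Sum.inl (Fin.last m, false)
    · subst hk
      show σ (τ (gA (Fin.last m))) = gA (Fin.last m)
      rw [τC]
      simp only [map_mul, map_inv, hσ.kap_eq, σC, σq, σX]
      group
    · exact hστ k hk
  refine ⟨MonoidHom.toMulEquiv σ τ h1 h2, fun w => rfl, fun w => rfl, ?_, ?_⟩
  · exact ⟨σR, hσ.he, σd, σab⟩
  · exact ⟨τR, hτ.he, τd, τab⟩

section der

variable {κ : Type*} {x : FreeGroup κ →* (Mat r ℂ)ˣ} {E : FreeGroup κ → Mat r ℂ}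

theorem der_one (hE : IsDer x E) : E 1 = 0 := by
  have h := hE 1 1
  rw [mul_one, map_one, Units.val_one, Matrix.mul_one, Matrix.one_mul] at h
  exact (add_eq_left.1 h.symm)

/-- Derivation of a conjugate of an element of the kernel. -/
theorem der_conj (hE : IsDer x E) (w c : FreeGroup κ) (hc : x c = 1) :
    E (w * c * w⁻¹) = (x w : Mat r ℂ) * E c * (((x w)⁻¹ : (Mat r ℂ)ˣ) : Mat r ℂ) := by
  have h0 : E w * (((x w)⁻¹ : (Mat r ℂ)ˣ) : Mat r ℂ) + (x w : Mat r ℂ) * E w⁻¹ = 0 := by
    have h := hE w w⁻¹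
    rw [mul_inv_cancel, der_one hE, map_inv] at h
    exact h.symm
  have h3 : E (w * c) = E w + (x w : Mat r ℂ) * E c := by
    rw [hE, hc, Units.val_one, Matrix.mul_one]
  rw [hE, h3, map_mul, hc, mul_one, map_inv, Matrix.add_mul]
  rw [add_right_comm, h0, zero_add]

theorem der_inv_mul (hE : IsDer x E) (c w : FreeGroup κ) (hc : x c = 1) :
    E (c⁻¹ * w) = E w - E c * (x w : Mat r ℂ) := by
  have h1 : E (c⁻¹) = - E c := by
    have h := hE c c⁻¹
    rw [mul_inv_cancel, der_one hE, map_inv, hc, inv_one, Units.val_one, Matrix.mul_one,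
      Matrix.one_mul] at h
    exact (neg_eq_of_add_eq_zero_right h.symm).symm
  rw [hE, h1, map_inv, hc, inv_one, Units.val_one, Matrix.one_mul, Matrix.neg_mul]
  abel

theorem der_mul_ker (hE : IsDer x E) (w c : FreeGroup κ) (hc : x c = 1) :
    E (w * c) = E w + (x w : Mat r ℂ) * E c := by
  rw [hE, hc, Units.val_one, Matrix.mul_one]

end der

theorem x_Xt {G : Type*} [Group G] (x : FF (m + 1) n →* G) (hx : x (gB (Fin.last m)) = 1)
    (q : Loop m n) : x (Xt q) = 1 := by
  rw [Xt]
  simp only [map_mul, map_inv, hx]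
  group

theorem E_Xt (x : FF (m + 1) n →* (Mat r ℂ)ˣ) (hx : x (gB (Fin.last m)) = 1)
    {E : FF (m + 1) n → Mat r ℂ} (hE : IsDer x E) (q : Loop m n) :
    E (Xt q) = (x (kap q) : Mat r ℂ) * ((x (gA (Fin.last m)) : Mat r ℂ) *
      E (gB (Fin.last m)) * (((x (gA (Fin.last m)))⁻¹ : (Mat r ℂ)ˣ) : Mat r ℂ)) *
        (((x (kap q))⁻¹ : (Mat r ℂ)ˣ) : Mat r ℂ) := by
  rw [Xt, der_conj hE _ _ (by simp [hx]), der_conj hE _ _ hx]

theorem exists_hom2 {κ G : Type*} [DecidableEq κ] [Group G] (f : κ → G) (k₁ k₂ : κ)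
    (h : k₂ ≠ k₁) (v₁ v₂ : G) : ∃ σ : FreeGroup κ →* G, σ (FreeGroup.of k₁) = v₁ ∧
      σ (FreeGroup.of k₂) = v₂ ∧ ∀ k, k ≠ k₁ → k ≠ k₂ → σ (FreeGroup.of k) = f k := by
  refine ⟨FreeGroup.lift fun k => if k = k₁ then v₁ else if k = k₂ then v₂ else f k,
    ?_, ?_, ?_⟩
  · rw [FreeGroup.lift_apply_of, if_pos rfl]
  · rw [FreeGroup.lift_apply_of, if_neg h, if_pos rfl]
  · intro k h1 h2
    rw [FreeGroup.lift_apply_of, if_neg h1, if_neg h2]

theorem exists_hom3 {κ G : Type*} [DecidableEq κ] [Group G] (f : κ → G) (k₁ k₂ k₃ : κ)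
    (h : k₂ ≠ k₁) (h' : k₃ ≠ k₁) (h'' : k₃ ≠ k₂) (v₁ v₂ v₃ : G) :
    ∃ σ : FreeGroup κ →* G, σ (FreeGroup.of k₁) = v₁ ∧
      σ (FreeGroup.of k₂) = v₂ ∧ σ (FreeGroup.of k₃) = v₃ ∧
        ∀ k, k ≠ k₁ → k ≠ k₂ → k ≠ k₃ → σ (FreeGroup.of k) = f k := by
  refine ⟨FreeGroup.lift fun k => if k = k₁ then v₁ else if k = k₂ then v₂ else
    if k = k₃ then v₃ else f k, ?_, ?_, ?_, ?_⟩
  · rw [FreeGroup.lift_apply_of, if_pos rfl]
  · rw [FreeGroup.lift_apply_of, if_neg h, if_pos rfl]
  · rw [FreeGroup.lift_apply_of, if_neg h', if_neg h'', if_pos rfl]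
  · intro k h1 h2 h3
    rw [FreeGroup.lift_apply_of, if_neg h1, if_neg h2, if_neg h3]

/-- The statement about the slide around the loop `q`. -/
def SlideStatement (q : Loop m n) : Prop :=
    ∃ σ : FF (m + 1) n ≃* FF (m + 1) n, Adm σ ∧ Adm σ.symm ∧
      σ (gB (Fin.last m)) = gB (Fin.last m) ∧
      (∀ {G : Type} [Group G] (x : FF (m + 1) n →* G), x (gB (Fin.last m)) = 1 →
        x (σ (gA (Fin.last m))) = x (loopW q) * x (gA (Fin.last m)) ∧
          ∀ k, k ≠ Sum.inl (Fin.last m, false) →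
            x (σ (FreeGroup.of k)) = x (FreeGroup.of k)) ∧
      (∀ (r : ℕ) (x : FF (m + 1) n →* (Mat r ℂ)ˣ), x (gB (Fin.last m)) = 1 →
        ∀ E : FF (m + 1) n → Mat r ℂ, IsDer x E → ∀ k, k ≠ Sum.inl (Fin.last m, false) →
          E (σ.symm (FreeGroup.of k)) = E (FreeGroup.of k) +
            Lam x q ((x (gA (Fin.last m)) : Mat r ℂ) * E (gB (Fin.last m)) *
              (((x (gA (Fin.last m)))⁻¹ : (Mat r ℂ)ˣ) : Mat r ℂ)) k)

theorem slide_puncture (j : Fin n) : SlideStatement (m := m) (Sum.inl j) := by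
  obtain ⟨q, hq⟩ : ∃ q : Loop m n, q = Sum.inl j := ⟨_, rfl⟩
  rw [← hq]
  have hne : (Sum.inl (Fin.last m, false) : Gen (m + 1) n) ≠ Sum.inr (j, false) := Sum.inl_ne_inr
  have hq0 : loop0 q = gC j := by rw [hq]; rfl
  have hpre : preW q = 1 := by rw [hq]; rfl
  have hblk : blk q = Sum.inl j := by rw [hq]; rfl
  obtain ⟨σ, σd, σC, σo⟩ := exists_hom2 (FreeGroup.of : Gen (m + 1) n → FF (m + 1) n)
    (Sum.inr (j, false)) (Sum.inl (Fin.last m, false)) hne
    (gC j * Xt q * (gC j)⁻¹ * gD j) ((kap q)⁻¹ * loop0 q * kap q * gA (Fin.last m))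
  obtain ⟨τ, τd, τC, τo⟩ := exists_hom2 (FreeGroup.of : Gen (m + 1) n → FF (m + 1) n)
    (Sum.inr (j, false)) (Sum.inl (Fin.last m, false)) hne
    ((Xt q)⁻¹ * gD j) ((kap q)⁻¹ * (Xt q)⁻¹ * (loop0 q)⁻¹ * Xt q * kap q * gA (Fin.last m))
  have hfix : ∀ ρ : FF (m + 1) n →* FF (m + 1) n, (∀ k, k ≠ Sum.inr (j, false) →
      k ≠ Sum.inl (Fin.last m, false) → ρ (FreeGroup.of k) = FreeGroup.of k) →
        Fix (blk q) ρ := by
    intro ρ hρ
    rw [hblk]
    refine ⟨fun j' hj' => hρ _ ?_ Sum.inr_ne_inl, fun j' => hρ _ (by simp) Sum.inr_ne_inl,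
      fun i _ => hρ _ Sum.inl_ne_inr ?_, fun i _ => hρ _ Sum.inl_ne_inr (by simp),
      hρ _ Sum.inl_ne_inr (by simp)⟩
    · intro h
      apply hj'
      simp only [Sum.inr.injEq, Prod.mk.injEq, and_true] at h
      rw [h]
    · intro h
      simp only [Sum.inl.injEq, Prod.mk.injEq, and_true] at h
      exact (Fin.castSucc_lt_last i).ne h
  have σF := hfix σ σo
  have τF := hfix τ τo
  have σd' : σ (gD j) = gC j * Xt q * (gC j)⁻¹ * gD j := σd
  have τd' : τ (gD j) = (Xt q)⁻¹ * gD j := τd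
  have σq : σ (loop0 q) = loop0 q * Xt q * loop0 q * (Xt q)⁻¹ * (loop0 q)⁻¹ := by
    rw [hq0]
    conv_lhs => rw [gC]
    simp only [map_mul, map_inv, σd', σF.he]
    have : (gC j : FF (m + 1) n) = gD j * gE j * (gD j)⁻¹ := rfl
    rw [this]
    group
  have τq : τ (loop0 q) = (Xt q)⁻¹ * loop0 q * Xt q := by
    rw [hq0]
    conv_lhs => rw [gC]
    simp only [map_mul, map_inv, τd', τF.he]
    have : (gC j : FF (m + 1) n) = gD j * gE j * (gD j)⁻¹ := rfl
    rw [this]
    group
  have σp : σ (preW q) = preW q := by rw [hpre, map_one]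
  have τp : τ (preW q) = preW q := by rw [hpre, map_one]
  have hdd : ∀ ρ : FF (m + 1) n →* FF (m + 1) n, Fix (blk q) ρ → ∀ u ∈ Fc (m + 1) n,
      ρ (gD j) = u * gD j → ∀ j', ∃ u ∈ Fc (m + 1) n, ρ (gD j') = u * gD j' := by
    intro ρ hρ u hu h j'
    by_cases hj : j' = j
    · subst hj
      exact ⟨u, hu, h⟩
    · refine ⟨1, one_mem _, ?_⟩
      rw [one_mul]
      refine hρ.hd j' ?_
      rw [hblk]
      intro h1
      exact hj (Sum.inl_injective h1).symm
  have hab : ∀ ρ : FF (m + 1) n →* FF (m + 1) n, (∀ k, k ≠ Sum.inr (j, false) →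
      k ≠ Sum.inl (Fin.last m, false) → ρ (FreeGroup.of k) = FreeGroup.of k) →
      ρ (gA (Fin.last m)) ∈ Fc (m + 1) n →
        ∀ k, ρ (FreeGroup.of (Sum.inl k)) ∈ Fc (m + 1) n := by
    intro ρ hρ h k
    by_cases hk : k = (Fin.last m, false)
    · subst hk
      exact h
    · rw [hρ _ Sum.inl_ne_inr fun h1 => hk (Sum.inl_injective h1)]
      exact inl_mem k
  have hCm : gA (Fin.last m) ∈ Fc (m + 1) n := inl_mem _
  obtain ⟨e, he, he', hA, hA'⟩ := slide_build q σ τ σF τF σC τC σq τq σp τp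
    (hdd σ σF _ (mul_mem (mul_mem (gC_mem j) (Xt_mem q)) (inv_mem (gC_mem j))) σd')
    (hdd τ τF _ (inv_mem (Xt_mem q)) τd')
    (hab σ σo (by
      rw [show σ (gA (Fin.last m)) = _ from σC]
      exact mul_mem (mul_mem (mul_mem (inv_mem (kap_mem q)) (loop0_mem q)) (kap_mem q)) hCm))
    (hab τ τo (by
      rw [show τ (gA (Fin.last m)) = _ from τC]
      exact mul_mem (mul_mem (mul_mem (mul_mem (mul_mem (inv_mem (kap_mem q))
        (inv_mem (Xt_mem q))) (inv_mem (loop0_mem q))) (Xt_mem q)) (kap_mem q)) hCm))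
    (by
      intro k hk
      by_cases hk1 : k = Sum.inr (j, false)
      · subst hk1
        rw [σd]
        have hX := (slide_rel_inv τF τC τq τp).1
        have hg : τ (gC j) = (Xt q)⁻¹ * gC j * Xt q := by rw [← hq0]; exact τq
        simp only [map_mul, map_inv, hX, hg, τd', hq0]
        show _ = gD j
        group
      · rw [σo k hk1 hk, τo k hk1 hk])
    (by
      intro k hk
      by_cases hk1 : k = Sum.inr (j, false)
      · subst hk1
        rw [τd]
        have hX := (slide_rel σF σC σq σp).1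
        simp only [map_mul, map_inv, hX, σd', hq0]
        show _ = gD j
        group
      · rw [τo k hk1 hk, σo k hk1 hk])
  refine ⟨e, hA, hA', ?_, ?_, ?_⟩
  · rw [he]; exact σF.hl
  · intro G _ x hx
    constructor
    · rw [he, show σ (gA (Fin.last m)) = _ from σC, loopW]
      simp only [map_mul]
    · intro k hk
      rw [he]
      by_cases hk1 : k = Sum.inr (j, false)
      · subst hk1
        rw [σd]
        simp only [map_mul, map_inv, x_Xt x hx]
        show _ = x (gD j)
        group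
      · rw [σo k hk1 hk]
  · intro r x hx E hE k hk
    rw [he', hq]
    by_cases hk1 : k = Sum.inr (j, false)
    · subst hk1
      rw [τd, der_inv_mul hE _ _ (x_Xt x hx q), E_Xt x hx hE]
      simp only [Lam, if_true]
      rw [sub_eq_add_neg, hq]
      rfl
    · rw [τo k hk1 hk]
      simp only [Lam, if_neg hk1, add_zero]

/-- For slides around loops of the handle `i`. -/
theorem fix_handle (i : Fin m) (ρ : FF (m + 1) n →* FF (m + 1) n)
    (hρ : ∀ k : Gen (m + 1) n, k ≠ Sum.inl (i.castSucc, false) → k ≠ Sum.inl (i.castSucc, true) →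
      k ≠ Sum.inl (Fin.last m, false) → ρ (FreeGroup.of k) = FreeGroup.of k) :
    Fix (Sum.inr i) ρ := by
  have hlt : ∀ i : Fin m, i.castSucc ≠ Fin.last m := fun i => (Fin.castSucc_lt_last i).ne
  refine ⟨fun j' _ => hρ _ Sum.inr_ne_inl Sum.inr_ne_inl Sum.inr_ne_inl,
    fun j' => hρ _ Sum.inr_ne_inl Sum.inr_ne_inl Sum.inr_ne_inl,
    fun i' hi => hρ _ ?_ (by simp) ?_, fun i' hi => hρ _ (by simp) ?_ (by simp),
    hρ _ (by simp) ?_ (by simp)⟩
  · intro h
    simp only [Sum.inl.injEq, Prod.mk.injEq, and_true] at h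
    exact hi (congrArg Sum.inr (Fin.castSucc_injective m h).symm)
  · intro h
    simp only [Sum.inl.injEq, Prod.mk.injEq, and_true] at h
    exact hlt i' h
  · intro h
    simp only [Sum.inl.injEq, Prod.mk.injEq, and_true] at h
    exact hi (congrArg Sum.inr (Fin.castSucc_injective m h).symm)
  · intro h
    simp only [Sum.inl.injEq, Prod.mk.injEq, and_true] at h
    exact hlt i h.symm

theorem ab_handle (i : Fin m) (ρ : FF (m + 1) n →* FF (m + 1) n)
    (hρ : ∀ k : Gen (m + 1) n, k ≠ Sum.inl (i.castSucc, false) → k ≠ Sum.inl (i.castSucc, true) →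
      k ≠ Sum.inl (Fin.last m, false) → ρ (FreeGroup.of k) = FreeGroup.of k)
    (ha : ρ (gA i.castSucc) ∈ Fc (m + 1) n) (hb : ρ (gB i.castSucc) ∈ Fc (m + 1) n)
    (hC : ρ (gA (Fin.last m)) ∈ Fc (m + 1) n) (k : Fin (m + 1) × Bool) :
    ρ (FreeGroup.of (Sum.inl k)) ∈ Fc (m + 1) n := by
  by_cases h1 : k = (i.castSucc, false)
  · subst h1
    exact ha
  · by_cases h2 : k = (i.castSucc, true)
    · subst h2
      exact hb
    · by_cases h3 : k = (Fin.last m, false)
      · subst h3
        exact hC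
      · rw [hρ _ (fun h => h1 (Sum.inl_injective h)) (fun h => h2 (Sum.inl_injective h))
          fun h => h3 (Sum.inl_injective h)]
        exact inl_mem k

theorem d_handle (i : Fin m) (ρ : FF (m + 1) n →* FF (m + 1) n)
    (hρ : ∀ k : Gen (m + 1) n, k ≠ Sum.inl (i.castSucc, false) → k ≠ Sum.inl (i.castSucc, true) →
      k ≠ Sum.inl (Fin.last m, false) → ρ (FreeGroup.of k) = FreeGroup.of k) (j : Fin n) :
    ∃ u ∈ Fc (m + 1) n, ρ (gD j) = u * gD j := by
  refine ⟨1, one_mem _, ?_⟩
  rw [one_mul]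
  exact hρ _ Sum.inr_ne_inl Sum.inr_ne_inl Sum.inr_ne_inl

theorem slide_handle₁ (i : Fin m) : SlideStatement (n := n) (Sum.inr (i, false)) := by
  obtain ⟨q, hq⟩ : ∃ q : Loop m n, q = Sum.inr (i, false) := ⟨_, rfl⟩
  rw [← hq]
  have hne : (Sum.inl (Fin.last m, false) : Gen (m + 1) n) ≠ Sum.inl (i.castSucc, true) := by
    simp
  obtain ⟨a, ha⟩ : ∃ a : FF (m + 1) n, a = gA i.castSucc := ⟨_, rfl⟩
  obtain ⟨b, hb⟩ : ∃ b : FF (m + 1) n, b = gB i.castSucc := ⟨_, rfl⟩
  have hq0 : loop0 q = b * a⁻¹ * b⁻¹ := by rw [hq, ha, hb]; rfl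
  have hpre : preW q = a := by rw [hq, ha]; rfl
  have hblk : blk q = Sum.inr i := by rw [hq]; rfl
  obtain ⟨σ, σb, σC, σo⟩ := exists_hom2 (FreeGroup.of : Gen (m + 1) n → FF (m + 1) n)
    (Sum.inl (i.castSucc, true)) (Sum.inl (Fin.last m, false)) hne
    (loop0 q * Xt q * b * a) ((kap q)⁻¹ * loop0 q * kap q * gA (Fin.last m))
  obtain ⟨τ, τb, τC, τo⟩ := exists_hom2 (FreeGroup.of : Gen (m + 1) n → FF (m + 1) n)
    (Sum.inl (i.castSucc, true)) (Sum.inl (Fin.last m, false)) hne
    ((Xt q)⁻¹ * b) ((kap q)⁻¹ * (Xt q)⁻¹ * (loop0 q)⁻¹ * Xt q * kap q * gA (Fin.last m))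
  have σF : Fix (blk q) σ := by
    rw [hblk]; exact fix_handle i σ fun k _ h2 h3 => σo k h2 h3
  have τF : Fix (blk q) τ := by
    rw [hblk]; exact fix_handle i τ fun k _ h2 h3 => τo k h2 h3
  have hane : (Sum.inl (i.castSucc, false) : Gen (m + 1) n) ≠ Sum.inl (Fin.last m, false) := by
    intro h
    simp only [Sum.inl.injEq, Prod.mk.injEq, and_true] at h
    exact (Fin.castSucc_lt_last i).ne h
  have σa : σ a = a := by rw [ha]; exact σo _ (by simp) hane
  have τa : τ a = a := by rw [ha]; exact τo _ (by simp) hane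
  have σb' : σ b = loop0 q * Xt q * b * a := by conv_lhs => rw [hb]; exact σb
  have τb' : τ b = (Xt q)⁻¹ * b := by conv_lhs => rw [hb]; exact τb
  have σq : σ (loop0 q) = loop0 q * Xt q * loop0 q * (Xt q)⁻¹ * (loop0 q)⁻¹ := by
    have h1 : σ (loop0 q) = σ (b * a⁻¹ * b⁻¹) := by rw [hq0]
    rw [h1]
    simp only [map_mul, map_inv, σa, σb']
    rw [hq0]
    group
  have τq : τ (loop0 q) = (Xt q)⁻¹ * loop0 q * Xt q := by
    have h1 : τ (loop0 q) = τ (b * a⁻¹ * b⁻¹) := by rw [hq0]
    rw [h1]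
    simp only [map_mul, map_inv, τa, τb']
    rw [hq0]
    group
  have σp : σ (preW q) = preW q := by rw [hpre, σa]
  have τp : τ (preW q) = preW q := by rw [hpre, τa]
  have hCm : gA (Fin.last m) ∈ Fc (m + 1) n := inl_mem _
  have ham : a ∈ Fc (m + 1) n := by rw [ha]; exact inl_mem _
  have hbm : b ∈ Fc (m + 1) n := by rw [hb]; exact inl_mem _
  obtain ⟨e, he, he', hA, hA'⟩ := slide_build q σ τ σF τF σC τC σq τq σp τp
    (d_handle i σ fun k _ h2 h3 => σo k h2 h3)
    (d_handle i τ fun k _ h2 h3 => τo k h2 h3)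
    (ab_handle i σ (fun k _ h2 h3 => σo k h2 h3) (by rw [← ha, σa]; exact ham)
      (by
        rw [← hb, σb']
        exact mul_mem (mul_mem (mul_mem (loop0_mem q) (Xt_mem q)) hbm) ham)
      (by
        rw [show σ (gA (Fin.last m)) = _ from σC]
        exact mul_mem (mul_mem (mul_mem (inv_mem (kap_mem q)) (loop0_mem q)) (kap_mem q)) hCm))
    (ab_handle i τ (fun k _ h2 h3 => τo k h2 h3) (by rw [← ha, τa]; exact ham)
      (by
        rw [← hb, τb']
        exact mul_mem (inv_mem (Xt_mem q)) hbm)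
      (by
        rw [show τ (gA (Fin.last m)) = _ from τC]
        exact mul_mem (mul_mem (mul_mem (mul_mem (mul_mem (inv_mem (kap_mem q))
          (inv_mem (Xt_mem q))) (inv_mem (loop0_mem q))) (Xt_mem q)) (kap_mem q)) hCm))
    (by
      intro k hk
      by_cases hk1 : k = Sum.inl (i.castSucc, true)
      · subst hk1
        rw [σb]
        have hX := (slide_rel_inv τF τC τq τp).1
        simp only [map_mul, hX, τq, τb', τa]
        have h2 : (FreeGroup.of (Sum.inl (i.castSucc, true)) : FF (m + 1) n) = b := by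
          rw [hb]; rfl
        rw [h2, hq0]
        group
      · rw [σo k hk1 hk, τo k hk1 hk])
    (by
      intro k hk
      by_cases hk1 : k = Sum.inl (i.castSucc, true)
      · subst hk1
        rw [τb]
        have hX := (slide_rel σF σC σq σp).1
        simp only [map_mul, map_inv, hX, σb']
        have h2 : (FreeGroup.of (Sum.inl (i.castSucc, true)) : FF (m + 1) n) = b := by
          rw [hb]; rfl
        rw [h2, hq0]
        group
      · rw [τo k hk1 hk, σo k hk1 hk])
  refine ⟨e, hA, hA', ?_, ?_, ?_⟩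
  · rw [he]; exact σF.hl
  · intro G _ x hx
    constructor
    · rw [he, show σ (gA (Fin.last m)) = _ from σC, loopW]
      simp only [map_mul]
    · intro k hk
      rw [he]
      by_cases hk1 : k = Sum.inl (i.castSucc, true)
      · subst hk1
        rw [σb, hq0]
        simp only [map_mul, map_inv, x_Xt x hx]
        have h2 : (FreeGroup.of (Sum.inl (i.castSucc, true)) : FF (m + 1) n) = b := by
          rw [hb]; rfl
        rw [h2]
        group
      · rw [σo k hk1 hk]
  · intro r x hx E hE k hk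
    rw [he', hq]
    by_cases hk1 : k = Sum.inl (i.castSucc, true)
    · subst hk1
      rw [τb, der_inv_mul hE _ _ (x_Xt x hx q), E_Xt x hx hE]
      simp only [Lam, if_true]
      rw [sub_eq_add_neg, hq, hb]
      rfl
    · rw [τo k hk1 hk]
      simp only [Lam, if_neg hk1, add_zero]

theorem slide_handle₂ (i : Fin m) : SlideStatement (n := n) (Sum.inr (i, true)) := by
  obtain ⟨q, hq⟩ : ∃ q : Loop m n, q = Sum.inr (i, true) := ⟨_, rfl⟩
  rw [← hq]
  have hne : (Sum.inl (Fin.last m, false) : Gen (m + 1) n) ≠ Sum.inl (i.castSucc, true) := by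
    simp
  have hne' : (Sum.inl (Fin.last m, false) : Gen (m + 1) n) ≠ Sum.inl (i.castSucc, false) := by
    intro h
    simp only [Sum.inl.injEq, Prod.mk.injEq, and_true] at h
    exact (Fin.castSucc_lt_last i).ne h.symm
  have hne'' : (Sum.inl (i.castSucc, true) : Gen (m + 1) n) ≠ Sum.inl (i.castSucc, false) := by
    simp
  obtain ⟨a, ha⟩ : ∃ a : FF (m + 1) n, a = gA i.castSucc := ⟨_, rfl⟩
  obtain ⟨b, hb⟩ : ∃ b : FF (m + 1) n, b = gB i.castSucc := ⟨_, rfl⟩
  have hq0 : loop0 q = b⁻¹ := by rw [hq, hb]; rfl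
  have hpre : preW q = a * b * a⁻¹ := by rw [hq, ha, hb]; rfl
  have hblk : blk q = Sum.inr i := by rw [hq]; rfl
  obtain ⟨σ, σa, σb, σC, σo⟩ := exists_hom3 (FreeGroup.of : Gen (m + 1) n → FF (m + 1) n)
    (Sum.inl (i.castSucc, false)) (Sum.inl (i.castSucc, true)) (Sum.inl (Fin.last m, false))
    hne'' hne' hne
    (a * b⁻¹ * (b⁻¹ * Xt q)⁻¹) ((b⁻¹ * Xt q) * b * (b⁻¹ * Xt q)⁻¹)
    ((kap q)⁻¹ * loop0 q * kap q * gA (Fin.last m))
  obtain ⟨τ, τa, τb, τC, τo⟩ := exists_hom3 (FreeGroup.of : Gen (m + 1) n → FF (m + 1) n)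
    (Sum.inl (i.castSucc, false)) (Sum.inl (i.castSucc, true)) (Sum.inl (Fin.last m, false))
    hne'' hne' hne
    (a * Xt q) ((Xt q)⁻¹ * (b * Xt q))
    ((kap q)⁻¹ * (Xt q)⁻¹ * (loop0 q)⁻¹ * Xt q * kap q * gA (Fin.last m))
  have σF : Fix (blk q) σ := by
    rw [hblk]; exact fix_handle i σ σo
  have τF : Fix (blk q) τ := by
    rw [hblk]; exact fix_handle i τ τo
  have σa' : σ a = a * b⁻¹ * (b⁻¹ * Xt q)⁻¹ := by conv_lhs => rw [ha]; exact σa
  have τa' : τ a = a * Xt q := by conv_lhs => rw [ha]; exact τa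
  have σb' : σ b = (b⁻¹ * Xt q) * b * (b⁻¹ * Xt q)⁻¹ := by conv_lhs => rw [hb]; exact σb
  have τb' : τ b = (Xt q)⁻¹ * (b * Xt q) := by conv_lhs => rw [hb]; exact τb
  have σq : σ (loop0 q) = loop0 q * Xt q * loop0 q * (Xt q)⁻¹ * (loop0 q)⁻¹ := by
    have h1 : σ (loop0 q) = σ (b⁻¹) := by rw [hq0]
    rw [h1]
    simp only [map_inv, σb']
    rw [hq0]
    group
  have τq : τ (loop0 q) = (Xt q)⁻¹ * loop0 q * Xt q := by
    have h1 : τ (loop0 q) = τ (b⁻¹) := by rw [hq0]
    rw [h1]
    simp only [map_inv, τb']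
    rw [hq0]
    group
  have σp : σ (preW q) = preW q := by
    rw [hpre]
    simp only [map_mul, map_inv, σa', σb']
    group
  have τp : τ (preW q) = preW q := by
    rw [hpre]
    simp only [map_mul, map_inv, τa', τb']
    group
  have hCm : gA (Fin.last m) ∈ Fc (m + 1) n := inl_mem _
  have ham : a ∈ Fc (m + 1) n := by rw [ha]; exact inl_mem _
  have hbm : b ∈ Fc (m + 1) n := by rw [hb]; exact inl_mem _
  have hum : b⁻¹ * Xt q ∈ Fc (m + 1) n := mul_mem (inv_mem hbm) (Xt_mem q)
  have hga : (FreeGroup.of (Sum.inl (i.castSucc, false)) : FF (m + 1) n) = a := by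
    rw [ha]; rfl
  have hgb : (FreeGroup.of (Sum.inl (i.castSucc, true)) : FF (m + 1) n) = b := by
    rw [hb]; rfl
  obtain ⟨e, he, he', hA, hA'⟩ := slide_build q σ τ σF τF σC τC σq τq σp τp
    (d_handle i σ σo) (d_handle i τ τo)
    (ab_handle i σ σo
      (by
        rw [← ha, σa']
        exact mul_mem (mul_mem ham (inv_mem hbm)) (inv_mem hum))
      (by
        rw [← hb, σb']
        exact mul_mem (mul_mem hum hbm) (inv_mem hum))
      (by
        rw [show σ (gA (Fin.last m)) = _ from σC]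
        exact mul_mem (mul_mem (mul_mem (inv_mem (kap_mem q)) (loop0_mem q)) (kap_mem q)) hCm))
    (ab_handle i τ τo
      (by
        rw [← ha, τa']
        exact mul_mem ham (Xt_mem q))
      (by
        rw [← hb, τb']
        exact mul_mem (inv_mem (Xt_mem q)) (mul_mem hbm (Xt_mem q)))
      (by
        rw [show τ (gA (Fin.last m)) = _ from τC]
        exact mul_mem (mul_mem (mul_mem (mul_mem (mul_mem (inv_mem (kap_mem q))
          (inv_mem (Xt_mem q))) (inv_mem (loop0_mem q))) (Xt_mem q)) (kap_mem q)) hCm))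
    (by
      intro k hk
      have hX := (slide_rel_inv τF τC τq τp).1
      rw [hq0] at hX
      by_cases hk0 : k = Sum.inl (i.castSucc, false)
      · subst hk0
        rw [σa]
        simp only [map_mul, map_inv, hX, τb', τa', hga]
        group
      · by_cases hk1 : k = Sum.inl (i.castSucc, true)
        · subst hk1
          rw [σb]
          simp only [map_mul, map_inv, hX, τb', hgb]
          group
        · rw [σo k hk0 hk1 hk, τo k hk0 hk1 hk])
    (by
      intro k hk
      have hX := (slide_rel σF σC σq σp).1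
      rw [hq0] at hX
      by_cases hk0 : k = Sum.inl (i.castSucc, false)
      · subst hk0
        rw [τa]
        simp only [map_mul, hX, σa', hga]
        group
      · by_cases hk1 : k = Sum.inl (i.castSucc, true)
        · subst hk1
          rw [τb]
          simp only [map_mul, map_inv, hX, σb', hgb]
          group
        · rw [τo k hk0 hk1 hk, σo k hk0 hk1 hk])
  refine ⟨e, hA, hA', ?_, ?_, ?_⟩
  · rw [he]; exact σF.hl
  · intro G _ x hx
    constructor
    · rw [he, show σ (gA (Fin.last m)) = _ from σC, loopW]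
      simp only [map_mul]
    · intro k hk
      rw [he]
      by_cases hk0 : k = Sum.inl (i.castSucc, false)
      · subst hk0
        rw [σa]
        simp only [map_mul, map_inv, x_Xt x hx, hga]
        group
      · by_cases hk1 : k = Sum.inl (i.castSucc, true)
        · subst hk1
          rw [σb]
          simp only [map_mul, map_inv, x_Xt x hx, hgb]
          group
        · rw [σo k hk0 hk1 hk]
  · intro r x hx E hE k hk
    rw [he', hq]
    by_cases hk0 : k = Sum.inl (i.castSucc, false)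
    · subst hk0
      rw [τa, der_mul_ker hE _ _ (x_Xt x hx q), E_Xt x hx hE]
      simp only [Lam, if_true]
      rw [hq, ha]
      rfl
    · by_cases hk1 : k = Sum.inl (i.castSucc, true)
      · subst hk1
        rw [τb, der_inv_mul hE _ _ (x_Xt x hx q), der_mul_ker hE _ _ (x_Xt x hx q), E_Xt x hx hE]
        have hxb : x (b * Xt q) = x b := by rw [map_mul, x_Xt x hx, mul_one]
        rw [hxb]
        simp only [Lam, if_true, if_neg hk0]
        rw [hq, hb, add_sub_assoc]
        rfl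
      · rw [τo k hk0 hk1 hk]
        simp only [Lam, if_neg hk0, if_neg hk1, add_zero]

end Slides

variable {m n : ℕ}

open Slides in
/-- TASK S -/
theorem exists_slide (q : Loop m n) :
    ∃ σ : FF (m + 1) n ≃* FF (m + 1) n, Adm σ ∧ Adm σ.symm ∧
      σ (gB (Fin.last m)) = gB (Fin.last m) ∧
      (∀ {G : Type} [Group G] (x : FF (m + 1) n →* G), x (gB (Fin.last m)) = 1 →
        x (σ (gA (Fin.last m))) = x (loopW q) * x (gA (Fin.last m)) ∧
          ∀ k, k ≠ Sum.inl (Fin.last m, false) →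
            x (σ (FreeGroup.of k)) = x (FreeGroup.of k)) ∧
      (∀ (r : ℕ) (x : FF (m + 1) n →* (Mat r ℂ)ˣ), x (gB (Fin.last m)) = 1 →
        ∀ E : FF (m + 1) n → Mat r ℂ, IsDer x E → ∀ k, k ≠ Sum.inl (Fin.last m, false) →
          E (σ.symm (FreeGroup.of k)) = E (FreeGroup.of k) +
            Lam x q ((x (gA (Fin.last m)) : Mat r ℂ) * E (gB (Fin.last m)) *
              (((x (gA (Fin.last m)))⁻¹ : (Mat r ℂ)ˣ) : Mat r ℂ)) k) := by
  rcases q with j | ⟨i, b⟩
  · exact slide_puncture j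
  · cases b
    · exact slide_handle₁ i
    · exact slide_handle₂ i

end Vale.Agent.P002R
end

section

namespace Vale.Agent.P002R

open Matrix

variable {m n r : ℕ}

/-- The relation with explicit inverses. -/
def relR {g : ℕ} {R : Type*} [CommRing R] (X Y : Gen g n → Mat r R) : Mat r R :=
  (List.ofFn fun j : Fin n =>
    X (Sum.inr (j, false)) * X (Sum.inr (j, true)) * Y (Sum.inr (j, false))).prod *
  (List.ofFn fun i : Fin g =>
    X (Sum.inl (i, false)) * X (Sum.inl (i, true)) * Y (Sum.inl (i, false)) *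
      Y (Sum.inl (i, true))).prod

theorem relM_eq_relR {g : ℕ} (X : Gen g n → Mat r ℂ) : relM X = relR X (fun k => (X k)⁻¹) := rfl

/-- The part of the relation before the last handle. -/
def relW {R : Type*} [CommRing R] (X Y : Gen (m + 1) n → Mat r R) : Mat r R :=
  (List.ofFn fun j : Fin n =>
    X (Sum.inr (j, false)) * X (Sum.inr (j, true)) * Y (Sum.inr (j, false))).prod *
  (List.ofFn fun i : Fin m =>
    X (Sum.inl (i.castSucc, false)) * X (Sum.inl (i.castSucc, true)) *
      Y (Sum.inl (i.castSucc, false)) * Y (Sum.inl (i.castSucc, true))).prod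

theorem relR_eq {R : Type*} [CommRing R] (X Y : Gen (m + 1) n → Mat r R) :
    relR X Y = relW X Y * (X (Sum.inl (Fin.last m, false)) * X (Sum.inl (Fin.last m, true)) *
      Y (Sum.inl (Fin.last m, false)) * Y (Sum.inl (Fin.last m, true))) := by
  unfold relR relW
  rw [List.ofFn_succ', List.prod_concat, ← mul_assoc]

theorem relR_map {g : ℕ} {R S : Type*} [CommRing R] [CommRing S] (φ : R →+* S)
    (X Y : Gen g n → Mat r R) :
    (relR X Y).map φ = relR (fun k => (X k).map φ) (fun k => (Y k).map φ) := by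
  unfold relR
  have h1 : ∀ M : Mat r R, M.map φ = (RingHom.mapMatrix φ) M := fun M => rfl
  rw [h1, map_mul, map_list_prod, map_list_prod, List.map_ofFn, List.map_ofFn]
  congr 1
  · congr 1
    congr 1
    funext i
    simp only [Function.comp, map_mul, RingHom.mapMatrix_apply]
  · congr 1
    congr 1
    funext i
    simp only [Function.comp, map_mul, RingHom.mapMatrix_apply]

theorem relW_map {R S : Type*} [CommRing R] [CommRing S] (φ : R →+* S)
    (X Y : Gen (m + 1) n → Mat r R) :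
    (relW X Y).map φ = relW (fun k => (X k).map φ) (fun k => (Y k).map φ) := by
  unfold relW
  have h1 : ∀ M : Mat r R, M.map φ = (RingHom.mapMatrix φ) M := fun M => rfl
  rw [h1, map_mul, map_list_prod, map_list_prod, List.map_ofFn, List.map_ofFn]
  congr 1
  · congr 1
    congr 1
    funext i
    simp only [Function.comp, map_mul, RingHom.mapMatrix_apply]
  · congr 1
    congr 1
    funext i
    simp only [Function.comp, map_mul, RingHom.mapMatrix_apply]

theorem relW_congr {R : Type*} [CommRing R] (X Y X' Y' : Gen (m + 1) n → Mat r R)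
    (h : ∀ k, k ≠ Sum.inl (Fin.last m, false) → k ≠ Sum.inl (Fin.last m, true) →
      X k = X' k ∧ Y k = Y' k) : relW X Y = relW X' Y' := by
  unfold relW
  congr 1
  · congr 1
    congr 1
    funext j
    rw [(h (Sum.inr (j, false)) (by simp) (by simp)).1, (h (Sum.inr (j, true)) (by simp) (by simp)).1,
      (h (Sum.inr (j, false)) (by simp) (by simp)).2]
  · congr 1
    congr 1
    funext i
    have hi : i.castSucc ≠ Fin.last m := (Fin.castSucc_lt_last i).ne
    have h1 : ∀ b, (Sum.inl (i.castSucc, b) : Gen (m + 1) n) ≠ Sum.inl (Fin.last m, false) ∧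
        (Sum.inl (i.castSucc, b) : Gen (m + 1) n) ≠ Sum.inl (Fin.last m, true) := by
      intro b
      constructor
      · intro he
        simp only [Sum.inl.injEq, Prod.mk.injEq] at he
        exact hi he.1
      · intro he
        simp only [Sum.inl.injEq, Prod.mk.injEq] at he
        exact hi he.1
    rw [(h _ (h1 false).1 (h1 false).2).1, (h _ (h1 true).1 (h1 true).2).1,
      (h _ (h1 false).1 (h1 false).2).2, (h _ (h1 true).1 (h1 true).2).2]

theorem relW_det {R : Type*} [CommRing R] (X Y : Gen (m + 1) n → Mat r R)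
    (h : ∀ k, X k * Y k = 1) :
    det (relW X Y) = ∏ j : Fin n, det (X (Sum.inr (j, true))) := by
  have hl : ∀ (N : ℕ) (F : Fin N → Mat r R), det (List.ofFn F).prod = ∏ i, det (F i) := by
    intro N F
    rw [← Matrix.coe_detMonoidHom, map_list_prod, List.map_ofFn, List.prod_ofFn]
    rfl
  have h2 : ∀ k, det (X k) * det (Y k) = 1 := fun k => by rw [← det_mul, h, det_one]
  unfold relW
  rw [det_mul, hl, hl]
  have e2 : ∏ i : Fin m, det (X (Sum.inl (i.castSucc, false)) * X (Sum.inl (i.castSucc, true)) *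
      Y (Sum.inl (i.castSucc, false)) * Y (Sum.inl (i.castSucc, true))) = 1 := by
    apply Finset.prod_eq_one
    intro i _
    rw [det_mul, det_mul, det_mul]
    calc _ = (det (X (Sum.inl (i.castSucc, false))) * det (Y (Sum.inl (i.castSucc, false)))) *
          (det (X (Sum.inl (i.castSucc, true))) * det (Y (Sum.inl (i.castSucc, true)))) := by ring
      _ = 1 := by rw [h2, h2, one_mul]
  rw [e2, mul_one]
  apply Finset.prod_congr rfl
  intro j _
  rw [det_mul, det_mul]
  calc _ = det (X (Sum.inr (j, true))) *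
        (det (X (Sum.inr (j, false))) * det (Y (Sum.inr (j, false)))) := by ring
    _ = det (X (Sum.inr (j, true))) := by rw [h2, mul_one]

/-- Evaluation at a tuple with explicit inverses. -/
noncomputable def evalR {κ : Type*} {T : Type*} [CommRing T] [Algebra ℂ T] (X Y : κ → Mat r T) :
    MvPolynomial (κ × Bool × Fin r × Fin r) ℂ →ₐ[ℂ] T :=
  MvPolynomial.aeval fun p => if p.2.1 then Y p.1 p.2.2.1 p.2.2.2
    else X p.1 p.2.2.1 p.2.2.2

theorem evalM_eq_evalR {κ : Type*} (X : κ → Mat r ℂ) : evalM X = evalR X (fun k => (X k)⁻¹) := rfl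

theorem evalR_map {κ : Type*} {T : Type*} [CommRing T] [Algebra ℂ T] (φ : T →+* ℂ)
    (hφ : ∀ c : ℂ, φ (algebraMap ℂ T c) = c) (X Y : κ → Mat r T)
    (F : MvPolynomial (κ × Bool × Fin r × Fin r) ℂ) :
    φ (evalR X Y F) = evalR (fun k => (X k).map φ) (fun k => (Y k).map φ) F := by
  let φ' : T →ₐ[ℂ] ℂ := { φ with commutes' := hφ }
  have h : (φ'.comp (evalR X Y)) = evalR (fun k => (X k).map φ) (fun k => (Y k).map φ) := by
    apply MvPolynomial.algHom_ext
    intro p
    simp only [evalR, φ', AlgHom.comp_apply, MvPolynomial.aeval_X, AlgHom.coe_mk]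
    split_ifs
    · rfl
    · rfl
  exact DFunLike.congr_fun h F

/-- A polynomial identity on the complex points of the framed representation variety holds on
points in every domain. -/
theorem rtransfer {g : ℕ} {T : Type*} [CommRing T] [IsDomain T] [Algebra ℂ T]
    (J : Fin n → Mat r ℂ)
    (F : MvPolynomial (Gen g n × Bool × Fin r × Fin r) ℂ)
    (hF : ∀ X : Gen g n → Mat r ℂ, (∀ k, IsUnit (X k)) →
      (∀ j, X (Sum.inr (j, true)) = J j) → relM X = 1 → evalM X F = 0)
    (X Y : Gen g n → Mat r T) (hXY : ∀ k, X k * Y k = 1)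
    (hJ : ∀ j, X (Sum.inr (j, true)) = (J j).map (algebraMap ℂ T)) (hrel : relR X Y = 1) :
    evalR X Y F = 0 := by
  classical
  let σ := Gen g n × Bool × Fin r × Fin r
  let ψ : MvPolynomial σ ℂ →ₐ[ℂ] T := evalR X Y
  let P : Ideal (MvPolynomial σ ℂ) := RingHom.ker ψ
  have hP : P.IsPrime := RingHom.ker_isPrime _
  change F ∈ P
  rw [← MvPolynomial.IsPrime.vanishingIdeal_zeroLocus (K := ℂ) P,
    MvPolynomial.mem_vanishingIdeal_iff]
  intro x hx
  rw [MvPolynomial.mem_zeroLocus_iff] at hx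
  let 𝒳 : Gen g n → Mat r (MvPolynomial σ ℂ) := fun k => Matrix.of fun i j =>
    MvPolynomial.X (k, false, i, j)
  let 𝒴 : Gen g n → Mat r (MvPolynomial σ ℂ) := fun k => Matrix.of fun i j =>
    MvPolynomial.X (k, true, i, j)
  have h𝒳 : ∀ k, (𝒳 k).map ψ = X k := by
    intro k; ext i j
    change ψ (MvPolynomial.X (k, false, i, j)) = _
    simp [ψ, evalR]
  have h𝒴 : ∀ k, (𝒴 k).map ψ = Y k := by
    intro k; ext i j
    change ψ (MvPolynomial.X (k, true, i, j)) = _
    simp [ψ, evalR]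
  let ev : MvPolynomial σ ℂ →ₐ[ℂ] ℂ := MvPolynomial.aeval x
  let A : Gen g n → Mat r ℂ := fun k => (𝒳 k).map ev
  let B : Gen g n → Mat r ℂ := fun k => (𝒴 k).map ev
  have hmem : ∀ M N : Mat r (MvPolynomial σ ℂ), M.map ψ = N.map ψ → M.map ev = N.map ev := by
    intro M N h
    ext i j
    have h1 : M i j - N i j ∈ P := by
      change ψ (M i j - N i j) = 0
      have := congrFun (congrFun h i) j
      simp only [Matrix.map_apply] at this
      rw [map_sub, this, sub_self]
    have h2 := hx _ h1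
    simp only [Matrix.map_apply]
    have h3 : ev (M i j - N i j) = 0 := h2
    rw [map_sub, sub_eq_zero] at h3
    exact h3
  have hmul : ∀ k, A k * B k = 1 := by
    intro k
    have h1 := hmem (𝒳 k * 𝒴 k) 1 (by
      have e1 := Matrix.map_mul (L := 𝒳 k) (M := 𝒴 k) (f := ψ.toRingHom)
      have e2 : (𝒳 k * 𝒴 k).map ψ = (𝒳 k).map ψ * (𝒴 k).map ψ := e1
      rw [e2, h𝒳, h𝒴, hXY, Matrix.map_one _ (map_zero ψ) (map_one ψ)])
    have e1 := Matrix.map_mul (L := 𝒳 k) (M := 𝒴 k) (f := ev.toRingHom)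
    have e2 : (𝒳 k * 𝒴 k).map ev = (𝒳 k).map ev * (𝒴 k).map ev := e1
    rw [e2, Matrix.map_one _ (map_zero ev) (map_one ev)] at h1
    exact h1
  have hrelA : relR A B = 1 := by
    have h1 := hmem (relR 𝒳 𝒴) 1 (by
      have e1 := relR_map ψ.toRingHom 𝒳 𝒴
      have e2 : (relR 𝒳 𝒴).map ψ = relR (fun k => (𝒳 k).map ψ) (fun k => (𝒴 k).map ψ) := e1
      rw [e2, Matrix.map_one _ (map_zero ψ) (map_one ψ)]
      simp only [h𝒳, h𝒴]
      exact hrel)
    have e1 := relR_map ev.toRingHom 𝒳 𝒴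
    have e2 : (relR 𝒳 𝒴).map ev = relR (fun k => (𝒳 k).map ev) (fun k => (𝒴 k).map ev) := e1
    rw [e2, Matrix.map_one _ (map_zero ev) (map_one ev)] at h1
    exact h1
  have hJA : ∀ j, A (Sum.inr (j, true)) = J j := by
    intro j
    have h1 := hmem (𝒳 (Sum.inr (j, true))) ((J j).map (algebraMap ℂ (MvPolynomial σ ℂ))) (by
      rw [h𝒳, hJ]
      ext a b
      simp)
    change (𝒳 (Sum.inr (j, true))).map ev = J j
    rw [h1]
    ext a b
    simp
  have hB : ∀ k, B k = (A k)⁻¹ := fun k => (Matrix.inv_eq_right_inv (hmul k)).symm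
  have hBf : B = fun k => (A k)⁻¹ := funext hB
  have hrelT : relM A = 1 := by
    rw [relM_eq_relR, ← hBf]
    exact hrelA
  have hunit : ∀ k, IsUnit (A k) := fun k =>
    (Matrix.isUnit_iff_isUnit_det _).2 (Matrix.isUnit_det_of_right_inverse (hmul k))
  have h0 := hF A hunit hJA hrelT
  have h1 : MvPolynomial.aeval x F = evalM A F := by
    rw [evalM_eq_evalR, ← hBf]
    have : (MvPolynomial.aeval x : MvPolynomial σ ℂ →ₐ[ℂ] ℂ) = evalR A B := by
      apply MvPolynomial.algHom_ext
      rintro ⟨k, b, i, j⟩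
      cases b
      · simp only [evalR, MvPolynomial.aeval_X]
        change x (k, false, i, j) = ev (MvPolynomial.X (k, false, i, j))
        simp [ev]
      · simp only [evalR, MvPolynomial.aeval_X]
        change x (k, true, i, j) = ev (MvPolynomial.X (k, true, i, j))
        simp [ev]
    rw [this]
  rw [h1]
  exact h0

end Vale.Agent.P002R
end

section

/-!
# The inverse eigenvalue problem for `N * diagonal z`

If all principal minors of the complex matrix `N` are nonzero, then `N * diagonal z` takes every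
characteristic polynomial (`inv_eig`).
-/

set_option autoImplicit false

namespace Vale.Agent.P002G.InvEig

open Matrix

section Height

open MvPolynomial

variable {m : ℕ}

/-- set the first `j` variables to zero -/
noncomputable def kill (m j : ℕ) : MvPolynomial (Fin m) ℂ →ₐ[ℂ] MvPolynomial (Fin m) ℂ :=
  aeval fun i : Fin m => if i.val < j then 0 else X i

theorem kill_X (j : ℕ) (i : Fin m) :
    kill m j (X i) = if i.val < j then 0 else X i := by
  simp [kill]

theorem kill_comp (j l : ℕ) (hjl : j ≤ l) (f : MvPolynomial (Fin m) ℂ) :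
    kill m l (kill m j f) = kill m l f := by
  have h : (kill m l).comp (kill m j) = kill m l := by
    ext1 i
    rw [AlgHom.comp_apply, kill_X, kill_X]
    split_ifs with h1 h2
    · simp
    · omega
    · rw [kill_X]; simp [*]
    · rw [kill_X]; simp [*]
  exact DFunLike.congr_fun h f

instance (j : ℕ) : (RingHom.ker (kill m j)).IsPrime := RingHom.ker_isPrime _

theorem height_kill (j : ℕ) (hj : j ≤ m) : (j : ℕ∞) ≤ (RingHom.ker (kill m j)).height := by
  induction j with
  | zero => simp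
  | succ j ih =>
    have hlt : RingHom.ker (kill m j) < RingHom.ker (kill m (j + 1)) := by
      refine lt_of_le_of_ne ?_ ?_
      · intro f hf
        rw [RingHom.mem_ker] at hf ⊢
        rw [← kill_comp j (j + 1) (Nat.le_succ j), hf, map_zero]
      · intro h
        have h1 : (X (⟨j, hj⟩ : Fin m) : MvPolynomial (Fin m) ℂ) ∈
            RingHom.ker (kill m (j + 1)) := by
          rw [RingHom.mem_ker, kill_X]; simp
        rw [← h, RingHom.mem_ker, kill_X] at h1
        simp at h1
    have h1 := Ideal.height_add_one_le_of_lt_of_isPrime hlt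
    refine le_trans ?_ h1
    push_cast
    gcongr
    exact ih (by omega)

theorem height_vanishing :
    (m : ℕ∞) ≤ (vanishingIdeal ℂ {(0 : Fin m → ℂ)} : Ideal (MvPolynomial (Fin m) ℂ)).height := by
  refine (height_kill m le_rfl).trans (Ideal.height_mono fun f hf => ?_)
  rw [RingHom.mem_ker] at hf
  rw [mem_vanishingIdeal_singleton_iff]
  have h : (aeval (0 : Fin m → ℂ)).comp (kill m m) = aeval (0 : Fin m → ℂ) := by
    ext1 i
    rw [AlgHom.comp_apply, kill_X]; simp
  rw [← h, AlgHom.comp_apply, hf, map_zero]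

/-- Fewer than `m` polynomials in `m` variables which vanish at `0` have another common zero. -/
theorem exists_zero {k : ℕ} (hk : k < m) (F : Fin k → MvPolynomial (Fin m) ℂ)
    (hF : ∀ j, aeval (0 : Fin m → ℂ) (F j) = 0) :
    ∃ x : Fin m → ℂ, x ≠ 0 ∧ ∀ j, aeval x (F j) = 0 := by
  by_contra hcon
  push Not at hcon
  set I : Ideal (MvPolynomial (Fin m) ℂ) := Ideal.span (Set.range F) with hI
  have hz : zeroLocus ℂ I = {(0 : Fin m → ℂ)} := by
    rw [hI, zeroLocus_span]
    ext x
    simp only [Set.mem_range, forall_exists_index, forall_apply_eq_imp_iff, Set.mem_ofPred_eq,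
      Set.mem_singleton_iff]
    constructor
    · intro h
      by_contra hx
      obtain ⟨j, hj⟩ := hcon x hx
      exact hj (h j)
    · rintro rfl j
      exact hF j
  have hrad : (vanishingIdeal ℂ {(0 : Fin m → ℂ)} : Ideal (MvPolynomial (Fin m) ℂ)) = I.radical := by
    rw [← hz, vanishingIdeal_zeroLocus_eq_radical]
  have hmin : (vanishingIdeal ℂ {(0 : Fin m → ℂ)} : Ideal (MvPolynomial (Fin m) ℂ)) ∈
      I.minimalPrimes := by
    refine ⟨⟨inferInstance, ?_⟩, ?_⟩
    · rw [hrad]; exact Ideal.le_radical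
    · rintro J ⟨hJ, hIJ⟩ -
      change (vanishingIdeal ℂ {(0 : Fin m → ℂ)} : Ideal (MvPolynomial (Fin m) ℂ)) ≤ J
      rw [hrad]
      exact hJ.radical_le_iff.2 hIJ
  have h1 := Ideal.height_le_card_of_mem_minimalPrimes_span (Set.finite_range F) hmin
  have h2 := (height_vanishing (m := m)).trans h1
  have h3 : (Set.range F).ncard ≤ k := by
    rw [← Set.image_univ]
    refine (Set.ncard_image_le Set.finite_univ).trans ?_
    simp
  have : m ≤ k := le_trans (by exact_mod_cast h2) h3
  omega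

end Height


section Charpoly

open Polynomial

variable {r : ℕ}

/-- a matrix whose columns outside `S` vanish: powers and principal blocks -/
theorem pow_block {M : Matrix (Fin r) (Fin r) ℂ} {S : Finset (Fin r)}
    (hM : ∀ i j, j ∉ S → M i j = 0) (k : ℕ) :
    (∀ i ∈ S, ∀ j, j ∉ S → (M ^ k) i j = 0) ∧
    ((M.submatrix Subtype.val Subtype.val : Matrix S S ℂ)) ^ k =
      ((M ^ k).submatrix Subtype.val Subtype.val : Matrix S S ℂ) := by
  induction k with
  | zero =>
    refine ⟨fun i hi j hj => ?_, ?_⟩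
    · rw [pow_zero, Matrix.one_apply_ne]; rintro rfl; exact hj hi
    · rw [pow_zero, pow_zero, Matrix.submatrix_one _ Subtype.val_injective]
  | succ k ih =>
    refine ⟨fun i hi j hj => ?_, ?_⟩
    · rw [pow_succ, Matrix.mul_apply]
      exact Finset.sum_eq_zero fun l _ => by rw [hM l j hj, mul_zero]
    · ext i j
      rw [pow_succ, ih.2, Matrix.mul_apply, Matrix.submatrix_apply, pow_succ, Matrix.mul_apply]
      simp only [Matrix.submatrix_apply]
      rw [← Finset.sum_subset (Finset.subset_univ S)]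
      · exact (Finset.sum_coe_sort S fun l => (M ^ k) i l * M l j)
      · intro l _ hl
        rw [ih.1 i i.2 l hl, zero_mul]

theorem charpoly_ne {N : Matrix (Fin r) (Fin r) ℂ}
    (hN : ∀ S : Finset (Fin r), (N.submatrix (Subtype.val : S → Fin r) Subtype.val).det ≠ 0)
    {z : Fin r → ℂ} (hz : z ≠ 0) : (N * diagonal z).charpoly ≠ X ^ r := by
  intro h
  set S : Finset (Fin r) := Finset.univ.filter fun i => z i ≠ 0 with hS
  have hM : ∀ i j, j ∉ S → (N * diagonal z) i j = 0 := by
    intro i j hj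
    rw [Matrix.mul_diagonal]
    have : z j = 0 := by simpa [hS] using hj
    rw [this, mul_zero]
  have hpow := (pow_block hM r).2
  have h0 : (N * diagonal z) ^ r = 0 := by
    have := Matrix.aeval_self_charpoly (N * diagonal z)
    rwa [h, map_pow, aeval_X] at this
  rw [h0] at hpow
  have hdet := congrArg Matrix.det hpow
  rw [Matrix.det_pow] at hdet
  obtain ⟨i, hi⟩ : ∃ i, z i ≠ 0 := by
    by_contra hcon
    push Not at hcon
    exact hz (funext hcon)
  have hne : Nonempty S := ⟨⟨i, by simp [hS, hi]⟩⟩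
  have h1 : ((0 : Matrix (Fin r) (Fin r) ℂ).submatrix Subtype.val Subtype.val :
      Matrix S S ℂ).det = 0 := by
    have : ((0 : Matrix (Fin r) (Fin r) ℂ).submatrix Subtype.val Subtype.val :
        Matrix S S ℂ) = 0 := by
      ext; simp
    rw [this, Matrix.det_zero]
  rw [h1] at hdet
  have h2 : ((N * diagonal z).submatrix (Subtype.val : S → Fin r) Subtype.val) =
      N.submatrix (Subtype.val : S → Fin r) Subtype.val *
        diagonal (fun i : S => z i) := by
    ext i j
    simp [Matrix.mul_diagonal]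
  have h3 := eq_zero_of_pow_eq_zero hdet
  rw [h2, Matrix.det_mul, Matrix.det_diagonal] at h3
  rcases mul_eq_zero.1 h3 with h4 | h4
  · exact hN S h4
  · obtain ⟨j, -, hj⟩ := Finset.prod_eq_zero_iff.1 h4
    exact (Finset.mem_filter.1 (hS ▸ j.2 : (j : Fin r) ∈ Finset.univ.filter fun i => z i ≠ 0)).2 hj

/-- scaling a matrix scales the coefficients of its characteristic polynomial -/
theorem coeff_charpoly_smul (M : Matrix (Fin r) (Fin r) ℂ) (c : ℂ) (k : ℕ) :
    (c • M).charpoly.coeff k * c ^ k = c ^ r * M.charpoly.coeff k := by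
  have h : ((c • M).charpoly).comp (Polynomial.C c * X) = Polynomial.C (c ^ r) * M.charpoly := by
    rw [Matrix.charpoly, Matrix.charpoly, ← Polynomial.coe_compRingHom_apply,
      RingHom.map_det]
    have : (compRingHom (Polynomial.C c * X)).mapMatrix (c • M).charmatrix =
        Polynomial.C c • M.charmatrix := by
      ext1 i j
      simp only [RingHom.mapMatrix_apply, Matrix.map_apply, Matrix.charmatrix_apply,
        Matrix.smul_apply, smul_eq_mul, map_sub, map_mul, coe_compRingHom_apply, C_comp]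
      by_cases hij : i = j
      · subst hij; simp; ring
      · simp [Matrix.diagonal_apply_ne _ hij]
    rw [this, Matrix.det_smul, Fintype.card_fin, Polynomial.C_pow]
  have h2 := congrArg (fun p => p.coeff k) h
  simp only [coeff_C_mul] at h2
  rw [comp_C_mul_X_coeff] at h2
  exact h2

/-- The inverse eigenvalue problem for `N * diagonal z`. -/
theorem inv_eig (N : Matrix (Fin r) (Fin r) ℂ)
    (hN : ∀ S : Finset (Fin r), (N.submatrix (Subtype.val : S → Fin r) Subtype.val).det ≠ 0)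
    (χ : ℂ[X]) (hχ : χ.Monic) (hdeg : χ.natDegree = r) (h0 : χ.coeff 0 ≠ 0) :
    ∃ z : Fin r → ℂ, (∀ i, z i ≠ 0) ∧ (N * diagonal z).charpoly = χ := by
  let G : Matrix (Fin r) (Fin r) (MvPolynomial (Fin (r + 1)) ℂ) :=
    N.map MvPolynomial.C * diagonal (fun i => MvPolynomial.X i.castSucc)
  let F : Fin r → MvPolynomial (Fin (r + 1)) ℂ := fun k =>
    G.charpoly.coeff k - MvPolynomial.C (χ.coeff k) * MvPolynomial.X (Fin.last r) ^ (r - k.val)
  have hG : ∀ x : Fin (r + 1) → ℂ, ∀ k, MvPolynomial.aeval x (G.charpoly.coeff k) =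
      (N * diagonal (fun i : Fin r => x i.castSucc)).charpoly.coeff k := by
    intro x k
    have h1 : G.map (MvPolynomial.aeval x) = N * diagonal (fun i : Fin r => x i.castSucc) := by
      ext i j
      simp [G, Matrix.mul_diagonal]
    rw [← h1]
    have h2 := Matrix.charpoly_map G (MvPolynomial.aeval x : _ →ₐ[ℂ] ℂ).toRingHom
    change _ = ((G.map (MvPolynomial.aeval x : _ →ₐ[ℂ] ℂ).toRingHom).charpoly).coeff k
    rw [h2, coeff_map]
    rfl
  have hF : ∀ (x : Fin (r + 1) → ℂ) k, MvPolynomial.aeval x (F k) =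
      (N * diagonal (fun i : Fin r => x i.castSucc)).charpoly.coeff k -
        χ.coeff k * x (Fin.last r) ^ (r - k.val) := by
    intro x k
    simp only [F, map_sub, hG, map_mul, map_pow, MvPolynomial.aeval_X, MvPolynomial.aeval_C]
    rfl
  obtain ⟨x, hx, hxF⟩ := exists_zero (Nat.lt_succ_self r) F (by
    intro j
    rw [hF]
    have h1 : (fun i : Fin r => (0 : Fin (r + 1) → ℂ) i.castSucc) = 0 := rfl
    have h2 : (N * diagonal (0 : Fin r → ℂ)).charpoly = X ^ r := by
      rw [show diagonal (0 : Fin r → ℂ) = 0 from Matrix.diagonal_zero, mul_zero,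
        Matrix.charpoly_zero, Fintype.card_fin]
    rw [h1, h2, coeff_X_pow, if_neg (by omega), Pi.zero_apply, zero_pow (by omega)]
    simp)
  have hcoef : ∀ k : Fin r, (N * diagonal (fun i : Fin r => x i.castSucc)).charpoly.coeff k =
      χ.coeff k * x (Fin.last r) ^ (r - k.val) := by
    intro k
    have := hxF k
    rw [hF] at this
    exact sub_eq_zero.1 this
  have hdegM : ∀ M : Matrix (Fin r) (Fin r) ℂ, M.charpoly.natDegree = r := by
    intro M
    rw [Matrix.charpoly_natDegree_eq_dim, Fintype.card_fin]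
  have hs : x (Fin.last r) ≠ 0 := by
    intro hs
    have hz : (fun i : Fin r => x i.castSucc) ≠ 0 := by
      intro hz
      apply hx
      funext i
      refine Fin.lastCases ?_ (fun j => ?_) i
      · exact hs
      · exact congrFun hz j
    refine charpoly_ne hN hz ?_
    ext k
    rw [coeff_X_pow]
    rcases lt_trichotomy k r with hk | hk | hk
    · rw [if_neg (by omega), hcoef ⟨k, hk⟩, hs, zero_pow (by simp; omega), mul_zero]
    · rw [if_pos hk, hk]
      have := (Matrix.charpoly_monic (N * diagonal (fun i : Fin r => x i.castSucc))).coeff_natDegree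
      rwa [hdegM] at this
    · rw [if_neg (by omega), coeff_eq_zero_of_natDegree_lt (by rw [hdegM]; exact hk)]
  set c : ℂ := (x (Fin.last r))⁻¹ with hc
  have hc0 : c ≠ 0 := inv_ne_zero hs
  have hsm : N * diagonal (fun i : Fin r => c * x i.castSucc) =
      c • (N * diagonal (fun i : Fin r => x i.castSucc)) := by
    ext i j
    simp only [Matrix.mul_diagonal, Matrix.smul_apply, smul_eq_mul]
    ring
  have hchar : (N * diagonal (fun i : Fin r => c * x i.castSucc)).charpoly = χ := by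
    ext k
    rcases lt_trichotomy k r with hk | hk | hk
    · have h1 := coeff_charpoly_smul (N * diagonal (fun i : Fin r => x i.castSucc)) c k
      rw [← hsm, hcoef ⟨k, hk⟩] at h1
      have h2 : c ^ r * (χ.coeff k * x (Fin.last r) ^ (r - k)) = χ.coeff k * c ^ k := by
        have h3 : c ^ r = c ^ k * c ^ (r - k) := by
          rw [← pow_add]; congr 1; omega
        have h4 : c ^ (r - k) * x (Fin.last r) ^ (r - k) = 1 := by
          rw [← mul_pow, hc, inv_mul_cancel₀ hs, one_pow]
        rw [h3]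
        linear_combination (χ.coeff k * c ^ k) * h4
      rw [h2] at h1
      exact mul_right_cancel₀ (pow_ne_zero _ hc0) h1
    · subst hk
      have h1 := (Matrix.charpoly_monic
        (N * diagonal (fun i : Fin k => c * x i.castSucc))).coeff_natDegree
      rw [hdegM] at h1
      have h2 := hχ.coeff_natDegree
      rw [hdeg] at h2
      rw [h1, h2]
    · rw [coeff_eq_zero_of_natDegree_lt (by rw [hdegM]; exact hk),
        coeff_eq_zero_of_natDegree_lt (by rw [hdeg]; exact hk)]
  refine ⟨fun i => c * x i.castSucc, ?_, hchar⟩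
  have hdet : (N * diagonal (fun i : Fin r => c * x i.castSucc)).det ≠ 0 := by
    rw [Matrix.det_eq_sign_charpoly_coeff, hchar]
    exact mul_ne_zero (pow_ne_zero _ (by norm_num)) h0
  rw [Matrix.det_mul, Matrix.det_diagonal] at hdet
  intro i
  exact Finset.prod_ne_zero_iff.1 (right_ne_zero_of_mul hdet) i (Finset.mem_univ i)

end Charpoly

end Vale.Agent.P002G.InvEig
end
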