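import Mathlib

set_option linter.all false

section

/-!
# P002, genus 0: the cell of products (upper unitriangular) * (lower triangular)
-/

namespace Vale.Agent.P002R

open Matrix

variable {n : ℕ} {S T : Type*} [CommRing S] [CommRing T]

/-- The upper unitriangular matrix with the strict upper entries of `X`. -/
def uU (X : Matrix (Fin n) (Fin n) S) : Matrix (Fin n) (Fin n) S :=
  Matrix.of fun i j => if i = j then 1 else if i < j then X i j else 0

/-- The lower triangular part of `X`. -/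
def lL (X : Matrix (Fin n) (Fin n) S) : Matrix (Fin n) (Fin n) S :=
  Matrix.of fun i j => if j ≤ i then X i j else 0

/-- The element of the cell with coordinates `X`. -/
def zZ (X : Matrix (Fin n) (Fin n) S) : Matrix (Fin n) (Fin n) S := uU X * lL X

theorem uU_eqn (X : Matrix (Fin n) (Fin n) S) :
    uU X = Matrix.of fun i j => if i = j then 1 else if i < j then X i j else 0 := rfl

theorem lL_eqn (X : Matrix (Fin n) (Fin n) S) :
    lL X = Matrix.of fun i j => if j ≤ i then X i j else 0 := rfl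

theorem zZ_eqn (X : Matrix (Fin n) (Fin n) S) : zZ X = uU X * lL X := rfl

theorem uU_apply (X : Matrix (Fin n) (Fin n) S) (i j : Fin n) :
    uU X i j = if i = j then 1 else if i < j then X i j else 0 := rfl

theorem lL_apply (X : Matrix (Fin n) (Fin n) S) (i j : Fin n) :
    lL X i j = if j ≤ i then X i j else 0 := rfl

/-- Upper triangular matrices. -/
def UpT (A : Matrix (Fin n) (Fin n) S) : Prop := ∀ i j, j < i → A i j = 0

/-- Lower triangular matrices. -/
def LoT (A : Matrix (Fin n) (Fin n) S) : Prop := ∀ i j, i < j → A i j = 0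

theorem upT_uU (X : Matrix (Fin n) (Fin n) S) : UpT (uU X) := by
  intro i j h
  rw [uU_apply, if_neg h.ne', if_neg h.not_gt]

theorem loT_lL (X : Matrix (Fin n) (Fin n) S) : LoT (lL X) := by
  intro i j h
  rw [lL_apply, if_neg h.not_ge]

theorem uU_diag (X : Matrix (Fin n) (Fin n) S) (i : Fin n) : uU X i i = 1 := by
  rw [uU_apply, if_pos rfl]

theorem lL_diag (X : Matrix (Fin n) (Fin n) S) (i : Fin n) : lL X i i = X i i := by
  rw [lL_apply, if_pos le_rfl]

theorem UpT.mul {A B : Matrix (Fin n) (Fin n) S} (hA : UpT A) (hB : UpT B) : UpT (A * B) := by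
  intro i j h
  rw [Matrix.mul_apply]
  refine Finset.sum_eq_zero fun k _ => ?_
  rcases lt_or_ge k i with hk | hk
  · rw [hA i k hk, zero_mul]
  · rw [hB k j (h.trans_le hk), mul_zero]

theorem LoT.mul {A B : Matrix (Fin n) (Fin n) S} (hA : LoT A) (hB : LoT B) : LoT (A * B) := by
  intro i j h
  rw [Matrix.mul_apply]
  refine Finset.sum_eq_zero fun k _ => ?_
  rcases lt_or_ge i k with hk | hk
  · rw [hA i k hk, zero_mul]
  · rw [hB k j (hk.trans_lt h), mul_zero]

theorem UpT.mul_diag {A B : Matrix (Fin n) (Fin n) S} (hA : UpT A) (hB : UpT B) (i : Fin n) :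
    (A * B) i i = A i i * B i i := by
  rw [Matrix.mul_apply, Finset.sum_eq_single i]
  · intro k _ hk
    rcases lt_or_gt_of_ne hk with h | h
    · rw [hA i k h, zero_mul]
    · rw [hB k i h, mul_zero]
  · intro h; exact absurd (Finset.mem_univ i) h

theorem LoT.mul_diag {A B : Matrix (Fin n) (Fin n) S} (hA : LoT A) (hB : LoT B) (i : Fin n) :
    (A * B) i i = A i i * B i i := by
  rw [Matrix.mul_apply, Finset.sum_eq_single i]
  · intro k _ hk
    rcases lt_or_gt_of_ne hk with h | h
    · rw [hB k i h, mul_zero]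
    · rw [hA i k h, zero_mul]
  · intro h; exact absurd (Finset.mem_univ i) h

theorem UpT.det {A : Matrix (Fin n) (Fin n) S} (hA : UpT A) : A.det = ∏ i, A i i :=
  Matrix.det_of_isUpperTriangular fun i j h => hA i j h

theorem LoT.det {A : Matrix (Fin n) (Fin n) S} (hA : LoT A) : A.det = ∏ i, A i i :=
  Matrix.det_of_isLowerTriangular A fun i j h => hA i j (by simpa using h)

theorem UpT.transpose {A : Matrix (Fin n) (Fin n) S} (hA : UpT A) : LoT Aᵀ :=
  fun i j h => hA j i h

theorem LoT.transpose {A : Matrix (Fin n) (Fin n) S} (hA : LoT A) : UpT Aᵀ :=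
  fun i j h => hA j i h

theorem upT_one : UpT (1 : Matrix (Fin n) (Fin n) S) := fun _ _ h => Matrix.one_apply_ne h.ne'

theorem loT_one : LoT (1 : Matrix (Fin n) (Fin n) S) := fun _ _ h => Matrix.one_apply_ne h.ne

theorem upT_diagonal (d : Fin n → S) : UpT (diagonal d) := fun _ _ h =>
  Matrix.diagonal_apply_ne _ h.ne'

theorem loT_diagonal (d : Fin n → S) : LoT (diagonal d) := fun _ _ h =>
  Matrix.diagonal_apply_ne _ h.ne

theorem det_uU (X : Matrix (Fin n) (Fin n) S) : (uU X).det = 1 := by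
  rw [(upT_uU X).det]
  exact Finset.prod_eq_one fun i _ => uU_diag X i

theorem det_lL (X : Matrix (Fin n) (Fin n) S) : (lL X).det = ∏ i, X i i := by
  rw [(loT_lL X).det]
  exact Finset.prod_congr rfl fun i _ => lL_diag X i

theorem det_zZ (X : Matrix (Fin n) (Fin n) S) : (zZ X).det = ∏ i, X i i := by
  rw [zZ, det_mul, det_uU, det_lL, one_mul]

theorem uU_map (φ : S →+* T) (X : Matrix (Fin n) (Fin n) S) : (uU X).map φ = uU (X.map φ) := by
  ext i j
  simp only [Matrix.map_apply, uU_apply]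
  split_ifs
  · exact map_one φ
  · rfl
  · exact map_zero φ

theorem lL_map (φ : S →+* T) (X : Matrix (Fin n) (Fin n) S) : (lL X).map φ = lL (X.map φ) := by
  ext i j
  simp only [Matrix.map_apply, lL_apply]
  split_ifs
  · rfl
  · exact map_zero φ

theorem zZ_map (φ : S →+* T) (X : Matrix (Fin n) (Fin n) S) : (zZ X).map φ = zZ (X.map φ) := by
  rw [zZ, Matrix.map_mul, uU_map, lL_map, zZ]

/-- The coordinates of a pair of triangular matrices. -/
theorem exists_coord (U L : Matrix (Fin n) (Fin n) S) (hU : UpT U) (hU1 : ∀ i, U i i = 1)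
    (hL : LoT L) : ∃ X : Matrix (Fin n) (Fin n) S, uU X = U ∧ lL X = L ∧ ∀ i, X i i = L i i := by
  refine ⟨Matrix.of fun i j => if i < j then U i j else L i j, ?_, ?_, fun i => ?_⟩
  · ext i j
    rw [uU_apply, Matrix.of_apply]
    split_ifs with h1 h2
    · rw [← h1, hU1]
    · rfl
    · exact (hU i j (lt_of_le_of_ne (not_lt.1 h2) (Ne.symm h1))).symm
  · ext i j
    rw [lL_apply, Matrix.of_apply]
    split_ifs with h1 h2
    · exact absurd h2 (not_lt.2 h1)
    · rfl
    · exact (hL i j (not_le.1 h1)).symm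
  · rw [Matrix.of_apply, if_neg (lt_irrefl i)]

/-! ### Inverses of triangular matrices over a field -/

section field

variable {F : Type*} [Field F]

theorem UpT.inv {A : Matrix (Fin n) (Fin n) F} (hA : UpT A) (hd : ∀ i, A i i ≠ 0) : UpT A⁻¹ := by
  have hdet : IsUnit A.det := by
    rw [hA.det, isUnit_iff_ne_zero, Finset.prod_ne_zero_iff]
    exact fun i _ => hd i
  have := Matrix.invertibleOfIsUnitDet A hdet
  intro i j h
  exact Matrix.blockTriangular_inv_of_blockTriangular (M := A) (b := id)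
    (fun i j h => hA i j h) h

theorem inv_diag {A : Matrix (Fin n) (Fin n) F} (hA : UpT A) (hd : ∀ i, A i i ≠ 0) (i : Fin n) :
    A⁻¹ i i = (A i i)⁻¹ := by
  have hdet : IsUnit A.det := by
    rw [hA.det, isUnit_iff_ne_zero, Finset.prod_ne_zero_iff]
    exact fun i _ => hd i
  have h1 := (hA.inv hd).mul_diag hA i
  rw [Matrix.nonsing_inv_mul _ hdet, Matrix.one_apply_eq] at h1
  exact eq_inv_of_mul_eq_one_left h1.symm

theorem LoT.inv {A : Matrix (Fin n) (Fin n) F} (hA : LoT A) (hd : ∀ i, A i i ≠ 0) : LoT A⁻¹ := by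
  have h1 : UpT (Aᵀ)⁻¹ := hA.transpose.inv hd
  rw [← Matrix.transpose_nonsing_inv] at h1
  exact h1.transpose

theorem LoT.inv_diag {A : Matrix (Fin n) (Fin n) F} (hA : LoT A) (hd : ∀ i, A i i ≠ 0)
    (i : Fin n) : A⁻¹ i i = (A i i)⁻¹ := by
  have hdet : IsUnit A.det := by
    rw [hA.det, isUnit_iff_ne_zero, Finset.prod_ne_zero_iff]
    exact fun i _ => hd i
  have h1 := (hA.inv hd).mul_diag hA i
  rw [Matrix.nonsing_inv_mul _ hdet, Matrix.one_apply_eq] at h1
  exact eq_inv_of_mul_eq_one_left h1.symm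

/-- Existence of the decomposition (upper unitriangular) * (lower triangular). -/
theorem exists_UL : ∀ {n : ℕ} (Z : Matrix (Fin n) (Fin n) F),
    (∀ k : ℕ, k ≤ n → (Z.submatrix (fun i : {i : Fin n // k ≤ (i : ℕ)} => (i : Fin n))
      (fun i : {i : Fin n // k ≤ (i : ℕ)} => (i : Fin n))).det ≠ 0) →
    ∃ X : Matrix (Fin n) (Fin n) F, Z = zZ X ∧ ∀ i, X i i ≠ 0 := by
  intro n
  induction n with
  | zero => exact fun Z _ => ⟨Z, Matrix.ext fun i => i.elim0, fun i => i.elim0⟩
  | succ n ih =>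
    intro Z hZ
    obtain ⟨N, hN⟩ : ∃ N : Matrix (Fin n) (Fin n) F, N = Z.submatrix Fin.succ Fin.succ := ⟨_, rfl⟩
    obtain ⟨XN, hXN, hXN0⟩ := ih N (by
      intro k hk
      have h1 := hZ (k + 1) (by omega)
      obtain ⟨e, he⟩ : ∃ e : {i : Fin n // k ≤ (i : ℕ)} ≃ {i : Fin (n + 1) // k + 1 ≤ (i : ℕ)},
          ∀ i, ((e i : {i : Fin (n + 1) // k + 1 ≤ (i : ℕ)}) : Fin (n + 1)) =
            Fin.succ (i : Fin n) := by
        refine ⟨{
          toFun := fun i => ⟨Fin.succ i.1, by rw [Fin.val_succ]; exact Nat.succ_le_succ i.2⟩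
          invFun := fun i => ⟨⟨(i.1 : ℕ) - 1, by have := i.1.2; have := i.2; omega⟩, by
            have := i.2; simp only; omega⟩
          left_inv := fun i => by ext; simp
          right_inv := fun i => by
            have := i.2
            ext
            simp only [Fin.val_succ]
            omega }, fun i => rfl⟩
      rw [← Matrix.det_submatrix_equiv_self e] at h1
      have h2 : ((Z.submatrix (fun i : {i : Fin (n + 1) // k + 1 ≤ (i : ℕ)} => (i : Fin (n + 1)))
          (fun i : {i : Fin (n + 1) // k + 1 ≤ (i : ℕ)} => (i : Fin (n + 1)))).submatrix e e) =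
          N.submatrix (fun i : {i : Fin n // k ≤ (i : ℕ)} => (i : Fin n))
            (fun i : {i : Fin n // k ≤ (i : ℕ)} => (i : Fin n)) := by
        ext i j
        rw [hN]
        simp only [Matrix.submatrix_apply, he]
      rw [h2] at h1
      exact h1)
    have hLu : IsUnit (lL XN).det := by
      rw [det_lL, isUnit_iff_ne_zero, Finset.prod_ne_zero_iff]
      exact fun i _ => hXN0 i
    have hUu : IsUnit (uU XN).det := by rw [det_uU]; exact isUnit_one
    obtain ⟨u, hu⟩ : ∃ u : Fin n → F, u ᵥ* lL XN = fun j => Z 0 j.succ :=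
      ⟨(fun j => Z 0 j.succ) ᵥ* (lL XN)⁻¹, by
        rw [Matrix.vecMul_vecMul, Matrix.nonsing_inv_mul _ hLu, Matrix.vecMul_one]⟩
    obtain ⟨l, hl⟩ : ∃ l : Fin n → F, uU XN *ᵥ l = fun i => Z i.succ 0 :=
      ⟨(uU XN)⁻¹ *ᵥ (fun i => Z i.succ 0), by
        rw [Matrix.mulVec_mulVec, Matrix.mul_nonsing_inv _ hUu, Matrix.one_mulVec]⟩
    obtain ⟨X, hX⟩ : ∃ X : Matrix (Fin (n + 1)) (Fin (n + 1)) F, X =
        Matrix.of (Fin.cons (Fin.cons (Z 0 0 - u ⬝ᵥ l) u) fun i => Fin.cons (l i) (XN i)) :=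
      ⟨_, rfl⟩
    have hX00 : X 0 0 = Z 0 0 - u ⬝ᵥ l := by rw [hX]; rfl
    have hX0s : ∀ j, X 0 (Fin.succ j) = u j := fun j => by rw [hX]; rfl
    have hXs0 : ∀ i, X (Fin.succ i) 0 = l i := fun i => by rw [hX]; rfl
    have hXss : ∀ i j, X (Fin.succ i) (Fin.succ j) = XN i j := fun i j => by rw [hX]; rfl
    have hU00 : uU X 0 0 = 1 := uU_diag X 0
    have hU0s : ∀ j, uU X 0 (Fin.succ j) = u j := fun j => by
      rw [uU_apply, if_neg (Fin.succ_ne_zero j).symm, if_pos (Fin.succ_pos j), hX0s]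
    have hUs0 : ∀ i, uU X (Fin.succ i) 0 = 0 := fun i => upT_uU X _ _ (Fin.succ_pos i)
    have hUss : ∀ i j, uU X (Fin.succ i) (Fin.succ j) = uU XN i j := fun i j => by
      rw [uU_apply, uU_apply, hXss]
      simp only [Fin.succ_inj, Fin.succ_lt_succ_iff]
    have hL00 : lL X 0 0 = Z 0 0 - u ⬝ᵥ l := by rw [lL_diag, hX00]
    have hL0s : ∀ j, lL X 0 (Fin.succ j) = 0 := fun j => loT_lL X _ _ (Fin.succ_pos j)
    have hLs0 : ∀ i, lL X (Fin.succ i) 0 = l i := fun i => by
      rw [lL_apply, if_pos (Fin.zero_le _), hXs0]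
    have hLss : ∀ i j, lL X (Fin.succ i) (Fin.succ j) = lL XN i j := fun i j => by
      rw [lL_apply, lL_apply, hXss]
      simp only [Fin.succ_le_succ_iff]
    have hZX : Z = zZ X := by
      ext i j
      rw [zZ, Matrix.mul_apply, Fin.sum_univ_succ]
      refine Fin.cases ?_ (fun i => ?_) i
      · refine Fin.cases ?_ (fun j => ?_) j
        · rw [hU00, hL00]
          simp only [hU0s, hLs0]
          rw [one_mul]
          exact (sub_add_cancel _ _).symm
        · rw [hU00, hL0s]
          simp only [hU0s, hLss]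
          rw [mul_zero, zero_add]
          exact (congrFun hu j).symm
      · refine Fin.cases ?_ (fun j => ?_) j
        · rw [hUs0, zero_mul, zero_add]
          simp only [hUss, hLs0]
          exact (congrFun hl i).symm
        · rw [hUs0, zero_mul, zero_add]
          simp only [hUss, hLss]
          have h1 := congrFun (congrFun hXN i) j
          rw [zZ, Matrix.mul_apply] at h1
          rw [← h1, hN, Matrix.submatrix_apply]
    refine ⟨X, hZX, fun i => ?_⟩
    have hdet : Z.det ≠ 0 := by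
      have h1 := hZ 0 (Nat.zero_le _)
      obtain ⟨e, he⟩ : ∃ e : Fin (n + 1) ≃ {i : Fin (n + 1) // 0 ≤ (i : ℕ)}, ∀ i,
          ((e i : {i : Fin (n + 1) // 0 ≤ (i : ℕ)}) : Fin (n + 1)) = i :=
        ⟨(Equiv.subtypeUnivEquiv fun i => Nat.zero_le _).symm, fun i => rfl⟩
      rw [← Matrix.det_submatrix_equiv_self e] at h1
      have h2 : ((Z.submatrix (fun i : {i : Fin (n + 1) // 0 ≤ (i : ℕ)} => (i : Fin (n + 1)))
          (fun i : {i : Fin (n + 1) // 0 ≤ (i : ℕ)} => (i : Fin (n + 1)))).submatrix e e) = Z := by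
        ext i j
        simp only [Matrix.submatrix_apply, he]
      rw [h2] at h1
      exact h1
    rw [hZX, det_zZ, Finset.prod_ne_zero_iff] at hdet
    exact hdet i (Finset.mem_univ i)

end field

end Vale.Agent.P002R
end

section

/-!
# Polynomial functions on complex vector spaces, rational functions, density
-/

namespace Vale.Agent.P002G

open Matrix

/-- The algebra of polynomial functions: generated by the linear functionals. -/
def polyAlg (V : Type*) [AddCommGroup V] [Module ℂ V] : Subalgebra ℂ (V → ℂ) :=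
  Algebra.adjoin ℂ {f | ∃ l : V →ₗ[ℂ] ℂ, ⇑l = f}

variable {V W : Type*} [AddCommGroup V] [Module ℂ V] [AddCommGroup W] [Module ℂ W]

/-- Polynomial functions. -/
def IsPoly (f : V → ℂ) : Prop := f ∈ polyAlg V

theorem isPoly_linear (l : V →ₗ[ℂ] ℂ) : IsPoly fun x => l x :=
  Algebra.subset_adjoin ⟨l, rfl⟩

theorem isPoly_const (c : ℂ) : IsPoly fun _ : V => c :=
  (polyAlg V).algebraMap_mem c

theorem IsPoly.add {f g : V → ℂ} (hf : IsPoly f) (hg : IsPoly g) : IsPoly fun x => f x + g x :=
  (polyAlg V).add_mem hf hg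

theorem IsPoly.sub {f g : V → ℂ} (hf : IsPoly f) (hg : IsPoly g) : IsPoly fun x => f x - g x :=
  (polyAlg V).sub_mem hf hg

theorem IsPoly.neg {f : V → ℂ} (hf : IsPoly f) : IsPoly fun x => -f x :=
  (polyAlg V).neg_mem hf

theorem IsPoly.mul {f g : V → ℂ} (hf : IsPoly f) (hg : IsPoly g) : IsPoly fun x => f x * g x :=
  (polyAlg V).mul_mem hf hg

theorem IsPoly.pow {f : V → ℂ} (hf : IsPoly f) (n : ℕ) : IsPoly fun x => f x ^ n :=
  (polyAlg V).pow_mem hf n

theorem IsPoly.sum {ι : Type*} (s : Finset ι) {f : ι → V → ℂ} (hf : ∀ i ∈ s, IsPoly (f i)) :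
    IsPoly fun x => ∑ i ∈ s, f i x := by
  have := (polyAlg V).sum_mem hf
  unfold IsPoly
  convert this using 1
  ext x
  simp

theorem IsPoly.prod {ι : Type*} (s : Finset ι) {f : ι → V → ℂ} (hf : ∀ i ∈ s, IsPoly (f i)) :
    IsPoly fun x => ∏ i ∈ s, f i x := by
  have := (polyAlg V).prod_mem hf
  unfold IsPoly
  convert this using 1
  ext x
  simp

theorem IsPoly.congr {f g : V → ℂ} (hf : IsPoly f) (h : ∀ x, f x = g x) : IsPoly g := by
  rwa [show g = f from funext fun x => (h x).symm]

/-- Quotients of polynomial functions by powers of `d` (as functions on `d ≠ 0`). -/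
def IsRat (d f : V → ℂ) : Prop :=
  ∃ (M : ℕ) (g : V → ℂ), IsPoly g ∧ ∀ x, d x ≠ 0 → g x = d x ^ M * f x

theorem IsRat.mul {d f f' : V → ℂ} (hf : IsRat d f) (hf' : IsRat d f') :
    IsRat d fun x => f x * f' x := by
  obtain ⟨M, g, hg, h⟩ := hf
  obtain ⟨M', g', hg', h'⟩ := hf'
  refine ⟨M + M', fun x => g x * g' x, hg.mul hg', fun x hx => ?_⟩
  beta_reduce
  rw [h x hx, h' x hx]
  ring

theorem IsRat.add {d f f' : V → ℂ} (hd : IsPoly d) (hf : IsRat d f) (hf' : IsRat d f') :
    IsRat d fun x => f x + f' x := by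
  obtain ⟨M, g, hg, h⟩ := hf
  obtain ⟨M', g', hg', h'⟩ := hf'
  refine ⟨M + M', fun x => g x * d x ^ M' + g' x * d x ^ M,
    (hg.mul (hd.pow M')).add (hg'.mul (hd.pow M)), fun x hx => ?_⟩
  beta_reduce
  rw [h x hx, h' x hx]
  ring

theorem IsPoly.isRat {d f : V → ℂ} (hf : IsPoly f) : IsRat d f :=
  ⟨0, f, hf, fun x _ => by simp⟩

theorem isRat_inv {d : V → ℂ} : IsRat d fun x => (d x)⁻¹ :=
  ⟨1, fun _ => 1, isPoly_const 1, fun x hx => by rw [pow_one, mul_inv_cancel₀ hx]⟩

theorem IsRat.congr {d f g : V → ℂ} (hf : IsRat d f) (h : ∀ x, d x ≠ 0 → f x = g x) :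
    IsRat d g := by
  obtain ⟨M, G, hG, hG'⟩ := hf
  exact ⟨M, G, hG, fun x hx => by rw [hG' x hx, h x hx]⟩

theorem IsRat.sum {ι : Type*} {d : V → ℂ} (hd : IsPoly d) (s : Finset ι) {f : ι → V → ℂ}
    (hf : ∀ i ∈ s, IsRat d (f i)) : IsRat d fun x => ∑ i ∈ s, f i x := by
  classical
  induction s using Finset.induction_on with
  | empty => simpa using (isPoly_const (V := V) 0).isRat
  | insert i s hi ih =>
    refine ((hf i (Finset.mem_insert_self i s)).add hd
      (ih fun j hj => hf j (Finset.mem_insert_of_mem hj))).congr fun x _ => ?_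
    rw [Finset.sum_insert hi]

theorem IsRat.prod {ι : Type*} {d : V → ℂ} (s : Finset ι) {f : ι → V → ℂ}
    (hf : ∀ i ∈ s, IsRat d (f i)) : IsRat d fun x => ∏ i ∈ s, f i x := by
  classical
  induction s using Finset.induction_on with
  | empty => simpa using (isPoly_const (V := V) 1).isRat
  | insert i s hi ih =>
    refine ((hf i (Finset.mem_insert_self i s)).mul
      (ih fun j hj => hf j (Finset.mem_insert_of_mem hj))).congr fun x _ => ?_
    rw [Finset.prod_insert hi]

/-- More denominators. -/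
theorem IsRat.of_dvd {d e f : V → ℂ} (hf : IsRat d f) (c : V → ℂ) (hc : IsPoly c)
    (h : ∀ x, e x = c x * d x) : IsRat e f := by
  obtain ⟨M, g, hg, hg'⟩ := hf
  refine ⟨M, fun x => c x ^ M * g x, (hc.pow M).mul hg, fun x hx => ?_⟩
  have hd : d x ≠ 0 := fun h0 => hx (by rw [h, h0, mul_zero])
  beta_reduce
  rw [hg' x hd, h, mul_pow, mul_assoc]

/-- A map is rational with denominators `d`. -/
def RatMap (d : V → ℂ) (ψ : V → W) : Prop :=
  ∀ l : W →ₗ[ℂ] ℂ, IsRat d fun x => l (ψ x)

/-- A map is polynomial. -/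
def PolyMap (ψ : V → W) : Prop := ∀ l : W →ₗ[ℂ] ℂ, IsPoly fun x => l (ψ x)

theorem RatMap.comp {d : V → ℂ} (hd : IsPoly d) {ψ : V → W} (h : RatMap d ψ) {f : W → ℂ}
    (hf : IsPoly f) : IsRat d fun x => f (ψ x) := by
  unfold IsPoly polyAlg at hf
  induction hf using Algebra.adjoin_induction with
  | mem f hf =>
    obtain ⟨l, rfl⟩ := hf
    exact h l
  | algebraMap c => exact (isPoly_const c).isRat
  | add f g _ _ hf hg => exact hf.add hd hg
  | mul f g _ _ hf hg => exact hf.mul hg

theorem PolyMap.comp {ψ : V → W} (h : PolyMap ψ) {f : W → ℂ} (hf : IsPoly f) :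
    IsPoly fun x => f (ψ x) := by
  unfold IsPoly polyAlg at hf
  induction hf using Algebra.adjoin_induction with
  | mem f hf =>
    obtain ⟨l, rfl⟩ := hf
    exact h l
  | algebraMap c => exact isPoly_const c
  | add f g _ _ hf hg => exact hf.add hg
  | mul f g _ _ hf hg => exact hf.mul hg

theorem PolyMap.ratMap {d : V → ℂ} {ψ : V → W} (h : PolyMap ψ) : RatMap d ψ :=
  fun l => (h l).isRat

theorem polyMap_linear (l : V →ₗ[ℂ] W) : PolyMap fun x => l x :=
  fun l' => isPoly_linear (l'.comp l)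

theorem polyMap_const (w : W) : PolyMap fun _ : V => w := fun _ => isPoly_const _

theorem PolyMap.prodMk {X : Type*} [AddCommGroup X] [Module ℂ X] {ψ : V → W} {ψ' : V → X}
    (h : PolyMap ψ) (h' : PolyMap ψ') : PolyMap fun x => (ψ x, ψ' x) := by
  intro l
  refine ((h (l.comp (LinearMap.inl ℂ W X))).add (h' (l.comp (LinearMap.inr ℂ W X)))).congr
    fun x => ?_
  simp [← map_add]

theorem RatMap.prodMk {X : Type*} [AddCommGroup X] [Module ℂ X] {d : V → ℂ} (hd : IsPoly d)
    {ψ : V → W} {ψ' : V → X} (h : RatMap d ψ) (h' : RatMap d ψ') :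
    RatMap d fun x => (ψ x, ψ' x) := by
  intro l
  refine ((h (l.comp (LinearMap.inl ℂ W X))).add hd (h' (l.comp (LinearMap.inr ℂ W X)))).congr
    fun x _ => ?_
  simp [← map_add]

theorem polyMap_pi {ι : Type*} [Finite ι] {ψ : V → ι → W}
    (h : ∀ i, PolyMap fun x => ψ x i) : PolyMap ψ := by
  classical
  have := Fintype.ofFinite ι
  intro l
  refine (IsPoly.sum Finset.univ (f := fun i x =>
    l.comp (LinearMap.single ℂ (fun _ : ι => W) i) (ψ x i)) fun i _ => h i _).congr fun x => ?_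
  conv_rhs => rw [← Finset.univ_sum_single (ψ x)]
  rw [map_sum]
  rfl

theorem ratMap_pi {ι : Type*} [Finite ι] {d : V → ℂ} (hd : IsPoly d) {ψ : V → ι → W}
    (h : ∀ i, RatMap d fun x => ψ x i) : RatMap d ψ := by
  classical
  have := Fintype.ofFinite ι
  intro l
  refine (IsRat.sum hd Finset.univ (f := fun i x =>
    l.comp (LinearMap.single ℂ (fun _ : ι => W) i) (ψ x i)) fun i _ => h i _).congr fun x _ => ?_
  conv_rhs => rw [← Finset.univ_sum_single (ψ x)]
  rw [map_sum]
  rfl

theorem lin_one (l : ℂ →ₗ[ℂ] ℂ) (z : ℂ) : l z = l 1 * z := by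
  rw [mul_comm, ← smul_eq_mul z, ← map_smul, smul_eq_mul, mul_one]

theorem IsPoly.polyMap {f : V → ℂ} (hf : IsPoly f) : PolyMap f := fun l =>
  ((isPoly_const (l 1)).mul hf).congr fun x => (lin_one l _).symm

theorem IsRat.ratMap {d f : V → ℂ} (hf : IsRat d f) : RatMap d f := fun l =>
  ((isPoly_const (l 1)).isRat.mul hf).congr fun x _ => (lin_one l _).symm

theorem isPoly_coord {ι : Type*} (i : ι) : IsPoly fun x : ι → ℂ => x i :=
  isPoly_linear (LinearMap.proj (R := ℂ) (φ := fun _ : ι => ℂ) i)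

/-! ### Matrices -/

section matrices

variable {m n k : Type*} [Finite m] [Finite n]

theorem polyMap_matrix {ψ : V → Matrix m n ℂ} (h : ∀ i j, IsPoly fun x => ψ x i j) :
    PolyMap ψ :=
  polyMap_pi fun i => polyMap_pi fun j => (h i j).polyMap

theorem ratMap_matrix {d : V → ℂ} (hd : IsPoly d) {ψ : V → Matrix m n ℂ}
    (h : ∀ i j, IsRat d fun x => ψ x i j) : RatMap d ψ :=
  ratMap_pi hd fun i => ratMap_pi hd fun j => (h i j).ratMap

omit [Finite m] [Finite n] in
theorem PolyMap.entry {ψ : V → Matrix m n ℂ} (h : PolyMap ψ) (i : m) (j : n) :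
    IsPoly fun x => ψ x i j :=
  h ((LinearMap.proj j).comp (LinearMap.proj i : Matrix m n ℂ →ₗ[ℂ] n → ℂ))

omit [Finite m] [Finite n] in
theorem RatMap.entry {d : V → ℂ} {ψ : V → Matrix m n ℂ} (h : RatMap d ψ) (i : m) (j : n) :
    IsRat d fun x => ψ x i j :=
  h ((LinearMap.proj j).comp (LinearMap.proj i : Matrix m n ℂ →ₗ[ℂ] n → ℂ))

omit [Finite m] in
theorem PolyMap.coord {ψ : V → m → ℂ} (h : PolyMap ψ) (i : m) : IsPoly fun x => ψ x i :=
  h (LinearMap.proj (R := ℂ) (φ := fun _ : m => ℂ) i)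

omit [Finite m] in
theorem RatMap.coord {d : V → ℂ} {ψ : V → m → ℂ} (h : RatMap d ψ) (i : m) :
    IsRat d fun x => ψ x i :=
  h (LinearMap.proj (R := ℂ) (φ := fun _ : m => ℂ) i)

theorem IsPoly.matrix_mul [Fintype k] {A : V → Matrix m k ℂ} {B : V → Matrix k n ℂ}
    (hA : PolyMap A) (hB : PolyMap B) : PolyMap fun x => A x * B x :=
  polyMap_matrix fun i j => by
    simp only [Matrix.mul_apply]
    exact IsPoly.sum _ fun l _ => (hA.entry i l).mul (hB.entry l j)

theorem IsRat.matrix_mul [Fintype k] {d : V → ℂ} (hd : IsPoly d) {A : V → Matrix m k ℂ}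
    {B : V → Matrix k n ℂ} (hA : RatMap d A) (hB : RatMap d B) : RatMap d fun x => A x * B x :=
  ratMap_matrix hd fun i j => by
    simp only [Matrix.mul_apply]
    exact IsRat.sum hd _ fun l _ => (hA.entry i l).mul (hB.entry l j)

end matrices

section square

variable {n : Type*} [Fintype n] [DecidableEq n]

theorem isPoly_det {A : V → Matrix n n ℂ} (hA : PolyMap A) : IsPoly fun x => (A x).det := by
  simp only [Matrix.det_apply']
  exact IsPoly.sum _ fun σ _ => (isPoly_const _).mul (IsPoly.prod _ fun i _ => hA.entry _ _)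

theorem isRat_det {d : V → ℂ} (hd : IsPoly d) {A : V → Matrix n n ℂ} (hA : RatMap d A) :
    IsRat d fun x => (A x).det := by
  simp only [Matrix.det_apply']
  exact IsRat.sum hd _ fun σ _ => (isPoly_const _).isRat.mul (IsRat.prod _ fun i _ => hA.entry _ _)

theorem polyMap_adjugate {A : V → Matrix n n ℂ} (hA : PolyMap A) :
    PolyMap fun x => (A x).adjugate :=
  polyMap_matrix fun i j => by
    simp only [Matrix.adjugate_apply]
    refine isPoly_det (polyMap_matrix fun a b => ?_)
    by_cases h : a = j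
    · subst h
      simp only [Matrix.updateRow_self]
      exact isPoly_const _
    · simp only [Matrix.updateRow_ne h]
      exact hA.entry a b

theorem ratMap_inv {A : V → Matrix n n ℂ} (hA : PolyMap A) :
    RatMap (fun x => (A x).det) fun x => (A x)⁻¹ := by
  refine ratMap_matrix (isPoly_det hA) fun i j => ?_
  refine (isRat_inv.mul ((polyMap_adjugate hA).entry i j).isRat).congr fun x hx => ?_
  rw [Matrix.inv_def, Ring.inverse_eq_inv', Matrix.smul_apply, smul_eq_mul]

theorem ratMap_inv' {d : V → ℂ} (hd : IsPoly d) {A : V → Matrix n n ℂ} (hA : RatMap d A)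
    (h : IsRat d fun x => ((A x).det)⁻¹) : RatMap d fun x => (A x)⁻¹ := by
  refine ratMap_matrix hd fun i j => ?_
  have h1 : IsRat d fun x => (A x).adjugate i j := by
    simp only [Matrix.adjugate_apply]
    refine isRat_det hd (ratMap_matrix hd fun a b => ?_)
    by_cases h : a = j
    · subst h
      simp only [Matrix.updateRow_self]
      exact (isPoly_const _).isRat
    · simp only [Matrix.updateRow_ne h]
      exact hA.entry a b
  refine (h.mul h1).congr fun x hx => ?_
  rw [Matrix.inv_def, Ring.inverse_eq_inv', Matrix.smul_apply, smul_eq_mul]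

theorem polyMap_pow {A : V → Matrix n n ℂ} (hA : PolyMap A) (k : ℕ) :
    PolyMap fun x => A x ^ k := by
  induction k with
  | zero => simpa using polyMap_const (V := V) (1 : Matrix n n ℂ)
  | succ k ih =>
    simp only [pow_succ]
    exact IsPoly.matrix_mul ih hA

omit [DecidableEq n] in
theorem polyMap_mulVec {m : Type*} [Finite m] {A : V → Matrix m n ℂ} {v : V → n → ℂ}
    (hA : PolyMap A) (hv : PolyMap v) : PolyMap fun x => A x *ᵥ v x :=
  polyMap_pi fun i => (IsPoly.sum _ fun j _ => (hA.entry i j).mul (hv.coord j)).polyMap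

end square

/-! ### Zeros -/

/-- Polynomial functions of one variable. -/
theorem IsPoly.exists_poly {f : ℂ → ℂ} (hf : IsPoly f) :
    ∃ p : Polynomial ℂ, ∀ x, f x = p.eval x := by
  unfold IsPoly polyAlg at hf
  induction hf using Algebra.adjoin_induction with
  | mem f hf =>
    obtain ⟨l, rfl⟩ := hf
    refine ⟨Polynomial.C (l 1) * Polynomial.X, fun x => ?_⟩
    rw [Polynomial.eval_mul, Polynomial.eval_C, Polynomial.eval_X]
    exact lin_one l x
  | algebraMap c => exact ⟨Polynomial.C c, fun x => by simp⟩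
  | add f g _ _ hf hg =>
    obtain ⟨p, hp⟩ := hf
    obtain ⟨q, hq⟩ := hg
    exact ⟨p + q, fun x => by rw [Pi.add_apply, hp, hq, Polynomial.eval_add]⟩
  | mul f g _ _ hf hg =>
    obtain ⟨p, hp⟩ := hf
    obtain ⟨q, hq⟩ := hg
    exact ⟨p * q, fun x => by rw [Pi.mul_apply, hp, hq, Polynomial.eval_mul]⟩

theorem IsPoly.eq_zero_of_infinite {f : ℂ → ℂ} (hf : IsPoly f) (s : Set ℂ) (hs : s.Infinite)
    (h : ∀ x ∈ s, f x = 0) (x : ℂ) : f x = 0 := by
  obtain ⟨p, hp⟩ := hf.exists_poly
  have : p = 0 := by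
    apply Polynomial.eq_zero_of_infinite_isRoot
    refine hs.mono fun y hy => ?_
    change p.eval y = 0
    rw [← hp]
    exact h y hy
  rw [hp, this, Polynomial.eval_zero]

/-- The line through two points is a polynomial map. -/
theorem polyMap_line (x y : V) : PolyMap fun t : ℂ => x + t • (y - x) := by
  intro l
  refine ((isPoly_const (l x)).add ((isPoly_linear LinearMap.id).mul
    (isPoly_const (l (y - x))))).congr fun t => ?_
  rw [map_add, map_smul, smul_eq_mul]
  rfl

/-- Products of polynomial functions. -/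
theorem IsPoly.eq_zero_of_mul {f g : V → ℂ} (hf : IsPoly f) (hg : IsPoly g)
    (h : ∀ x, f x * g x = 0) (y : V) (hy : g y ≠ 0) (x : V) : f x = 0 := by
  have h1 := (polyMap_line x y).comp hf
  have h2 := (polyMap_line x y).comp hg
  obtain ⟨p, hp⟩ := h1.exists_poly
  obtain ⟨q, hq⟩ := h2.exists_poly
  have h3 : p * q = 0 := by
    apply Polynomial.funext
    intro t
    rw [Polynomial.eval_mul, ← hp, ← hq, h, Polynomial.eval_zero]
  rcases mul_eq_zero.1 h3 with h4 | h4
  · have := hp 0
    rw [h4, Polynomial.eval_zero, zero_smul, add_zero] at this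
    exact this
  · exfalso
    have := hq 1
    rw [h4, Polynomial.eval_zero, one_smul, add_sub_cancel] at this
    exact hy this

/-- A polynomial function on `ι → ℂ` that vanishes on a product of infinite sets is zero. -/
theorem IsPoly.eq_zero_of_pi {ι : Type*} [Finite ι] {f : (ι → ℂ) → ℂ} (hf : IsPoly f)
    (s : ι → Set ℂ) (hs : ∀ i, (s i).Infinite) (h : ∀ x, (∀ i, x i ∈ s i) → f x = 0)
    (x : ι → ℂ) : f x = 0 := by
  classical
  have := Fintype.ofFinite ι
  have key : ∀ (t : Finset ι) (x : ι → ℂ), (∀ i, i ∉ t → x i ∈ s i) → f x = 0 := by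
    intro t
    induction t using Finset.induction_on with
    | empty => exact fun x hx => h x fun i => hx i (Finset.notMem_empty i)
    | insert j t hj ih =>
      intro x hx
      have hm : PolyMap fun z : ℂ => Function.update x j z := by
        apply polyMap_pi
        intro i
        by_cases hij : i = j
        · subst hij
          simp only [Function.update_self]
          exact polyMap_linear LinearMap.id
        · simp only [Function.update_of_ne hij]
          exact (isPoly_const _).polyMap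
      have := (hm.comp hf).eq_zero_of_infinite (s j) (hs j) (fun z hz => ?_) (x j)
      · simpa using this
      · apply ih
        intro i hi
        by_cases hij : i = j
        · subst hij
          simpa using hz
        · rw [Function.update_of_ne hij]
          exact hx i fun h' => by
            rcases Finset.mem_insert.1 h' with h' | h'
            · exact hij h'
            · exact hi h'
  exact key Finset.univ x fun i hi => absurd (Finset.mem_univ i) hi

/-- The main extension lemma: a polynomial function along a rational family, which vanishes on a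
product of infinite sets (outside of a divisor), vanishes on the whole family. -/
theorem vanish_family {ι : Type*} [Finite ι] {d : (ι → ℂ) → ℂ} (hd : IsPoly d)
    {ψ : (ι → ℂ) → W} (hψ : RatMap d ψ) {F : W → ℂ} (hF : IsPoly F)
    (e : (ι → ℂ) → ℂ) (he : IsPoly e) (y : ι → ℂ) (hy : e y ≠ 0)
    (s : ι → Set ℂ) (hs : ∀ i, (s i).Infinite)
    (h : ∀ x, (∀ i, x i ∈ s i) → d x ≠ 0 → e x ≠ 0 → F (ψ x) = 0)
    (x : ι → ℂ) (hx : d x ≠ 0) : F (ψ x) = 0 := by
  obtain ⟨M, g, hg, hgx⟩ := hψ.comp hd hF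
  have h1 : ∀ x, (g x * d x) * e x = 0 := by
    apply ((hg.mul hd).mul he).eq_zero_of_pi s hs
    intro x hx
    by_cases h2 : d x = 0
    · rw [h2]; ring
    by_cases h3 : e x = 0
    · rw [h3]; ring
    rw [hgx x h2]
    beta_reduce
    rw [h x hx h2 h3]
    ring
  have h2 := (hg.mul hd).eq_zero_of_mul he h1 y hy x
  rw [hgx x hx] at h2
  rcases mul_eq_zero.1 h2 with h3 | h3
  · rcases mul_eq_zero.1 h3 with h4 | h4
    · exact absurd h4 (pow_ne_zero _ hx)
    · exact h4
  · exact absurd h3 hx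

/-- Transfer of a density statement along a rational map. -/
theorem vanish_image {S T : Set V} (hST : ∀ f : V → ℂ, IsPoly f → (∀ x ∈ S, f x = 0) →
    ∀ x ∈ T, f x = 0) {d : V → ℂ} (hd : IsPoly d) {ψ : V → W} (hψ : RatMap d ψ)
    {F : W → ℂ} (hF : IsPoly F) (hdS : ∀ x ∈ S, d x ≠ 0) (h : ∀ x ∈ S, F (ψ x) = 0)
    (x : V) (hxT : x ∈ T) (hx : d x ≠ 0) : F (ψ x) = 0 := by
  obtain ⟨M, g, hg, hgx⟩ := hψ.comp hd hF
  have h1 := hST g hg (fun y hy => by
    rw [hgx y (hdS y hy)]
    beta_reduce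
    rw [h y hy, mul_zero]) x hxT
  rw [hgx x hx] at h1
  rcases mul_eq_zero.1 h1 with h4 | h4
  · exact absurd h4 (pow_ne_zero _ hx)
  · exact h4

/-- Polynomials in several variables define polynomial functions. -/
theorem isPoly_mvPoly {σ : Type*} (F : MvPolynomial σ ℂ) :
    IsPoly fun x : σ → ℂ => MvPolynomial.eval x F := by
  induction F using MvPolynomial.induction_on with
  | C a => simpa using isPoly_const (V := σ → ℂ) a
  | add p q hp hq => simpa using hp.add hq
  | mul_X p i hp => simpa using hp.mul (isPoly_coord i)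

end Vale.Agent.P002G
end

section

/-!
# Integral points of arbitrary conjugacy classes with unit lower right minors
-/

namespace Vale.Agent.P002G

open Matrix
open Vale.Agent.P002R (UpT LoT upT_one loT_one)

variable {n m p : ℕ} {S T : Type*} [CommRing S] [CommRing T]

/-- Products (upper unitriangular) * (lower triangular with unit diagonal). -/
def InC (Z : Matrix (Fin n) (Fin n) S) : Prop :=
  ∃ U L : Matrix (Fin n) (Fin n) S, UpT U ∧ (∀ i, U i i = 1) ∧ LoT L ∧ (∀ i, IsUnit (L i i)) ∧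
    Z = U * L

theorem isUnit_of_upT {U : Matrix (Fin n) (Fin n) S} (hU : UpT U) (h : ∀ i, U i i = 1) :
    IsUnit U := by
  rw [Matrix.isUnit_iff_isUnit_det, hU.det]
  simp [h]

theorem isUnit_of_loT {L : Matrix (Fin n) (Fin n) S} (hL : LoT L) (h : ∀ i, IsUnit (L i i)) :
    IsUnit L := by
  rw [Matrix.isUnit_iff_isUnit_det, hL.det, IsUnit.prod_univ_iff]
  exact h

theorem InC.isUnit {Z : Matrix (Fin n) (Fin n) S} (h : InC Z) : IsUnit Z := by
  obtain ⟨U, L, hU, hU1, hL, hL1, rfl⟩ := h
  exact (isUnit_of_upT hU hU1).mul (isUnit_of_loT hL hL1)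

theorem inC_one : InC (1 : Matrix (Fin n) (Fin n) S) :=
  ⟨1, 1, upT_one, fun i => Matrix.one_apply_eq i, loT_one, fun i => by
    rw [Matrix.one_apply_eq]; exact isUnit_one, (one_mul 1).symm⟩

theorem InC.mul_up {Z A : Matrix (Fin n) (Fin n) S} (h : InC Z) (hA : UpT A)
    (hA1 : ∀ i, A i i = 1) : InC (A * Z) := by
  obtain ⟨U, L, hU, hU1, hL, hL1, rfl⟩ := h
  exact ⟨A * U, L, hA.mul hU, fun i => by rw [hA.mul_diag hU, hA1, hU1, one_mul], hL, hL1,
    (mul_assoc A U L).symm⟩

theorem InC.mul_low {Z B : Matrix (Fin n) (Fin n) S} (h : InC Z) (hB : LoT B)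
    (hB1 : ∀ i, IsUnit (B i i)) : InC (Z * B) := by
  obtain ⟨U, L, hU, hU1, hL, hL1, rfl⟩ := h
  exact ⟨U, L * B, hU, hU1, hL.mul hB, fun i => by rw [hL.mul_diag hB]; exact (hL1 i).mul (hB1 i),
    mul_assoc U L B⟩

theorem InC.smul {Z : Matrix (Fin n) (Fin n) S} (h : InC Z) {c : S} (hc : IsUnit c) :
    InC (c • Z) := by
  obtain ⟨U, L, hU, hU1, hL, hL1, rfl⟩ := h
  refine ⟨U, c • L, hU, hU1, fun i j hij => ?_, fun i => ?_, (Matrix.mul_smul U c L).symm⟩
  · rw [Matrix.smul_apply, hL i j hij, smul_zero]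
  · rw [Matrix.smul_apply, smul_eq_mul]
    exact hc.mul (hL1 i)

/-- Bordering. -/
theorem InC.bord {Z : Matrix (Fin (n + 1)) (Fin (n + 1)) S}
    (hN : InC (Z.submatrix Fin.succ Fin.succ)) (hd : IsUnit Z) : InC Z := by
  obtain ⟨U, L, hU, hU1, hL, hL1, hUL⟩ := hN
  have hUu := (Matrix.isUnit_iff_isUnit_det _).1 (isUnit_of_upT hU hU1)
  have hLu := (Matrix.isUnit_iff_isUnit_det _).1 (isUnit_of_loT hL hL1)
  obtain ⟨u, hu⟩ : ∃ u : Fin n → S, u ᵥ* L = fun j => Z 0 j.succ :=
    ⟨(fun j => Z 0 j.succ) ᵥ* L⁻¹, by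
      rw [Matrix.vecMul_vecMul, Matrix.nonsing_inv_mul _ hLu, Matrix.vecMul_one]⟩
  obtain ⟨l, hl⟩ : ∃ l : Fin n → S, U *ᵥ l = fun i => Z i.succ 0 :=
    ⟨U⁻¹ *ᵥ (fun i => Z i.succ 0), by
      rw [Matrix.mulVec_mulVec, Matrix.mul_nonsing_inv _ hUu, Matrix.one_mulVec]⟩
  obtain ⟨U', hU'⟩ : ∃ U' : Matrix (Fin (n + 1)) (Fin (n + 1)) S, U' =
      Matrix.of (Fin.cons (Fin.cons 1 u) fun i => Fin.cons 0 (U i)) := ⟨_, rfl⟩
  obtain ⟨L', hL'⟩ : ∃ L' : Matrix (Fin (n + 1)) (Fin (n + 1)) S, L' =
      Matrix.of (Fin.cons (Fin.cons (Z 0 0 - u ⬝ᵥ l) 0) fun i => Fin.cons (l i) (L i)) := ⟨_, rfl⟩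
  have hU00 : U' 0 0 = 1 := by rw [hU']; rfl
  have hU0s : ∀ j, U' 0 (Fin.succ j) = u j := fun j => by rw [hU']; rfl
  have hUs0 : ∀ i, U' (Fin.succ i) 0 = 0 := fun i => by rw [hU']; rfl
  have hUss : ∀ i j, U' (Fin.succ i) (Fin.succ j) = U i j := fun i j => by rw [hU']; rfl
  have hL00 : L' 0 0 = Z 0 0 - u ⬝ᵥ l := by rw [hL']; rfl
  have hL0s : ∀ j, L' 0 (Fin.succ j) = 0 := fun j => by rw [hL']; rfl
  have hLs0 : ∀ i, L' (Fin.succ i) 0 = l i := fun i => by rw [hL']; rfl
  have hLss : ∀ i j, L' (Fin.succ i) (Fin.succ j) = L i j := fun i j => by rw [hL']; rfl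
  have hZ : Z = U' * L' := by
    ext i j
    rw [Matrix.mul_apply, Fin.sum_univ_succ]
    refine Fin.cases ?_ (fun i => ?_) i
    · refine Fin.cases ?_ (fun j => ?_) j
      · rw [hU00, hL00]
        simp only [hU0s, hLs0]
        rw [one_mul]
        exact (sub_add_cancel _ _).symm
      · rw [hU00, hL0s]
        simp only [hU0s, hLss]
        rw [mul_zero, zero_add]
        exact (congrFun hu j).symm
    · refine Fin.cases ?_ (fun j => ?_) j
      · rw [hUs0, zero_mul, zero_add]
        simp only [hUss, hLs0]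
        exact (congrFun hl i).symm
      · rw [hUs0, zero_mul, zero_add]
        simp only [hUss, hLss]
        have h1 := congrFun (congrFun hUL i) j
        rw [Matrix.mul_apply] at h1
        rw [← h1, Matrix.submatrix_apply]
  have hUt : UpT U' := by
    intro i j hij
    revert hij
    refine Fin.cases ?_ (fun i => ?_) i
    · intro hij; exact absurd hij (Fin.not_lt_zero j)
    · refine Fin.cases ?_ (fun j => ?_) j
      · intro _; exact hUs0 i
      · intro hij; rw [hUss]; exact hU i j (Fin.succ_lt_succ_iff.1 hij)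
  have hLt : LoT L' := by
    intro i j hij
    revert hij
    refine Fin.cases ?_ (fun j => ?_) j
    · intro hij; exact absurd hij (Fin.not_lt_zero i)
    · refine Fin.cases ?_ (fun i => ?_) i
      · intro _; exact hL0s j
      · intro hij; rw [hLss]; exact hL i j (Fin.succ_lt_succ_iff.1 hij)
  have hU1' : ∀ i, U' i i = 1 := by
    intro i
    refine Fin.cases hU00 (fun i => ?_) i
    rw [hUss, hU1]
  refine ⟨U', L', hUt, hU1', hLt, ?_, hZ⟩
  have h1 : IsUnit L' := by
    have h2 : IsUnit (U' * L') := hZ ▸ hd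
    rw [Matrix.isUnit_iff_isUnit_det, Matrix.det_mul] at h2
    rw [Matrix.isUnit_iff_isUnit_det]
    exact isUnit_of_mul_isUnit_right h2
  rw [Matrix.isUnit_iff_isUnit_det, hLt.det, IsUnit.prod_univ_iff] at h1
  exact h1

theorem InC.map (φ : S →+* T) {Z : Matrix (Fin n) (Fin n) S} (h : InC Z) : InC (Z.map φ) := by
  obtain ⟨U, L, hU, hU1, hL, hL1, rfl⟩ := h
  refine ⟨U.map φ, L.map φ, fun i j h => ?_, fun i => ?_, fun i j h => ?_, fun i => ?_,
    Matrix.map_mul⟩
  · rw [Matrix.map_apply, hU i j h, map_zero]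
  · rw [Matrix.map_apply, hU1, map_one]
  · rw [Matrix.map_apply, hL i j h, map_zero]
  · rw [Matrix.map_apply]; exact (hL1 i).map φ

/-! ### Blocks -/

/-- Block matrices. -/
def blk (A : Matrix (Fin m) (Fin m) S) (B : Matrix (Fin m) (Fin p) S)
    (C : Matrix (Fin p) (Fin m) S) (D : Matrix (Fin p) (Fin p) S) :
    Matrix (Fin (m + p)) (Fin (m + p)) S :=
  (Matrix.fromBlocks A B C D).submatrix finSumFinEquiv.symm finSumFinEquiv.symm

theorem blk_mul (A : Matrix (Fin m) (Fin m) S) (B : Matrix (Fin m) (Fin p) S)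
    (C : Matrix (Fin p) (Fin m) S) (D : Matrix (Fin p) (Fin p) S)
    (A' : Matrix (Fin m) (Fin m) S) (B' : Matrix (Fin m) (Fin p) S)
    (C' : Matrix (Fin p) (Fin m) S) (D' : Matrix (Fin p) (Fin p) S) :
    blk A B C D * blk A' B' C' D' =
      blk (A * A' + B * C') (A * B' + B * D') (C * A' + D * C') (C * B' + D * D') := by
  rw [blk, blk, blk, Matrix.submatrix_mul_equiv, Matrix.fromBlocks_multiply]

theorem blk_one : blk (1 : Matrix (Fin m) (Fin m) S) 0 0 (1 : Matrix (Fin p) (Fin p) S) = 1 := by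
  rw [blk, Matrix.fromBlocks_one, Matrix.submatrix_one_equiv]

omit [CommRing S] in
theorem blk_apply₁₁ (A : Matrix (Fin m) (Fin m) S) (B : Matrix (Fin m) (Fin p) S)
    (C : Matrix (Fin p) (Fin m) S) (D : Matrix (Fin p) (Fin p) S) (i j) :
    blk A B C D (Fin.castAdd p i) (Fin.castAdd p j) = A i j := by
  simp [blk]

omit [CommRing S] in
theorem blk_apply₁₂ (A : Matrix (Fin m) (Fin m) S) (B : Matrix (Fin m) (Fin p) S)
    (C : Matrix (Fin p) (Fin m) S) (D : Matrix (Fin p) (Fin p) S) (i j) :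
    blk A B C D (Fin.castAdd p i) (Fin.natAdd m j) = B i j := by
  simp [blk]

omit [CommRing S] in
theorem blk_apply₂₁ (A : Matrix (Fin m) (Fin m) S) (B : Matrix (Fin m) (Fin p) S)
    (C : Matrix (Fin p) (Fin m) S) (D : Matrix (Fin p) (Fin p) S) (i j) :
    blk A B C D (Fin.natAdd m i) (Fin.castAdd p j) = C i j := by
  simp [blk]

omit [CommRing S] in
theorem blk_apply₂₂ (A : Matrix (Fin m) (Fin m) S) (B : Matrix (Fin m) (Fin p) S)
    (C : Matrix (Fin p) (Fin m) S) (D : Matrix (Fin p) (Fin p) S) (i j) :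
    blk A B C D (Fin.natAdd m i) (Fin.natAdd m j) = D i j := by
  simp [blk]

theorem upT_blk {A : Matrix (Fin m) (Fin m) S} (B : Matrix (Fin m) (Fin p) S)
    {D : Matrix (Fin p) (Fin p) S} (hA : UpT A) (hD : UpT D) : UpT (blk A B 0 D) := by
  intro i j
  refine Fin.addCases (fun i => ?_) (fun i => ?_) i <;>
    refine Fin.addCases (fun j => ?_) (fun j => ?_) j
  · intro h
    rw [blk_apply₁₁]
    exact hA i j (by rwa [Fin.lt_def, Fin.val_castAdd, Fin.val_castAdd] at h)
  · intro h
    exfalso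
    rw [Fin.lt_def, Fin.val_natAdd, Fin.val_castAdd] at h
    have := i.2
    omega
  · intro _
    rw [blk_apply₂₁]
    rfl
  · intro h
    rw [blk_apply₂₂]
    exact hD i j (by simpa using h)

theorem loT_blk {A : Matrix (Fin m) (Fin m) S} (C : Matrix (Fin p) (Fin m) S)
    {D : Matrix (Fin p) (Fin p) S} (hA : LoT A) (hD : LoT D) : LoT (blk A 0 C D) := by
  intro i j
  refine Fin.addCases (fun i => ?_) (fun i => ?_) i <;>
    refine Fin.addCases (fun j => ?_) (fun j => ?_) j
  · intro h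
    rw [blk_apply₁₁]
    exact hA i j (by rwa [Fin.lt_def, Fin.val_castAdd, Fin.val_castAdd] at h)
  · intro _
    rw [blk_apply₁₂]
    rfl
  · intro h
    exfalso
    rw [Fin.lt_def, Fin.val_natAdd, Fin.val_castAdd] at h
    have := j.2
    omega
  · intro h
    rw [blk_apply₂₂]
    exact hD i j (by simpa using h)

theorem InC.blk {V : Matrix (Fin m) (Fin m) S} {H : Matrix (Fin p) (Fin p) S} (hV : InC V)
    (hH : InC H) (Y : Matrix (Fin p) (Fin m) S) : InC (blk V 0 Y H) := by
  obtain ⟨U, L, hU, hU1, hL, hL1, rfl⟩ := hV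
  obtain ⟨U', L', hU', hU1', hL', hL1', rfl⟩ := hH
  have hUu := (Matrix.isUnit_iff_isUnit_det _).1 (isUnit_of_upT hU' hU1')
  refine ⟨P002G.blk U 0 0 U', P002G.blk L 0 (U'⁻¹ * Y) L', upT_blk 0 hU hU', fun i => ?_,
    loT_blk _ hL hL', fun i => ?_, ?_⟩
  · refine Fin.addCases (fun i => ?_) (fun i => ?_) i
    · rw [blk_apply₁₁, hU1]
    · rw [blk_apply₂₂, hU1']
  · refine Fin.addCases (fun i => ?_) (fun i => ?_) i
    · rw [blk_apply₁₁]; exact hL1 i
    · rw [blk_apply₂₂]; exact hL1' i
  · rw [blk_mul]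
    simp only [Matrix.mul_zero, Matrix.zero_mul, add_zero, zero_add]
    rw [← Matrix.mul_assoc, Matrix.mul_nonsing_inv _ hUu, Matrix.one_mul]

end Vale.Agent.P002G
end

section

/-! Infinitesimal principal minor lemma. -/

namespace Vale.Agent.P002

open Matrix

variable {ι : Type*} [Fintype ι] [DecidableEq ι]

omit [Fintype ι] in
theorem diagonal_single_eq (i : ι) :
    (diagonal (Pi.single i (1 : ℂ)) : Matrix ι ι ℂ) = Matrix.single i i 1 := by
  ext a b
  by_cases hab : a = b
  · subst hab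
    by_cases ha : a = i
    · subst ha; simp
    · simp [ha, Matrix.single, Ne.symm ha]
  · by_cases ha : i = a
    · subst ha; simp [hab, Matrix.single]
    · simp [hab, Matrix.single, ha]

theorem trace_s1 (X : Matrix ι ι ℂ) (a : ι) :
    trace (X * diagonal (Pi.single a (1 : ℂ))) = X a a := by
  rw [diagonal_single_eq, trace_mul_single]
  simp

theorem mul_s_mul (X B : Matrix ι ι ℂ) (b c a : ι) :
    (X * diagonal (Pi.single b (1 : ℂ)) * B) c a = X c b * B b a := by
  rw [diagonal_single_eq, mul_assoc, mul_apply]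
  rw [Finset.sum_eq_single b]
  · simp
  · intro e _ hc
    rw [single_mul_apply_of_ne]
    · simp
    · exact hc
  · simp

theorem trace_s2 (X B : Matrix ι ι ℂ) (b a : ι) :
    trace (X * diagonal (Pi.single b (1 : ℂ)) * (B * diagonal (Pi.single a (1 : ℂ))))
      = X a b * B b a := by
  rw [← mul_assoc, trace_s1, mul_s_mul]

theorem trace_s3 (X B : Matrix ι ι ℂ) (b c a : ι) :
    trace (X * diagonal (Pi.single b (1 : ℂ)) * (B * diagonal (Pi.single c (1 : ℂ)))
        * (B * diagonal (Pi.single a (1 : ℂ))))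
      = X a b * B b c * B c a := by
  have h1 : X * diagonal (Pi.single b (1 : ℂ)) * (B * diagonal (Pi.single c (1 : ℂ)))
        * (B * diagonal (Pi.single a (1 : ℂ)))
      = (X * diagonal (Pi.single b (1 : ℂ)) * B) * diagonal (Pi.single c (1 : ℂ))
        * (B * diagonal (Pi.single a (1 : ℂ))) := by
    simp only [mul_assoc]
  rw [h1, trace_s2, mul_s_mul]

omit [Fintype ι] in
theorem diagonal_add' (d e : ι → ℂ) :
    (diagonal (d + e) : Matrix ι ι ℂ) = diagonal d + diagonal e := by
  ext a b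
  by_cases hab : a = b
  · subst hab; simp
  · simp [hab]

theorem principal_minor_lemma (B X : Matrix ι ι ℂ)
    (h1 : ∀ d : ι → ℂ, trace (X * diagonal d) = 0)
    (h2 : ∀ d : ι → ℂ, trace (X * diagonal d * (B * diagonal d)) = 0)
    (h3 : ∀ d : ι → ℂ, trace (X * diagonal d * (B * diagonal d) * (B * diagonal d)) = 0)
    (hB : ∀ i j, i ≠ j → B i j ≠ 0)
    (hc : ∀ i j k, i ≠ j → j ≠ k → i ≠ k →
      B i j * B j k * B k i ≠ B i k * B k j * B j i) :
    ∃ θ : ι → ℂ, X = diagonal θ * B - B * diagonal θ := by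
  have hdiag : ∀ i : ι, X i i = 0 := fun i => by
    rw [← trace_s1 X i]; exact h1 _
  have hpair : ∀ i j : ι, i ≠ j → X i j * B j i + X j i * B i j = 0 := by
    intro i j hij
    have := h2 (Pi.single i 1 + Pi.single j 1)
    simp only [diagonal_add', Matrix.mul_add, Matrix.add_mul, trace_add, trace_s2, hdiag] at this
    linear_combination this
  have htrip : ∀ i j k : ι, i ≠ j → j ≠ k → i ≠ k →
      X i j * B j k * B k i + X j k * B k i * B i j + X k i * B i j * B j k
      + X i k * B k j * B j i + X k j * B j i * B i k + X j i * B i k * B k j = 0 := by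
    intro i j k hij hjk hik
    have := h3 (Pi.single i 1 + Pi.single j 1 + Pi.single k 1)
    simp only [diagonal_add', Matrix.mul_add, Matrix.add_mul, trace_add, trace_s3, hdiag] at this
    have e1 := hpair i j hij
    have e2 := hpair j k hjk
    have e3 := hpair i k hik
    linear_combination this - (B i i + B j j) * e1 - (B j j + B k k) * e2 - (B i i + B k k) * e3
  rcases isEmpty_or_nonempty ι with hι | ⟨⟨o⟩⟩
  · exact ⟨0, by ext i; exact (hι.false i).elim⟩
  refine ⟨fun i => X i o / B i o, ?_⟩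
  ext i j
  simp only [Matrix.sub_apply, diagonal_mul, mul_diagonal]
  by_cases hij : i = j
  · subst hij; rw [hdiag]; ring
  by_cases hio : i = o
  · subst hio
    have e1 := hpair i j hij
    have b1 := hB i j hij
    have b2 := hB j i (Ne.symm hij)
    rw [hdiag]
    field_simp
    linear_combination e1
  by_cases hjo : j = o
  · subst hjo
    have b1 := hB i j hij
    rw [hdiag]
    field_simp
    ring
  have e1 := hpair i j hij
  have e2 := hpair i o hio
  have e3 := hpair j o hjo
  have e4 := htrip i j o hij hjo hio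
  have b1 := hB i j hij
  have b2 := hB j i (Ne.symm hij)
  have b3 := hB i o hio
  have b4 := hB o i (Ne.symm hio)
  have b5 := hB j o hjo
  have b6 := hB o j (Ne.symm hjo)
  have hne := hc i j o hij hjo hio
  -- the three ratios
  obtain ⟨p, hp⟩ : ∃ p, X i j = p * B i j := ⟨X i j / B i j, by field_simp⟩
  obtain ⟨q, hq⟩ : ∃ q, X j o = q * B j o := ⟨X j o / B j o, by field_simp⟩
  obtain ⟨s, hs⟩ : ∃ s, X i o = s * B i o := ⟨X i o / B i o, by field_simp⟩
  have hp' : X j i = - p * B j i := by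
    rw [hp] at e1
    have : (X j i + p * B j i) * B i j = 0 := by linear_combination e1
    rcases mul_eq_zero.1 this with h | h
    · linear_combination h
    · exact absurd h b1
  have hq' : X o j = - q * B o j := by
    rw [hq] at e3
    have : (X o j + q * B o j) * B j o = 0 := by linear_combination e3
    rcases mul_eq_zero.1 this with h | h
    · linear_combination h
    · exact absurd h b5
  have hs' : X o i = - s * B o i := by
    rw [hs] at e2
    have : (X o i + s * B o i) * B i o = 0 := by linear_combination e2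
    rcases mul_eq_zero.1 this with h | h
    · linear_combination h
    · exact absurd h b3
  rw [hp, hp', hq, hq', hs, hs'] at e4
  have key : (p + q - s) * (B i j * B j o * B o i - B i o * B o j * B j i) = 0 := by
    linear_combination e4
  have hpq : p + q - s = 0 := by
    rcases mul_eq_zero.1 key with h | h
    · exact h
    · exact absurd (sub_eq_zero.1 h) hne
  rw [hp, hq, hs]
  field_simp
  linear_combination hpq

end Vale.Agent.P002
end

section

/-!
# Units of the ring of integers modulo a nonzero element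
-/

namespace Vale.Agent.P002R

open NumberField

/-- Powers of a unit are congruent to one modulo any nonzero element. -/
theorem exists_dvd_pow_sub_one (L : Type) [Field L] [NumberField L] (u : (𝓞 L)ˣ) (D : 𝓞 L)
    (hD : D ≠ 0) : ∃ M : ℕ, 0 < M ∧ D ∣ (u : 𝓞 L) ^ M - 1 := by
  have hI : (Ideal.span {D} : Ideal (𝓞 L)) ≠ ⊥ := by
    rwa [Ne, Ideal.span_singleton_eq_bot]
  have : Finite (𝓞 L ⧸ (Ideal.span {D} : Ideal (𝓞 L))) := Ideal.finiteQuotientOfFreeOfNeBot _ hI
  obtain ⟨v, hv⟩ : ∃ v : (𝓞 L ⧸ (Ideal.span {D} : Ideal (𝓞 L)))ˣ,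
      v = Units.map (Ideal.Quotient.mk (Ideal.span {D})).toMonoidHom u := ⟨_, rfl⟩
  refine ⟨orderOf v, orderOf_pos v, ?_⟩
  rw [← Ideal.mem_span_singleton, ← Ideal.Quotient.eq_zero_iff_mem, map_sub, map_one, map_pow,
    sub_eq_zero]
  have h1 := congrArg Units.val (pow_orderOf_eq_one v)
  rw [Units.val_pow_eq_pow_val, Units.val_one] at h1
  have h2 : (v : 𝓞 L ⧸ (Ideal.span {D} : Ideal (𝓞 L))) = Ideal.Quotient.mk _ (u : 𝓞 L) := by
    rw [hv]
    rfl
  rw [← h2]
  exact h1

end Vale.Agent.P002R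
end
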