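import Mathlib
import Vale.Agent.P002.Bdl.B3
import Vale.Agent.P002.Bdl.B2
import Vale.Agent.P002.Bdl.B1

set_option linter.all false

section

/-!
# Density of integral pairs of reflections
-/

namespace Vale.Agent.P002G

open Matrix
open Vale.Agent.P002R (UpT LoT upT_one loT_one)

variable {n m p : ℕ} {S R : Type*} [CommRing S] [CommRing R]

/-- `1 + t μ` is in the cell if the products are differences of units. -/
theorem inC_one_add : ∀ {n : ℕ} (t μ : Fin n → S) (ρ : Fin (n + 1) → S) (_ : ∀ i, IsUnit (ρ i))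
    (_ : ρ (Fin.last n) = 1) (_ : ∀ i, μ i * t i = ρ i.castSucc - ρ i.succ),
    InC (1 + vecMulVec t μ) ∧ μ ⬝ᵥ t = ρ 0 - 1 := by
  intro n
  induction n with
  | zero =>
    intro t μ ρ _ h1 _
    refine ⟨⟨1, 1, upT_one, fun i => i.elim0, loT_one, fun i => i.elim0,
      Matrix.ext fun i => i.elim0⟩, ?_⟩
    rw [show (0 : Fin 1) = Fin.last 0 from rfl, h1, sub_self, dotProduct, Finset.univ_eq_empty,
      Finset.sum_empty]
  | succ n ih =>
    intro t μ ρ h0 h1 h
    obtain ⟨h2, h3⟩ := ih (fun i => t i.succ) (fun i => μ i.succ) (fun i => ρ i.succ)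
      (fun i => h0 _) (by rw [Fin.succ_last]; exact h1) (fun i => by
        rw [h i.succ, Fin.succ_castSucc])
    have h4 : μ ⬝ᵥ t = ρ 0 - 1 := by
      rw [dotProduct, Fin.sum_univ_succ, h 0]
      rw [dotProduct] at h3
      rw [h3, Fin.castSucc_zero]
      ring
    refine ⟨InC.bord ?_ ?_, h4⟩
    · convert h2 using 1
      ext i j
      rw [Matrix.submatrix_apply, Matrix.add_apply, Matrix.add_apply, Matrix.one_apply,
        Matrix.one_apply, vecMulVec_apply, vecMulVec_apply]
      simp only [Fin.succ_inj]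
    · rw [Matrix.isUnit_iff_isUnit_det, Matrix.vecMulVec_eq Unit, Matrix.det_one_add_mul_comm,
        Matrix.det_unique, Matrix.add_apply, Matrix.one_apply_eq, Matrix.mul_apply]
      have h5 : ∑ j, replicateRow Unit μ default j * replicateCol Unit t j default = μ ⬝ᵥ t := rfl
      rw [h5, h4, add_sub_cancel]
      exact h0 0

/-- The set of powers of a unit without torsion is infinite. -/
theorem infinite_powers (φ : R →+* ℂ) (u : Rˣ) (hu : ∀ k : ℕ, 0 < k → φ u ^ k ≠ 1) :
    (Set.range fun k : ℕ => φ u ^ k).Infinite := by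
  apply Set.infinite_range_of_injective
  intro a b hab
  by_contra hne
  wlog h : a < b generalizing a b
  · exact this hab.symm (Ne.symm hne) (lt_of_le_of_ne (not_lt.1 h) (Ne.symm hne))
  have hu0 : φ u ≠ 0 := (u.isUnit.map φ).ne_zero
  apply hu (b - a) (by omega)
  have h1 : φ u ^ b = φ u ^ a * φ u ^ (b - a) := by rw [← pow_add]; congr 1; omega
  beta_reduce at hab
  rw [h1] at hab
  exact (mul_left_cancel₀ (pow_ne_zero a hu0) (by rw [mul_one]; exact hab)).symm

theorem mul_one_add (t s μ : Fin n → S) (h : ∀ i, s i + t i + t i * (μ ⬝ᵥ s) = 0) :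
    (1 + vecMulVec t μ) * (1 + vecMulVec s μ) = 1 := by
  have h1 : vecMulVec t μ * vecMulVec s μ = (μ ⬝ᵥ s) • vecMulVec t μ := by
    ext i j
    rw [Matrix.mul_apply, Matrix.smul_apply, smul_eq_mul, vecMulVec_apply, dotProduct,
      Finset.sum_mul]
    refine Finset.sum_congr rfl fun k _ => ?_
    rw [vecMulVec_apply, vecMulVec_apply]
    ring
  rw [add_mul, mul_add, mul_add, h1, one_mul, one_mul, mul_one]
  ext i j
  simp only [Matrix.add_apply, vecMulVec_apply, Matrix.smul_apply, smul_eq_mul]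
  have := h i
  linear_combination (μ j) * this

/-- Density of the integral reflections `1 + s μ` whose inverses are in the cell, with `μ`
divisible by `D`. -/
theorem refl_dense (φ : R →+* ℂ) (u : Rˣ) (hu : ∀ k : ℕ, 0 < k → φ u ^ k ≠ 1) (D : R)
    (hD : ∃ M : ℕ, 0 < M ∧ D ∣ (u : R) ^ M - 1)
    (F : (Fin n → ℂ) × (Fin n → ℂ) → ℂ) (hF : IsPoly F)
    (h : ∀ s μ : Fin n → R, (∀ i, D ∣ μ i) → (∃ t, InC (1 + vecMulVec t μ) ∧
      (1 + vecMulVec t μ) * (1 + vecMulVec s μ) = 1) →
        F (fun i => φ (s i), fun i => φ (μ i)) = 0) (s μ : Fin n → ℂ) : F (s, μ) = 0 := by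
  have hinf := infinite_powers φ u hu
  obtain ⟨M, hM, hDM⟩ := hD
  have hinf' := infinite_powers φ (u ^ M) (by
    intro k hk h1
    apply hu (M * k) (Nat.mul_pos hM hk)
    rw [pow_mul, ← h1, Units.val_pow_eq_pow_val, map_pow])
  -- unit `s`
  have h1 : ∀ (k : Fin n → ℕ) (μ : Fin n → ℂ), F (fun i => φ u ^ k i, μ) = 0 := by
    intro k μ
    -- coordinates `σ`
    obtain ⟨g, hg⟩ : ∃ g : (Fin n → ℂ) → Fin n → ℂ, g = fun σ i =>
        ((Fin.cons 1 σ : Fin (n + 1) → ℂ) i.succ - (Fin.cons 1 σ : Fin (n + 1) → ℂ) i.castSucc) *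
          (φ u ^ k i)⁻¹ := ⟨_, rfl⟩
    have hgp : PolyMap g := by
      rw [hg]
      apply polyMap_pi
      intro i
      apply IsPoly.polyMap
      refine IsPoly.mul (IsPoly.sub ?_ ?_) (isPoly_const _)
      · simp only [Fin.cons_succ]
        exact isPoly_coord i
      · obtain ⟨j, hj⟩ : ∃ j, j = i.castSucc := ⟨_, rfl⟩
        rw [← hj]
        refine Fin.cases ?_ (fun j => ?_) j
        · simp only [Fin.cons_zero]
          exact isPoly_const 1
        · simp only [Fin.cons_succ]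
          exact isPoly_coord j
    have h2 : ∀ σ : Fin n → ℂ, F (fun i => φ u ^ k i, g σ) = 0 := by
      apply IsPoly.eq_zero_of_pi (f := fun σ => F (fun i => φ u ^ k i, g σ))
        (((polyMap_const _).prodMk hgp).comp hF)
        (fun _ => Set.range fun k : ℕ => φ (u ^ M : Rˣ) ^ k) (fun _ => hinf')
      intro σ hσ
      choose l hl using hσ
      beta_reduce at hl
      obtain ⟨L, hL⟩ : ∃ L : Fin (n + 1) → Rˣ, L = Fin.cons 1 (fun i => (u ^ M) ^ l i) := ⟨_, rfl⟩
      have hLφ : ∀ i, φ (L i : R) = (Fin.cons 1 σ : Fin (n + 1) → ℂ) i := by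
        intro i
        rw [hL]
        refine Fin.cases ?_ (fun i => ?_) i
        · simp
        · simp only [Fin.cons_succ, ← hl, Units.val_pow_eq_pow_val, map_pow]
      have hLD : ∀ i, D ∣ (L i : R) - 1 := by
        intro i
        rw [hL]
        refine Fin.cases ?_ (fun i => ?_) i
        · simp
        · rw [Fin.cons_succ, Units.val_pow_eq_pow_val, Units.val_pow_eq_pow_val]
          exact hDM.trans (sub_one_dvd_pow_sub_one _ _)
      have h3 := h (fun i => ((u ^ k i : Rˣ) : R))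
        (fun i => ((L i.succ : R) - (L i.castSucc : R)) * ((u ^ k i)⁻¹ : Rˣ)) ?_ ?_
      · convert h3 using 3
        · ext i
          rw [Units.val_pow_eq_pow_val, map_pow]
        · ext i
          rw [hg]
          simp only [map_mul, map_sub, hLφ]
          congr 1
          have h5 : φ ((u ^ k i : Rˣ) : R) * φ (((u ^ k i)⁻¹ : Rˣ) : R) = 1 := by
            rw [← map_mul, Units.mul_inv, map_one]
          rw [Units.val_pow_eq_pow_val, map_pow] at h5
          exact inv_eq_of_mul_eq_one_right h5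
      · intro i
        apply Dvd.dvd.mul_right
        have h4 := dvd_sub (hLD i.succ) (hLD i.castSucc)
        rwa [sub_sub_sub_cancel_right] at h4
      · -- the inverse
        obtain ⟨c, hc⟩ : ∃ c : Rˣ, c = (L (Fin.last n))⁻¹ := ⟨_, rfl⟩
        have hdot : ∀ (n : ℕ) (a : Fin (n + 1) → R), ∑ i : Fin n, (a i.succ - a i.castSucc) =
            a (Fin.last n) - a 0 := by
          intro n
          induction n with
          | zero => intro a; simp
          | succ n ih =>
            intro a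
            rw [Fin.sum_univ_succ]
            have := ih fun i => a i.succ
            simp only [Fin.succ_last, Fin.succ_castSucc] at this ⊢
            rw [this, Fin.castSucc_zero]
            have h9 : a (Fin.last n.succ) = a (Fin.last (n + 1)) := rfl
            rw [h9]
            ring
        have hL0 : (L 0 : R) = 1 := by rw [hL]; simp
        have hms : (fun i => ((L i.succ : R) - (L i.castSucc : R)) * ((u ^ k i)⁻¹ : Rˣ)) ⬝ᵥ
            (fun i => ((u ^ k i : Rˣ) : R)) = (L (Fin.last n) : R) - 1 := by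
          rw [← hL0, ← hdot n (fun i => (L i : R)), dotProduct]
          refine Finset.sum_congr rfl fun i _ => ?_
          rw [mul_assoc, Units.inv_mul, mul_one]
        refine ⟨fun i => -((u ^ k i : Rˣ) : R) * c, ?_, ?_⟩
        · refine (inC_one_add _ _ (fun i => (L i : R) * c) (fun i => (L i * c).isUnit) ?_
            fun i => ?_).1
          · rw [hc, Units.mul_inv]
          · have : ((u ^ k i : Rˣ) : R) * ((u ^ k i)⁻¹ : Rˣ) = 1 := Units.mul_inv _
            linear_combination (-((L i.succ : R) - (L i.castSucc : R)) * c) * this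
        · apply mul_one_add
          intro i
          rw [hms]
          have : (c : R) * (L (Fin.last n) : R) = 1 := by rw [hc, Units.inv_mul]
          linear_combination (-((u ^ k i : Rˣ) : R)) * this
    -- every `μ` is of this form
    obtain ⟨σ, hσ⟩ : ∃ σ : Fin n → ℂ, σ = fun i => 1 + ∑ j ∈ Finset.univ.filter (· ≤ i),
        μ j * φ u ^ k j := ⟨_, rfl⟩
    have hu0 : φ u ≠ 0 := (u.isUnit.map φ).ne_zero
    have hσ1 : ∀ i : Fin n, (Fin.cons 1 σ : Fin (n + 1) → ℂ) i.castSucc =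
        1 + ∑ j ∈ Finset.univ.filter (· < i), μ j * φ u ^ k j := by
      intro i
      rcases Nat.eq_zero_or_pos (i : ℕ) with h0 | h0
      · have h3 : i.castSucc = 0 := Fin.ext h0
        rw [h3, Fin.cons_zero, Finset.sum_eq_zero, add_zero]
        intro j hj
        rw [Finset.mem_filter, Fin.lt_def] at hj
        omega
      · obtain ⟨j, hj⟩ : ∃ j : Fin n, i.castSucc = j.succ :=
          ⟨⟨i - 1, by omega⟩, Fin.ext (by simp; omega)⟩
        have hj' : (i : ℕ) = (j : ℕ) + 1 := by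
          have := congrArg Fin.val hj
          simpa using this
        rw [hj, Fin.cons_succ, hσ]
        beta_reduce
        congr 2
        ext k'
        rw [Finset.mem_filter, Finset.mem_filter, Fin.le_def, Fin.lt_def]
        simp only [Finset.mem_univ, true_and]
        omega
    have h3 := h2 σ
    have h4 : g σ = μ := by
      rw [hg]
      ext i
      beta_reduce
      rw [hσ1, Fin.cons_succ, hσ]
      beta_reduce
      have h5 : Finset.univ.filter (fun j : Fin n => j ≤ i) =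
          insert i (Finset.univ.filter fun j : Fin n => j < i) := by
        ext j
        simp [le_iff_eq_or_lt]
      rw [h5, Finset.sum_insert (by simp)]
      have := pow_ne_zero (k i) hu0
      field_simp
      ring
    rwa [h4] at h3
  -- all `s`
  have h2 : PolyMap fun s : Fin n → ℂ => (s, μ) :=
    (polyMap_linear LinearMap.id).prodMk (polyMap_const μ)
  apply IsPoly.eq_zero_of_pi (f := fun s => F (s, μ)) (h2.comp hF)
    (fun _ => Set.range fun k : ℕ => φ u ^ k) (fun _ => hinf)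
  intro s hs
  choose k hk using hs
  rw [show s = fun i => φ u ^ k i from funext fun i => (hk i).symm]
  exact h1 k μ

end Vale.Agent.P002G
end

section

namespace Vale.Agent.P002R

open Matrix

variable {r : ℕ}

/-- Puncture algebra. -/
theorem puncture_alg (K Ki d c ci η sd : Matrix (Fin r) (Fin r) ℂ)
    (hK1 : K * Ki = 1)
    (h : ∀ ε : Matrix (Fin r) (Fin r) ℂ, trace (sd * -(K * ε * Ki * d)) =
      trace ((η - (Ki * c * K) * η * (Ki * ci * K)) * ε)) (z : Matrix (Fin r) (Fin r) ℂ) :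
    trace (sd * (z * d)) = trace (η * (Ki * (ci * z * c - z) * K)) := by
  have hK1' : ∀ X : Matrix (Fin r) (Fin r) ℂ, K * (Ki * X) = X := fun X => by
    rw [← mul_assoc, hK1, one_mul]
  have h1 := h (-(Ki * z * K))
  have e1 : sd * -(K * -(Ki * z * K) * Ki * d) = sd * (z * d) := by
    simp only [mul_neg, neg_mul, neg_neg, mul_assoc, hK1']
  have e2 : (η - (Ki * c * K) * η * (Ki * ci * K)) * -(Ki * z * K) =
      (Ki * c * K) * (η * (Ki * (ci * (z * K)))) - η * (Ki * (z * K)) := by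
    simp only [mul_neg, sub_mul, mul_assoc, hK1']
    abel
  rw [e1, e2, trace_sub, Matrix.trace_mul_comm (Ki * c * K)] at h1
  rw [h1, ← trace_sub]
  congr 1
  simp only [mul_sub, sub_mul, mul_assoc, hK1']

/-- Handle algebra. -/
theorem handle_alg (K Ki a ai b bi η sa sb : Matrix (Fin r) (Fin r) ℂ)
    (hK1 : K * Ki = 1) (ha1 : a * ai = 1) (hb2 : bi * b = 1) (hb1 : b * bi = 1)
    (h1 : ∀ ε : Matrix (Fin r) (Fin r) ℂ, trace (sb * -(K * ε * Ki * b)) =
      trace ((η - (Ki * (b * ai * bi) * K) * η * (Ki * (b * a * bi) * K)) * ε))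
    (h2 : ∀ ε : Matrix (Fin r) (Fin r) ℂ, trace (sa * (a * (K * ε * Ki))) +
      trace (sb * (b * (K * ε * Ki) - (K * ε * Ki) * b)) =
      trace ((η - (Ki * bi * K) * η * (Ki * b * K)) * ε))
    (Ea Eb : Matrix (Fin r) (Fin r) ℂ) :
    trace (sa * Ea) + trace (sb * Eb) = trace (η * (Ki * (b * a * bi * (ai * Ea) * b * ai * bi +
      b * a * bi * Eb * ai * bi - b * Ea * ai * bi - Eb * bi) * K)) := by
  have hK1' : ∀ X : Matrix (Fin r) (Fin r) ℂ, K * (Ki * X) = X := fun X => by
    rw [← mul_assoc, hK1, one_mul]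
  have ha1' : ∀ X : Matrix (Fin r) (Fin r) ℂ, a * (ai * X) = X := fun X => by
    rw [← mul_assoc, ha1, one_mul]
  have hb2' : ∀ X : Matrix (Fin r) (Fin r) ℂ, bi * (b * X) = X := fun X => by
    rw [← mul_assoc, hb2, one_mul]
  have hb1' : ∀ X : Matrix (Fin r) (Fin r) ℂ, b * (bi * X) = X := fun X => by
    rw [← mul_assoc, hb1, one_mul]
  have key : ∀ Eb : Matrix (Fin r) (Fin r) ℂ, trace (sb * Eb) =
      trace (η * (Ki * (b * a * bi * Eb * ai * bi - Eb * bi) * K)) := by
    intro Eb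
    have h3 := h1 (-(Ki * (Eb * bi) * K))
    have e1 : sb * -(K * -(Ki * (Eb * bi) * K) * Ki * b) = sb * Eb := by
      simp only [mul_neg, neg_mul, neg_neg, mul_assoc, hK1', hb2, mul_one]
    have e2 : (η - (Ki * (b * ai * bi) * K) * η * (Ki * (b * a * bi) * K)) *
        -(Ki * (Eb * bi) * K) =
        (Ki * (b * ai * bi) * K) * (η * (Ki * (b * (a * (bi * (Eb * (bi * K))))))) -
          η * (Ki * (Eb * (bi * K))) := by
      simp only [mul_neg, sub_mul, mul_assoc, hK1']
      abel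
    rw [e1, e2, trace_sub, Matrix.trace_mul_comm (Ki * (b * ai * bi) * K)] at h3
    rw [h3, ← trace_sub]
    congr 1
    simp only [mul_sub, sub_mul, mul_assoc, hK1', hb2']
  have h3 := h2 (Ki * (ai * Ea) * K)
  have e0 : K * (Ki * (ai * Ea) * K) * Ki = ai * Ea := by
    simp only [mul_assoc, hK1', hK1, mul_one]
  rw [e0, ha1', key] at h3
  have e2 : (η - (Ki * bi * K) * η * (Ki * b * K)) * (Ki * (ai * Ea) * K) =
      η * (Ki * (ai * (Ea * K))) - (Ki * bi * K) * (η * (Ki * (b * (ai * (Ea * K))))) := by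
    simp only [sub_mul, mul_assoc, hK1']
  rw [e2, trace_sub, Matrix.trace_mul_comm (Ki * bi * K)] at h3
  rw [key Eb]
  simp only [mul_sub, sub_mul, mul_add, add_mul, mul_assoc, hK1', ha1', hb1', hb2', trace_sub,
    trace_add] at h3 ⊢
  linear_combination h3

end Vale.Agent.P002R
end

section

namespace Vale.Agent.P002R

open Matrix

variable {m n r : ℕ}

section der

variable {κ : Type*} (ρ : FreeGroup κ →* (Mat r ℂ)ˣ) (E : FreeGroup κ → Mat r ℂ)

/-- The inverse as a matrix. -/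
noncomputable abbrev vi (x : (Mat r ℂ)ˣ) : Mat r ℂ := ((x⁻¹ : (Mat r ℂ)ˣ) : Mat r ℂ)

theorem vi_mul_self (x : (Mat r ℂ)ˣ) : vi x * (x : Mat r ℂ) = 1 := x.inv_mul

theorem mul_vi_self (x : (Mat r ℂ)ˣ) : (x : Mat r ℂ) * vi x = 1 := x.mul_inv

/-- Logarithmic derivative. -/
noncomputable def ld (w : FreeGroup κ) : Mat r ℂ := vi (ρ w) * E w

variable {ρ E}

theorem der_one (hE : IsDer ρ E) : E 1 = 0 := by
  have h := hE 1 1
  simp only [mul_one, map_one, Units.val_one, one_mul] at h
  simpa using h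

theorem der_inv (hE : IsDer ρ E) (w : FreeGroup κ) :
    E w⁻¹ = -(vi (ρ w) * E w * vi (ρ w)) := by
  have h := hE w⁻¹ w
  rw [inv_mul_cancel, der_one hE, map_inv] at h
  have h1 : E w⁻¹ * (ρ w : Mat r ℂ) = -(vi (ρ w) * E w) := by
    rw [eq_neg_iff_add_eq_zero]
    exact h.symm
  calc E w⁻¹ = E w⁻¹ * ((ρ w : Mat r ℂ) * vi (ρ w)) := by rw [mul_vi_self, mul_one]
    _ = _ := by rw [← mul_assoc, h1, neg_mul]

theorem ld_mul (hE : IsDer ρ E) (w w' : FreeGroup κ) :
    ld ρ E (w * w') = vi (ρ w') * ld ρ E w * (ρ w' : Mat r ℂ) + ld ρ E w' := by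
  unfold ld
  rw [hE, map_mul]
  simp only [vi, _root_.mul_inv_rev, Units.val_mul, mul_add]
  congr 1
  · simp only [mul_assoc]
  · have : vi (ρ w) * (ρ w : Mat r ℂ) = 1 := vi_mul_self _
    calc _ = vi (ρ w') * (vi (ρ w) * (ρ w : Mat r ℂ)) * E w' := by simp only [mul_assoc, vi]
      _ = _ := by rw [this, mul_one]

end der

/-- The logarithmic derivative of a product of blocks. -/
theorem ld_blocks (ρ : FF (m + 1) n →* (Mat r ℂ)ˣ) (E : FF (m + 1) n → Mat r ℂ) (hE : IsDer ρ E)
    (l : List (Fin n ⊕ Fin m)) (hl : l.Nodup) :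
    ld ρ E (l.map bw).prod =
      (l.map fun b => vi (ρ (aftL b l)) * ld ρ E (bw b) * (ρ (aftL b l) : Mat r ℂ)).sum := by
  induction l with
  | nil => simp [ld, der_one hE]
  | cons c l ih =>
    rw [List.nodup_cons] at hl
    rw [List.map_cons, List.prod_cons, ld_mul hE, ih hl.2, List.map_cons, List.sum_cons]
    have h1 : aftL c (c :: l) = (l.map bw).prod := by rw [aftL, if_pos rfl]
    rw [h1]
    congr 2
    apply List.map_congr_left
    intro b hb
    have h2 : aftL b (c :: l) = aftL b l := by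
      rw [aftL, if_neg]
      intro h
      exact hl.1 (h ▸ hb)
    rw [h2]

theorem nodup_blocks : (blocks m n).Nodup := by
  unfold blocks
  apply List.Nodup.append
  · exact (List.nodup_finRange n).map Sum.inl_injective
  · exact (List.nodup_finRange m).map Sum.inr_injective
  · intro x hx hy
    simp only [List.mem_map] at hx hy
    obtain ⟨a, _, rfl⟩ := hx
    obtain ⟨b, _, h⟩ := hy
    exact Sum.inr_ne_inl h

theorem relator_eq_blocks : relator (m + 1) n = ((blocks m n).map bw).prod * hcomm (Fin.last m) := by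
  unfold relator blocks
  rw [List.ofFn_succ', List.prod_concat, List.map_append, List.prod_append, List.map_map,
    List.map_map, List.ofFn_eq_map, List.ofFn_eq_map, mul_assoc]
  rfl

theorem sum_blocks {M : Type*} [AddCommMonoid M] (f : Fin n ⊕ Fin m → M) :
    ((blocks m n).map f).sum = ∑ j, f (Sum.inl j) + ∑ i, f (Sum.inr i) := by
  unfold blocks
  rw [List.map_append, List.sum_append, List.map_map, List.map_map, Fin.sum_univ_def,
    Fin.sum_univ_def]
  rfl

theorem der_gC (ρ : FF (m + 1) n →* (Mat r ℂ)ˣ) (E : FF (m + 1) n → Mat r ℂ) (hE : IsDer ρ E)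
    (hEe : ∀ j, E (gE j) = 0) (j : Fin n) (z : Mat r ℂ)
    (hz : E (gD j) = z * (ρ (gD j) : Mat r ℂ)) :
    E (gC j) = z * (ρ (gC j) : Mat r ℂ) - (ρ (gC j) : Mat r ℂ) * z := by
  obtain ⟨d, hd⟩ : ∃ d, d = ρ (gD j) := ⟨_, rfl⟩
  obtain ⟨e, he⟩ : ∃ e, e = ρ (gE j) := ⟨_, rfl⟩
  have h1 : (ρ (gC j) : Mat r ℂ) = (d : Mat r ℂ) * (e : Mat r ℂ) * vi d := by
    rw [hd, he]; simp [gC, vi]
  have h2 : vi d * ((d : Mat r ℂ)) = 1 := vi_mul_self d
  have h3 : (d : Mat r ℂ) * vi d = 1 := mul_vi_self d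
  rw [← hd] at hz
  have h4 : E (gC j) = E (gD j) * (e : Mat r ℂ) * vi d -
      (d : Mat r ℂ) * (e : Mat r ℂ) * (vi d * E (gD j) * vi d) := by
    unfold gC
    rw [hE, hE, der_inv hE, hEe, mul_zero, add_zero, map_mul, map_inv, ← hd, ← he, mul_neg,
      ← sub_eq_add_neg, Units.val_mul]
  rw [h4, h1, hz]
  have h5 : (d : Mat r ℂ) * (e : Mat r ℂ) * (vi d * (z * (d : Mat r ℂ)) * vi d) =
      (d : Mat r ℂ) * (e : Mat r ℂ) * vi d * z * ((d : Mat r ℂ) * vi d) := by
    simp only [mul_assoc]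
  rw [h5, h3, mul_one]
  simp only [mul_assoc]

theorem der_hcomm (ρ : FF (m + 1) n →* (Mat r ℂ)ˣ) (E : FF (m + 1) n → Mat r ℂ) (hE : IsDer ρ E)
    (i : Fin (m + 1)) (a b : (Mat r ℂ)ˣ) (ha : a = ρ (gA i)) (hb : b = ρ (gB i)) :
    ld ρ E (hcomm i) = (b : Mat r ℂ) * a * vi b * (vi a * E (gA i)) * b * vi a * vi b +
      (b : Mat r ℂ) * a * vi b * E (gB i) * vi a * vi b - (b : Mat r ℂ) * E (gA i) * vi a * vi b -
        E (gB i) * vi b := by
  have hai : vi a * (a : Mat r ℂ) = 1 := vi_mul_self a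
  have hbi : vi b * (b : Mat r ℂ) = 1 := vi_mul_self b
  have hia : (a : Mat r ℂ) * vi a = 1 := mul_vi_self a
  have hib : (b : Mat r ℂ) * vi b = 1 := mul_vi_self b
  have hai' : ∀ X : Mat r ℂ, vi a * ((a : Mat r ℂ) * X) = X := fun X => by
    rw [← mul_assoc, hai, one_mul]
  have hbi' : ∀ X : Mat r ℂ, vi b * ((b : Mat r ℂ) * X) = X := fun X => by
    rw [← mul_assoc, hbi, one_mul]
  have hia' : ∀ X : Mat r ℂ, (a : Mat r ℂ) * (vi a * X) = X := fun X => by
    rw [← mul_assoc, hia, one_mul]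
  have hib' : ∀ X : Mat r ℂ, (b : Mat r ℂ) * (vi b * X) = X := fun X => by
    rw [← mul_assoc, hib, one_mul]
  have hE1 : E (hcomm i) = E (gA i) * (b : Mat r ℂ) * vi a * vi b +
      (a : Mat r ℂ) * E (gB i) * vi a * vi b - (a : Mat r ℂ) * b * (vi a * E (gA i) * vi a) * vi b -
        (a : Mat r ℂ) * b * vi a * (vi b * E (gB i) * vi b) := by
    unfold hcomm
    rw [hE, hE, hE, der_inv hE, der_inv hE]
    simp only [map_mul, map_inv, ← ha, ← hb, Units.val_mul, vi, add_mul, mul_neg, neg_mul]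
    abel
  have hρ : vi (ρ (hcomm i)) = (b : Mat r ℂ) * a * vi b * vi a := by
    have : (ρ (hcomm i))⁻¹ = b * a * b⁻¹ * a⁻¹ := by
      simp only [hcomm, map_mul, map_inv, ← ha, ← hb]
      group
    rw [vi, this]
    simp only [Units.val_mul, vi]
  unfold ld
  rw [hρ, hE1]
  simp only [mul_sub, mul_add, mul_assoc, hai', hbi', hia', hib']

/-- Puncture step. -/
theorem ident_puncture (ρ : FF (m + 1) n →* (Mat r ℂ)ˣ) (s : Gen (m + 1) n → Mat r ℂ) (η : Mat r ℂ)
    (hR : ∀ q : Loop m n, ∀ ε : Mat r ℂ, ∑ k, trace (s k * Lam ρ q ε k) =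
      trace ((η - (ρ (loopW q) : Mat r ℂ) * η * (((ρ (loopW q))⁻¹ : (Mat r ℂ)ˣ) : Mat r ℂ)) * ε))
    (E : FF (m + 1) n → Mat r ℂ) (hE : IsDer ρ E) (hEe : ∀ j, E (gE j) = 0) (j : Fin n) :
    trace (s (Sum.inr (j, false)) * E (FreeGroup.of (Sum.inr (j, false)))) +
      trace (s (Sum.inr (j, true)) * E (FreeGroup.of (Sum.inr (j, true)))) =
      trace (η * (vi (ρ (aftL (Sum.inl j) (blocks m n))) * ld ρ E (bw (Sum.inl j)) *
        (ρ (aftL (Sum.inl j) (blocks m n)) : Mat r ℂ))) := by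
  classical
  obtain ⟨K, hK⟩ : ∃ K, K = ρ (aftL (Sum.inl j) (blocks m n)) := ⟨_, rfl⟩
  obtain ⟨d, hd⟩ : ∃ d, d = ρ (gD j) := ⟨_, rfl⟩
  obtain ⟨c, hc⟩ : ∃ c, c = ρ (gC j) := ⟨_, rfl⟩
  obtain ⟨z, hz⟩ : ∃ z, z = E (gD j) * vi d := ⟨_, rfl⟩
  have hEd : E (gD j) = z * (d : Mat r ℂ) := by
    rw [hz, mul_assoc, vi_mul_self, mul_one]
  have hee : E (FreeGroup.of (Sum.inr (j, true))) = 0 := hEe j
  have hdd : E (FreeGroup.of (Sum.inr (j, false))) = z * (d : Mat r ℂ) := hEd
  rw [hee, mul_zero, trace_zero, add_zero, hdd]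
  have hld : ld ρ E (bw (Sum.inl j)) = vi c * z * (c : Mat r ℂ) - z := by
    change ld ρ E (gC j) = _
    unfold ld
    rw [der_gC ρ E hE hEe j z (by rw [← hd]; exact hEd), ← hc, mul_sub, ← mul_assoc,
      ← mul_assoc, vi_mul_self, one_mul]
  rw [hld, ← hK]
  apply puncture_alg (K : Mat r ℂ) (vi K) d c (vi c) η _ (mul_vi_self K)
  intro ε
  have h2 := hR (Sum.inl j) ε
  rw [Finset.sum_eq_single (Sum.inr (j, false))] at h2
  · have h3 : ρ (loopW (Sum.inl j : Loop m n)) = K⁻¹ * c * K := by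
      rw [hK, hc]
      simp [loopW, loop0, kap, blk]
    have h4 : Lam ρ (Sum.inl j) ε (Sum.inr (j, false)) =
        -((K : Mat r ℂ) * ε * vi K * (d : Mat r ℂ)) := by
      simp only [Lam, kap, blk, if_true]
      rw [← hK, ← hd]
    rw [h3, h4] at h2
    rw [h2]
    congr 1
    simp [vi, mul_assoc]
  · intro k _ hk
    have : Lam ρ (Sum.inl j) ε k = 0 := by
      simp only [Lam]
      rw [if_neg hk]
    rw [this, mul_zero, trace_zero]
  · simp

/-- First handle relation. -/
theorem ident_handle_a (ρ : FF (m + 1) n →* (Mat r ℂ)ˣ) (s : Gen (m + 1) n → Mat r ℂ) (η : Mat r ℂ)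
    (hR : ∀ q : Loop m n, ∀ ε : Mat r ℂ, ∑ k, trace (s k * Lam ρ q ε k) =
      trace ((η - (ρ (loopW q) : Mat r ℂ) * η * (((ρ (loopW q))⁻¹ : (Mat r ℂ)ˣ) : Mat r ℂ)) * ε))
    (i : Fin m) (K a b : (Mat r ℂ)ˣ) (hK : K = ρ (aftL (Sum.inr i) (blocks m n)))
    (ha : a = ρ (gA i.castSucc)) (hb' : b = ρ (gB i.castSucc)) (ε : Mat r ℂ) :
    trace (s (Sum.inl (i.castSucc, true)) * -((K : Mat r ℂ) * ε * vi K * (b : Mat r ℂ))) =
      trace ((η - (vi K * ((b : Mat r ℂ) * vi a * vi b) * (K : Mat r ℂ)) * η *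
        (vi K * ((b : Mat r ℂ) * (a : Mat r ℂ) * vi b) * (K : Mat r ℂ))) * ε) := by
  classical
  have h2 := hR (Sum.inr (i, false)) ε
  rw [Finset.sum_eq_single (Sum.inl (i.castSucc, true))] at h2
  · have h3 : ρ (loopW (Sum.inr (i, false) : Loop m n)) = K⁻¹ * (b * a⁻¹ * b⁻¹) * K := by
      rw [hK, ha, hb']
      simp [loopW, loop0, kap, blk]
    have h4 : Lam ρ (Sum.inr (i, false)) ε (Sum.inl (i.castSucc, true)) =
        -((K : Mat r ℂ) * ε * vi K * (b : Mat r ℂ)) := by
      simp only [Lam, kap, blk, if_true]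
      rw [← hK, ← hb']
    rw [h3, h4] at h2
    rw [h2]
    congr 1
    simp [vi, mul_assoc]
  · intro k _ hk
    have : Lam ρ (Sum.inr (i, false)) ε k = 0 := by
      simp only [Lam]
      rw [if_neg hk]
    rw [this, mul_zero, trace_zero]
  · simp

/-- Second handle relation. -/
theorem ident_handle_b (ρ : FF (m + 1) n →* (Mat r ℂ)ˣ) (s : Gen (m + 1) n → Mat r ℂ) (η : Mat r ℂ)
    (hR : ∀ q : Loop m n, ∀ ε : Mat r ℂ, ∑ k, trace (s k * Lam ρ q ε k) =
      trace ((η - (ρ (loopW q) : Mat r ℂ) * η * (((ρ (loopW q))⁻¹ : (Mat r ℂ)ˣ) : Mat r ℂ)) * ε))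
    (i : Fin m) (K a b : (Mat r ℂ)ˣ) (hK : K = ρ (aftL (Sum.inr i) (blocks m n)))
    (ha : a = ρ (gA i.castSucc)) (hb' : b = ρ (gB i.castSucc)) (ε : Mat r ℂ) :
    trace (s (Sum.inl (i.castSucc, false)) * ((a : Mat r ℂ) * ((K : Mat r ℂ) * ε * vi K))) +
    trace (s (Sum.inl (i.castSucc, true)) * ((b : Mat r ℂ) * ((K : Mat r ℂ) * ε * vi K) -
              ((K : Mat r ℂ) * ε * vi K) * (b : Mat r ℂ))) =
      trace ((η - (vi K * vi b * (K : Mat r ℂ)) * η * (vi K * (b : Mat r ℂ) * (K : Mat r ℂ))) *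
        ε) := by
  classical
  have hne : (Sum.inl (i.castSucc, true) : Gen (m + 1) n) ≠ Sum.inl (i.castSucc, false) := by
    simp
  have h2 := hR (Sum.inr (i, true)) ε
  rw [Fintype.sum_eq_add (Sum.inl (i.castSucc, false)) (Sum.inl (i.castSucc, true))
    hne.symm] at h2
  · have h3 : ρ (loopW (Sum.inr (i, true) : Loop m n)) = K⁻¹ * b⁻¹ * K := by
      rw [hK, hb']
      simp [loopW, loop0, kap, blk]
    have h4 : Lam ρ (Sum.inr (i, true)) ε (Sum.inl (i.castSucc, false)) =
        (a : Mat r ℂ) * ((K : Mat r ℂ) * ε * vi K) := by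
      simp only [Lam, kap, blk, if_true]
      rw [← hK, ← ha]
    have h5 : Lam ρ (Sum.inr (i, true)) ε (Sum.inl (i.castSucc, true)) =
        (b : Mat r ℂ) * ((K : Mat r ℂ) * ε * vi K) -
          ((K : Mat r ℂ) * ε * vi K) * (b : Mat r ℂ) := by
      simp only [Lam, kap, blk]
      rw [if_neg hne]
      simp only [if_true]
      rw [← hK, ← hb']
    rw [h3, h4, h5] at h2
    rw [h2]
    congr 1
    simp [vi, mul_assoc]
  · intro k hk
    have : Lam ρ (Sum.inr (i, true)) ε k = 0 := by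
      simp only [Lam]
      rw [if_neg hk.1, if_neg hk.2]
    rw [this, mul_zero, trace_zero]

/-- Handle step. -/
theorem ident_handle (ρ : FF (m + 1) n →* (Mat r ℂ)ˣ) (s : Gen (m + 1) n → Mat r ℂ) (η : Mat r ℂ)
    (hR : ∀ q : Loop m n, ∀ ε : Mat r ℂ, ∑ k, trace (s k * Lam ρ q ε k) =
      trace ((η - (ρ (loopW q) : Mat r ℂ) * η * (((ρ (loopW q))⁻¹ : (Mat r ℂ)ˣ) : Mat r ℂ)) * ε))
    (E : FF (m + 1) n → Mat r ℂ) (hE : IsDer ρ E) (i : Fin m) :
    trace (s (Sum.inl (i.castSucc, false)) * E (FreeGroup.of (Sum.inl (i.castSucc, false)))) +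
      trace (s (Sum.inl (i.castSucc, true)) * E (FreeGroup.of (Sum.inl (i.castSucc, true)))) =
      trace (η * (vi (ρ (aftL (Sum.inr i) (blocks m n))) * ld ρ E (bw (Sum.inr i)) *
        (ρ (aftL (Sum.inr i) (blocks m n)) : Mat r ℂ))) := by
  obtain ⟨K, hK⟩ : ∃ K, K = ρ (aftL (Sum.inr i) (blocks m n)) := ⟨_, rfl⟩
  obtain ⟨a, ha⟩ : ∃ a, a = ρ (gA i.castSucc) := ⟨_, rfl⟩
  obtain ⟨b, hb'⟩ : ∃ b, b = ρ (gB i.castSucc) := ⟨_, rfl⟩
  have hld : ld ρ E (bw (Sum.inr i)) = (b : Mat r ℂ) * a * vi b * (vi a * E (gA i.castSucc)) * b *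
      vi a * vi b + (b : Mat r ℂ) * a * vi b * E (gB i.castSucc) * vi a * vi b -
      (b : Mat r ℂ) * E (gA i.castSucc) * vi a * vi b - E (gB i.castSucc) * vi b :=
    der_hcomm ρ E hE i.castSucc a b ha hb'
  rw [hld, ← hK]
  have h1 := ident_handle_a ρ s η hR i K a b hK ha hb'
  have h2 := ident_handle_b ρ s η hR i K a b hK ha hb'
  exact handle_alg (K : Mat r ℂ) (vi K) (a : Mat r ℂ) (vi a) (b : Mat r ℂ) (vi b) η
    (s (Sum.inl (i.castSucc, false))) (s (Sum.inl (i.castSucc, true))) (mul_vi_self K)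
    (mul_vi_self a) (vi_mul_self b) (mul_vi_self b) h1 h2 (E (gA i.castSucc)) (E (gB i.castSucc))

/-- The derivation on the relator. -/
theorem der_relator (ρ : FF (m + 1) n →* (Mat r ℂ)ˣ) (hrel : ρ (relator (m + 1) n) = 1)
    (hb : ρ (gB (Fin.last m)) = 1) (A : (Mat r ℂ)ˣ) (hA : A = ρ (gA (Fin.last m)))
    (E : FF (m + 1) n → Mat r ℂ) (hE : IsDer ρ E) :
    E (relator (m + 1) n) = ld ρ E ((blocks m n).map bw).prod +
      ((A : Mat r ℂ) * E (gB (Fin.last m)) * vi A - E (gB (Fin.last m))) := by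
  have hc1 : ρ (hcomm (Fin.last m)) = 1 := by
    simp only [hcomm, map_mul, map_inv, hb]
    group
  have hP1 : ρ ((blocks m n).map bw).prod = 1 := by
    rw [relator_eq_blocks, map_mul, hc1, mul_one] at hrel
    exact hrel
  have hEc : E (hcomm (Fin.last m)) = (A : Mat r ℂ) * E (gB (Fin.last m)) * vi A -
      E (gB (Fin.last m)) := by
    have h1 := der_hcomm ρ E hE (Fin.last m) A 1 hA hb.symm
    have h2 : ld ρ E (hcomm (Fin.last m)) = E (hcomm (Fin.last m)) := by
      unfold ld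
      rw [hc1]
      simp [vi]
    rw [← h2, h1]
    have h3 : vi (1 : (Mat r ℂ)ˣ) = 1 := by simp [vi]
    rw [h3]
    simp only [Units.val_one, one_mul, mul_one]
    have h4 : (A : Mat r ℂ) * (vi A * E (gA (Fin.last m))) = E (gA (Fin.last m)) := by
      rw [← mul_assoc, mul_vi_self, one_mul]
    rw [h4]
    abel
  rw [relator_eq_blocks, hE, hP1, hc1, hEc]
  unfold ld
  rw [hP1]
  simp [vi]

/-- TASK F2. -/
theorem identify (ρ : FF (m + 1) n →* (Mat r ℂ)ˣ) (hrel : ρ (relator (m + 1) n) = 1)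
    (hb : ρ (gB (Fin.last m)) = 1) (s : Gen (m + 1) n → Mat r ℂ) (η : Mat r ℂ)
    (hlast : s (Sum.inl (Fin.last m, false)) = 0)
    (hQ : s (Sum.inl (Fin.last m, true)) =
      (((ρ (gA (Fin.last m)))⁻¹ : (Mat r ℂ)ˣ) : Mat r ℂ) * η * (ρ (gA (Fin.last m)) : Mat r ℂ) - η)
    (hR : ∀ q : Loop m n, ∀ ε : Mat r ℂ, ∑ k, trace (s k * Lam ρ q ε k) =
      trace ((η - (ρ (loopW q) : Mat r ℂ) * η * (((ρ (loopW q))⁻¹ : (Mat r ℂ)ˣ) : Mat r ℂ)) * ε))
    (E : FF (m + 1) n → Mat r ℂ) (hE : IsDer ρ E) (hEe : ∀ j, E (gE j) = 0) :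
    ∑ k, trace (s k * E (FreeGroup.of k)) = trace (η * E (relator (m + 1) n)) := by
  obtain ⟨A, hA⟩ : ∃ A, A = ρ (gA (Fin.last m)) := ⟨_, rfl⟩
  have hErel := der_relator ρ hrel hb A hA E hE
  have hpun := ident_puncture ρ s η hR E hE hEe
  have hhan := ident_handle ρ s η hR E hE
  -- the last handle
  have hlastB : trace (s (Sum.inl (Fin.last m, true)) * E (FreeGroup.of (Sum.inl (Fin.last m, true))))
      = trace (η * ((A : Mat r ℂ) * E (gB (Fin.last m)) * vi A - E (gB (Fin.last m)))) := by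
    rw [hQ, ← hA]
    change trace ((vi A * η * (A : Mat r ℂ) - η) * E (gB (Fin.last m))) = _
    rw [sub_mul, mul_sub, trace_sub, trace_sub]
    congr 1
    rw [mul_assoc (vi A) η, mul_assoc (vi A), Matrix.trace_mul_comm (vi A)]
    simp only [mul_assoc]
  rw [hErel, ld_blocks ρ E hE _ nodup_blocks, sum_blocks, mul_add, mul_add, trace_add, trace_add,
    Finset.mul_sum, Finset.mul_sum, trace_sum, trace_sum, ← hlastB]
  rw [Fintype.sum_sum_type, Fintype.sum_prod_type, Fintype.sum_prod_type]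
  simp only [Fintype.sum_bool]
  rw [Fin.sum_univ_castSucc, hlast, zero_mul, trace_zero]
  have e1 : ∀ j : Fin n, trace (s (Sum.inr (j, true)) * E (FreeGroup.of (Sum.inr (j, true)))) +
      trace (s (Sum.inr (j, false)) * E (FreeGroup.of (Sum.inr (j, false)))) =
      trace (η * (vi (ρ (aftL (Sum.inl j) (blocks m n))) * ld ρ E (bw (Sum.inl j)) *
        (ρ (aftL (Sum.inl j) (blocks m n)) : Mat r ℂ))) := fun j => by
    rw [add_comm]; exact hpun j
  have e2 : ∀ i : Fin m,
      trace (s (Sum.inl (i.castSucc, true)) * E (FreeGroup.of (Sum.inl (i.castSucc, true)))) +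
      trace (s (Sum.inl (i.castSucc, false)) * E (FreeGroup.of (Sum.inl (i.castSucc, false)))) =
      trace (η * (vi (ρ (aftL (Sum.inr i) (blocks m n))) * ld ρ E (bw (Sum.inr i)) *
        (ρ (aftL (Sum.inr i) (blocks m n)) : Mat r ℂ))) := fun i => by
    rw [add_comm]; exact hhan i
  rw [Finset.sum_congr rfl fun j _ => e1 j, Finset.sum_congr rfl fun i _ => e2 i]
  ring

end Vale.Agent.P002R
end

section

namespace Vale.Agent.P002

open Matrix

/-- The relation of the surface group for a tuple of matrices with explicit inverses. -/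
def relI {g r : ℕ} {R : Type*} [CommRing R] (X Y : Fin g × Bool → Mat r R) : Mat r R :=
  (List.ofFn fun i : Fin g => X (i, false) * X (i, true) * Y (i, false) * Y (i, true)).prod

theorem relI_map {g r : ℕ} {R S : Type*} [CommRing R] [CommRing S] (φ : R →+* S)
    (X Y : Fin g × Bool → Mat r R) :
    (relI X Y).map φ = relI (fun k => (X k).map φ) (fun k => (Y k).map φ) := by
  unfold relI
  have h1 : ∀ M : Mat r R, M.map φ = (RingHom.mapMatrix φ) M := fun M => rfl
  rw [h1, map_list_prod, List.map_ofFn]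
  congr 1
  congr 1
  funext i
  simp only [Function.comp, map_mul, RingHom.mapMatrix_apply]

theorem relT_eq_relI {g r : ℕ} (X : Fin g × Bool → Mat r ℂ) :
    relT X = relI X (fun k => (X k)⁻¹) := rfl

/-- A polynomial identity over complex points of the representation variety holds for points
in every domain. -/
theorem transfer {g r : ℕ} {T : Type*} [CommRing T] [IsDomain T] [Algebra ℂ T]
    (F : MvPolynomial ((Fin g × Bool) × Fin r × Fin r) ℂ)
    (hF : ∀ X : Fin g × Bool → Mat r ℂ, (∀ k, IsUnit (X k)) → relT X = 1 → evalT X F = 0)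
    (X Y : Fin g × Bool → Mat r T) (hXY : ∀ k, X k * Y k = 1) (hrel : relI X Y = 1) :
    MvPolynomial.aeval (fun p : (Fin g × Bool) × Fin r × Fin r => X p.1 p.2.1 p.2.2) F = 0 := by
  classical
  -- variables: entries of `X` and of `Y`
  let σ := ((Fin g × Bool) × Fin r × Fin r) × Bool
  let v : σ → T := fun s => if s.2 then Y s.1.1 s.1.2.1 s.1.2.2 else X s.1.1 s.1.2.1 s.1.2.2
  let ψ : MvPolynomial σ ℂ →ₐ[ℂ] T := MvPolynomial.aeval v
  let P : Ideal (MvPolynomial σ ℂ) := RingHom.ker ψ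
  have hP : P.IsPrime := RingHom.ker_isPrime _
  let F' : MvPolynomial σ ℂ := MvPolynomial.rename (fun s => (s, false)) F
  have hF' : ψ F' = MvPolynomial.aeval
      (fun p : (Fin g × Bool) × Fin r × Fin r => X p.1 p.2.1 p.2.2) F := by
    simp only [ψ, F', MvPolynomial.aeval_rename]
    rfl
  rw [← hF']
  change F' ∈ P
  rw [← MvPolynomial.IsPrime.vanishingIdeal_zeroLocus (K := ℂ) P,
    MvPolynomial.mem_vanishingIdeal_iff]
  intro x hx
  rw [MvPolynomial.mem_zeroLocus_iff] at hx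
  -- the matrices attached to the point
  let 𝒳 : Fin g × Bool → Mat r (MvPolynomial σ ℂ) := fun k => Matrix.of fun i j =>
    MvPolynomial.X ((k, i, j), false)
  let 𝒴 : Fin g × Bool → Mat r (MvPolynomial σ ℂ) := fun k => Matrix.of fun i j =>
    MvPolynomial.X ((k, i, j), true)
  have h𝒳 : ∀ k, (𝒳 k).map ψ = X k := by
    intro k; ext i j
    change ψ (MvPolynomial.X ((k, i, j), false)) = _
    simp [ψ, v]
  have h𝒴 : ∀ k, (𝒴 k).map ψ = Y k := by
    intro k; ext i j
    change ψ (MvPolynomial.X ((k, i, j), true)) = _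
    simp [ψ, v]
  let ev : MvPolynomial σ ℂ →ₐ[ℂ] ℂ := MvPolynomial.aeval x
  let A : Fin g × Bool → Mat r ℂ := fun k => (𝒳 k).map ev
  let B : Fin g × Bool → Mat r ℂ := fun k => (𝒴 k).map ev
  have hmem : ∀ M N : Mat r (MvPolynomial σ ℂ), M.map ψ = N.map ψ → M.map ev = N.map ev := by
    intro M N h
    ext i j
    have h1 : M i j - N i j ∈ P := by
      change ψ (M i j - N i j) = 0
      have := congrFun (congrFun h i) j
      simp only [Matrix.map_apply] at this
      rw [map_sub, this, sub_self]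
    have h2 := hx _ h1
    simp only [Matrix.map_apply]
    have h3 : ev (M i j - N i j) = 0 := h2
    rw [map_sub, sub_eq_zero] at h3
    exact h3
  have hmul : ∀ k, A k * B k = 1 := by
    intro k
    have h1 := hmem (𝒳 k * 𝒴 k) 1 (by
      have e1 := Matrix.map_mul (L := 𝒳 k) (M := 𝒴 k) (f := ψ.toRingHom)
      have e2 : (𝒳 k * 𝒴 k).map ψ = (𝒳 k).map ψ * (𝒴 k).map ψ := e1
      rw [e2, h𝒳, h𝒴, hXY, Matrix.map_one _ (map_zero ψ) (map_one ψ)])
    have e1 := Matrix.map_mul (L := 𝒳 k) (M := 𝒴 k) (f := ev.toRingHom)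
    have e2 : (𝒳 k * 𝒴 k).map ev = (𝒳 k).map ev * (𝒴 k).map ev := e1
    rw [e2, Matrix.map_one _ (map_zero ev) (map_one ev)] at h1
    exact h1
  have hrelA : relI A B = 1 := by
    have h1 := hmem (relI 𝒳 𝒴) 1 (by
      have e1 := relI_map ψ.toRingHom 𝒳 𝒴
      have e2 : (relI 𝒳 𝒴).map ψ = relI (fun k => (𝒳 k).map ψ) (fun k => (𝒴 k).map ψ) := e1
      rw [e2, Matrix.map_one _ (map_zero ψ) (map_one ψ)]
      simp only [h𝒳, h𝒴]
      exact hrel)
    have e1 := relI_map ev.toRingHom 𝒳 𝒴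
    have e2 : (relI 𝒳 𝒴).map ev = relI (fun k => (𝒳 k).map ev) (fun k => (𝒴 k).map ev) := e1
    rw [e2, Matrix.map_one _ (map_zero ev) (map_one ev)] at h1
    exact h1
  have hB : ∀ k, B k = (A k)⁻¹ := fun k => (Matrix.inv_eq_right_inv (hmul k)).symm
  have hrelT : relT A = 1 := by
    rw [relT_eq_relI]
    have : B = fun k => (A k)⁻¹ := funext hB
    rw [← this]
    exact hrelA
  have hunit : ∀ k, IsUnit (A k) := fun k =>
    (Matrix.isUnit_iff_isUnit_det _).2 (Matrix.isUnit_det_of_right_inverse (hmul k))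
  have h0 := hF A hunit hrelT
  have h1 : MvPolynomial.aeval x F' = evalT A F := by
    simp only [F', MvPolynomial.aeval_rename, evalT]
    congr 1
    congr 1
    funext p
    change x (p, false) = ev (MvPolynomial.X (p, false))
    simp [ev]
  rw [h1]
  exact h0

end Vale.Agent.P002
end

section

/-! Jordan form with prescribed order of the eigenvalues. -/

namespace Vale.Agent.P002R

open Matrix

universe u

/-- a Jordan basis indexed by a finite type, with constant eigenvalue on the chains -/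
def HasJordanC (V : Type u) [AddCommGroup V] [Module ℂ V] (T : Module.End ℂ V) : Prop :=
  ∃ (ι : Type) (_ : Fintype ι) (_ : DecidableEq ι) (b : Module.Basis ι ℂ V) (d : ι → ℂ)
    (pre : ι → Option ι) (h : ι → ℕ),
    (∀ j, T (b j) = d j • b j + (pre j).elim 0 b) ∧
      ∀ i j, pre j = some i → h j = h i + 1 ∧ d j = d i

theorem exists_jordan_auxC (n : ℕ) : ∀ (V : Type u) [AddCommGroup V] [Module ℂ V]
    [FiniteDimensional ℂ V] (T : Module.End ℂ V), Module.finrank ℂ V = n → HasJordanC V T := by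
  classical
  induction n using Nat.strong_induction_on with
  | _ n ih =>
  intro V _ _ _ T hV
  rcases Nat.eq_zero_or_pos n with rfl | hn
  · have : Subsingleton V := Module.finrank_zero_iff.mp hV
    exact ⟨Empty, inferInstance, inferInstance, Module.Basis.empty V, fun j => j.elim,
      fun j => j.elim, fun j => j.elim, fun j => j.elim, fun i => i.elim⟩
  have : Nontrivial V := Module.finrank_pos_iff.mp (by omega : 0 < Module.finrank ℂ V)
  obtain ⟨lam, m, v, φ, hm, hv, hφ0, hφ1⟩ := P002.jordan_vector T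
  set N : Module.End ℂ V := T - lam • 1 with hN
  have hT : ∀ x, T x = lam • x + N x := by
    intro x
    simp [hN]
  let α : (Fin m → ℂ) →ₗ[ℂ] V := Fintype.linearCombination ℂ fun k : Fin m => (N ^ (k : ℕ)) v
  have hα : ∀ a, α a = ∑ k, a k • (N ^ (k : ℕ)) v := fun a =>
    Fintype.linearCombination_apply ℂ _ a
  let β : V →ₗ[ℂ] (Fin m → ℂ) := LinearMap.pi fun k : Fin m => φ ∘ₗ (N ^ (k : ℕ))
  have hβ : ∀ x k, β x k = φ ((N ^ (k : ℕ)) x) := fun x k => rfl
  have hvbig : ∀ k, m ≤ k → (N ^ k) v = 0 := by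
    intro k hk
    obtain ⟨l, rfl⟩ := Nat.exists_eq_add_of_le' hk
    rw [pow_add, Module.End.mul_apply, hv, map_zero]
  have hinj : ∀ a, β (α a) = 0 → a = 0 := by
    intro a ha
    by_contra hne
    have hex : ∃ k : ℕ, ∃ hk : k < m, a ⟨k, hk⟩ ≠ 0 := by
      by_contra hcon
      push Not at hcon
      exact hne (funext fun k => hcon k k.2)
    obtain ⟨hk, hak⟩ := Nat.find_spec hex
    set k₀ := Nat.find hex with hk₀
    have hmin : ∀ k (hk : k < m), k < k₀ → a ⟨k, hk⟩ = 0 := by
      intro k hk' hlt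
      by_contra hcon
      exact Nat.find_min hex hlt ⟨hk', hcon⟩
    have h1 := congrFun ha ⟨m - 1 - k₀, by omega⟩
    rw [hβ, hα, map_sum, map_sum, Finset.sum_eq_single ⟨k₀, hk⟩] at h1
    · rw [map_smul, map_smul, ← Module.End.mul_apply, ← pow_add, smul_eq_mul] at h1
      simp only [Pi.zero_apply] at h1
      have e : m - 1 - k₀ + k₀ = m - 1 := by omega
      rw [e] at h1
      rcases mul_eq_zero.mp h1 with h2 | h2
      · exact hak h2
      · exact hφ1 h2
    · intro k _ hkne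
      rcases lt_or_ge (k : ℕ) k₀ with hlt | hge
      · rw [hmin k k.2 hlt, zero_smul, map_zero, map_zero]
      · have hgt : k₀ < (k : ℕ) := by
          rcases Nat.lt_or_eq_of_le hge with h | h
          · exact h
          · exact absurd (Fin.ext h.symm) hkne
        rw [map_smul, ← Module.End.mul_apply, ← pow_add, hvbig _ (by
          simp only
          omega), smul_zero, map_zero]
    · intro h
      exact absurd (Finset.mem_univ _) h
  let U := LinearMap.ker β
  have hUN : ∀ x ∈ U, N x ∈ U := by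
    intro x hx
    rw [LinearMap.mem_ker] at hx ⊢
    funext k
    rw [hβ, ← Module.End.mul_apply, ← pow_succ]
    by_cases hk : (k : ℕ) + 1 < m
    · have := congrFun hx ⟨(k : ℕ) + 1, hk⟩
      rw [hβ] at this
      exact this
    · have : (k : ℕ) + 1 = m := by omega
      rw [this, hφ0]
      rfl
  have hUT : ∀ x ∈ U, T x ∈ U := by
    intro x hx
    rw [hT]
    exact U.add_mem (U.smul_mem _ hx) (hUN x hx)
  let Φ : ((Fin m → ℂ) × U) →ₗ[ℂ] V := LinearMap.coprod α U.subtype
  have hΦ : ∀ p, Φ p = α p.1 + (p.2 : V) := fun p => rfl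
  have hβU : ∀ x : U, β (x : V) = 0 := fun x => x.2
  have hΦinj : Function.Injective Φ := by
    rw [← LinearMap.ker_eq_bot, LinearMap.ker_eq_bot']
    rintro ⟨a, x⟩ hp
    rw [hΦ] at hp
    have h1 : β (α a) = 0 := by
      have := congrArg β hp
      rw [map_add, hβU, add_zero, map_zero] at this
      exact this
    have ha := hinj a h1
    subst ha
    rw [map_zero, zero_add] at hp
    ext1
    · rfl
    · exact Subtype.ext hp
  have hsurj0 : Function.Surjective (β ∘ₗ α) := by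
    rw [← LinearMap.injective_iff_surjective, ← LinearMap.ker_eq_bot, LinearMap.ker_eq_bot']
    exact hinj
  have hΦsurj : Function.Surjective Φ := by
    intro x
    obtain ⟨a, ha⟩ := hsurj0 (β x)
    refine ⟨(a, ⟨x - α a, ?_⟩), ?_⟩
    · rw [LinearMap.mem_ker, map_sub, ← ha]
      exact sub_self _
    · rw [hΦ]
      simp
  let Ψ : ((Fin m → ℂ) × U) ≃ₗ[ℂ] V := LinearEquiv.ofBijective Φ ⟨hΦinj, hΦsurj⟩
  have hdim : Module.finrank ℂ U < n := by
    have h1 := Ψ.finrank_eq
    rw [Module.finrank_prod, Module.finrank_fin_fun, hV] at h1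
    omega
  obtain ⟨ι, _, _, b, d, pre, h, hb1, hb2⟩ := ih _ hdim U (T.restrict hUT) rfl
  refine ⟨Fin m ⊕ ι, inferInstance, inferInstance,
    (Module.Basis.prod (Pi.basisFun ℂ (Fin m)) b).map Ψ,
    Sum.elim (fun _ => lam) d,
    Sum.elim (fun k => if hk : (k : ℕ) + 1 < m then some (Sum.inl ⟨(k : ℕ) + 1, hk⟩) else none)
      (fun j => (pre j).map Sum.inr),
    Sum.elim (fun k => m - 1 - (k : ℕ)) h, ?_, ?_⟩
  · have hl : ∀ k : Fin m, ((Module.Basis.prod (Pi.basisFun ℂ (Fin m)) b).map Ψ) (Sum.inl k) =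
        (N ^ (k : ℕ)) v := by
      intro k
      rw [Module.Basis.map_apply]
      change Φ _ = _
      rw [hΦ, hα]
      simp [Pi.single_apply]
    have hr : ∀ j : ι, ((Module.Basis.prod (Pi.basisFun ℂ (Fin m)) b).map Ψ) (Sum.inr j) =
        (b j : V) := by
      intro j
      rw [Module.Basis.map_apply]
      change Φ _ = _
      rw [hΦ, hα]
      simp
    rintro (k | j)
    · simp only [hl, Sum.elim_inl]
      rw [hT, ← Module.End.mul_apply, ← pow_succ']
      congr 1
      by_cases hk : (k : ℕ) + 1 < m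
      · rw [dif_pos hk, Option.elim_some, hl]
      · rw [dif_neg hk, Option.elim_none]
        exact hvbig _ (by omega)
    · simp only [hr, Sum.elim_inr]
      have h1 := congrArg (fun z : U => (z : V)) (hb1 j)
      simp only [LinearMap.coe_restrict_apply, Submodule.coe_add, Submodule.coe_smul] at h1
      rw [h1]
      congr 1
      cases pre j with
      | none => rfl
      | some i => simp [hr]
  · rintro (i | i) (j | j) hij
    · refine ⟨?_, rfl⟩
      simp only [Sum.elim_inl] at hij ⊢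
      by_cases hk : (j : ℕ) + 1 < m
      · rw [dif_pos hk] at hij
        have : (i : ℕ) = (j : ℕ) + 1 := by
          have := Sum.inl.inj (Option.some.inj hij)
          rw [← this]
        omega
      · rw [dif_neg hk] at hij
        exact absurd hij (by simp)
    · simp only [Sum.elim_inr] at hij
      cases hp : pre j with
      | none => rw [hp] at hij; simp at hij
      | some i' => rw [hp] at hij; simp at hij
    · simp only [Sum.elim_inl] at hij
      by_cases hk : (j : ℕ) + 1 < m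
      · rw [dif_pos hk] at hij
        simp at hij
      · rw [dif_neg hk] at hij
        exact absurd hij (by simp)
    · simp only [Sum.elim_inr] at hij ⊢
      cases hp : pre j with
      | none => rw [hp] at hij; simp at hij
      | some i' =>
        rw [hp] at hij
        simp only [Option.map_some, Option.some.injEq, Sum.inr.injEq] at hij
        subst hij
        exact hb2 _ _ hp

variable {r : ℕ}

/-- Jordan form for a given enumeration of the Jordan basis. -/
theorem jordan_of_enum {C : Mat r ℂ} {ι : Type} [Fintype ι] [DecidableEq ι]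
    (b : Module.Basis ι ℂ (Fin r → ℂ)) (d : ι → ℂ) (pre : ι → Option ι) (h : ι → ℕ)
    (hb : ∀ j, Matrix.mulVecLin C (b j) = d j • b j + (pre j).elim 0 b)
    (hpre : ∀ i j, pre j = some i → h j = h i + 1) (e : ι ≃ Fin r)
    (he : ∀ i j, pre j = some i → e i < e j) :
    ∃ ν : Matrix (Fin r) (Fin r) ℤ, (∀ i j, ¬ i < j → ν i j = 0) ∧
      ∀ N₀ : ℂ, N₀ ≠ 0 → ∃ P : (Mat r ℂ)ˣ,
        C = (P : Mat r ℂ) * (diagonal (fun k => d (e.symm k)) +
          N₀ • ν.map (Int.castRingHom ℂ)) * ((P⁻¹ : (Mat r ℂ)ˣ) : Mat r ℂ) := by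
  classical
  let ν : Matrix (Fin r) (Fin r) ℤ := Matrix.of fun i j =>
    if pre (e.symm j) = some (e.symm i) then 1 else 0
  have hν : ∀ i j, ν i j = if pre (e.symm j) = some (e.symm i) then 1 else 0 := fun i j => rfl
  have hνlt : ∀ i j, ¬ i < j → ν i j = 0 := by
    intro i j hij
    rw [hν]
    by_cases hp : pre (e.symm j) = some (e.symm i)
    · exfalso
      apply hij
      have h2 := he _ _ hp
      simpa using h2
    · rw [if_neg hp]
  refine ⟨ν, hνlt, ?_⟩
  intro N₀ hN₀
  let b' : Module.Basis (Fin r) ℂ (Fin r → ℂ) := b.reindex e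
  let b'' : Module.Basis (Fin r) ℂ (Fin r → ℂ) :=
    b'.unitsSMul fun k => (Units.mk0 N₀ hN₀) ^ (h (e.symm k))
  have hb'' : ∀ k, b'' k = N₀ ^ (h (e.symm k)) • b (e.symm k) := by
    intro k
    simp only [b'', b', Module.Basis.unitsSMul_apply, Module.Basis.reindex_apply]
    rw [Units.smul_def]
    simp
  let P₀ : Matrix (Fin r) (Fin r) ℂ := (Pi.basisFun ℂ (Fin r)).toMatrix b''
  have hP₀ : ∀ i j, P₀ i j = b'' j i := by
    intro i j
    simp [P₀, Module.Basis.toMatrix_apply]
  have hu : IsUnit P₀ := by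
    have := (Pi.basisFun ℂ (Fin r)).invertibleToMatrix b''
    exact isUnit_of_invertible _
  obtain ⟨P, hP⟩ := hu
  refine ⟨P, ?_⟩
  have key : C * P₀ = P₀ * (diagonal (fun k => d (e.symm k)) +
      N₀ • ν.map (Int.castRingHom ℂ)) := by
    ext i j
    have h1 := congrFun (hb (e.symm j)) i
    rw [Matrix.mulVecLin_apply] at h1
    have h2 : (C * P₀) i j = N₀ ^ (h (e.symm j)) * (C *ᵥ (b (e.symm j))) i := by
      rw [Matrix.mul_apply, Matrix.mulVec, dotProduct, Finset.mul_sum]
      refine Finset.sum_congr rfl fun k _ => ?_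
      rw [hP₀, hb'', Pi.smul_apply, smul_eq_mul]
      ring
    rw [h2, h1, Matrix.mul_add, Matrix.add_apply, Matrix.mul_diagonal, hP₀, hb'']
    simp only [Pi.add_apply, Pi.smul_apply, smul_eq_mul, mul_add]
    congr 1
    · ring
    · rw [Matrix.mul_smul, Matrix.smul_apply, smul_eq_mul, Matrix.mul_apply]
      cases hp : pre (e.symm j) with
      | none =>
        rw [Option.elim_none]
        rw [Finset.sum_eq_zero]
        · simp
        · intro k _
          rw [Matrix.map_apply, hν, hp]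
          simp
      | some i' =>
        rw [Option.elim_some, Finset.sum_eq_single (e i')]
        · rw [Matrix.map_apply, hν, hp, Equiv.symm_apply_apply, if_pos rfl, hP₀, hb'',
            Equiv.symm_apply_apply, Pi.smul_apply, smul_eq_mul, map_one, mul_one,
            hpre _ _ hp, pow_succ]
          ring
        · intro k _ hk
          rw [Matrix.map_apply, hν, hp, if_neg, map_zero, mul_zero]
          intro hcon
          apply hk
          rw [Option.some.injEq] at hcon
          rw [hcon, Equiv.apply_symm_apply]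
        · intro hk
          exact absurd (Finset.mem_univ _) hk
  have hPinv : (P : Mat r ℂ) * ((P⁻¹ : (Mat r ℂ)ˣ) : Mat r ℂ) = 1 := P.mul_inv
  rw [hP, ← key, ← hP, mul_assoc, hPinv, mul_one]

/-- Among the enumerations with given values there is one which is increasing on the fibres with
respect to a height function. -/
theorem exists_stable {ι : Type} [Fintype ι] [DecidableEq ι] (d : ι → ℂ) (h : ι → ℕ)
    (e₀ : ι ≃ Fin r) : ∃ e : ι ≃ Fin r, (∀ k, d (e.symm k) = d (e₀.symm k)) ∧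
      ∀ i j, d i = d j → h i < h j → e i < e j := by
  classical
  let S : Set (ι ≃ Fin r) := {e | ∀ k, d (e.symm k) = d (e₀.symm k)}
  have hS : S.Nonempty := ⟨e₀, fun k => rfl⟩
  obtain ⟨e, he, hmax⟩ := Set.exists_max_image S (fun e => ∑ i, h i * (e i : ℕ))
    (Set.toFinite S) hS
  refine ⟨e, he, fun i j hij hh => ?_⟩
  by_contra hcon
  have hne : i ≠ j := by rintro rfl; exact lt_irrefl _ hh
  have hlt : e j < e i := lt_of_le_of_ne (not_lt.1 hcon) (fun h => hne (e.injective h).symm)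
  let e' : ι ≃ Fin r := (Equiv.swap i j).trans e
  have he' : e' ∈ S := by
    intro k
    rw [← he k]
    change d ((Equiv.swap i j).symm (e.symm k)) = d (e.symm k)
    rw [Equiv.symm_swap]
    by_cases h1 : e.symm k = i
    · rw [h1, Equiv.swap_apply_left, hij]
    · by_cases h2 : e.symm k = j
      · rw [h2, Equiv.swap_apply_right, hij]
      · rw [Equiv.swap_apply_of_ne_of_ne h1 h2]
  have h3 := hmax e' he'
  have hsum : ∀ f : ι → ℕ, ∑ k, f k = f i + f j + ∑ k ∈ (Finset.univ.erase i).erase j, f k := by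
    intro f
    rw [add_assoc, Finset.add_sum_erase _ _ (Finset.mem_erase.2 ⟨hne.symm, Finset.mem_univ _⟩),
      Finset.add_sum_erase _ _ (Finset.mem_univ _)]
  have h4 : ∑ k ∈ (Finset.univ.erase i).erase j, h k * (e' k : ℕ) =
      ∑ k ∈ (Finset.univ.erase i).erase j, h k * (e k : ℕ) := by
    refine Finset.sum_congr rfl fun k hk => ?_
    rw [Finset.mem_erase, Finset.mem_erase] at hk
    change h k * (e (Equiv.swap i j k) : ℕ) = _
    rw [Equiv.swap_apply_of_ne_of_ne hk.2.1 hk.1]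
  rw [hsum (fun k => h k * (e' k : ℕ)), hsum (fun k => h k * (e k : ℕ)), h4] at h3
  have h5 : e' i = e j := by
    change e (Equiv.swap i j i) = _
    rw [Equiv.swap_apply_left]
  have h6 : e' j = e i := by
    change e (Equiv.swap i j j) = _
    rw [Equiv.swap_apply_right]
  rw [h5, h6] at h3
  have h7 : ((e j : Fin r) : ℕ) < (e i : ℕ) := hlt
  have h8 : h i * (e j : ℕ) + h j * (e i : ℕ) ≤ h i * (e i : ℕ) + h j * (e j : ℕ) := by omega
  obtain ⟨x, hx⟩ := Nat.exists_eq_add_of_lt hh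
  obtain ⟨y, hy⟩ := Nat.exists_eq_add_of_lt h7
  rw [hx, hy] at h8
  nlinarith [Nat.zero_le x, Nat.zero_le y, Nat.zero_le (x * y)]

theorem charpoly_conj_aux (P : (Mat r ℂ)ˣ) (d : Fin r → ℂ) (ν : Matrix (Fin r) (Fin r) ℤ)
    (hν : ∀ i j, ¬ i < j → ν i j = 0) :
    ((P : Mat r ℂ) * (diagonal d + ν.map (Int.castRingHom ℂ)) *
      ((P⁻¹ : (Mat r ℂ)ˣ) : Mat r ℂ)).charpoly = ∏ i, (Polynomial.X - Polynomial.C (d i)) := by
  have h1 : ν.map (Int.castRingHom ℂ) = ν.map (Int.cast : ℤ → ℂ) := by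
    ext i j
    rfl
  rw [h1]
  have h3 := P002.charpoly_diag_add d ν hν 1
  rw [one_smul] at h3
  rw [← h3, Matrix.mul_assoc, Matrix.charpoly_mul_comm, Matrix.mul_assoc, ← Units.val_mul,
    inv_mul_cancel, Units.val_one, Matrix.mul_one]

/-- Jordan form with prescribed order of the eigenvalues: the eigenvalues `d` can be rearranged by
an arbitrary permutation. -/
theorem exists_jordan_perm (C : Mat r ℂ) (N : ℕ) (hC : IsNilpotent (C ^ N - 1)) :
    ∃ d : Fin r → ℂ, (∀ i, d i ^ N = 1) ∧ ∀ σ : Equiv.Perm (Fin r),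
      ∃ ν : Matrix (Fin r) (Fin r) ℤ, (∀ i j, ¬ i < j → ν i j = 0) ∧
        ∀ c : ℂ, c ≠ 0 → ∃ P : (Mat r ℂ)ˣ,
          C = (P : Mat r ℂ) * (diagonal (fun i => d (σ i)) + c • ν.map (Int.castRingHom ℂ)) *
            ((P⁻¹ : (Mat r ℂ)ˣ) : Mat r ℂ) := by
  classical
  obtain ⟨ι, _, _, b, d, pre, h, hb, hpre⟩ :=
    exists_jordan_auxC r (Fin r → ℂ) (Matrix.mulVecLin C) (by simp)
  have hcard : Fintype.card ι = r := by
    rw [← Module.finrank_eq_card_basis b]
    simp
  let e₀ : ι ≃ Fin r := Fintype.equivFinOfCardEq hcard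
  have main : ∀ e₁ : ι ≃ Fin r, ∃ ν : Matrix (Fin r) (Fin r) ℤ, (∀ i j, ¬ i < j → ν i j = 0) ∧
      ∀ N₀ : ℂ, N₀ ≠ 0 → ∃ P : (Mat r ℂ)ˣ,
        C = (P : Mat r ℂ) * (diagonal (fun k => d (e₁.symm k)) +
          N₀ • ν.map (Int.castRingHom ℂ)) * ((P⁻¹ : (Mat r ℂ)ˣ) : Mat r ℂ) := by
    intro e₁
    obtain ⟨e, he1, he2⟩ := exists_stable d h e₁
    obtain ⟨ν, hν1, hν2⟩ := jordan_of_enum b d pre h hb (fun i j hp => (hpre i j hp).1) e
      (fun i j hp => he2 i j (hpre i j hp).2.symm (by rw [(hpre i j hp).1]; exact Nat.lt_succ_self _))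
    refine ⟨ν, hν1, ?_⟩
    simp only [he1] at hν2
    exact hν2
  refine ⟨fun k => d (e₀.symm k), fun i => ?_, fun σ => main (e₀.trans σ.symm)⟩
  obtain ⟨ν, hν1, hν2⟩ := main e₀
  obtain ⟨P, hP⟩ := hν2 1 one_ne_zero
  apply nilpotent_eigen C N hC
  have h1 : C.charpoly = ∏ i, (Polynomial.X - Polynomial.C (d (e₀.symm i))) := by
    rw [hP, one_smul]
    exact charpoly_conj_aux P _ ν hν1
  rw [h1]
  simp only [Polynomial.IsRoot.def, Polynomial.eval_prod]
  apply Finset.prod_eq_zero (Finset.mem_univ i)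
  simp

end Vale.Agent.P002R
end
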