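import Mathlib
import Vale.Agent.P002.Bdl.B3
import Vale.Agent.P002.Bdl.B2
import Vale.Agent.P002.Bdl.B1

set_option linter.all false

section

/-!
# Linear algebra of one eigenvalue, irreducibility of orbits
-/

namespace Vale.Agent.P002G

open Matrix
open Vale.Agent.P002R (UpT LoT upT_one loT_one)

variable {n m p : ℕ} {S R : Type*} [CommRing S] [CommRing R]

/-- The orbit is irreducible. -/
theorem orbit_irred (J : Matrix (Fin n) (Fin n) ℂ) (F E : Matrix (Fin n) (Fin n) ℂ → ℂ)
    (hF : IsPoly F) (hE : IsPoly E) (d : Matrix (Fin n) (Fin n) ℂ → ℂ) (hd : IsPoly d)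
    (g1 : Matrix (Fin n) (Fin n) ℂ) (hg1 : d g1 ≠ 0) (hEJ : E J ≠ 0)
    (h : ∀ g : Matrix (Fin n) (Fin n) ℂ, IsUnit g → d g ≠ 0 → E (g * J * g⁻¹) ≠ 0 →
      F (g * J * g⁻¹) = 0)
    (g : Matrix (Fin n) (Fin n) ℂ) (hg : IsUnit g) : F (g * J * g⁻¹) = 0 := by
  have hid : PolyMap fun g : Matrix (Fin n) (Fin n) ℂ => g := polyMap_linear LinearMap.id
  have hD : IsPoly fun g : Matrix (Fin n) (Fin n) ℂ => g.det := isPoly_det hid
  have hψ : RatMap (fun g : Matrix (Fin n) (Fin n) ℂ => g.det)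
      fun g : Matrix (Fin n) (Fin n) ℂ => g * J * g⁻¹ :=
    IsRat.matrix_mul hD (IsRat.matrix_mul hD hid.ratMap (polyMap_const J).ratMap) (ratMap_inv hid)
  obtain ⟨M, G, hG, hGF⟩ := hψ.comp hD hF
  obtain ⟨M', G', hG', hGE⟩ := hψ.comp hD hE
  have h1 := ((hG.mul hD).mul hG').eq_zero_of_mul hd (fun x => by
    by_cases hx : x.det = 0
    · rw [hx]; ring
    by_cases hdx : d x = 0
    · rw [hdx]; ring
    by_cases hEx : E (x * J * x⁻¹) = 0
    · have := hGE x hx
      beta_reduce at this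
      rw [this, hEx]; ring
    · have h2 := h x ((Matrix.isUnit_iff_isUnit_det _).2 (isUnit_iff_ne_zero.2 hx)) hdx hEx
      have := hGF x hx
      beta_reduce at this
      rw [this, h2]; ring) g1 hg1
  have h2 := (hG.mul hD).eq_zero_of_mul hG' h1 1 (by
    have := hGE 1 (by
      change (1 : Matrix (Fin n) (Fin n) ℂ).det ≠ 0
      rw [Matrix.det_one]; exact one_ne_zero)
    beta_reduce at this
    rw [Matrix.det_one, one_pow, one_mul, one_mul, inv_one, mul_one] at this
    rw [this]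
    exact hEJ) g
  have hx : g.det ≠ 0 := isUnit_iff_ne_zero.1 ((Matrix.isUnit_iff_isUnit_det _).1 hg)
  have h3 := hGF g hx
  beta_reduce at h2 h3
  rw [h3] at h2
  have h4 := (mul_eq_zero.1 h2).resolve_right hx
  exact (mul_eq_zero.1 h4).resolve_left (pow_ne_zero M hx)

/-- Factorisation of linear maps. -/
theorem exists_comp_of_ker_le {V V' V'' : Type*} [AddCommGroup V] [Module ℂ V] [AddCommGroup V']
    [Module ℂ V'] [AddCommGroup V''] [Module ℂ V''] (f : V →ₗ[ℂ] V') (g : V →ₗ[ℂ] V'')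
    (h : LinearMap.ker f ≤ LinearMap.ker g) : ∃ s : V' →ₗ[ℂ] V'', s.comp f = g := by
  obtain ⟨s, hs⟩ := LinearMap.exists_extend
    (((LinearMap.ker f).liftQ g h).comp f.quotKerEquivRange.symm.toLinearMap)
  refine ⟨s, LinearMap.ext fun v => ?_⟩
  have h1 := LinearMap.congr_fun hs ⟨f v, LinearMap.mem_range_self f v⟩
  rw [LinearMap.comp_apply, LinearMap.comp_apply] at h1
  rw [LinearMap.comp_apply]
  refine h1.trans ?_
  have h2 : f.quotKerEquivRange.symm ⟨f v, LinearMap.mem_range_self f v⟩ =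
      (LinearMap.ker f).mkQ v := by
    rw [LinearEquiv.symm_apply_eq]
    rfl
  change ((LinearMap.ker f).liftQ g h) (f.quotKerEquivRange.symm ⟨f v, _⟩) = g v
  rw [h2]
  rfl

/-- Extension of isomorphisms of subspaces. -/
theorem exists_equiv_comp {K V : Type*} [AddCommGroup K] [Module ℂ K] [AddCommGroup V]
    [Module ℂ V] [FiniteDimensional ℂ V] (f g : K →ₗ[ℂ] V) (hf : Function.Injective f)
    (hg : Function.Injective g) : ∃ t : V ≃ₗ[ℂ] V, ∀ x, t (f x) = g x := by
  obtain ⟨C0, hC0⟩ := exists_isCompl (LinearMap.range f)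
  obtain ⟨C1, hC1⟩ := exists_isCompl (LinearMap.range g)
  have h1 : Module.finrank ℂ C0 = Module.finrank ℂ C1 := by
    have h2 := Submodule.finrank_add_eq_of_isCompl hC0
    have h3 := Submodule.finrank_add_eq_of_isCompl hC1
    have h4 := LinearMap.finrank_range_of_inj hf
    have h5 := LinearMap.finrank_range_of_inj hg
    omega
  have e : C0 ≃ₗ[ℂ] C1 := LinearEquiv.ofFinrankEq _ _ h1
  refine ⟨(Submodule.prodEquivOfIsCompl _ _ hC0).symm.trans
    ((((LinearEquiv.ofInjective f hf).symm.trans (LinearEquiv.ofInjective g hg)).prodCongr e).trans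
      (Submodule.prodEquivOfIsCompl _ _ hC1)), fun x => ?_⟩
  have h6 : (Submodule.prodEquivOfIsCompl _ _ hC0).symm (f x) =
      (LinearEquiv.ofInjective f hf x, 0) := by
    rw [LinearEquiv.symm_apply_eq, Submodule.coe_prodEquivOfIsCompl']
    simp
  rw [LinearEquiv.trans_apply, LinearEquiv.trans_apply, h6]
  simp

/-- Conjugacy of block matrices. -/
theorem conj_of_inj (W0 : Matrix (Fin m) (Fin m) ℂ) (Y0 Y : Matrix (Fin p) (Fin m) ℂ)
    (h0 : ∀ v, (W0 - 1) *ᵥ v = 0 → Y0 *ᵥ v = 0 → v = 0)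
    (h1 : ∀ v, (W0 - 1) *ᵥ v = 0 → Y *ᵥ v = 0 → v = 0) :
    ∃ g : Matrix (Fin (m + p)) (Fin (m + p)) ℂ, IsUnit g ∧
      g * blk W0 0 Y0 1 = blk W0 0 Y 1 * g := by
  obtain ⟨K, hK⟩ : ∃ K, K = LinearMap.ker (W0 - 1).mulVecLin := ⟨_, rfl⟩
  have hKm : ∀ v, v ∈ K ↔ (W0 - 1) *ᵥ v = 0 := fun v => by
    rw [hK, LinearMap.mem_ker, Matrix.mulVecLin_apply]
  have hinj : ∀ Y : Matrix (Fin p) (Fin m) ℂ, (∀ v, (W0 - 1) *ᵥ v = 0 → Y *ᵥ v = 0 → v = 0) →
      Function.Injective (Y.mulVecLin.domRestrict K) := by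
    intro Y h
    rw [injective_iff_map_eq_zero]
    rintro ⟨v, hv⟩ hv'
    rw [LinearMap.domRestrict_apply, Matrix.mulVecLin_apply] at hv'
    exact Subtype.ext (h v ((hKm v).1 hv) hv')
  obtain ⟨t, ht⟩ := exists_equiv_comp _ _ (hinj Y0 h0) (hinj Y h1)
  obtain ⟨T, hT⟩ : ∃ T : Matrix (Fin p) (Fin p) ℂ, T = LinearMap.toMatrix' t.toLinearMap :=
    ⟨_, rfl⟩
  have hTv : ∀ v, T *ᵥ v = t v := fun v => by
    rw [hT, ← Matrix.mulVecLin_apply, ← Matrix.toLin'_apply', Matrix.toLin'_toMatrix']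
    rfl
  have hTu : IsUnit T := by
    have h2 : LinearMap.toMatrix' t.symm.toLinearMap * T = 1 := by
      rw [hT, ← LinearMap.toMatrix'_comp, ← LinearMap.toMatrix'_one]
      congr 1
      ext v
      simp
    exact IsUnit.of_mul_eq_one_right _ h2
  obtain ⟨s, hs⟩ := exists_comp_of_ker_le (W0 - 1).mulVecLin (Y - T * Y0).mulVecLin (by
    intro v hv
    rw [← hK] at hv
    rw [LinearMap.mem_ker, Matrix.mulVecLin_apply, Matrix.sub_mulVec, ← Matrix.mulVec_mulVec, hTv]
    have h2 := ht ⟨v, hv⟩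
    rw [LinearMap.domRestrict_apply, LinearMap.domRestrict_apply, Matrix.mulVecLin_apply,
      Matrix.mulVecLin_apply] at h2
    rw [h2, sub_self])
  obtain ⟨s', hs'⟩ : ∃ s' : Matrix (Fin p) (Fin m) ℂ, s' = LinearMap.toMatrix' s := ⟨_, rfl⟩
  have hsv : ∀ v, s' *ᵥ v = s v := fun v => by
    rw [hs', ← Matrix.mulVecLin_apply, ← Matrix.toLin'_apply', Matrix.toLin'_toMatrix']
  have h3 : s' * (W0 - 1) = Y - T * Y0 := by
    apply Matrix.ext_of_mulVec_single
    intro i
    rw [← Matrix.mulVec_mulVec, hsv]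
    exact LinearMap.congr_fun hs _
  refine ⟨blk 1 0 s' T, ?_, ?_⟩
  · have hTd := (Matrix.isUnit_iff_isUnit_det _).1 hTu
    apply IsUnit.of_mul_eq_one (blk 1 0 (-(T⁻¹ * s')) T⁻¹)
    rw [blk_mul]
    simp only [Matrix.mul_zero, Matrix.zero_mul, add_zero, zero_add, Matrix.mul_one,
      Matrix.mul_neg, neg_zero]
    rw [← Matrix.mul_assoc, Matrix.mul_nonsing_inv _ hTd, Matrix.one_mul, add_neg_cancel, blk_one]
  · rw [blk_mul, blk_mul]
    simp only [Matrix.mul_zero, Matrix.zero_mul, add_zero, zero_add, Matrix.mul_one,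
      Matrix.one_mul]
    congr 1
    rw [Matrix.mul_sub, Matrix.mul_one, sub_eq_sub_iff_add_eq_add] at h3
    exact h3

/-- Adapted bases. -/
theorem adapted (A : Matrix (Fin (m + p)) (Fin (m + p)) ℂ)
    (hA : Module.finrank ℂ (LinearMap.ker A.mulVecLin) = p) :
    ∃ (g : Matrix (Fin (m + p)) (Fin (m + p)) ℂ) (W : Matrix (Fin m) (Fin m) ℂ)
      (Y : Matrix (Fin p) (Fin m) ℂ), IsUnit g ∧ A * g = g * blk W 0 Y 0 ∧
      ∀ v, W *ᵥ v = 0 → Y *ᵥ v = 0 → v = 0 := by
  obtain ⟨C, hC⟩ := exists_isCompl (LinearMap.ker A.mulVecLin)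
  have hCm : Module.finrank ℂ C = m := by
    have h2 := Submodule.finrank_add_eq_of_isCompl hC
    rw [hA, Module.finrank_fin_fun] at h2
    omega
  obtain ⟨bK, -⟩ : ∃ bK : Module.Basis (Fin p) ℂ (LinearMap.ker A.mulVecLin), True :=
    ⟨Module.finBasisOfFinrankEq _ _ hA, trivial⟩
  obtain ⟨bC, -⟩ : ∃ bC : Module.Basis (Fin m) ℂ C, True :=
    ⟨Module.finBasisOfFinrankEq _ _ hCm, trivial⟩
  obtain ⟨b, hb⟩ : ∃ b : Module.Basis (Fin (m + p)) ℂ (Fin (m + p) → ℂ),
      b = ((bC.prod bK).map (Submodule.prodEquivOfIsCompl _ _ hC.symm)).reindex finSumFinEquiv :=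
    ⟨_, rfl⟩
  have hb1 : ∀ j, b (Fin.castAdd p j) = bC j := fun j => by
    rw [hb]
    simp
  have hb2 : ∀ j, b (Fin.natAdd m j) = bK j := fun j => by
    rw [hb]
    simp
  obtain ⟨g, hg⟩ : ∃ g : Matrix (Fin (m + p)) (Fin (m + p)) ℂ, g = Matrix.of fun i j => b j i :=
    ⟨_, rfl⟩
  have hgv : ∀ v, g *ᵥ v = ∑ j, v j • b j := by
    intro v
    ext i
    rw [Matrix.mulVec, dotProduct, Finset.sum_apply]
    refine Finset.sum_congr rfl fun j _ => ?_
    rw [hg, Matrix.of_apply, Pi.smul_apply, smul_eq_mul, mul_comm]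
  have hgu : IsUnit g := by
    rw [Matrix.isUnit_iff_isUnit_det]
    have h2 : g = (Pi.basisFun ℂ (Fin (m + p))).toMatrix b := by
      rw [hg]
      ext i j
      rw [Module.Basis.toMatrix_apply, Pi.basisFun_repr, Matrix.of_apply]
    rw [h2]
    have h3 := (Pi.basisFun ℂ (Fin (m + p))).toMatrix_mul_toMatrix_flip b
    exact (Matrix.isUnit_iff_isUnit_det _).1 (IsUnit.of_mul_eq_one _ h3)
  have hgd := (Matrix.isUnit_iff_isUnit_det _).1 hgu
  obtain ⟨B, hB⟩ : ∃ B, B = g⁻¹ * (A * g) := ⟨_, rfl⟩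
  have hAg : A * g = g * B := by
    rw [hB, ← Matrix.mul_assoc, Matrix.mul_nonsing_inv _ hgd, Matrix.one_mul]
  have hB0 : ∀ i j, B i (Fin.natAdd m j) = 0 := by
    intro i j
    have h2 : (A * g) *ᵥ Pi.single (Fin.natAdd m j) 1 = 0 := by
      rw [← Matrix.mulVec_mulVec, hgv]
      have h3 : ∑ k, (Pi.single (Fin.natAdd m j) 1 : Fin (m + p) → ℂ) k • b k =
          b (Fin.natAdd m j) := by
        rw [Finset.sum_eq_single (Fin.natAdd m j)]
        · rw [Pi.single_eq_same, one_smul]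
        · intro k _ hk
          rw [Pi.single_eq_of_ne hk, zero_smul]
        · intro h
          exact absurd (Finset.mem_univ _) h
      rw [h3, hb2]
      have h4 := (bK j).2
      rw [LinearMap.mem_ker, Matrix.mulVecLin_apply] at h4
      exact h4
    have h5 : B *ᵥ Pi.single (Fin.natAdd m j) 1 = 0 := by
      rw [hB, ← Matrix.mulVec_mulVec, h2, Matrix.mulVec_zero]
    have h6 := congrFun h5 i
    rwa [Matrix.mulVec_single_one] at h6
  have hBb : B = blk (Matrix.of fun i j => B (Fin.castAdd p i) (Fin.castAdd p j)) 0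
      (Matrix.of fun i j => B (Fin.natAdd m i) (Fin.castAdd p j)) 0 := by
    ext i j
    refine Fin.addCases (fun i => ?_) (fun i => ?_) i <;>
      refine Fin.addCases (fun j => ?_) (fun j => ?_) j
    · rw [blk_apply₁₁]; rfl
    · rw [blk_apply₁₂]; exact hB0 _ _
    · rw [blk_apply₂₁]; rfl
    · rw [blk_apply₂₂]; exact hB0 _ _
  refine ⟨g, _, _, hgu, by rw [hAg]; exact congrArg (g * ·) hBb, fun v hv1 hv2 => ?_⟩
  -- injectivity
  obtain ⟨w, hw⟩ : ∃ w : Fin (m + p) → ℂ, w = Fin.append v 0 := ⟨_, rfl⟩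
  have h1 : B *ᵥ w = 0 := by
    ext i
    rw [Matrix.mulVec, dotProduct, Fin.sum_univ_add]
    have h2 : ∑ j : Fin p, B i (Fin.natAdd m j) * w (Fin.natAdd m j) = 0 :=
      Finset.sum_eq_zero fun j _ => by rw [hB0, zero_mul]
    rw [h2, add_zero]
    have h3 : ∀ j : Fin m, w (Fin.castAdd p j) = v j := fun j => by
      rw [hw, Fin.append_left]
    simp only [h3]
    refine Fin.addCases (fun i => ?_) (fun i => ?_) i
    · exact congrFun hv1 i
    · exact congrFun hv2 i
  have h2 : g *ᵥ w ∈ LinearMap.ker A.mulVecLin := by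
    rw [LinearMap.mem_ker, Matrix.mulVecLin_apply, Matrix.mulVec_mulVec, hAg,
      ← Matrix.mulVec_mulVec, h1, Matrix.mulVec_zero]
  have h3 : g *ᵥ w ∈ C := by
    rw [hgv, Fin.sum_univ_add]
    apply C.add_mem
    · apply C.sum_mem
      intro j _
      rw [hb1]
      exact C.smul_mem _ (bC j).2
    · have h4 : ∀ j : Fin p, w (Fin.natAdd m j) = 0 := fun j => by
        rw [hw, Fin.append_right]
        rfl
      simp only [h4, zero_smul, Finset.sum_const_zero]
      exact C.zero_mem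
  have h4 : g *ᵥ w = 0 := by
    have := Submodule.disjoint_def.1 hC.disjoint _ h2 h3
    exact this
  have h5 : w = 0 := by
    have : g⁻¹ *ᵥ (g *ᵥ w) = 0 := by rw [h4, Matrix.mulVec_zero]
    rwa [Matrix.mulVec_mulVec, Matrix.nonsing_inv_mul _ hgd, Matrix.one_mulVec] at this
  ext i
  have := congrFun h5 (Fin.castAdd p i)
  rw [hw, Fin.append_left] at this
  exact this

end Vale.Agent.P002G
end

section

/-!
# Restricting the test set to absolutely irreducible representations
-/

namespace Vale.Agent.P002R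

open Matrix

variable {K : Type*} {r : ℕ}

/-- The generic matrix of a positive word. -/
noncomputable def posW (l : List K) :
    Matrix (Fin r) (Fin r) (MvPolynomial (K × Fin r × Fin r) ℂ) :=
  (l.map fun k => Matrix.of fun i j => MvPolynomial.X (k, i, j)).prod

theorem evalG_posW (y : FreeGroup K →* (Mat r ℂ)ˣ) (l : List K) (i j : Fin r) :
    evalG y (posW l i j) = ((l.map fun k => (y (FreeGroup.of k) : Mat r ℂ)).prod) i j := by
  have h : (evalG y).toRingHom.mapMatrix (posW l) =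
      (l.map fun k => (y (FreeGroup.of k) : Mat r ℂ)).prod := by
    rw [posW, map_list_prod, List.map_map]
    congr 1
    apply List.map_congr_left
    intro k _
    ext a b
    simp [evalG]
  rw [← h]
  rfl

/-- The inverse of an element of a finite dimensional subalgebra is in the subalgebra. -/
theorem inv_mem_of_mem (A : Subalgebra ℂ (Mat r ℂ)) (u : (Mat r ℂ)ˣ) (hu : (u : Mat r ℂ) ∈ A) :
    ((u⁻¹ : (Mat r ℂ)ˣ) : Mat r ℂ) ∈ A := by
  obtain ⟨L, hL⟩ : ∃ L : A →ₗ[ℂ] A, ∀ a, L a = ⟨(u : Mat r ℂ), hu⟩ * a :=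
    ⟨LinearMap.mulLeft ℂ (⟨(u : Mat r ℂ), hu⟩ : A), fun a => rfl⟩
  have hinj : Function.Injective L := by
    intro a b hab
    rw [hL, hL] at hab
    have h1 := congrArg Subtype.val hab
    simp only [MulMemClass.coe_mul] at h1
    exact Subtype.ext (u.isUnit.mul_left_cancel h1)
  obtain ⟨a, ha⟩ := (LinearMap.injective_iff_surjective.1 hinj) 1
  rw [hL] at ha
  have h2 : (u : Mat r ℂ) * (a : Mat r ℂ) = 1 := congrArg Subtype.val ha
  have h3 : ((u⁻¹ : (Mat r ℂ)ˣ) : Mat r ℂ) = (a : Mat r ℂ) := by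
    have := Units.inv_mul u
    calc ((u⁻¹ : (Mat r ℂ)ˣ) : Mat r ℂ) = ((u⁻¹ : (Mat r ℂ)ˣ) : Mat r ℂ) * (u * a) := by
          rw [h2, mul_one]
      _ = a := by rw [← mul_assoc, Units.inv_mul, one_mul]
  rw [h3]
  exact a.2

theorem adjoin_gen (x : FreeGroup K →* (Mat r ℂ)ˣ) :
    Algebra.adjoin ℂ (Set.range fun w => (x w : Mat r ℂ)) =
      Algebra.adjoin ℂ (Set.range fun k => (x (FreeGroup.of k) : Mat r ℂ)) := by
  apply le_antisymm
  · rw [Algebra.adjoin_le_iff]
    rintro _ ⟨w, rfl⟩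
    obtain ⟨A, hA⟩ : ∃ A, A = Algebra.adjoin ℂ (Set.range fun k => (x (FreeGroup.of k) : Mat r ℂ)) :=
      ⟨_, rfl⟩
    rw [← hA]
    change (x w : Mat r ℂ) ∈ A
    have h1 : (⊤ : Subgroup (FreeGroup K)) ≤
        (Subgroup.comap x ({
          carrier := {y : (Mat r ℂ)ˣ | (y : Mat r ℂ) ∈ A}
          mul_mem' := fun {a b} ha hb => by
            rw [Set.mem_ofPred_eq, Units.val_mul]
            exact mul_mem ha hb
          one_mem' := one_mem A
          inv_mem' := fun {a} ha => inv_mem_of_mem A a ha } : Subgroup (Mat r ℂ)ˣ)) := by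
      rw [← FreeGroup.closure_range_of, Subgroup.closure_le]
      rintro _ ⟨k, rfl⟩
      change (x (FreeGroup.of k) : Mat r ℂ) ∈ A
      rw [hA]
      exact Algebra.subset_adjoin ⟨k, rfl⟩
    exact h1 (Subgroup.mem_top w)
  · apply Algebra.adjoin_mono
    rintro _ ⟨k, rfl⟩
    exact ⟨FreeGroup.of k, rfl⟩

theorem adjoin_pos (X : K → Mat r ℂ) :
    Subalgebra.toSubmodule (Algebra.adjoin ℂ (Set.range X)) =
      Submodule.span ℂ (Set.range fun l : List K => (l.map X).prod) := by
  rw [Algebra.adjoin_eq_span]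
  congr 1
  ext M
  constructor
  · intro h
    obtain ⟨l, hl, rfl⟩ := Submonoid.exists_list_of_mem_closure h
    clear h
    induction l with
    | nil => exact ⟨[], rfl⟩
    | cons a l ih =>
      obtain ⟨l', hl'⟩ := ih fun y hy => hl y (List.mem_cons_of_mem _ hy)
      obtain ⟨k, rfl⟩ := hl a List.mem_cons_self
      refine ⟨k :: l', ?_⟩
      simp only [List.map_cons, List.prod_cons] at hl' ⊢
      rw [hl']
  · rintro ⟨l, rfl⟩
    apply Submonoid.list_prod_mem
    intro y hy
    rw [List.mem_map] at hy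
    obtain ⟨k, -, rfl⟩ := hy
    exact Submonoid.subset_closure ⟨k, rfl⟩

theorem linearIndependent_entries (v : Fin r × Fin r → Mat r ℂ) :
    LinearIndependent ℂ v ↔ (Matrix.of fun p q : Fin r × Fin r => v p q.1 q.2).det ≠ 0 := by
  rw [← isUnit_iff_ne_zero, ← Matrix.isUnit_iff_isUnit_det, ← Matrix.linearIndependent_rows_iff_isUnit,
    Fintype.linearIndependent_iff, Fintype.linearIndependent_iff]
  have h : ∀ g : Fin r × Fin r → ℂ, (∑ p, g p • v p = 0 ↔
      ∑ p, g p • (Matrix.of fun p q : Fin r × Fin r => v p q.1 q.2).row p = 0) := by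
    intro g
    constructor
    · intro h
      funext q
      have := congrFun (congrFun h q.1) q.2
      simpa [Matrix.sum_apply] using this
    · intro h
      ext i j
      have := congrFun h (i, j)
      simpa [Matrix.sum_apply] using this
  constructor
  · intro h1 g hg
    exact h1 g ((h g).2 hg)
  · intro h1 g hg
    exact h1 g ((h g).1 hg)

theorem upgrade (x : FreeGroup K →* (Mat r ℂ)ˣ)
    (hx : Algebra.adjoin ℂ (Set.range fun w => (x w : Mat r ℂ)) = ⊤)
    (D : Set (FreeGroup K →* (Mat r ℂ)ˣ))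
    (hall : ∀ f' : MvPolynomial (K × Fin r × Fin r) ℂ, (∀ y ∈ D, evalG y f' = 0) → evalG x f' = 0)
    (f : MvPolynomial (K × Fin r × Fin r) ℂ)
    (hf : ∀ y ∈ D, Algebra.adjoin ℂ (Set.range fun w => (y w : Mat r ℂ)) = ⊤ → evalG y f = 0) :
    evalG x f = 0 := by
  classical
  have hspan : Submodule.span ℂ (Set.range fun l : List K =>
      (l.map fun k => (x (FreeGroup.of k) : Mat r ℂ)).prod) = ⊤ := by
    rw [← adjoin_pos, ← adjoin_gen, hx]
    rfl
  obtain ⟨s, hs1, hs2, hs3⟩ := exists_linearIndependent ℂ (Set.range fun l : List K =>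
      (l.map fun k => (x (FreeGroup.of k) : Mat r ℂ)).prod)
  rw [hspan] at hs2
  have hfin : Fintype s := FiniteDimensional.fintypeBasisIndex (Module.Basis.mk hs3 (by
    rw [Subtype.range_coe, hs2]))
  have hcard : Fintype.card s = Fintype.card (Fin r × Fin r) := by
    have h1 := finrank_span_eq_card hs3
    rw [Subtype.range_coe, hs2, finrank_top, Module.finrank_matrix] at h1
    rw [← h1]
    simp
  obtain ⟨e⟩ : Nonempty (Fin r × Fin r ≃ s) := Fintype.card_eq.1 hcard.symm
  have hw : ∀ p : Fin r × Fin r, ∃ l : List K,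
      (l.map fun k => (x (FreeGroup.of k) : Mat r ℂ)).prod = (e p : Mat r ℂ) := by
    intro p
    obtain ⟨l, hl⟩ := hs1 (e p).2
    exact ⟨l, hl⟩
  choose w hw using hw
  obtain ⟨h, hh⟩ : ∃ h : MvPolynomial (K × Fin r × Fin r) ℂ, h =
      (Matrix.of fun p q : Fin r × Fin r => posW (r := r) (w p) q.1 q.2).det := ⟨_, rfl⟩
  have heval : ∀ y : FreeGroup K →* (Mat r ℂ)ˣ, evalG y h = (Matrix.of fun p q : Fin r × Fin r =>
      (((w p).map fun k => (y (FreeGroup.of k) : Mat r ℂ)).prod) q.1 q.2).det := by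
    intro y
    rw [hh, AlgHom.map_det]
    congr 1
    ext p q
    exact evalG_posW y (w p) q.1 q.2
  have hx1 : evalG x h ≠ 0 := by
    rw [heval]
    have h1 : LinearIndependent ℂ (fun p : Fin r × Fin r => (e p : Mat r ℂ)) :=
      hs3.comp e e.injective
    have h2 : (fun p : Fin r × Fin r =>
        ((w p).map fun k => (x (FreeGroup.of k) : Mat r ℂ)).prod) = fun p => (e p : Mat r ℂ) :=
      funext hw
    rw [← h2, linearIndependent_entries] at h1
    exact h1
  have hy1 : ∀ y : FreeGroup K →* (Mat r ℂ)ˣ, evalG y h ≠ 0 →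
      Algebra.adjoin ℂ (Set.range fun w => (y w : Mat r ℂ)) = ⊤ := by
    intro y hy
    rw [heval] at hy
    have h1 := (linearIndependent_entries (fun p : Fin r × Fin r =>
      ((w p).map fun k => (y (FreeGroup.of k) : Mat r ℂ)).prod)).2 hy
    have h2 : Submodule.span ℂ (Set.range fun p : Fin r × Fin r =>
        ((w p).map fun k => (y (FreeGroup.of k) : Mat r ℂ)).prod) = ⊤ := by
      apply h1.span_eq_top_of_card_eq_finrank'
      rw [Module.finrank_matrix]
      simp
    rw [adjoin_gen]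
    apply Subalgebra.toSubmodule_injective
    rw [adjoin_pos, Algebra.top_toSubmodule, eq_top_iff, ← h2]
    apply Submodule.span_mono
    rintro _ ⟨p, rfl⟩
    exact ⟨w p, rfl⟩
  have hprod := hall (h * f) (fun y hy => by
    rw [map_mul]
    by_cases hy0 : evalG y h = 0
    · rw [hy0, zero_mul]
    · rw [hf y hy (hy1 y hy0), mul_zero])
  rw [map_mul] at hprod
  exact (mul_eq_zero.1 hprod).resolve_left hx1

end Vale.Agent.P002R
end

section

/-!
# P002 PART III': derivations of `ℂ` with prescribed values; dense algebraically independent tuples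
-/

namespace Vale.Agent.P002

/-- Lifting along square-zero surjections for algebraic extensions of fraction fields in
characteristic zero. -/
theorem exists_ringHom_lift {P K B : Type} [CommRing P] [IsDomain P] [Field K] [CharZero K]
    [CommRing B] [Algebra P K] [FaithfulSMul P K] [Algebra.IsAlgebraic P K] (g : B →+* K)
    (hg : Function.Surjective g) (hker : RingHom.ker g ^ 2 = ⊥) (h : P →+* B)
    (hgh : g.comp h = algebraMap P K) :
    ∃ ψ : K →+* B, g.comp ψ = RingHom.id K ∧ ψ.comp (algebraMap P K) = h := by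
  let _ : Algebra (FractionRing P) K := FractionRing.liftAlgebra P K
  have : IsScalarTower P (FractionRing P) K := FractionRing.isScalarTower_liftAlgebra P K
  have : Algebra.IsAlgebraic (FractionRing P) K :=
    (IsFractionRing.comap_isAlgebraic_iff (A := P) (K := FractionRing P) (C := K)).1 inferInstance
  have : CharZero (FractionRing P) := (algebraMap (FractionRing P) K).charZero
  have : Algebra.FormallyEtale (FractionRing P) K := Algebra.FormallyEtale.of_isSeparable _ _
  have : Algebra.FormallyEtale P (FractionRing P) :=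
    Algebra.FormallyEtale.of_isLocalization (nonZeroDivisors P)
  have : Algebra.FormallyEtale P K := Algebra.FormallyEtale.comp P (FractionRing P) K
  let _ : Algebra P B := h.toAlgebra
  obtain ⟨g', hg'⟩ : ∃ g' : B →ₐ[P] K, ∀ b, g' b = g b :=
    ⟨{ g with commutes' := fun p => RingHom.congr_fun hgh p }, fun b => rfl⟩
  have hsurj : Function.Surjective g' := fun k => by
    obtain ⟨b, hb⟩ := hg k
    exact ⟨b, (hg' b).trans hb⟩
  have hnil : IsNilpotent (RingHom.ker (g' : B →+* K)) := by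
    refine ⟨2, ?_⟩
    have : RingHom.ker (g' : B →+* K) = RingHom.ker g := by
      ext b
      rw [RingHom.mem_ker, RingHom.mem_ker]
      show g' b = 0 ↔ g b = 0
      rw [hg']
    rw [this, hker]
    rfl
  refine ⟨(Algebra.FormallySmooth.liftOfSurjective (AlgHom.id P K) g' hsurj hnil :
    K →ₐ[P] B), ?_, ?_⟩
  · ext k
    have := Algebra.FormallySmooth.liftOfSurjective_apply (AlgHom.id P K) g' hsurj hnil k
    rw [hg'] at this
    exact this
  · ext p
    exact (Algebra.FormallySmooth.liftOfSurjective (AlgHom.id P K) g' hsurj hnil).commutes p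

/-- A ring homomorphism to the dual numbers over `ℂ` with prescribed values on a transcendence
basis. -/
theorem exists_dual_hom (K₀ : Subfield ℂ) {t : Type} (x : t → ℂ) (ht : IsTranscendenceBasis K₀ x)
    (w : t → ℂ) :
    ∃ ψ : ℂ →+* TrivSqZeroExt ℂ ℂ, (∀ z, (ψ z).fst = z) ∧ (∀ i, (ψ (x i)).snd = w i) ∧
      ∀ c ∈ K₀, (ψ c).snd = 0 := by
  have halg : Algebra.IsAlgebraic (Algebra.adjoin K₀ (Set.range x)) ℂ := ht.isAlgebraic
  obtain ⟨e, he, hes⟩ : ∃ e : MvPolynomial t K₀ →ₐ[K₀] Algebra.adjoin K₀ (Set.range x),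
      (∀ q, algebraMap (Algebra.adjoin K₀ (Set.range x)) ℂ (e q) = MvPolynomial.aeval x q) ∧
        Function.Surjective e :=
    ⟨(ht.1.aevalEquiv : MvPolynomial t K₀ →ₐ[K₀] _), fun q =>
      AlgebraicIndependent.algebraMap_aevalEquiv ht.1 q, ht.1.aevalEquiv.surjective⟩
  obtain ⟨e', he'⟩ : ∃ e' : Algebra.adjoin K₀ (Set.range x) →ₐ[K₀] MvPolynomial t K₀,
      ∀ q, e' (e q) = q := by
    have hinj : Function.Injective e := fun p q hpq => ht.1 (by rw [← he, ← he, hpq])
    exact ⟨(AlgEquiv.ofBijective e ⟨hinj, hes⟩).symm, fun q =>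
      (AlgEquiv.ofBijective e ⟨hinj, hes⟩).symm_apply_apply q⟩
  obtain ⟨j, hj⟩ : ∃ j : K₀ →+* TrivSqZeroExt ℂ ℂ, ∀ c : K₀, j c = TrivSqZeroExt.inl (c : ℂ) :=
    ⟨(TrivSqZeroExt.inlHom ℂ ℂ).comp (algebraMap K₀ ℂ), fun c => rfl⟩
  obtain ⟨h, hh⟩ : ∃ h : Algebra.adjoin K₀ (Set.range x) →+* TrivSqZeroExt ℂ ℂ,
      ∀ q, h (e q) = MvPolynomial.eval₂ j
        (fun i : t => (TrivSqZeroExt.inl (x i) + TrivSqZeroExt.inr (w i) : TrivSqZeroExt ℂ ℂ))
          q := by
    refine ⟨(MvPolynomial.eval₂Hom j (fun i : t => (TrivSqZeroExt.inl (x i) +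
      TrivSqZeroExt.inr (w i) : TrivSqZeroExt ℂ ℂ))).comp e'.toRingHom, fun q => ?_⟩
    rw [RingHom.comp_apply]
    have : e'.toRingHom (e q) = q := he' q
    rw [this]
    rfl
  obtain ⟨g, hg⟩ : ∃ g : TrivSqZeroExt ℂ ℂ →+* ℂ, ∀ x, g x = x.fst :=
    ⟨{ toFun := fun x => x.fst
       map_one' := TrivSqZeroExt.fst_one
       map_mul' := fun x y => TrivSqZeroExt.fst_mul x y
       map_zero' := TrivSqZeroExt.fst_zero
       map_add' := fun x y => TrivSqZeroExt.fst_add x y }, fun x => rfl⟩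
  have hsurj : Function.Surjective g := fun x => ⟨TrivSqZeroExt.inl x, by
    rw [hg, TrivSqZeroExt.fst_inl]⟩
  have hker : RingHom.ker g ^ 2 = ⊥ := by
    rw [sq, eq_bot_iff, Ideal.mul_le]
    intro x hx y hy
    rw [RingHom.mem_ker, hg] at hx hy
    rw [Ideal.mem_bot]
    ext
    · rw [TrivSqZeroExt.fst_mul, hx, zero_mul, TrivSqZeroExt.fst_zero]
    · rw [TrivSqZeroExt.snd_mul, hx, hy]
      simp
  have hgh : g.comp h = algebraMap (Algebra.adjoin K₀ (Set.range x)) ℂ := by
    ext p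
    obtain ⟨q, rfl⟩ := hes p
    rw [RingHom.comp_apply, hh, hg, he]
    have h1 : g.comp (MvPolynomial.eval₂Hom j
        (fun i : t => (TrivSqZeroExt.inl (x i) + TrivSqZeroExt.inr (w i) :
          TrivSqZeroExt ℂ ℂ))) =
        (MvPolynomial.aeval x : MvPolynomial t K₀ →ₐ[K₀] ℂ).toRingHom := by
      refine MvPolynomial.ringHom_ext (fun n => ?_) fun i => ?_
      · rw [RingHom.comp_apply, hg, MvPolynomial.coe_eval₂Hom, MvPolynomial.eval₂_C, hj,
          TrivSqZeroExt.fst_inl]
        simp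
        rfl
      · rw [RingHom.comp_apply, hg]
        simp
    have h2 := RingHom.congr_fun h1 q
    rw [RingHom.comp_apply, hg] at h2
    exact h2
  obtain ⟨ψ, hψ1, hψ2⟩ := exists_ringHom_lift g hsurj hker h hgh
  refine ⟨ψ, fun x => ?_, fun i => ?_, fun c hc => ?_⟩
  · rw [← hg]; exact RingHom.congr_fun hψ1 x
  · have h0 := he (MvPolynomial.X i)
    rw [MvPolynomial.aeval_X] at h0
    have h1 := RingHom.congr_fun hψ2 (e (MvPolynomial.X i))
    rw [RingHom.comp_apply, h0] at h1
    rw [h1, hh, MvPolynomial.eval₂_X, TrivSqZeroExt.snd_add,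
      TrivSqZeroExt.snd_inl, TrivSqZeroExt.snd_inr, zero_add]
  · have h0 := he (MvPolynomial.C ⟨c, hc⟩)
    have h1 := RingHom.congr_fun hψ2 (e (MvPolynomial.C ⟨c, hc⟩))
    rw [MvPolynomial.aeval_C] at h0
    have h2 : algebraMap K₀ ℂ ⟨c, hc⟩ = c := rfl
    rw [RingHom.comp_apply, h0, h2] at h1
    rw [h1, hh, MvPolynomial.eval₂_C, hj, TrivSqZeroExt.snd_inl]

/-- The derivation attached to a section of the dual numbers. -/
theorem derivation_of_hom (ψ : ℂ →+* TrivSqZeroExt ℂ ℂ) (hψ : ∀ z, (ψ z).fst = z) :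
    ∃ δ : Derivation ℤ ℂ ℂ, ∀ x, δ x = (ψ x).snd := by
  refine ⟨Derivation.mk' (AddMonoidHom.toIntLinearMap
    { toFun := fun x => (ψ x).snd
      map_zero' := by rw [map_zero, TrivSqZeroExt.snd_zero]
      map_add' := fun x y => by rw [map_add, TrivSqZeroExt.snd_add] }) fun x y => ?_,
    fun x => rfl⟩
  show (ψ (x * y)).snd = x • (ψ y).snd + y • (ψ x).snd
  rw [map_mul, TrivSqZeroExt.snd_mul, hψ, hψ]
  congr 1
  show (ψ x).snd * y = y * (ψ x).snd
  rw [mul_comm]

/-- Derivations of `ℂ` over a subfield can be prescribed on algebraically independent numbers. -/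
theorem exists_derivation (K₀ : Subfield ℂ) {ι : Type} (a : ι → ℂ)
    (ha : AlgebraicIndependent K₀ a) (v : ι → ℂ) :
    ∃ δ : Derivation ℤ ℂ ℂ, (∀ c ∈ K₀, δ c = 0) ∧ ∀ i, δ (a i) = v i := by
  classical
  obtain ⟨t, hst, ht⟩ := exists_isTranscendenceBasis_superset (R := K₀) (s := Set.range a)
    ha.coe_range
  obtain ⟨w, hw⟩ : ∃ w : t → ℂ, ∀ i, w ⟨a i, hst ⟨i, rfl⟩⟩ = v i := by
    refine ⟨fun x => if h : ∃ i, a i = x then v h.choose else 0, fun i => ?_⟩
    have h : ∃ j, a j = a i := ⟨i, rfl⟩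
    simp only
    rw [dif_pos h]
    congr 1
    exact ha.injective h.choose_spec
  obtain ⟨ψ, h1, h2, h3⟩ := exists_dual_hom K₀ _ ht w
  obtain ⟨δ, hδ⟩ := derivation_of_hom ψ h1
  refine ⟨δ, fun c hc => by rw [hδ]; exact h3 c hc, fun i => ?_⟩
  rw [hδ, ← hw]
  exact h2 ⟨a i, hst ⟨i, rfl⟩⟩

/-- Algebraically independent tuples are dense. -/
theorem exists_dense_algIndep (K₀ : Subfield ℂ) (hK₀ : Countable K₀) {ι : Type} [Finite ι]
    (V : ι → Set ℂ) (hV : ∀ i, IsOpen (V i)) (hne : ∀ i, (V i).Nonempty) :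
    ∃ t : ι → ℂ, (∀ i, t i ∈ V i) ∧ AlgebraicIndependent K₀ t := by
  induction ι using Finite.induction_empty_option with
  | of_equiv e ih =>
    obtain ⟨t, h1, h2⟩ := ih (V ∘ e) (fun i => hV _) (fun i => hne _)
    refine ⟨t ∘ e.symm, fun i => ?_, h2.comp _ e.symm.injective⟩
    have := h1 (e.symm i)
    simpa using this
  | h_empty => exact ⟨fun i => i.elim, fun i => i.elim, algebraicIndependent_empty_type_iff.2
      (FaithfulSMul.algebraMap_injective K₀ ℂ)⟩
  | @h_option α _ ih =>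
    obtain ⟨t, h1, h2⟩ := ih (fun i => V (some i)) (fun i => hV _) (fun i => hne _)
    -- the algebraic closure is countable
    have hcM : ∀ α : Type, Finite α → Countable (MvPolynomial α K₀) := by
      intro α hα
      rw [← Cardinal.mk_le_aleph0_iff]
      refine MvPolynomial.cardinalMk_le_max.trans ?_
      simp only [max_le_iff, le_refl, and_true]
      exact ⟨Cardinal.mk_le_aleph0, Cardinal.mk_le_aleph0⟩
    have hc0 : Countable (Algebra.adjoin K₀ (Set.range t)) := by
      have := hcM α inferInstance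
      have h3 : ((Algebra.adjoin K₀ (Set.range t) : Subalgebra K₀ ℂ) : Set ℂ).Countable := by
        rw [Algebra.adjoin_range_eq_range_aeval]
        exact Set.countable_range _
      exact h3.to_subtype
    have hcount : {x : ℂ | IsAlgebraic (Algebra.adjoin K₀ (Set.range t)) x}.Countable :=
      Algebraic.countable _ _
    obtain ⟨x, hx, hxV⟩ := (hcount.dense_compl ℂ).inter_open_nonempty (V none) (hV none)
      (hne none)
    refine ⟨fun o => o.elim x t, fun i => ?_, (h2.option_iff_transcendental x).2 hxV⟩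
    cases i with
    | none => exact hx
    | some i => exact h1 i

/-- Countable sets lie in countable subfields. -/
theorem exists_countable_subfield' (s : Set ℂ) (hs : s.Countable) :
    ∃ K₀ : Subfield ℂ, Countable K₀ ∧ s ⊆ (K₀ : Set ℂ) := by
  refine ⟨Subfield.closure s, ?_, Subfield.subset_closure⟩
  have := hs.to_subtype
  rw [← Cardinal.mk_le_aleph0_iff]
  refine (Subfield.cardinalMk_closure_le_max s).trans ?_
  simp only [max_le_iff, le_refl, and_true]
  exact Cardinal.mk_le_aleph0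

end Vale.Agent.P002
end

section

/-!
# P002, genus 0: the rank one lemma
-/

namespace Vale.Agent.P002R

open Matrix Module

variable {r : ℕ} {ι : Type*}

/-- derivative of a product of conjugates -/
def DL (c x : ι → Mat r ℂ) : List ι → Mat r ℂ
  | [] => 0
  | j :: l => (x j * c j - c j * x j) * (l.map c).prod + c j * DL c x l

theorem DL_nil (c x : ι → Mat r ℂ) : DL c x [] = 0 := rfl

theorem DL_cons (c x : ι → Mat r ℂ) (j : ι) (l : List ι) :
    DL c x (j :: l) = (x j * c j - c j * x j) * (l.map c).prod + c j * DL c x l := rfl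

theorem DL_append (c x : ι → Mat r ℂ) (l₁ l₂ : List ι) :
    DL c x (l₁ ++ l₂) = DL c x l₁ * (l₂.map c).prod + (l₁.map c).prod * DL c x l₂ := by
  induction l₁ with
  | nil => simp [DL_nil]
  | cons j l₁ ih =>
    rw [List.cons_append, DL_cons, DL_cons, ih, List.map_append, List.prod_append, List.map_cons,
      List.prod_cons]
    noncomm_ring

theorem DL_add (c x y : ι → Mat r ℂ) (l : List ι) :
    DL c (x + y) l = DL c x l + DL c y l := by
  induction l with
  | nil => simp [DL_nil]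
  | cons j l ih =>
    rw [DL_cons, DL_cons, DL_cons, ih, Pi.add_apply]
    noncomm_ring

theorem DL_smul (c x : ι → Mat r ℂ) (a : ℂ) (l : List ι) :
    DL c (a • x) l = a • DL c x l := by
  induction l with
  | nil => simp [DL_nil]
  | cons j l ih =>
    rw [DL_cons, DL_cons, ih, Pi.smul_apply]
    simp only [smul_add, Matrix.smul_mul, Matrix.mul_smul, smul_sub, Matrix.sub_mul]

/-- `DL` as a linear map -/
def DLlin (c : ι → Mat r ℂ) (l : List ι) : (ι → Mat r ℂ) →ₗ[ℂ] Mat r ℂ where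
  toFun x := DL c x l
  map_add' x y := DL_add c x y l
  map_smul' a x := DL_smul c x a l

theorem DL_zero_of (c x : ι → Mat r ℂ) (l : List ι) (h : ∀ j ∈ l, x j = 0) : DL c x l = 0 := by
  induction l with
  | nil => rfl
  | cons j l ih =>
    rw [DL_cons, ih fun k hk => h k (List.mem_cons_of_mem _ hk), h j List.mem_cons_self]
    simp

theorem DL_split (c x : ι → Mat r ℂ) (l' l'' : List ι) (j : ι) (h' : ∀ k ∈ l', x k = 0)
    (h'' : ∀ k ∈ l'', x k = 0) :
    DL c x (l' ++ j :: l'') =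
      (l'.map c).prod * (x j * c j - c j * x j) * (l''.map c).prod := by
  rw [DL_append, DL_cons, DL_zero_of c x l' h', DL_zero_of c x l'' h'']
  noncomm_ring

theorem trace_vecMulVec_mul (u y : Fin r → ℂ) (M : Mat r ℂ) :
    trace (vecMulVec u y * M) = y ⬝ᵥ (M *ᵥ u) := by
  simp only [trace, diag_apply, mul_apply, vecMulVec_apply, dotProduct, mulVec, Finset.mul_sum]
  rw [Finset.sum_comm]
  refine Finset.sum_congr rfl fun i _ => Finset.sum_congr rfl fun j _ => by ring

/-- commutation along a list -/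
theorem pre_ind (c : ι → Mat r ℂ) (B : Mat r ℂ) (l : List ι)
    (h : ∀ l' j l'', l = l' ++ j :: l'' → Commute B (l'.map c).prod → Commute B (c j)) :
    Commute B (l.map c).prod ∧ ∀ j ∈ l, Commute B (c j) := by
  have key : ∀ l₁ l₂ : List ι, l = l₁ ++ l₂ →
      Commute B (l₁.map c).prod ∧ ∀ j ∈ l₁, Commute B (c j) := by
    intro l₁
    induction l₁ using List.reverseRecOn with
    | nil => exact fun l₂ _ => ⟨by simp, by simp⟩
    | append_singleton l₁ j ih =>
      intro l₂ hl
      have hl' : l = l₁ ++ j :: l₂ := by simpa using hl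
      obtain ⟨h1, h2⟩ := ih (j :: l₂) hl'
      have h3 := h l₁ j l₂ hl' h1
      refine ⟨?_, ?_⟩
      · rw [List.map_append, List.prod_append]
        simp only [List.map_cons, List.map_nil, List.prod_cons, List.prod_nil, mul_one]
        exact h1.mul_right h3
      · intro k hk
        rcases List.mem_append.1 hk with hk | hk
        · exact h2 k hk
        · rw [List.mem_singleton] at hk
          rw [hk]; exact h3
  exact key l [] (by simp)

/-- the final contradiction -/
theorem rank_one_end (c : ι → Mat r ℂ) (b t : ι) (N B₂ P A : Mat r ℂ) (u y : Fin r → ℂ)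
    (hA : A = vecMulVec u y) (hu0 : u ≠ 0) (hy0 : y ≠ 0) (hub : IsUnit (c b)) (hut : IsUnit (c t))
    (hP : IsUnit P) (hNP : Commute N P) (hB₂ : B₂ = N + A * P)
    (E1 : N * c b = c b * (N + P * A)) (E4 : B₂ * c t = c t * N)
    (hall : ∀ j, j ≠ b → j ≠ t → Commute N (c j) ∨ Commute B₂ (c j))
    (hirr : ∀ W : Submodule ℂ (Fin r → ℂ), (∀ j, ∀ w ∈ W, c j *ᵥ w ∈ W) → W = ⊥ ∨ W = ⊤) :
    False := by
  have hne : Nonempty (Fin r) := by
    by_contra h
    rw [not_nonempty_iff] at h
    exact hu0 (funext fun i => (h.false i).elim)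
  have hA0 : A ≠ 0 := by
    intro h0
    obtain ⟨i, hi⟩ := Function.ne_iff.1 hu0
    obtain ⟨j, hj⟩ := Function.ne_iff.1 hy0
    have h1 := congrFun (congrFun (hA.symm.trans h0) i) j
    rw [vecMulVec_apply] at h1
    rcases mul_eq_zero.1 h1 with h | h
    · exact hi h
    · exact hj h
  -- not scalar
  have hns : ∀ a : ℂ, N ≠ a • (1 : Mat r ℂ) := by
    intro a ha
    rw [ha] at E1
    have h1 : c b * (P * A) = 0 := by
      have h2 : a • (1 : Mat r ℂ) * c b = c b * (a • (1 : Mat r ℂ)) := by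
        rw [Matrix.smul_mul, Matrix.mul_smul, Matrix.one_mul, Matrix.mul_one]
      rw [h2, Matrix.mul_add, left_eq_add] at E1
      exact E1
    have h2 : P * A = 0 := hub.mul_left_cancel (by rw [h1, Matrix.mul_zero])
    exact hA0 (hP.mul_left_cancel (by rw [h2, Matrix.mul_zero]))
  obtain ⟨lam, hlam⟩ := Module.End.exists_eigenvalue (Matrix.toLin' N)
  obtain ⟨w₀, hw₀⟩ := hlam.exists_hasEigenvector
  have hw₀1 : N *ᵥ w₀ = lam • w₀ := by
    have := hw₀.apply_eq_smul
    rwa [Matrix.toLin'_apply] at this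
  have hw₀2 : w₀ ≠ 0 := hw₀.2
  let Kr : Mat r ℂ → Submodule ℂ (Fin r → ℂ) := fun M => LinearMap.ker (Matrix.toLin' (M - lam • 1))
  let Rg : Mat r ℂ → Submodule ℂ (Fin r → ℂ) := fun M => LinearMap.range (Matrix.toLin' (M - lam • 1))
  have hKr : ∀ M w, w ∈ Kr M ↔ M *ᵥ w = lam • w := by
    intro M w
    simp only [Kr, LinearMap.mem_ker, Matrix.toLin'_apply, Matrix.sub_mulVec, Matrix.smul_mulVec,
      Matrix.one_mulVec, sub_eq_zero]
  have hRg : ∀ M w, w ∈ Rg M ↔ ∃ v, M *ᵥ v - lam • v = w := by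
    intro M w
    simp only [Rg, LinearMap.mem_range, Matrix.toLin'_apply, Matrix.sub_mulVec, Matrix.smul_mulVec,
      Matrix.one_mulVec]
  obtain ⟨ti, hti1, hti2⟩ : ∃ ti : Mat r ℂ, c t * ti = 1 ∧ ti * c t = 1 := by
    obtain ⟨q, hq⟩ := hut
    exact ⟨(q⁻¹ : (Mat r ℂ)ˣ), by rw [← hq]; simp, by rw [← hq]; simp⟩
  have E4' : N * ti = ti * B₂ := by
    calc N * ti = ti * (c t * N) * ti := by rw [← Matrix.mul_assoc, hti2, Matrix.one_mul]
      _ = ti * B₂ := by rw [← E4, Matrix.mul_assoc, Matrix.mul_assoc, hti1, Matrix.mul_one]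
  have hAv : ∀ v : Fin r → ℂ, A *ᵥ v = (y ⬝ᵥ v) • u := by
    intro v
    rw [hA, Matrix.vecMulVec_mulVec]
    ext i
    simp [mul_comm]
  by_cases hcase : ∀ w ∈ Kr N, y ⬝ᵥ w = 0
  · -- case 1: the kernel is invariant
    have hPK : ∀ w ∈ Kr N, P *ᵥ w ∈ Kr N := by
      intro w hw
      rw [hKr] at hw ⊢
      rw [Matrix.mulVec_mulVec, hNP.eq, ← Matrix.mulVec_mulVec, hw, Matrix.mulVec_smul]
    have hK1 : Kr N ≤ Kr (N + P * A) := by
      intro w hw
      have h1 := hcase w hw
      rw [hKr] at hw ⊢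
      rw [Matrix.add_mulVec, hw, ← Matrix.mulVec_mulVec, hAv, h1, zero_smul, Matrix.mulVec_zero,
        add_zero]
    have hK2 : Kr N ≤ Kr B₂ := by
      intro w hw
      have h1 := hcase _ (hPK w hw)
      rw [hKr] at hw ⊢
      rw [hB₂, Matrix.add_mulVec, hw, ← Matrix.mulVec_mulVec, hAv, h1, zero_smul, add_zero]
    have hK3 : Kr N = Kr B₂ := by
      refine Submodule.eq_of_le_of_finrank_le hK2 ?_
      have hmap : ∀ w ∈ Kr B₂, ti *ᵥ w ∈ Kr N := by
        intro w hw
        rw [hKr] at hw ⊢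
        rw [Matrix.mulVec_mulVec, E4', ← Matrix.mulVec_mulVec, hw, Matrix.mulVec_smul]
      refine LinearMap.finrank_le_finrank_of_injective
        (f := (Matrix.toLin' ti).restrict (p := Kr B₂) (q := Kr N) (fun w hw => by
          rw [Matrix.toLin'_apply]; exact hmap w hw)) ?_
      rintro ⟨w, hw⟩ ⟨w', hw'⟩ h
      have h1 : ti *ᵥ w = ti *ᵥ w' := congrArg Subtype.val h
      have h2 : c t *ᵥ (ti *ᵥ w) = c t *ᵥ (ti *ᵥ w') := by rw [h1]
      rw [Matrix.mulVec_mulVec, Matrix.mulVec_mulVec, hti1, Matrix.one_mulVec,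
        Matrix.one_mulVec] at h2
      exact Subtype.ext h2
    have hinv : ∀ j, ∀ w ∈ Kr N, c j *ᵥ w ∈ Kr N := by
      intro j w hw
      by_cases hjb : j = b
      · subst hjb
        have h1 := hK1 hw
        rw [hKr] at h1 ⊢
        rw [Matrix.mulVec_mulVec, E1, ← Matrix.mulVec_mulVec, h1, Matrix.mulVec_smul]
      by_cases hjt : j = t
      · subst hjt
        rw [hK3, hKr]
        rw [hKr] at hw
        rw [Matrix.mulVec_mulVec, E4, ← Matrix.mulVec_mulVec, hw, Matrix.mulVec_smul]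
      rcases hall j hjb hjt with h | h
      · rw [hKr] at hw ⊢
        rw [Matrix.mulVec_mulVec, h.eq, ← Matrix.mulVec_mulVec, hw, Matrix.mulVec_smul]
      · rw [hK3, hKr] at hw ⊢
        rw [Matrix.mulVec_mulVec, h.eq, ← Matrix.mulVec_mulVec, hw, Matrix.mulVec_smul]
    rcases hirr (Kr N) hinv with h | h
    · have h1 : w₀ ∈ Kr N := (hKr N w₀).2 hw₀1
      rw [h, Submodule.mem_bot] at h1
      exact hw₀2 h1
    · apply hns lam
      refine Matrix.toLin'.injective (LinearMap.ext fun w => ?_)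
      have h1 : w ∈ Kr N := h ▸ Submodule.mem_top
      rw [hKr] at h1
      rw [Matrix.toLin'_apply, Matrix.toLin'_apply, h1, Matrix.smul_mulVec, Matrix.one_mulVec]
  · -- case 2: the range is invariant
    push Not at hcase
    obtain ⟨w₁, hw₁, hw₁y⟩ := hcase
    rw [hKr] at hw₁
    have hPinv : ∃ w₂, P *ᵥ w₂ = w₁ ∧ N *ᵥ w₂ = lam • w₂ := by
      obtain ⟨q, hq⟩ := hP
      have hq1 : P * ((q⁻¹ : (Mat r ℂ)ˣ) : Mat r ℂ) = 1 := by rw [← hq]; simp
      have hq2 : ((q⁻¹ : (Mat r ℂ)ˣ) : Mat r ℂ) * P = 1 := by rw [← hq]; simp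
      refine ⟨((q⁻¹ : (Mat r ℂ)ˣ) : Mat r ℂ) *ᵥ w₁, ?_, ?_⟩
      · rw [Matrix.mulVec_mulVec, hq1, Matrix.one_mulVec]
      · have h1 : N * ((q⁻¹ : (Mat r ℂ)ˣ) : Mat r ℂ) = ((q⁻¹ : (Mat r ℂ)ˣ) : Mat r ℂ) * N := by
          calc N * ((q⁻¹ : (Mat r ℂ)ˣ) : Mat r ℂ)
              = ((q⁻¹ : (Mat r ℂ)ˣ) : Mat r ℂ) * (P * N) * ((q⁻¹ : (Mat r ℂ)ˣ) : Mat r ℂ) := by
                rw [← Matrix.mul_assoc, hq2, Matrix.one_mul]
            _ = _ := by rw [← hNP.eq, Matrix.mul_assoc, Matrix.mul_assoc, hq1, Matrix.mul_one]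
        rw [Matrix.mulVec_mulVec, h1, ← Matrix.mulVec_mulVec, hw₁, Matrix.mulVec_smul]
    obtain ⟨w₂, hw₂P, hw₂⟩ := hPinv
    have hu1 : P *ᵥ u ∈ Rg (N + P * A) := by
      rw [hRg]
      refine ⟨(y ⬝ᵥ w₁)⁻¹ • w₁, ?_⟩
      rw [Matrix.mulVec_smul, Matrix.add_mulVec, hw₁, ← Matrix.mulVec_mulVec, hAv,
        Matrix.mulVec_smul, smul_add, smul_smul (y ⬝ᵥ w₁)⁻¹ (y ⬝ᵥ w₁), inv_mul_cancel₀ hw₁y,
        one_smul, smul_comm lam, add_sub_cancel_left]
    have hu2 : u ∈ Rg B₂ := by
      rw [hRg]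
      refine ⟨(y ⬝ᵥ w₁)⁻¹ • w₂, ?_⟩
      rw [Matrix.mulVec_smul, hB₂, Matrix.add_mulVec, hw₂, ← Matrix.mulVec_mulVec, hw₂P, hAv,
        smul_add, smul_smul (y ⬝ᵥ w₁)⁻¹ (y ⬝ᵥ w₁), inv_mul_cancel₀ hw₁y, one_smul,
        smul_comm lam, add_sub_cancel_left]
    have hI1 : Rg N ≤ Rg (N + P * A) := by
      intro w hw
      obtain ⟨v, hv⟩ := (hRg _ _).1 hw
      have h1 : w = ((N + P * A) *ᵥ v - lam • v) - (y ⬝ᵥ v) • (P *ᵥ u) := by
        rw [Matrix.add_mulVec, ← Matrix.mulVec_mulVec, hAv, Matrix.mulVec_smul, ← hv]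
        abel
      rw [h1]
      exact Submodule.sub_mem _ ((hRg _ _).2 ⟨v, rfl⟩) (Submodule.smul_mem _ _ hu1)
    have hI2 : Rg N ≤ Rg B₂ := by
      intro w hw
      obtain ⟨v, hv⟩ := (hRg _ _).1 hw
      have h1 : w = (B₂ *ᵥ v - lam • v) - (y ⬝ᵥ (P *ᵥ v)) • u := by
        rw [hB₂, Matrix.add_mulVec, ← Matrix.mulVec_mulVec, hAv, ← hv]
        abel
      rw [h1]
      exact Submodule.sub_mem _ ((hRg _ _).2 ⟨v, rfl⟩) (Submodule.smul_mem _ _ hu2)
    have hI3 : Rg N = Rg B₂ := by
      refine Submodule.eq_of_le_of_finrank_le hI2 ?_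
      have h1 : Rg B₂ ≤ (Rg N).map (Matrix.toLin' (c t)) := by
        intro w hw
        obtain ⟨v, hv⟩ := (hRg _ _).1 hw
        refine ⟨N *ᵥ (ti *ᵥ v) - lam • (ti *ᵥ v), (hRg _ _).2 ⟨_, rfl⟩, ?_⟩
        have e1 : c t * N * ti = B₂ := by
          rw [Matrix.mul_assoc, E4', ← Matrix.mul_assoc, hti1, Matrix.one_mul]
        rw [Matrix.toLin'_apply, Matrix.mulVec_sub, Matrix.mulVec_smul, Matrix.mulVec_mulVec,
          Matrix.mulVec_mulVec, Matrix.mulVec_mulVec, e1, hti1, Matrix.one_mulVec, hv]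
      exact (Submodule.finrank_mono h1).trans (Submodule.finrank_map_le _ _)
    have hinv : ∀ j, ∀ w ∈ Rg N, c j *ᵥ w ∈ Rg N := by
      intro j w hw
      by_cases hjb : j = b
      · subst hjb
        obtain ⟨v, hv⟩ := (hRg _ _).1 (hI1 hw)
        refine (hRg _ _).2 ⟨c j *ᵥ v, ?_⟩
        rw [Matrix.mulVec_mulVec, E1, ← Matrix.mulVec_mulVec, ← Matrix.mulVec_smul,
          ← Matrix.mulVec_sub, hv]
      by_cases hjt : j = t
      · subst hjt
        obtain ⟨v, hv⟩ := (hRg _ _).1 hw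
        rw [hI3]
        refine (hRg _ _).2 ⟨c j *ᵥ v, ?_⟩
        rw [Matrix.mulVec_mulVec, E4, ← Matrix.mulVec_mulVec, ← Matrix.mulVec_smul,
          ← Matrix.mulVec_sub, hv]
      rcases hall j hjb hjt with h | h
      · obtain ⟨v, hv⟩ := (hRg _ _).1 hw
        refine (hRg _ _).2 ⟨c j *ᵥ v, ?_⟩
        rw [Matrix.mulVec_mulVec, h.eq, ← Matrix.mulVec_mulVec, ← Matrix.mulVec_smul,
          ← Matrix.mulVec_sub, hv]
      · rw [hI3] at hw ⊢
        obtain ⟨v, hv⟩ := (hRg _ _).1 hw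
        refine (hRg _ _).2 ⟨c j *ᵥ v, ?_⟩
        rw [Matrix.mulVec_mulVec, h.eq, ← Matrix.mulVec_mulVec, ← Matrix.mulVec_smul,
          ← Matrix.mulVec_sub, hv]
    rcases hirr (Rg N) hinv with h | h
    · apply hns lam
      refine Matrix.toLin'.injective (LinearMap.ext fun w => ?_)
      have h1 : N *ᵥ w - lam • w ∈ Rg N := (hRg _ _).2 ⟨w, rfl⟩
      rw [h, Submodule.mem_bot, sub_eq_zero] at h1
      rw [Matrix.toLin'_apply, Matrix.toLin'_apply, h1, Matrix.smul_mulVec, Matrix.one_mulVec]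
    · have h1 : Function.Surjective (Matrix.toLin' (N - lam • 1)) := LinearMap.range_eq_top.1 h
      have h2 := LinearMap.injective_iff_surjective.2 h1
      apply hw₀2
      apply h2
      rw [map_zero, Matrix.toLin'_apply, Matrix.sub_mulVec, Matrix.smul_mulVec, Matrix.one_mulVec,
        hw₀1, sub_self]


theorem tr_comm (N X Y a H : Mat r ℂ) :
    trace (N * (X * (H * a - a * H) * Y)) = trace ((a * (Y * N * X) - (Y * N * X) * a) * H) := by
  have e1 : trace (N * (X * (H * a) * Y)) = trace (a * (Y * N * X) * H) := by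
    rw [show N * (X * (H * a) * Y) = (N * X * H) * (a * Y) by noncomm_ring,
      Matrix.trace_mul_comm]
    congr 1
    noncomm_ring
  have e2 : trace (N * (X * (a * H) * Y)) = trace ((Y * N * X) * a * H) := by
    rw [show N * (X * (a * H) * Y) = (N * X * a * H) * Y by noncomm_ring,
      Matrix.trace_mul_comm]
    congr 1
    noncomm_ring
  rw [Matrix.mul_sub, Matrix.sub_mul, Matrix.mul_sub, trace_sub, e1, e2, Matrix.sub_mul, trace_sub]

/-- a linear functional vanishing on the kernel of `D` factors through `D` -/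
theorem exists_factor {E : Type*} [AddCommGroup E] [Module ℂ E] (D : E →ₗ[ℂ] Mat r ℂ)
    (F : E →ₗ[ℂ] ℂ) (h : ∀ x, D x = 0 → F x = 0) :
    ∃ N : Mat r ℂ, ∀ x, F x = trace (N * D x) := by
  have h1 : F ∈ LinearMap.range D.dualMap := by
    rw [LinearMap.range_dualMap_eq_dualAnnihilator_ker, Submodule.mem_dualAnnihilator]
    intro x hx
    exact h x hx
  obtain ⟨φ, hφ⟩ := h1
  obtain ⟨N, hN⟩ := Vale.Agent.P002.exists_trace_repr φ
  refine ⟨N, fun x => ?_⟩
  rw [← hφ, ← hN]
  rfl

/-- cyclic permutations of a product equal to one -/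
theorem cyc_one {X a Y : Mat r ℂ} (h : X * a * Y = 1) : a * (Y * X) = 1 ∧ (Y * X) * a = 1 := by
  have h1 : X * (a * Y) = 1 := by rw [← Matrix.mul_assoc]; exact h
  have h2 : (a * Y) * X = 1 := mul_eq_one_comm.1 h1
  have h3 : a * (Y * X) = 1 := by rw [← Matrix.mul_assoc]; exact h2
  exact ⟨h3, mul_eq_one_comm.1 h3⟩

theorem comm_of_inv {a V B : Mat r ℂ} (h1 : a * V = 1)
    (h : a * (V * B) - (V * B) * a = 0) : Commute B a := by
  have h3 : B = V * B * a := by
    rw [← Matrix.mul_assoc, h1, Matrix.one_mul, sub_eq_zero] at h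
    exact h
  show B * a = a * B
  calc B * a = (a * V) * B * a := by rw [h1, Matrix.one_mul]
    _ = a * (V * B * a) := by noncomm_ring
    _ = a * B := by rw [← h3]

section main

variable [DecidableEq ι]

/-- The rank one lemma. -/
theorem rank_one (c : ι → Mat r ℂ) (hc : ∀ j, IsUnit (c j)) (b t : ι) (l₁ l₂ l₃ : List ι)
    (hnd : (b :: (l₁ ++ (l₂ ++ t :: l₃))).Nodup)
    (hrel : ((b :: (l₁ ++ (l₂ ++ t :: l₃))).map c).prod = 1)
    (hmem : ∀ j, j ∈ b :: (l₁ ++ (l₂ ++ t :: l₃)))
    (hirr : ∀ W : Submodule ℂ (Fin r → ℂ), (∀ j, ∀ w ∈ W, c j *ᵥ w ∈ W) → W = ⊥ ∨ W = ⊤)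
    (u y : Fin r → ℂ) (hu0 : u ≠ 0) (hy0 : y ≠ 0) :
    ∃ x : ι → Mat r ℂ, DL c x (b :: (l₁ ++ (l₂ ++ t :: l₃))) = 0 ∧
      y ⬝ᵥ ((DL c x l₁ + (l₁.map c).prod * x t - x b * (l₁.map c).prod) *ᵥ u) ≠ 0 := by
  by_contra hcon
  push Not at hcon
  obtain ⟨P, hPdef⟩ : ∃ P, P = (l₁.map c).prod := ⟨_, rfl⟩
  obtain ⟨P₂, hP₂def⟩ : ∃ P₂, P₂ = (l₂.map c).prod := ⟨_, rfl⟩
  obtain ⟨P₃, hP₃def⟩ : ∃ P₃, P₃ = (l₃.map c).prod := ⟨_, rfl⟩
  obtain ⟨A, hA⟩ : ∃ A, A = vecMulVec u y := ⟨_, rfl⟩
  have hprodunit : ∀ l : List ι, IsUnit (l.map c).prod := by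
    intro l
    induction l with
    | nil => simp
    | cons j l ih => rw [List.map_cons, List.prod_cons]; exact (hc j).mul ih
  rw [← hPdef] at hcon
  -- the functional
  obtain ⟨F, hF⟩ : ∃ F : (ι → Mat r ℂ) →ₗ[ℂ] ℂ, ∀ x, F x =
      trace (A * (DL c x l₁ + P * x t - x b * P)) := by
    refine ⟨LinearMap.mk (AddHom.mk (fun x => trace (A * (DL c x l₁ + P * x t - x b * P)))
      ?_) ?_, fun x => rfl⟩
    · intro x x'
      rw [DL_add, ← trace_add, Pi.add_apply, Pi.add_apply]
      congr 1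
      noncomm_ring
    · intro a x
      show trace (A * (DL c (a • x) l₁ + P * (a • x) t - (a • x) b * P)) =
        a • trace (A * (DL c x l₁ + P * x t - x b * P))
      rw [DL_smul, Pi.smul_apply, Pi.smul_apply, ← trace_smul]
      congr 1
      simp only [Matrix.smul_mul, Matrix.mul_smul, smul_sub, smul_add, Matrix.mul_sub,
        Matrix.mul_add]
  obtain ⟨N, hN⟩ := exists_factor (DLlin c (b :: (l₁ ++ (l₂ ++ t :: l₃)))) F (by
    intro x hx
    rw [hF, hA, trace_vecMulVec_mul]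
    exact hcon x hx)
  have hN' : ∀ x, trace (A * (DL c x l₁ + P * x t - x b * P)) =
      trace (N * DL c x (b :: (l₁ ++ (l₂ ++ t :: l₃)))) := fun x => by rw [← hF, hN]; rfl
  -- variation of one generator
  have hvar : ∀ (j : ι) (l' l'' : List ι), b :: (l₁ ++ (l₂ ++ t :: l₃)) = l' ++ j :: l'' →
      ∀ H : Mat r ℂ, trace (A * (DL c (Function.update 0 j H) l₁ +
        P * (Function.update (0 : ι → Mat r ℂ) j H) t -
        (Function.update (0 : ι → Mat r ℂ) j H) b * P)) =
      trace ((c j * ((l''.map c).prod * N * (l'.map c).prod) -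
        ((l''.map c).prod * N * (l'.map c).prod) * c j) * H) := by
    intro j l' l'' hl H
    rw [hN', hl, ← tr_comm]
    have hnd' : (l' ++ j :: l'').Nodup := hl ▸ hnd
    rw [List.nodup_append, List.nodup_cons] at hnd'
    rw [DL_split c _ l' l'' j (fun k hk => ?_) (fun k hk => ?_), Function.update_self]
    · rw [Function.update_of_ne, Pi.zero_apply]
      exact hnd'.2.2 k hk j List.mem_cons_self
    · rw [Function.update_of_ne, Pi.zero_apply]
      rintro rfl
      exact hnd'.2.1.1 hk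
  have hvar0 : ∀ (j : ι) (l : List ι), j ∉ l → ∀ H : Mat r ℂ,
      DL c (Function.update 0 j H) l = 0 := by
    intro j l hj H
    refine DL_zero_of c _ l fun k hk => ?_
    rw [Function.update_of_ne, Pi.zero_apply]
    rintro rfl
    exact hj hk
  have hnd2 := hnd
  rw [List.nodup_cons, List.nodup_append, List.nodup_append, List.nodup_cons] at hnd2
  obtain ⟨hb, hn1, ⟨hn2, ⟨ht3, hn3⟩, hn23⟩, hn123⟩ := hnd2
  have hb1 : b ∉ l₁ := fun h => hb (List.mem_append_left _ h)
  have hbt : b ≠ t := fun h => hb (List.mem_append_right _ (List.mem_append_right _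
    (h ▸ List.mem_cons_self)))
  have ht1 : t ∉ l₁ := fun h => hn123 t h t (List.mem_append_right _ List.mem_cons_self) rfl
  -- the first equation
  have hrel' : c b * (P * (P₂ * (c t * P₃))) = 1 := by
    rw [← hrel, hPdef, hP₂def, hP₃def]
    simp only [List.map_cons, List.map_append, List.prod_cons, List.prod_append]
  have E1 : N * c b = c b * (N + P * A) := by
    have h1 : ∀ H, trace (-(P * A) * H) = trace ((c b * ((P * (P₂ * (c t * P₃))) * N) -
        ((P * (P₂ * (c t * P₃))) * N) * c b) * H) := by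
      intro H
      have h2 := hvar b [] (l₁ ++ (l₂ ++ t :: l₃)) rfl H
      rw [hvar0 b l₁ hb1, Function.update_of_ne (Ne.symm hbt), Pi.zero_apply,
        Function.update_self] at h2
      simp only [List.map_nil, List.prod_nil, Matrix.mul_one, List.map_append, List.map_cons,
        List.prod_append, List.prod_cons, Matrix.mul_zero, zero_add, zero_sub, ← hPdef,
        ← hP₂def, ← hP₃def] at h2
      rw [← h2, Matrix.neg_mul, trace_neg, Matrix.mul_neg, trace_neg,
        show A * (H * P) = (A * H) * P by noncomm_ring, Matrix.trace_mul_comm (A * H) P,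
        Matrix.mul_assoc]
    have h2 := Vale.Agent.P002.eq_of_trace_eq h1
    rw [← Matrix.mul_assoc (c b) _ N, hrel', Matrix.one_mul] at h2
    have h3 : c b * (N - (P * (P₂ * (c t * P₃))) * N * c b) = c b * (-(P * A)) := by rw [h2]
    rw [Matrix.mul_sub, show c b * ((P * (P₂ * (c t * P₃))) * N * c b) =
      (c b * (P * (P₂ * (c t * P₃)))) * (N * c b) by noncomm_ring, hrel', Matrix.one_mul] at h3
    rw [Matrix.mul_add]
    have h4 : c b * N - c b * (-(P * A)) = N * c b := by rw [← h3]; abel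
    rw [← h4]
    noncomm_ring
  -- the commutation in the first part
  have hc1 := pre_ind c N l₁ (by
    intro l' j l'' hl hcom
    have hjl : j ∈ l₁ := by rw [hl]; simp
    have hjb : b ≠ j := fun h => hb1 (h ▸ hjl)
    have hjt : t ≠ j := fun h => ht1 (h ▸ hjl)
    obtain ⟨X, hX⟩ : ∃ X, X = (l'.map c).prod := ⟨_, rfl⟩
    obtain ⟨Z, hZ⟩ : ∃ Z, Z = (l''.map c).prod := ⟨_, rfl⟩
    have hPX : P = X * (c j * Z) := by
      rw [hPdef, hl, hX, hZ]
      simp only [List.map_append, List.map_cons, List.prod_append, List.prod_cons]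
    rw [← hX] at hcom
    have h1 : ∀ H, trace ((c j * (Z * A * X) - (Z * A * X) * c j) * H) =
        trace ((c j * ((Z * (P₂ * (c t * P₃))) * N * (c b * X)) -
          ((Z * (P₂ * (c t * P₃))) * N * (c b * X)) * c j) * H) := by
      intro H
      have h2 := hvar j (b :: l') (l'' ++ (l₂ ++ t :: l₃)) (by rw [hl]; simp) H
      rw [Function.update_of_ne hjb, Function.update_of_ne hjt, Pi.zero_apply, Pi.zero_apply,
        Matrix.mul_zero, Matrix.zero_mul, add_zero, sub_zero] at h2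
      simp only [List.map_append, List.map_cons, List.prod_append, List.prod_cons,
        ← hP₂def, ← hP₃def, ← hX, ← hZ] at h2
      rw [← h2, ← tr_comm, hl]
      have hn1' : (l' ++ j :: l'').Nodup := hl ▸ hn1
      rw [List.nodup_append, List.nodup_cons] at hn1'
      rw [DL_split c _ l' l'' j (fun k hk => ?_) (fun k hk => ?_), Function.update_self, hX, hZ]
      · rw [Function.update_of_ne, Pi.zero_apply]
        exact hn1'.2.2 k hk j List.mem_cons_self
      · rw [Function.update_of_ne, Pi.zero_apply]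
        rintro rfl
        exact hn1'.2.1.1 hk
    have h2 := Vale.Agent.P002.eq_of_trace_eq h1
    obtain ⟨Q, hQ⟩ : ∃ Q, Q = Z * (P₂ * (c t * P₃)) := ⟨_, rfl⟩
    rw [← hQ] at h2
    have hcyc := cyc_one (X := c b * X) (a := c j) (Y := Q) (by
      rw [← hrel', hPX, hQ]; noncomm_ring)
    have h3 : Q * N * (c b * X) = (Q * (c b * X)) * N + Z * A * X := by
      calc Q * N * (c b * X) = Q * (N * c b) * X := by noncomm_ring
        _ = Q * c b * (N * X) + (Q * (c b * X) * c j) * (Z * A * X) := by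
          rw [E1, hPX]; noncomm_ring
        _ = _ := by rw [hcyc.2, hcom.eq, Matrix.one_mul]; noncomm_ring
    refine comm_of_inv hcyc.1 ?_
    rw [h3] at h2
    have h4 : c j * (Q * (c b * X) * N + Z * A * X) - (Q * (c b * X) * N + Z * A * X) * c j -
        (c j * (Z * A * X) - Z * A * X * c j) = 0 := by rw [← h2, sub_self]
    rw [← h4]
    noncomm_ring)
  obtain ⟨hNP, hNl₁⟩ := hc1
  rw [← hPdef] at hNP
  obtain ⟨B₂, hB₂⟩ : ∃ B₂, B₂ = N + A * P := ⟨_, rfl⟩
  have E2 : N * (c b * P) = c b * P * B₂ := by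
    calc N * (c b * P) = (N * c b) * P := by rw [Matrix.mul_assoc]
      _ = c b * (N * P + P * (A * P)) := by rw [E1]; noncomm_ring
      _ = c b * P * B₂ := by rw [hNP.eq, hB₂]; noncomm_ring
  -- the second part
  have hc2 := pre_ind c B₂ l₂ (by
    intro l' j l'' hl hcom
    have hjl : j ∈ l₂ := by rw [hl]; simp
    have hjb : b ≠ j := fun h => hb (List.mem_append_right _ (List.mem_append_left _ (h ▸ hjl)))
    have hjt : t ≠ j := fun h => hn23 j hjl t List.mem_cons_self h.symm
    have hj1 : j ∉ l₁ := fun h => hn123 j h j (List.mem_append_left _ hjl) rfl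
    obtain ⟨X, hX⟩ : ∃ X, X = (l'.map c).prod := ⟨_, rfl⟩
    obtain ⟨Z, hZ⟩ : ∃ Z, Z = (l''.map c).prod := ⟨_, rfl⟩
    have hPX : P₂ = X * (c j * Z) := by
      rw [hP₂def, hl, hX, hZ]
      simp only [List.map_append, List.map_cons, List.prod_append, List.prod_cons]
    rw [← hX] at hcom
    obtain ⟨Q, hQ⟩ : ∃ Q, Q = Z * (c t * P₃) := ⟨_, rfl⟩
    have h1 : ∀ H, trace ((0 : Mat r ℂ) * H) =
        trace ((c j * (Q * N * (c b * (P * X))) - (Q * N * (c b * (P * X))) * c j) * H) := by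
      intro H
      have h2 := hvar j (b :: (l₁ ++ l')) (l'' ++ t :: l₃) (by rw [hl]; simp) H
      rw [Function.update_of_ne hjb, Function.update_of_ne hjt, Pi.zero_apply, Pi.zero_apply,
        Matrix.mul_zero, Matrix.zero_mul, add_zero, sub_zero, hvar0 j l₁ hj1,
        Matrix.mul_zero] at h2
      simp only [List.map_append, List.map_cons, List.prod_append, List.prod_cons,
        ← hPdef, ← hP₃def, ← hX, ← hZ, ← hQ] at h2
      rw [← h2, Matrix.zero_mul]
    have h2 := Vale.Agent.P002.eq_of_trace_eq h1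
    have hcyc := cyc_one (X := c b * (P * X)) (a := c j) (Y := Q) (by
      rw [← hrel', hPX, hQ]; noncomm_ring)
    have h3 : Q * N * (c b * (P * X)) = (Q * (c b * (P * X))) * B₂ := by
      calc Q * N * (c b * (P * X)) = Q * (N * (c b * P)) * X := by noncomm_ring
        _ = Q * c b * P * (B₂ * X) := by rw [E2]; noncomm_ring
        _ = _ := by rw [hcom.eq]; noncomm_ring
    refine comm_of_inv hcyc.1 ?_
    rw [← h3, ← h2])
  obtain ⟨hBP₂, hBl₂⟩ := hc2
  rw [← hP₂def] at hBP₂
  -- the equation at `t`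
  have E3 : N * (c b * (P * P₂)) = c b * (P * P₂) * B₂ := by
    calc N * (c b * (P * P₂)) = (N * (c b * P)) * P₂ := by noncomm_ring
      _ = c b * P * (B₂ * P₂) := by rw [E2]; noncomm_ring
      _ = _ := by rw [hBP₂.eq]; noncomm_ring
  have hcyct := cyc_one (X := c b * (P * P₂)) (a := c t) (Y := P₃) (by
      rw [← hrel']; noncomm_ring)
  have E4 : B₂ * c t = c t * N := by
    have h1 : ∀ H, trace ((A * P) * H) =
        trace ((c t * (P₃ * N * (c b * (P * P₂))) - (P₃ * N * (c b * (P * P₂))) * c t) * H) := by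
      intro H
      have h2 := hvar t (b :: (l₁ ++ l₂)) l₃ (by simp) H
      rw [Function.update_self, Function.update_of_ne hbt, Pi.zero_apply,
        Matrix.zero_mul, sub_zero, hvar0 t l₁ ht1, zero_add] at h2
      simp only [List.map_append, List.map_cons, List.prod_append, List.prod_cons,
        ← hPdef, ← hP₃def, ← hP₂def] at h2
      rw [← h2, Matrix.mul_assoc]
    have h2 := Vale.Agent.P002.eq_of_trace_eq h1
    have h3 : P₃ * N * (c b * (P * P₂)) = P₃ * (c b * (P * P₂)) * B₂ := by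
      rw [Matrix.mul_assoc, E3]
      simp only [Matrix.mul_assoc]
    rw [h3] at h2
    -- `A P = B₂ - V B₂ c_t`
    have h4 : c t * (P₃ * (c b * (P * P₂)) * B₂) = B₂ := by
      rw [← Matrix.mul_assoc, hcyct.1, Matrix.one_mul]
    rw [h4] at h2
    have h5 : N = P₃ * (c b * (P * P₂)) * B₂ * c t := by
      have : N = B₂ - A * P := by rw [hB₂]; abel
      rw [this, h2]; abel
    rw [h5, show c t * (P₃ * (c b * (P * P₂)) * B₂ * c t) =
      (c t * (P₃ * (c b * (P * P₂)))) * (B₂ * c t) by noncomm_ring, hcyct.1, Matrix.one_mul]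
  have E5 : N * (c b * (P * (P₂ * c t))) = c b * (P * (P₂ * c t)) * N := by
    calc N * (c b * (P * (P₂ * c t))) = (N * (c b * (P * P₂))) * c t := by noncomm_ring
      _ = c b * (P * P₂) * (B₂ * c t) := by rw [E3]; noncomm_ring
      _ = _ := by rw [E4]; noncomm_ring
  -- the third part
  have hc3 := pre_ind c N l₃ (by
    intro l' j l'' hl hcom
    have hjl : j ∈ l₃ := by rw [hl]; simp
    have hjb : b ≠ j := fun h => hb (List.mem_append_right _ (List.mem_append_right _
      (List.mem_cons_of_mem _ (h ▸ hjl))))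
    have hjt : t ≠ j := fun h => ht3 (h ▸ hjl)
    have hj1 : j ∉ l₁ := fun h => hn123 j h j (List.mem_append_right _
      (List.mem_cons_of_mem _ hjl)) rfl
    obtain ⟨X, hX⟩ : ∃ X, X = (l'.map c).prod := ⟨_, rfl⟩
    obtain ⟨Z, hZ⟩ : ∃ Z, Z = (l''.map c).prod := ⟨_, rfl⟩
    have hPX : P₃ = X * (c j * Z) := by
      rw [hP₃def, hl, hX, hZ]
      simp only [List.map_append, List.map_cons, List.prod_append, List.prod_cons]
    rw [← hX] at hcom
    have h1 : ∀ H, trace ((0 : Mat r ℂ) * H) =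
        trace ((c j * (Z * N * (c b * (P * (P₂ * (c t * X))))) -
          (Z * N * (c b * (P * (P₂ * (c t * X))))) * c j) * H) := by
      intro H
      have h2 := hvar j (b :: (l₁ ++ (l₂ ++ t :: l'))) l'' (by rw [hl]; simp) H
      rw [Function.update_of_ne hjb, Function.update_of_ne hjt, Pi.zero_apply, Pi.zero_apply,
        Matrix.mul_zero, Matrix.zero_mul, add_zero, sub_zero, hvar0 j l₁ hj1,
        Matrix.mul_zero] at h2
      simp only [List.map_append, List.map_cons, List.prod_append, List.prod_cons,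
        ← hPdef, ← hP₂def, ← hX, ← hZ] at h2
      rw [← h2, Matrix.zero_mul]
    have h2 := Vale.Agent.P002.eq_of_trace_eq h1
    have hcyc := cyc_one (X := c b * (P * (P₂ * (c t * X)))) (a := c j) (Y := Z) (by
      rw [← hrel', hPX]; noncomm_ring)
    have h3 : Z * N * (c b * (P * (P₂ * (c t * X)))) =
        (Z * (c b * (P * (P₂ * (c t * X))))) * N := by
      calc Z * N * (c b * (P * (P₂ * (c t * X))))
          = Z * (N * (c b * (P * (P₂ * c t)))) * X := by noncomm_ring
        _ = Z * (c b * (P * (P₂ * c t))) * (N * X) := by rw [E5]; noncomm_ring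
        _ = _ := by rw [hcom.eq]; noncomm_ring
    refine comm_of_inv hcyc.1 ?_
    rw [← h3, ← h2])
  refine rank_one_end c b t N B₂ P A u y hA hu0 hy0 (hc b) (hc t) (hPdef ▸ hprodunit l₁) hNP hB₂ E1
    E4 ?_ hirr
  intro j hjb hjt
  have hj := hmem j
  rw [List.mem_cons, List.mem_append, List.mem_append, List.mem_cons] at hj
  rcases hj with h | h | h | h | h
  · exact absurd h hjb
  · exact Or.inl (hNl₁ j h)
  · exact Or.inr (hBl₂ j h)
  · exact absurd h hjt
  · exact Or.inl (hc3.2 j h)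

end main

end Vale.Agent.P002R
end

section

/-!
# P002R TASK M: from scaled representations to representations into `SL_r` (relative version)
-/

namespace Vale.Agent.P002R

open Matrix

variable {g n r : ℕ}

/-- Multidegree of an exponent with respect to the matrices. -/
noncomputable def mdegU (m : (GenU g n × Fin r × Fin r) →₀ ℕ) : GenU g n →₀ ℕ :=
  Finsupp.mapDomain Prod.fst m

theorem evalGU_monomial_twist (x x' : FU g n →* (Mat r ℂ)ˣ) (t : Fin g × Bool → ℂ)
    (h : ∀ k, (x' (FreeGroup.of (Sum.inl k)) : Mat r ℂ) =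
      t k • (x (FreeGroup.of (Sum.inl k)) : Mat r ℂ))
    (h' : ∀ j, (x' (FreeGroup.of (Sum.inr j)) : Mat r ℂ) =
      (x (FreeGroup.of (Sum.inr j)) : Mat r ℂ))
    (m : (GenU g n × Fin r × Fin r) →₀ ℕ) (c : ℂ) :
    evalG x' (MvPolynomial.monomial m c) =
      (∏ k, t k ^ mdegU m (Sum.inl k)) * evalG x (MvPolynomial.monomial m c) := by
  obtain ⟨t', ht', ht''⟩ : ∃ t' : GenU g n → ℂ, (∀ k, t' (Sum.inl k) = t k) ∧
      ∀ j, t' (Sum.inr j) = 1 := ⟨Sum.elim t fun _ => 1, fun _ => rfl, fun _ => rfl⟩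
  have hh : ∀ k, (x' (FreeGroup.of k) : Mat r ℂ) = t' k • (x (FreeGroup.of k) : Mat r ℂ) := by
    rintro (k | j)
    · rw [h, ht']
    · rw [h', ht'', one_smul]
  unfold evalG
  rw [MvPolynomial.aeval_monomial, MvPolynomial.aeval_monomial]
  have h1 : (m.prod fun p n => ((x' (FreeGroup.of p.1) : Mat r ℂ) p.2.1 p.2.2) ^ n) =
      (m.prod fun p n => t' p.1 ^ n) *
        m.prod fun p n => ((x (FreeGroup.of p.1) : Mat r ℂ) p.2.1 p.2.2) ^ n := by
    rw [← Finsupp.prod_mul]
    refine Finsupp.prod_congr fun p _ => ?_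
    rw [hh, Matrix.smul_apply, smul_eq_mul, mul_pow]
  have h2 : (m.prod fun p n => t' p.1 ^ n) = ∏ k, t k ^ mdegU m (Sum.inl k) := by
    have h3 : ∏ k, t k ^ mdegU m (Sum.inl k) = ∏ k, t' k ^ mdegU m k := by
      rw [Fintype.prod_sum_type]
      simp only [ht', ht'', one_pow, Finset.prod_const_one, mul_one]
    rw [h3, mdegU, ← Finsupp.prod_fintype (Finsupp.mapDomain Prod.fst m) (fun k n => t' k ^ n)
      (fun k => pow_zero _), Finsupp.prod_mapDomain_index (fun k => pow_zero _)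
        (fun k a b => pow_add _ _ _)]
  rw [h1, h2]
  ring

theorem evalGU_eq_sum (x : FU g n →* (Mat r ℂ)ˣ)
    (f : MvPolynomial (GenU g n × Fin r × Fin r) ℂ) :
    evalG x f = ∑ m ∈ f.support, evalG x (MvPolynomial.monomial m (MvPolynomial.coeff m f)) := by
  conv_lhs => rw [MvPolynomial.as_sum f]
  rw [map_sum]

/-- Semisimplicity is unchanged under twisting. -/
theorem SS.twistM {G : Type*} [Group G] {x x' : G →* (Mat r ℂ)ˣ} (c : G → ℂ)
    (hc : ∀ w, c w ≠ 0)
    (h : ∀ w, (x' w : Mat r ℂ) = c w • (x w : Mat r ℂ)) (hx : SS x) : SS x' := by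
  have key : ∀ W : Submodule ℂ (Fin r → ℂ), (∀ w, ∀ v ∈ W, (x' w : Mat r ℂ) *ᵥ v ∈ W) ↔
      (∀ w, ∀ v ∈ W, (x w : Mat r ℂ) *ᵥ v ∈ W) := by
    intro W
    refine forall_congr' fun w => forall_congr' fun v => forall_congr' fun hv => ?_
    rw [h, Matrix.smul_mulVec, Submodule.smul_mem_iff _ (hc w)]
  intro W hW
  obtain ⟨W', h1, h2⟩ := hx W ((key W).1 hW)
  exact ⟨W', (key W').2 h1, h2⟩

/-- The determinant of the generic matrix of a generator. -/
noncomputable def detXU (k : GenU g n) : MvPolynomial (GenU g n × Fin r × Fin r) ℂ :=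
  det (Matrix.of fun i j => (MvPolynomial.X (k, i, j) :
    MvPolynomial (GenU g n × Fin r × Fin r) ℂ))

theorem evalGU_detX (x : FU g n →* (Mat r ℂ)ˣ) (k : GenU g n) :
    evalG x (detXU k) = (x (FreeGroup.of k) : Mat r ℂ).det := by
  unfold detXU
  rw [AlgHom.map_det]
  congr 1
  ext i j
  simp [evalG]

theorem coe_scalarU_mulM (c : ℂˣ) (u : (Mat r ℂ)ˣ) :
    ((scalarU c * u : (Mat r ℂ)ˣ) : Mat r ℂ) = (c : ℂ) • (u : Mat r ℂ) := by
  rw [Units.val_mul]
  show algebraMap ℂ (Mat r ℂ) (c : ℂ) * (u : Mat r ℂ) = _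
  rw [Algebra.algebraMap_eq_smul_one, Matrix.smul_mul, Matrix.one_mul]

theorem coe_slUM {R : Type*} [CommRing R] (φ : R →+* ℂ) (y : SpecialLinearGroup (Fin r) R) :
    ((slU φ y : (Mat r ℂ)ˣ) : Mat r ℂ) = (y : Mat r R).map φ := rfl

theorem det_slUM {R : Type*} [CommRing R] (φ : R →+* ℂ) (y : SpecialLinearGroup (Fin r) R) :
    ((slU φ y : (Mat r ℂ)ˣ) : Mat r ℂ).det = 1 := by
  rw [coe_slUM]
  have := (φ.map_det (y : Mat r R))
  rw [Matrix.SpecialLinearGroup.det_coe, map_one] at this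
  exact this.symm

/-- A character of the free group which is trivial on the boundary loops is trivial on the
relator. -/
theorem char_relatorU_scale {M : Type*} [CommGroup M] (χ : FU g n →* M)
    (hχ : ∀ j, χ (FreeGroup.of (Sum.inr j)) = 1) : χ (relatorU g n) = 1 := by
  rw [relatorU, map_mul, map_list_prod, map_list_prod]
  have h1 : (List.map χ (List.ofFn fun j : Fin n => (FreeGroup.of (Sum.inr j) : FU g n))).prod
      = 1 := by
    refine List.prod_eq_one fun c hc => ?_
    rw [List.mem_map] at hc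
    obtain ⟨w, hw, rfl⟩ := hc
    rw [List.mem_ofFn] at hw
    obtain ⟨j, rfl⟩ := hw
    exact hχ j
  rw [h1, one_mul]
  refine List.prod_eq_one fun c hc => ?_
  rw [List.mem_map] at hc
  obtain ⟨w, hw, rfl⟩ := hc
  rw [List.mem_ofFn] at hw
  obtain ⟨i, rfl⟩ := hw
  rw [map_mul, map_mul, map_mul, map_inv, map_inv, mul_inv_cancel_comm, mul_inv_cancel]

/-- Twisting an integral representation by powers of a root of unity. -/
theorem exists_twistU {R : Type*} [CommRing R] (ζ : R) (hζ : ζ ^ r = 1) (hr : 0 < r)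
    (y : FU g n →* SpecialLinearGroup (Fin r) R) (e : Fin g × Bool → ℕ) :
    ∃ (y' : FU g n →* SpecialLinearGroup (Fin r) R) (χ : FU g n →* Rˣ),
      (∀ w, (y' w : Mat r R) = (χ w : R) • (y w : Mat r R)) ∧
        (∀ k, (χ (FreeGroup.of (Sum.inl k)) : R) = ζ ^ e k) ∧
          ∀ j, χ (FreeGroup.of (Sum.inr j)) = 1 := by
  obtain ⟨ζu, hζu⟩ : ∃ ζu : Rˣ, (ζu : R) = ζ := by
    refine ⟨⟨ζ, ζ ^ (r - 1), ?_, ?_⟩, rfl⟩
    · rw [← pow_succ', Nat.sub_add_cancel hr, hζ]
    · rw [← pow_succ, Nat.sub_add_cancel hr, hζ]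
  obtain ⟨χ, hχ, hχ'⟩ : ∃ χ : FU g n →* Rˣ, (∀ k, χ (FreeGroup.of (Sum.inl k)) = ζu ^ e k) ∧
      ∀ j, χ (FreeGroup.of (Sum.inr j)) = 1 :=
    ⟨FreeGroup.lift (Sum.elim (fun k => ζu ^ e k) fun _ => 1), fun k => FreeGroup.lift_apply_of,
      fun k => FreeGroup.lift_apply_of⟩
  have hχr : ∀ w, (χ w) ^ r = 1 := by
    intro w
    have : (powMonoidHom r).comp χ = 1 := by
      refine FreeGroup.ext_hom _ _ fun k => ?_
      rcases k with k | j
      · rw [MonoidHom.comp_apply, hχ, powMonoidHom_apply, MonoidHom.one_apply, ← pow_mul,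
          mul_comm, pow_mul]
        have : ζu ^ r = 1 := by
          apply Units.ext
          rw [Units.val_pow_eq_pow_val, hζu, hζ, Units.val_one]
        rw [this, one_pow]
      · rw [MonoidHom.comp_apply, hχ', powMonoidHom_apply, MonoidHom.one_apply, one_pow]
    exact DFunLike.congr_fun this w
  have hdet : ∀ w, ((χ w : R) • (y w : Mat r R)).det = 1 := by
    intro w
    rw [det_smul, Fintype.card_fin, Matrix.SpecialLinearGroup.det_coe, mul_one,
      ← Units.val_pow_eq_pow_val, hχr, Units.val_one]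
  refine ⟨⟨⟨fun w => ⟨(χ w : R) • (y w : Mat r R), hdet w⟩, ?_⟩, ?_⟩, χ, fun w => rfl,
    fun k => ?_, hχ'⟩
  · apply Subtype.ext
    show (χ 1 : R) • (y 1 : Mat r R) = 1
    rw [map_one, map_one, Units.val_one, one_smul]
    rfl
  · intro w w'
    apply Subtype.ext
    show (χ (w * w') : R) • (y (w * w') : Mat r R) =
      ((χ w : R) • (y w : Mat r R)) * ((χ w' : R) • (y w' : Mat r R))
    rw [map_mul, map_mul, Units.val_mul, Matrix.SpecialLinearGroup.coe_mul, Matrix.smul_mul,
      Matrix.mul_smul, smul_smul]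
  · rw [hχ, Units.val_pow_eq_pow_val, hζu]

/-- A semisimple representation integral up to scalars, with boundary classes of determinant one,
is a twist of a representation into `SL_r(R)`. -/
theorem exists_descentM {R : Type*} [CommRing R] (φ : R →+* ℂ) (ζ : R) (hζ : ζ ^ r = 1)
    (hζ' : IsPrimitiveRoot (φ ζ) r) (hr : 0 < r) (C : Fin n → (Mat r ℂ)ˣ)
    (hC : ∀ j, (C j : Mat r ℂ).det = 1) (y' : FU g n →* (Mat r ℂ)ˣ) (hy' : y' ∈ DU g φ C) :
    ∃ (y : FU g n →* SpecialLinearGroup (Fin r) R) (χ : FU g n →* ℂˣ),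
      (∀ w, y' w = scalarU (χ w) * slU φ (y w)) ∧ ∀ j, χ (FreeGroup.of (Sum.inr j)) = 1 := by
  have h1 : ∀ k : GenU g n, ∃ (c : ℂˣ) (s : SpecialLinearGroup (Fin r) R),
      y' (FreeGroup.of k) = scalarU c * slU φ s ∧ ∀ j, k = Sum.inr j → c = 1 := by
    rintro (k | j)
    · obtain ⟨c, s, h⟩ := hy'.2 (Sum.inl k)
      exact ⟨c, s, h, fun j hj => by simp at hj⟩
    · obtain ⟨c, s, h⟩ := hy'.2 (Sum.inr j)
      have hdet : (y' (FreeGroup.of (Sum.inr j)) : Mat r ℂ).det = 1 := by
        obtain ⟨P, hP⟩ := hy'.1.2.1 j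
        rw [← hC j]
        have h2 : (y' (FreeGroup.of (Sum.inr j)) : Mat r ℂ) =
            ((P : (Mat r ℂ)ˣ) * C j * P⁻¹ : (Mat r ℂ)ˣ) := by
          congr 1
          have h4 : (P : (Mat r ℂ)ˣ) * C j = y' (FreeGroup.of (Sum.inr j)) * P := hP
          rw [h4, mul_assoc]
          simp
        have h5 : (((P : (Mat r ℂ)ˣ) * C j * P⁻¹ : (Mat r ℂ)ˣ) : Mat r ℂ).det =
            (((P : (Mat r ℂ)ˣ) : Mat r ℂ) * (C j : Mat r ℂ) *
              ((((P : (Mat r ℂ)ˣ)⁻¹ : (Mat r ℂ)ˣ)) : Mat r ℂ)).det := by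
          simp
        rw [h2, h5, det_mul_comm, ← mul_assoc, ← Units.val_mul, inv_mul_cancel, Units.val_one,
          one_mul]
      have hcr : (c : ℂ) ^ r = 1 := by
        rw [h, coe_scalarU_mulM, det_smul, det_slUM, mul_one, Fintype.card_fin] at hdet
        exact hdet
      have : NeZero r := ⟨hr.ne'⟩
      obtain ⟨e, -, he⟩ := hζ'.eq_pow_of_pow_eq_one hcr
      have hdet' : ((ζ ^ e) • (s : Mat r R)).det = 1 := by
        rw [det_smul, Fintype.card_fin, Matrix.SpecialLinearGroup.det_coe, mul_one, ← pow_mul,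
          mul_comm, pow_mul, hζ, one_pow]
      refine ⟨1, ⟨(ζ ^ e) • (s : Mat r R), hdet'⟩, ?_, fun _ _ => rfl⟩
      rw [map_one, one_mul, h]
      ext1
      rw [coe_scalarU_mulM, coe_slUM]
      show (c : ℂ) • (s : Mat r R).map φ = ((ζ ^ e) • (s : Mat r R)).map φ
      rw [← he]
      ext i j
      simp
  choose c s hcs hc1 using h1
  refine ⟨FreeGroup.lift s, FreeGroup.lift c, ?_, fun j => ?_⟩
  · have : y' = (⟨⟨fun w => scalarU (FreeGroup.lift c w) * slU φ (FreeGroup.lift s w), by simp⟩,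
        by
          intro w w'
          show scalarU (FreeGroup.lift c (w * w')) * slU φ (FreeGroup.lift s (w * w')) =
            (scalarU (FreeGroup.lift c w) * slU φ (FreeGroup.lift s w)) *
              (scalarU (FreeGroup.lift c w') * slU φ (FreeGroup.lift s w'))
          rw [map_mul, map_mul, map_mul, map_mul, mul_assoc, mul_assoc]
          congr 1
          rw [← mul_assoc, ← mul_assoc, scalarU_comm]⟩ : FU g n →* (Mat r ℂ)ˣ) := by
      refine FreeGroup.ext_hom _ _ fun k => ?_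
      show y' (FreeGroup.of k) =
        scalarU (FreeGroup.lift c (FreeGroup.of k)) * slU φ (FreeGroup.lift s (FreeGroup.of k))
      rw [FreeGroup.lift_apply_of, FreeGroup.lift_apply_of, hcs]
    intro w
    exact DFunLike.congr_fun this w
  · rw [FreeGroup.lift_apply_of]
    exact hc1 _ j rfl

/-- TASK M, for `φ` not necessarily injective. -/
theorem unscale' {R : Type*} [CommRing R] (φ : R →+* ℂ) (ζ : R) (hζ : ζ ^ r = 1)
    (hζ' : IsPrimitiveRoot (φ ζ) r) (hr : 0 < r) (C : Fin n → (Mat r ℂ)ˣ)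
    (hC : ∀ j, (C j : Mat r ℂ).det = 1)
    (f : MvPolynomial (GenU g n × Fin r × Fin r) ℂ)
    (hf : ∀ y : FU g n →* SpecialLinearGroup (Fin r) R, slU φ (y (relatorU g n)) = 1 →
      (∀ j, IsConj (C j) (slU φ (y (FreeGroup.of (Sum.inr j))))) →
      SS ((slU φ).comp y) → evalG ((slU φ).comp y) f = 0)
    (x : FU g n →* (Mat r ℂ)ˣ) (hdet : ∀ w, (x w : Mat r ℂ).det = 1)
    (hall : ∀ f' : MvPolynomial (GenU g n × Fin r × Fin r) ℂ,
      (∀ y ∈ DU g φ C, evalG y f' = 0) → evalG x f' = 0) :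
    evalG x f = 0 := by
  classical
  obtain ⟨z, hz⟩ : ∃ z, z = φ ζ := ⟨_, rfl⟩
  rw [← hz] at hζ'
  have hz0 : z ≠ 0 := hζ'.ne_zero hr.ne'
  -- the components of `f` vanish at integral representations
  have comp : ∀ y : FU g n →* SpecialLinearGroup (Fin r) R, slU φ (y (relatorU g n)) = 1 →
      (∀ j, IsConj (C j) (slU φ (y (FreeGroup.of (Sum.inr j))))) →
      SS ((slU φ).comp y) → ∀ δ : Fin g × Bool → ℕ,
        ∑ m ∈ f.support with (fun k => z ^ mdegU m (Sum.inl k)) = (fun k => z ^ δ k),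
          evalG ((slU φ).comp y) (MvPolynomial.monomial m (MvPolynomial.coeff m f)) = 0 := by
    intro y hy hyC hyS δ
    refine Vale.Agent.P002.fourier_inversion hζ' hr f.support
      (fun m (k : Fin g × Bool) => mdegU m (Sum.inl k)) _ (fun e => ?_) δ
    obtain ⟨y', χ, h1, h2, h2'⟩ := exists_twistU ζ hζ hr y e
    have h3 : ∀ w, (((slU φ).comp y' w : (Mat r ℂ)ˣ) : Mat r ℂ) =
        φ (χ w : R) • (((slU φ).comp y w : (Mat r ℂ)ˣ) : Mat r ℂ) := by
      intro w
      rw [MonoidHom.comp_apply, MonoidHom.comp_apply, coe_slUM, coe_slUM, h1]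
      ext i j
      simp
    have hy' : slU φ (y' (relatorU g n)) = 1 := by
      have h4 := h3 (relatorU g n)
      rw [char_relatorU_scale χ h2', Units.val_one, map_one, one_smul, MonoidHom.comp_apply,
        MonoidHom.comp_apply, hy] at h4
      exact Units.ext h4
    have hyC' : ∀ j, slU φ (y' (FreeGroup.of (Sum.inr j))) =
        slU φ (y (FreeGroup.of (Sum.inr j))) := by
      intro j
      have h4 := h3 (FreeGroup.of (Sum.inr j))
      rw [h2', Units.val_one, map_one, one_smul, MonoidHom.comp_apply,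
        MonoidHom.comp_apply] at h4
      exact Units.ext h4
    have hy'S : SS ((slU φ).comp y') :=
      hyS.twistM (fun w => φ (χ w : R)) (fun w => ((χ w).isUnit.map φ).ne_zero) h3
    have h4 := hf y' hy' (fun j => by rw [hyC' j]; exact hyC j) hy'S
    rw [evalGU_eq_sum] at h4
    rw [← h4]
    refine Finset.sum_congr rfl fun m _ => ?_
    rw [evalGU_monomial_twist ((slU φ).comp y) ((slU φ).comp y') (fun k => z ^ e k) ?_ ?_]
    · intro k
      rw [h3, h2, map_pow, hz]
    · intro j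
      rw [h3, h2', Units.val_one, map_one, one_smul]
  -- now the components of `f` vanish at `x`
  have compx : ∀ m₀ ∈ f.support,
      ∑ m ∈ f.support with (fun k => z ^ mdegU m (Sum.inl k)) =
          (fun k : Fin g × Bool => z ^ mdegU m₀ (Sum.inl k)),
        evalG x (MvPolynomial.monomial m (MvPolynomial.coeff m f)) = 0 := by
    intro m₀ hm₀
    obtain ⟨B, hB⟩ : ∃ B : ℕ, ∀ m ∈ f.support, ∀ k : Fin g × Bool, mdegU m (Sum.inl k) ≤ B := by
      refine ⟨∑ m ∈ f.support, ∑ k : Fin g × Bool, mdegU m (Sum.inl k), fun m hm k => ?_⟩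
      exact (Finset.single_le_sum (f := fun k : Fin g × Bool => mdegU m (Sum.inl k))
        (fun _ _ => Nat.zero_le _)
        (Finset.mem_univ k)).trans (Finset.single_le_sum
          (f := fun m => ∑ k : Fin g × Bool, mdegU m (Sum.inl k))
          (fun _ _ => Nat.zero_le _) hm)
    obtain ⟨N, hN⟩ : ∃ N : Fin g × Bool → ℕ, ∀ k, N k = mdegU m₀ (Sum.inl k) + r * B :=
      ⟨_, fun k => rfl⟩
    obtain ⟨q, hq⟩ : ∃ q : ((GenU g n × Fin r × Fin r) →₀ ℕ) → Fin g × Bool → ℕ,
        ∀ m ∈ f.support, (fun k => z ^ mdegU m (Sum.inl k)) =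
            (fun k : Fin g × Bool => z ^ mdegU m₀ (Sum.inl k)) →
          ∀ k, N k = mdegU m (Sum.inl k) + r * q m k := by
      have : ∀ m : (GenU g n × Fin r × Fin r) →₀ ℕ, ∀ k : Fin g × Bool, ∃ q : ℕ, m ∈ f.support →
          (fun k => z ^ mdegU m (Sum.inl k)) =
            (fun k : Fin g × Bool => z ^ mdegU m₀ (Sum.inl k)) →
            N k = mdegU m (Sum.inl k) + r * q := by
        intro m k
        by_cases hm : m ∈ f.support ∧ (fun k => z ^ mdegU m (Sum.inl k)) =
            (fun k : Fin g × Bool => z ^ mdegU m₀ (Sum.inl k))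
        · have h1 : z ^ mdegU m (Sum.inl k) = z ^ mdegU m₀ (Sum.inl k) := congrFun hm.2 k
          have h2 : z ^ mdegU m (Sum.inl k) = z ^ N k := by
            rw [h1, hN, pow_add, pow_mul, hζ'.pow_eq_one, one_pow, mul_one]
          have hfin : IsOfFinOrder z := isOfFinOrder_iff_pow_eq_one.2 ⟨r, hr, hζ'.pow_eq_one⟩
          rw [hfin.pow_eq_pow_iff_modEq, ← hζ'.eq_orderOf] at h2
          have h3 : mdegU m (Sum.inl k) ≤ N k := by
            rw [hN]
            calc mdegU m (Sum.inl k) ≤ B := hB m hm.1 k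
              _ ≤ r * B := Nat.le_mul_of_pos_left B hr
              _ ≤ _ := Nat.le_add_left _ _
          obtain ⟨q, hq⟩ := (Nat.modEq_iff_dvd' h3).1 h2
          exact ⟨q, fun _ _ => by omega⟩
        · exact ⟨0, fun h1 h2 => absurd ⟨h1, h2⟩ hm⟩
      choose q hq using this
      exact ⟨q, fun m h1 h2 k => hq m k h1 h2⟩
    -- the homogenized component
    obtain ⟨f', hf'⟩ : ∃ f' : MvPolynomial (GenU g n × Fin r × Fin r) ℂ, f' =
        ∑ m ∈ f.support with (fun k => z ^ mdegU m (Sum.inl k)) =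
            (fun k : Fin g × Bool => z ^ mdegU m₀ (Sum.inl k)),
          MvPolynomial.monomial m (MvPolynomial.coeff m f) *
            ∏ k : Fin g × Bool, detXU (Sum.inl k) ^ q m k := ⟨_, rfl⟩
    have heval : ∀ (x₀ x' : FU g n →* (Mat r ℂ)ˣ) (t : Fin g × Bool → ℂ),
        (∀ k, (x' (FreeGroup.of (Sum.inl k)) : Mat r ℂ) =
          t k • (x₀ (FreeGroup.of (Sum.inl k)) : Mat r ℂ)) →
        (∀ j, (x' (FreeGroup.of (Sum.inr j)) : Mat r ℂ) =
          (x₀ (FreeGroup.of (Sum.inr j)) : Mat r ℂ)) →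
        (∀ k, (x₀ (FreeGroup.of (Sum.inl k)) : Mat r ℂ).det = 1) →
        evalG x' f' = (∏ k, t k ^ N k) *
          ∑ m ∈ f.support with (fun k => z ^ mdegU m (Sum.inl k)) =
              (fun k : Fin g × Bool => z ^ mdegU m₀ (Sum.inl k)),
            evalG x₀ (MvPolynomial.monomial m (MvPolynomial.coeff m f)) := by
      intro x₀ x' t h1 h1' h2
      rw [hf', map_sum, Finset.mul_sum]
      refine Finset.sum_congr rfl fun m hm => ?_
      rw [Finset.mem_filter] at hm
      rw [map_mul, map_prod, evalGU_monomial_twist x₀ x' t h1 h1', mul_right_comm]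
      congr 1
      rw [← Finset.prod_mul_distrib]
      refine Finset.prod_congr rfl fun k _ => ?_
      rw [map_pow, evalGU_detX, h1, det_smul, h2, mul_one, Fintype.card_fin, ← pow_mul, ← pow_add,
        hq m hm.1 hm.2 k]
    have hx' := hall f' ?_
    · rw [heval x x (fun _ => 1) (fun k => (one_smul _ _).symm) (fun j => rfl)
        (fun k => hdet _)] at hx'
      simpa using hx'
    · intro y' hy'
      obtain ⟨y, χ, hχ, hχ'⟩ := exists_descentM φ ζ hζ (hz ▸ hζ') hr C hC y' hy'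
      have h1 : ∀ w, (y' w : Mat r ℂ) = (χ w : ℂ) • (((slU φ).comp y w : (Mat r ℂ)ˣ) : Mat r ℂ) := by
        intro w
        rw [hχ, coe_scalarU_mulM, MonoidHom.comp_apply]
      have hyS' : SS ((slU φ).comp y) := by
        refine hy'.1.2.2.twistM (fun w => ((χ w)⁻¹ : ℂˣ)) (fun w => Units.ne_zero _) fun w => ?_
        rw [h1, smul_smul, Units.inv_mul, one_smul]
      have hrel : slU φ (y (relatorU g n)) = 1 := by
        have h2 := hχ (relatorU g n)
        rw [hy'.1.1, char_relatorU_scale χ hχ', map_one, one_mul] at h2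
        exact h2.symm
      have hcj : ∀ j, slU φ (y (FreeGroup.of (Sum.inr j))) = y' (FreeGroup.of (Sum.inr j)) := by
        intro j
        rw [hχ, hχ', map_one, one_mul]
      rw [heval ((slU φ).comp y) y' (fun k => (χ (FreeGroup.of (Sum.inl k)) : ℂ)) (fun k => h1 _)
        (fun j => by rw [MonoidHom.comp_apply, hcj])
        (fun k => by rw [MonoidHom.comp_apply]; exact det_slUM φ _),
        comp y hrel (fun j => by rw [hcj]; exact hy'.1.2.1 j) hyS'
          (fun k => mdegU m₀ (Sum.inl k)), mul_zero]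
  rw [evalGU_eq_sum, ← Finset.sum_fiberwise_of_maps_to
    (g := fun m => (fun k => z ^ mdegU m (Sum.inl k) : Fin g × Bool → ℂ))
    (t := f.support.image fun m => (fun k => z ^ mdegU m (Sum.inl k) : Fin g × Bool → ℂ))
    (fun m hm => Finset.mem_image_of_mem _ hm)]
  refine Finset.sum_eq_zero fun δ hδ => ?_
  rw [Finset.mem_image] at hδ
  obtain ⟨m₀, hm₀, rfl⟩ := hδ
  exact compx m₀ hm₀

/-- TASK M -/
theorem unscale {R : Type*} [CommRing R] (φ : R →+* ℂ) (hφ : Function.Injective φ)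
    (ζ : R) (hζ : ζ ^ r = 1)
    (hζ' : IsPrimitiveRoot (φ ζ) r) (hr : 0 < r) (C : Fin n → (Mat r ℂ)ˣ)
    (hC : ∀ j, (C j : Mat r ℂ).det = 1)
    (f : MvPolynomial (GenU g n × Fin r × Fin r) ℂ)
    (hf : ∀ y : FU g n →* SpecialLinearGroup (Fin r) R, y (relatorU g n) = 1 →
      (∀ j, IsConj (C j) (slU φ (y (FreeGroup.of (Sum.inr j))))) →
      SS ((slU φ).comp y) → evalG ((slU φ).comp y) f = 0)
    (x : FU g n →* (Mat r ℂ)ˣ) (hdet : ∀ w, (x w : Mat r ℂ).det = 1)
    (hall : ∀ f' : MvPolynomial (GenU g n × Fin r × Fin r) ℂ,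
      (∀ y ∈ DU g φ C, evalG y f' = 0) → evalG x f' = 0) :
    evalG x f = 0 := by
  refine unscale' φ ζ hζ hζ' hr C hC f (fun y hy => hf y ?_) x hdet hall
  apply Subtype.ext
  have h1 : ((slU φ (y (relatorU g n)) : (Mat r ℂ)ˣ) : Mat r ℂ) = 1 := by
    rw [hy, Units.val_one]
  rw [coe_slUM] at h1
  refine Matrix.map_injective hφ ?_
  show (y (relatorU g n) : Mat r R).map φ = (1 : Mat r R).map φ
  rw [h1, Matrix.map_one _ (map_zero φ) (map_one φ)]

end Vale.Agent.P002R
end

section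

/-! Combinatorics of the base point: splitting a tuple with product one into minimal parts. -/

namespace Vale.Agent.P002R

section cycles

variable {r : ℕ}

theorem sameCycle_mul_swap (π : Equiv.Perm (Fin r)) (a b : Fin r) (hab : π.SameCycle a b)
    (x z : Fin r) (h : (π * Equiv.swap a b).SameCycle x z) : π.SameCycle x z := by
  obtain ⟨i, -, rfl⟩ := h.exists_pow_eq'
  clear h
  induction i with
  | zero => exact Equiv.Perm.SameCycle.refl _ _
  | succ i ih =>
    refine ih.trans ?_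
    rw [pow_succ', Equiv.Perm.mul_apply]
    obtain ⟨w, hw⟩ : ∃ w, w = ((π * Equiv.swap a b) ^ i) x := ⟨_, rfl⟩
    rw [← hw, Equiv.Perm.mul_apply]
    by_cases h1 : w = a
    · rw [h1, Equiv.swap_apply_left]
      exact hab.trans (Equiv.Perm.sameCycle_apply_right.2 (Equiv.Perm.SameCycle.refl _ _))
    · by_cases h2 : w = b
      · rw [h2, Equiv.swap_apply_right]
        exact hab.symm.trans (Equiv.Perm.sameCycle_apply_right.2 (Equiv.Perm.SameCycle.refl _ _))
      · rw [Equiv.swap_apply_of_ne_of_ne h1 h2]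
        exact Equiv.Perm.sameCycle_apply_right.2 (Equiv.Perm.SameCycle.refl _ _)

theorem not_sameCycle_mul_swap (π : Equiv.Perm (Fin r)) (a b : Fin r) (hne : a ≠ b)
    (hab : π.SameCycle a b) : ¬ (π * Equiv.swap a b).SameCycle a b := by
  have hex : ∃ k : ℕ, 0 < k ∧ (π ^ k) b = a := by
    obtain ⟨k, -, hk⟩ := hab.symm.exists_pow_eq'
    refine ⟨k, ?_, hk⟩
    rcases Nat.eq_zero_or_pos k with h | h
    · subst h
      exact absurd hk.symm hne
    · exact h
  obtain ⟨hk0, hk⟩ := Nat.find_spec hex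
  have hmin : ∀ l, 0 < l → l < Nat.find hex → (π ^ l) b ≠ a := fun l h1 h2 h3 =>
    Nat.find_min hex h2 ⟨h1, h3⟩
  obtain ⟨k, hkdef⟩ : ∃ k, k = Nat.find hex := ⟨_, rfl⟩
  rw [← hkdef] at hk0 hk hmin
  have hb : ∀ l, 0 < l → l ≤ k → (π ^ l) b ≠ b := by
    intro l h1 h2 h3
    rcases Nat.lt_or_eq_of_le h2 with h4 | h4
    · apply hmin (k - l) (by omega) (by omega)
      rw [← hk]
      conv_rhs => rw [show k = (k - l) + l by omega, pow_add, Equiv.Perm.mul_apply, h3]
    · rw [h4, hk] at h3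
      exact hne h3
  intro h
  obtain ⟨i, -, hi⟩ := h.exists_pow_eq'
  have key : ∀ i : ℕ, ∃ l, 0 < l ∧ l ≤ k ∧ ((π * Equiv.swap a b) ^ i) a = (π ^ l) b := by
    intro i
    induction i with
    | zero => exact ⟨k, hk0, le_rfl, hk.symm⟩
    | succ i ih =>
      obtain ⟨l, h1, h2, h3⟩ := ih
      rw [pow_succ', Equiv.Perm.mul_apply, h3, Equiv.Perm.mul_apply]
      by_cases h4 : (π ^ l) b = a
      · rw [h4, Equiv.swap_apply_left]
        exact ⟨1, one_pos, hk0, by rw [pow_one]⟩
      · rw [Equiv.swap_apply_of_ne_of_ne h4 (hb l h1 h2)]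
        refine ⟨l + 1, by omega, ?_, by rw [pow_succ', Equiv.Perm.mul_apply]⟩
        rcases Nat.lt_or_eq_of_le h2 with h5 | h5
        · omega
        · rw [h5] at h4
          exact absurd hk h4
  obtain ⟨l, h1, h2, h3⟩ := key i
  rw [hi] at h3
  exact hb l h1 h2 h3.symm

/-- A solution for the full cycle. -/
theorem exists_rot {G : Type*} [CommGroup G] (d : Fin r → G) (hd : ∏ i, d i = 1) :
    ∃ (π : Equiv.Perm (Fin r)) (y : Fin r → G), (∀ a, y a = d (π a) * y (π a)) ∧
      ∀ N : ℕ, (∀ i, d i ^ N = 1) → ∀ i, y i ^ N = 1 := by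
  rcases Nat.eq_zero_or_pos r with hr | hr
  · subst hr
    exact ⟨1, fun i => i.elim0, fun i => i.elim0, fun _ _ i => i.elim0⟩
  obtain ⟨n, rfl⟩ : ∃ n, r = n + 1 := ⟨r - 1, by omega⟩
  let L := List.ofFn d
  have hLlen : L.length = n + 1 := by simp [L]
  let b : Fin (n + 1) → G := fun i => (L.take ((i : ℕ) + 1)).prod
  have hstep : ∀ (k : ℕ) (hk : k < n + 1), (L.take (k + 1)).prod = (L.take k).prod * d ⟨k, hk⟩ := by
    intro k hk
    rw [List.prod_take_succ L k (by omega)]
    simp only [L, List.getElem_ofFn]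
  have hfull : (L.take (n + 1)).prod = 1 := by
    rw [List.take_of_length_le (by omega)]
    simp only [L]
    rw [List.prod_ofFn, hd]
  have hb : ∀ j : Fin (n + 1), b (finRotate (n + 1) j) = d (finRotate (n + 1) j) * b j := by
    intro j
    rcases Nat.lt_or_ge (j : ℕ) n with hj | hj
    · have h1 : finRotate (n + 1) j = ⟨(j : ℕ) + 1, by omega⟩ := by
        apply Fin.ext
        rw [coe_finRotate_of_ne_last]
        intro h
        rw [h] at hj
        simp at hj
      rw [h1]
      simp only [b]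
      rw [hstep ((j : ℕ) + 1) (by omega), mul_comm]
    · have h0 : j = Fin.last n := by
        apply Fin.ext
        simp
        omega
      rw [h0, finRotate_last]
      simp only [b]
      rw [Fin.val_last, hfull, mul_one]
      have := hstep 0 (by omega)
      simpa using this
  refine ⟨finRotate (n + 1), fun i => (b i)⁻¹, fun a => ?_, ?_⟩
  · change (b a)⁻¹ = d (finRotate (n + 1) a) * (b (finRotate (n + 1) a))⁻¹
    rw [hb a, mul_inv, mul_inv_cancel_left]
  · intro N hN i
    have h1 : b i ∈ (powMonoidHom N : G →* G).ker := by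
      apply Subgroup.list_prod_mem
      intro x hx
      have hx' := List.mem_of_mem_take hx
      simp only [L, List.mem_ofFn] at hx'
      obtain ⟨l, rfl⟩ := hx'
      rw [MonoidHom.mem_ker, powMonoidHom_apply]
      exact hN l
    rw [MonoidHom.mem_ker, powMonoidHom_apply] at h1
    rw [inv_pow, h1, inv_one]

/-- A solution with cycles as short as possible. -/
theorem exists_cycles {G : Type*} [CommGroup G] (d : Fin r → G) (hd : ∏ i, d i = 1) :
    ∃ (π : Equiv.Perm (Fin r)) (y : Fin r → G), (∀ a, y a = d (π a) * y (π a)) ∧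
      (∀ a b, π.SameCycle a b → y a = y b → a = b) ∧
      ∀ N : ℕ, (∀ i, d i ^ N = 1) → ∀ i, y i ^ N = 1 := by
  classical
  obtain ⟨π₀, y, hπ₀, hy⟩ := exists_rot d hd
  let S : Set (Equiv.Perm (Fin r)) := {π | ∀ a, y a = d (π a) * y (π a)}
  obtain ⟨π, hπ, hmin⟩ := Set.exists_min_image S
    (fun π => (Finset.univ.filter fun p : Fin r × Fin r => π.SameCycle p.1 p.2).card)
    (Set.toFinite S) ⟨π₀, hπ₀⟩
  refine ⟨π, y, hπ, fun a b hab hyab => ?_, hy⟩
  by_contra hne
  have hmem : π * Equiv.swap a b ∈ S := by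
    intro x
    rw [Equiv.Perm.mul_apply]
    by_cases h1 : x = a
    · rw [h1, Equiv.swap_apply_left, hyab]
      exact hπ b
    · by_cases h2 : x = b
      · rw [h2, Equiv.swap_apply_right, ← hyab]
        exact hπ a
      · rw [Equiv.swap_apply_of_ne_of_ne h1 h2]
        exact hπ x
  have h1 := hmin _ hmem
  have h2 : (Finset.univ.filter fun p : Fin r × Fin r =>
      (π * Equiv.swap a b).SameCycle p.1 p.2).card <
      (Finset.univ.filter fun p : Fin r × Fin r => π.SameCycle p.1 p.2).card := by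
    apply Finset.card_lt_card
    rw [Finset.ssubset_iff_of_subset]
    · refine ⟨(a, b), ?_, ?_⟩
      · simp [hab]
      · simp [not_sameCycle_mul_swap π a b hne hab]
    · intro p hp
      rw [Finset.mem_filter] at hp ⊢
      exact ⟨Finset.mem_univ _, sameCycle_mul_swap π a b hab _ _ hp.2⟩
  omega

/-- The combinatorial data of the base point. -/
theorem exists_order {G : Type*} [CommGroup G] (d : Fin r → G) (hd : ∏ i, d i = 1) :
    ∃ (σ π : Equiv.Perm (Fin r)) (y : Fin r → G) (c : Fin r → Fin r),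
      (∀ a, y a = d (σ (π a)) * y (π a)) ∧ Monotone c ∧ (∀ a, c (π a) = c a) ∧
      (∀ a b, c a = c b → ∃ k : ℕ, (π ^ k) a = b) ∧
      (∀ a b, c a = c b → y a = y b → a = b) ∧
      ∀ N : ℕ, (∀ i, d i ^ N = 1) → ∀ i, y i ^ N = 1 := by
  classical
  obtain ⟨π, y, h1, h2, h3⟩ := exists_cycles d hd
  obtain ⟨c, hc⟩ : ∃ c : Fin r → Fin r, ∀ a b, c a = c b ↔ π.SameCycle a b := by
    refine ⟨fun a => (Quotient.mk (Equiv.Perm.SameCycle.setoid π) a).out, fun a b => ?_⟩
    constructor
    · intro h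
      have := congrArg (Quotient.mk (Equiv.Perm.SameCycle.setoid π)) h
      rw [Quotient.out_eq, Quotient.out_eq] at this
      exact Quotient.exact this
    · intro h
      have : Quotient.mk (Equiv.Perm.SameCycle.setoid π) a =
          Quotient.mk (Equiv.Perm.SameCycle.setoid π) b := Quotient.sound h
      simp only [this]
  obtain ⟨σ, hσ⟩ : ∃ σ : Equiv.Perm (Fin r), Monotone (c ∘ σ) :=
    ⟨Tuple.sort c, Tuple.monotone_sort c⟩
  obtain ⟨π', hπ'⟩ : ∃ π' : Equiv.Perm (Fin r), π' = σ⁻¹ * π * σ := ⟨_, rfl⟩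
  have hσπ : ∀ a, σ (π' a) = π (σ a) := by
    intro a
    rw [hπ', ← Equiv.Perm.mul_apply, ← mul_assoc, ← mul_assoc, mul_inv_cancel, one_mul,
      Equiv.Perm.mul_apply]
  have hpow : ∀ (k : ℕ) (a : Fin r), σ ((π' ^ k) a) = (π ^ k) (σ a) := by
    intro k
    induction k with
    | zero => intro a; rfl
    | succ k ih =>
      intro a
      rw [pow_succ', Equiv.Perm.mul_apply, hσπ, ih, pow_succ', Equiv.Perm.mul_apply]
  refine ⟨σ, π', y ∘ σ, c ∘ σ, fun a => ?_, hσ, fun a => ?_, fun a b hab => ?_,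
    fun a b hab hy => ?_, fun N hN i => h3 N hN _⟩
  · simp only [Function.comp, hσπ]
    exact h1 _
  · simp only [Function.comp, hσπ]
    rw [hc]
    exact (Equiv.Perm.sameCycle_apply_right.2 (Equiv.Perm.SameCycle.refl _ _)).symm
  · obtain ⟨k, -, hk⟩ := ((hc _ _).1 hab).exists_pow_eq'
    refine ⟨k, σ.injective ?_⟩
    rw [hpow, hk]
  · exact σ.injective (h2 _ _ ((hc _ _).1 hab) hy)

end cycles

end Vale.Agent.P002R
end

section

/-!
# P002, genus 1: the rank one lemma with one frozen factor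
-/

namespace Vale.Agent.P002R

open Matrix Module

variable {r : ℕ} {ι : Type*}

/-- the functional with one frozen coordinate -/
theorem exists_FF [DecidableEq ι] (c : ι → Mat r ℂ) (A P : Mat r ℂ) (b t s : ι) (l₁ : List ι) :
    ∃ F : (ι → Mat r ℂ) →ₗ[ℂ] ℂ, ∀ x, F x =
      trace (A * (DL c (Function.update x s 0) l₁ + P * (Function.update x s 0) t -
        (Function.update x s 0) b * P)) := by
  have hadd : ∀ x x' : ι → Mat r ℂ, Function.update (x + x') s 0 =
      Function.update x s 0 + Function.update x' s 0 := by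
    intro x x'
    funext j
    rw [Pi.add_apply]
    by_cases hj : j = s
    · subst hj
      rw [Function.update_self, Function.update_self, Function.update_self, add_zero]
    · rw [Function.update_of_ne hj, Function.update_of_ne hj, Function.update_of_ne hj,
        Pi.add_apply]
  have hsmul : ∀ (a : ℂ) (x : ι → Mat r ℂ), Function.update (a • x) s 0 =
      a • Function.update x s 0 := by
    intro a x
    funext j
    rw [Pi.smul_apply]
    by_cases hj : j = s
    · subst hj
      rw [Function.update_self, Function.update_self, smul_zero]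
    · rw [Function.update_of_ne hj, Function.update_of_ne hj, Pi.smul_apply]
  refine ⟨LinearMap.mk (AddHom.mk (fun x => trace (A * (DL c (Function.update x s 0) l₁ +
    P * (Function.update x s 0) t - (Function.update x s 0) b * P))) ?_) ?_, fun x => rfl⟩
  · intro x x'
    rw [hadd, DL_add, ← trace_add, Pi.add_apply, Pi.add_apply]
    congr 1
    noncomm_ring
  · intro a x
    show trace (A * (DL c (Function.update (a • x) s 0) l₁ +
      P * (Function.update (a • x) s 0) t - (Function.update (a • x) s 0) b * P)) =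
      a • trace (A * (DL c (Function.update x s 0) l₁ +
        P * (Function.update x s 0) t - (Function.update x s 0) b * P))
    rw [hsmul, DL_smul, Pi.smul_apply, Pi.smul_apply, ← trace_smul]
    congr 1
    simp only [Matrix.smul_mul, Matrix.mul_smul, smul_sub, smul_add, Matrix.mul_sub,
      Matrix.mul_add]

/-- the derivative with one frozen coordinate -/
theorem exists_DF [DecidableEq ι] (c : ι → Mat r ℂ) (s : ι) (L : List ι) :
    ∃ D : (ι → Mat r ℂ) →ₗ[ℂ] Mat r ℂ, ∀ x, D x = DL c (Function.update x s 0) L := by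
  have hadd : ∀ x x' : ι → Mat r ℂ, Function.update (x + x') s 0 =
      Function.update x s 0 + Function.update x' s 0 := by
    intro x x'
    funext j
    rw [Pi.add_apply]
    by_cases hj : j = s
    · subst hj
      rw [Function.update_self, Function.update_self, Function.update_self, add_zero]
    · rw [Function.update_of_ne hj, Function.update_of_ne hj, Function.update_of_ne hj,
        Pi.add_apply]
  have hsmul : ∀ (a : ℂ) (x : ι → Mat r ℂ), Function.update (a • x) s 0 =
      a • Function.update x s 0 := by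
    intro a x
    funext j
    rw [Pi.smul_apply]
    by_cases hj : j = s
    · subst hj
      rw [Function.update_self, Function.update_self, smul_zero]
    · rw [Function.update_of_ne hj, Function.update_of_ne hj, Pi.smul_apply]
  refine ⟨LinearMap.mk (AddHom.mk (fun x => DL c (Function.update x s 0) L) ?_) ?_, fun x => rfl⟩
  · intro x x'
    rw [hadd, DL_add]
  · intro a x
    show DL c (Function.update (a • x) s 0) L = a • DL c (Function.update x s 0) L
    rw [hsmul, DL_smul]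

theorem frozen_b {cb P A N R : Mat r ℂ} (hrel : cb * R = 1)
    (h : ∀ H, trace (A * (-(H * P))) = trace ((cb * (R * N * 1) - (R * N * 1) * cb) * H)) :
    N * cb = cb * (N + P * A) := by
  have h1 : ∀ H, trace (-(P * A) * H) = trace ((cb * (R * N) - (R * N) * cb) * H) := by
    intro H
    have h2 := h H
    rw [Matrix.mul_one] at h2
    rw [← h2, Matrix.neg_mul, trace_neg, Matrix.mul_neg, trace_neg,
      show A * (H * P) = (A * H) * P by rw [Matrix.mul_assoc], Matrix.trace_mul_comm (A * H) P,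
      Matrix.mul_assoc]
  have h2 := Vale.Agent.P002.eq_of_trace_eq h1
  rw [← Matrix.mul_assoc cb R N, hrel, Matrix.one_mul] at h2
  have h3 : cb * (N - R * N * cb) = cb * (-(P * A)) := by rw [h2]
  rw [Matrix.mul_sub, show cb * (R * N * cb) = (cb * R) * (N * cb) by
    simp only [Matrix.mul_assoc], hrel, Matrix.one_mul] at h3
  rw [Matrix.mul_add]
  have h4 : cb * N - cb * (-(P * A)) = N * cb := by rw [← h3]; abel
  rw [← h4]
  noncomm_ring

theorem frozen_l₁ {cb cj X Z Q A N P : Mat r ℂ} (hPX : P = X * (cj * Z))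
    (hrel : cb * (P * Q) = 1) (E1 : N * cb = cb * (N + P * A)) (hcom : Commute N X)
    (h : ∀ H, trace (A * (X * (H * cj - cj * H) * Z)) =
      trace ((cj * ((Z * Q) * N * (cb * X)) - ((Z * Q) * N * (cb * X)) * cj) * H)) :
    Commute N cj := by
  have h2 : cj * (Z * A * X) - (Z * A * X) * cj =
      cj * ((Z * Q) * N * (cb * X)) - ((Z * Q) * N * (cb * X)) * cj := by
    refine Vale.Agent.P002.eq_of_trace_eq fun H => ?_
    rw [← h H, tr_comm]
  have hcyc := cyc_one (X := cb * X) (a := cj) (Y := Z * Q) (by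
    rw [← hrel, hPX]; simp only [Matrix.mul_assoc])
  have h3 : (Z * Q) * N * (cb * X) = ((Z * Q) * (cb * X)) * N + Z * A * X := by
    calc (Z * Q) * N * (cb * X) = (Z * Q) * (N * cb) * X := by simp only [Matrix.mul_assoc]
      _ = (Z * Q) * cb * (N * X) + ((Z * Q) * (cb * X) * cj) * (Z * A * X) := by
        rw [E1, hPX]; simp only [Matrix.mul_add, Matrix.add_mul, Matrix.mul_assoc]
      _ = _ := by rw [hcyc.2, hcom.eq, Matrix.one_mul]; simp only [Matrix.mul_assoc]
  refine comm_of_inv hcyc.1 ?_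
  rw [h3] at h2
  have h4 : cj * ((Z * Q) * (cb * X) * N + Z * A * X) - ((Z * Q) * (cb * X) * N + Z * A * X) * cj -
      (cj * (Z * A * X) - Z * A * X * cj) = 0 := by rw [← h2, sub_self]
  rw [← h4]
  simp only [Matrix.mul_add, Matrix.add_mul]
  abel

theorem frozen_l₂ {cb cj X Z Q B₂ N P : Mat r ℂ}
    (hrel : cb * (P * (X * (cj * (Z * Q)))) = 1) (E2 : N * (cb * P) = cb * P * B₂)
    (hcom : Commute B₂ X)
    (h : ∀ H, trace ((cj * ((Z * Q) * N * (cb * (P * X))) -
      ((Z * Q) * N * (cb * (P * X))) * cj) * H) = 0) :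
    Commute B₂ cj := by
  have h2 : (0 : Mat r ℂ) =
      cj * ((Z * Q) * N * (cb * (P * X))) - ((Z * Q) * N * (cb * (P * X))) * cj := by
    refine Vale.Agent.P002.eq_of_trace_eq fun H => ?_
    rw [h H, Matrix.zero_mul, trace_zero]
  have hcyc := cyc_one (X := cb * (P * X)) (a := cj) (Y := Z * Q) (by
    rw [← hrel]; simp only [Matrix.mul_assoc])
  have h3 : (Z * Q) * N * (cb * (P * X)) = ((Z * Q) * (cb * (P * X))) * B₂ := by
    calc (Z * Q) * N * (cb * (P * X)) = (Z * Q) * (N * (cb * P)) * X := by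
          simp only [Matrix.mul_assoc]
      _ = (Z * Q) * cb * P * (B₂ * X) := by rw [E2]; simp only [Matrix.mul_assoc]
      _ = _ := by rw [hcom.eq]; simp only [Matrix.mul_assoc]
  refine comm_of_inv hcyc.1 ?_
  rw [← h3, ← h2]

/-- The rank one lemma with one frozen factor. -/
theorem rank_one_frozen [DecidableEq ι] (c : ι → Mat r ℂ) (hc : ∀ j, IsUnit (c j)) (b t s : ι)
    (l₁ l₂ : List ι) (hnd : (b :: (l₁ ++ (l₂ ++ [s, t]))).Nodup)
    (hrel : ((b :: (l₁ ++ (l₂ ++ [s, t]))).map c).prod = 1)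
    (hmem : ∀ j, j ∈ b :: (l₁ ++ (l₂ ++ [s, t])))
    (hirr : ∀ W : Submodule ℂ (Fin r → ℂ), (∀ j, ∀ w ∈ W, c j *ᵥ w ∈ W) → W = ⊥ ∨ W = ⊤)
    (u y : Fin r → ℂ) (hu0 : u ≠ 0) (hy0 : y ≠ 0) :
    ∃ x : ι → Mat r ℂ, x s = 0 ∧ DL c x (b :: (l₁ ++ (l₂ ++ [s, t]))) = 0 ∧
      y ⬝ᵥ ((DL c x l₁ + (l₁.map c).prod * x t - x b * (l₁.map c).prod) *ᵥ u) ≠ 0 := by
  by_contra hcon
  push Not at hcon
  obtain ⟨P, hPdef⟩ : ∃ P, P = (l₁.map c).prod := ⟨_, rfl⟩
  obtain ⟨P₂, hP₂def⟩ : ∃ P₂, P₂ = (l₂.map c).prod := ⟨_, rfl⟩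
  obtain ⟨A, hA⟩ : ∃ A, A = vecMulVec u y := ⟨_, rfl⟩
  have hprodunit : ∀ l : List ι, IsUnit (l.map c).prod := by
    intro l
    induction l with
    | nil => simp
    | cons j l ih => rw [List.map_cons, List.prod_cons]; exact (hc j).mul ih
  rw [← hPdef] at hcon
  obtain ⟨L, hL⟩ : ∃ L, L = b :: (l₁ ++ (l₂ ++ [s, t])) := ⟨_, rfl⟩
  obtain ⟨F, hF⟩ := exists_FF c A P b t s l₁
  obtain ⟨D, hD⟩ := exists_DF c s L
  obtain ⟨N, hN⟩ := exists_factor D F (by
    intro x hx
    rw [hF, hA, trace_vecMulVec_mul]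
    refine hcon (Function.update x s 0) (Function.update_self _ _ _) ?_
    rw [← hL, ← hD]
    exact hx)
  have hN' : ∀ x : ι → Mat r ℂ, x s = 0 →
      trace (A * (DL c x l₁ + P * x t - x b * P)) = trace (N * DL c x L) := by
    intro x hx
    have h1 := hN x
    have h2 : Function.update x s 0 = x := by
      rw [← hx]
      exact Function.update_eq_self s x
    rw [hF, hD, h2] at h1
    exact h1
  -- variation of one generator
  have hvar : ∀ (j : ι) (l' l'' : List ι), L = l' ++ j :: l'' → j ≠ s →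
      ∀ H : Mat r ℂ, trace (A * (DL c (Function.update 0 j H) l₁ +
        P * (Function.update (0 : ι → Mat r ℂ) j H) t -
        (Function.update (0 : ι → Mat r ℂ) j H) b * P)) =
      trace ((c j * ((l''.map c).prod * N * (l'.map c).prod) -
        ((l''.map c).prod * N * (l'.map c).prod) * c j) * H) := by
    intro j l' l'' hl hjs H
    rw [hN' _ (by rw [Function.update_of_ne hjs.symm, Pi.zero_apply]), hl, ← tr_comm]
    have hnd' : (l' ++ j :: l'').Nodup := hl ▸ hL ▸ hnd
    rw [List.nodup_append, List.nodup_cons] at hnd'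
    rw [DL_split c _ l' l'' j (fun k hk => ?_) (fun k hk => ?_), Function.update_self]
    · rw [Function.update_of_ne, Pi.zero_apply]
      exact hnd'.2.2 k hk j List.mem_cons_self
    · rw [Function.update_of_ne, Pi.zero_apply]
      rintro rfl
      exact hnd'.2.1.1 hk
  have hvar0 : ∀ (j : ι) (l : List ι), j ∉ l → ∀ H : Mat r ℂ,
      DL c (Function.update 0 j H) l = 0 := by
    intro j l hj H
    refine DL_zero_of c _ l fun k hk => ?_
    rw [Function.update_of_ne, Pi.zero_apply]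
    rintro rfl
    exact hj hk
  have hnd2 := hnd
  rw [List.nodup_cons, List.nodup_append, List.nodup_append] at hnd2
  obtain ⟨hb, hn1, ⟨hn2, hst, hn23⟩, hn123⟩ := hnd2
  have hst' : s ≠ t := by
    intro h
    rw [h] at hst
    simp at hst
  have hb1 : b ∉ l₁ := fun h => hb (List.mem_append_left _ h)
  have hbs : b ≠ s := fun h => hb (List.mem_append_right _ (List.mem_append_right _
    (by rw [h]; simp)))
  have hbt : b ≠ t := fun h => hb (List.mem_append_right _ (List.mem_append_right _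
    (by rw [h]; simp)))
  have ht1 : t ∉ l₁ := fun h => hn123 t h t (List.mem_append_right _ (by simp)) rfl
  have hs1 : s ∉ l₁ := fun h => hn123 s h s (List.mem_append_right _ (by simp)) rfl
  have hrel' : c b * (P * (P₂ * (c s * c t))) = 1 := by
    rw [← hrel, hPdef, hP₂def]
    simp only [List.map_cons, List.map_append, List.prod_cons, List.prod_append, List.map_nil,
      List.prod_nil, Matrix.mul_one]
  have E1 : N * c b = c b * (N + P * A) := by
    refine frozen_b hrel' fun H => ?_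
    have h2 := hvar b [] (l₁ ++ (l₂ ++ [s, t])) hL hbs H
    rw [hvar0 b l₁ hb1, Function.update_of_ne (Ne.symm hbt), Pi.zero_apply,
      Function.update_self] at h2
    simp only [List.map_nil, List.prod_nil, Matrix.mul_one, List.map_append, List.map_cons,
      List.prod_append, List.prod_cons, Matrix.mul_zero, zero_add, zero_sub, ← hPdef,
      ← hP₂def] at h2
    rw [h2, Matrix.mul_one]
  have hc1 := pre_ind c N l₁ (by
    intro l' j l'' hl hcom
    have hjl : j ∈ l₁ := by rw [hl]; simp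
    have hjb : b ≠ j := fun h => hb1 (h ▸ hjl)
    have hjt : t ≠ j := fun h => ht1 (h ▸ hjl)
    have hjs : j ≠ s := fun h => hs1 (h ▸ hjl)
    have hn1' : (l' ++ j :: l'').Nodup := hl ▸ hn1
    rw [List.nodup_append, List.nodup_cons] at hn1'
    refine frozen_l₁ (X := (l'.map c).prod) (Z := (l''.map c).prod) (P := P)
      (Q := P₂ * (c s * c t)) (A := A) (by
        rw [hPdef, hl]
        simp only [List.map_append, List.map_cons, List.prod_append, List.prod_cons]) hrel' E1
      hcom fun H => ?_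
    have h2 := hvar j (b :: l') (l'' ++ (l₂ ++ [s, t])) (by rw [hL, hl]; simp) hjs H
    rw [Function.update_of_ne hjb, Function.update_of_ne hjt, Pi.zero_apply, Pi.zero_apply,
      Matrix.mul_zero, Matrix.zero_mul, add_zero, sub_zero] at h2
    simp only [List.map_append, List.map_cons, List.prod_append, List.prod_cons, List.map_nil,
      List.prod_nil, Matrix.mul_one, ← hP₂def] at h2
    rw [← h2, hl, DL_split c _ l' l'' j (fun k hk => ?_) (fun k hk => ?_), Function.update_self]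
    · rw [Function.update_of_ne, Pi.zero_apply]
      exact hn1'.2.2 k hk j List.mem_cons_self
    · rw [Function.update_of_ne, Pi.zero_apply]
      rintro rfl
      exact hn1'.2.1.1 hk)
  obtain ⟨hNP, hNl₁⟩ := hc1
  rw [← hPdef] at hNP
  obtain ⟨B₂, hB₂⟩ : ∃ B₂, B₂ = N + A * P := ⟨_, rfl⟩
  have E2 : N * (c b * P) = c b * P * B₂ := by
    calc N * (c b * P) = (N * c b) * P := by rw [Matrix.mul_assoc]
      _ = c b * (N * P + P * (A * P)) := by
        rw [E1]; simp only [Matrix.mul_add, Matrix.add_mul, Matrix.mul_assoc]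
      _ = c b * P * B₂ := by
        rw [hNP.eq, hB₂]; simp only [Matrix.mul_add, Matrix.mul_assoc]
  have hc2 := pre_ind c B₂ l₂ (by
    intro l' j l'' hl hcom
    have hjl : j ∈ l₂ := by rw [hl]; simp
    have hjb : b ≠ j := fun h => hb (List.mem_append_right _ (List.mem_append_left _ (h ▸ hjl)))
    have hjt : t ≠ j := fun h => hn23 j hjl t (by simp) h.symm
    have hjs : j ≠ s := fun h => hn23 j hjl s (by simp) h
    have hj1 : j ∉ l₁ := fun h => hn123 j h j (List.mem_append_left _ hjl) rfl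
    refine frozen_l₂ (X := (l'.map c).prod) (Z := (l''.map c).prod) (Q := c s * c t) ?_ E2 hcom
      fun H => ?_
    · rw [← hrel', hP₂def, hl]
      simp only [List.map_append, List.map_cons, List.prod_append, List.prod_cons,
        Matrix.mul_assoc]
    · have h2 := hvar j (b :: (l₁ ++ l')) (l'' ++ [s, t]) (by rw [hL, hl]; simp) hjs H
      rw [Function.update_of_ne hjb, Function.update_of_ne hjt, Pi.zero_apply, Pi.zero_apply,
        Matrix.mul_zero, Matrix.zero_mul, add_zero, sub_zero, hvar0 j l₁ hj1,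
        Matrix.mul_zero, trace_zero] at h2
      simp only [List.map_append, List.map_cons, List.prod_append, List.prod_cons, List.map_nil,
        List.prod_nil, Matrix.mul_one, ← hPdef] at h2
      exact h2.symm)
  obtain ⟨hBP₂, hBl₂⟩ := hc2
  rw [← hP₂def] at hBP₂
  have E3 : N * (c b * (P * P₂)) = c b * (P * P₂) * B₂ := by
    calc N * (c b * (P * P₂)) = (N * (c b * P)) * P₂ := by simp only [Matrix.mul_assoc]
      _ = c b * P * (B₂ * P₂) := by rw [E2]; simp only [Matrix.mul_assoc]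
      _ = _ := by rw [hBP₂.eq]; simp only [Matrix.mul_assoc]
  -- the last factor
  have hcyct : c b * (P * (P₂ * c s)) * c t = 1 := by
    rw [← hrel']; simp only [Matrix.mul_assoc]
  have hcyct' : c t * (c b * (P * (P₂ * c s))) = 1 := mul_eq_one_comm.1 hcyct
  have E4 : B₂ * c t = c t * N := by
    have h1 : A * P = c t * (N * (c b * (P * (P₂ * c s)))) -
        (N * (c b * (P * (P₂ * c s)))) * c t := by
      refine Vale.Agent.P002.eq_of_trace_eq fun H => ?_
      have h2 := hvar t (b :: (l₁ ++ (l₂ ++ [s]))) [] (by rw [hL]; simp) hst'.symm H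
      rw [Function.update_self, Function.update_of_ne hbt, Pi.zero_apply,
        Matrix.zero_mul, sub_zero, hvar0 t l₁ ht1, zero_add] at h2
      simp only [List.map_append, List.map_cons, List.prod_append, List.prod_cons, List.map_nil,
        List.prod_nil, Matrix.mul_one, Matrix.one_mul,
        ← hPdef, ← hP₂def] at h2
      rw [← h2, Matrix.mul_assoc]
    rw [Matrix.mul_assoc N, hcyct, Matrix.mul_one] at h1
    have h3 : B₂ = c t * (N * (c b * (P * (P₂ * c s)))) := by
      rw [hB₂, h1]; abel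
    rw [h3]
    calc c t * (N * (c b * (P * (P₂ * c s)))) * c t
        = c t * (N * (c b * (P * (P₂ * c s)) * c t)) := by simp only [Matrix.mul_assoc]
      _ = _ := by rw [hcyct, Matrix.mul_one]
  have E5 : Commute B₂ (c s) := by
    have hz1 : c s * (c t * (c b * (P * P₂))) = 1 := by
      have h1 : (c b * (P * P₂)) * (c s * c t) = 1 := by
        rw [← hrel']; simp only [Matrix.mul_assoc]
      have h2 := mul_eq_one_comm.1 h1
      rw [← h2, Matrix.mul_assoc]
    have hz2 : (c b * (P * P₂)) * (c s * c t) = 1 := by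
      rw [← hrel']; simp only [Matrix.mul_assoc]
    have h3 : c s * (c t * N) = B₂ * (c s * c t) := by
      calc c s * (c t * N) = c s * (c t * (N * ((c b * (P * P₂)) * (c s * c t)))) := by
            rw [hz2, Matrix.mul_one]
        _ = c s * (c t * ((N * (c b * (P * P₂))) * (c s * c t))) := by
            simp only [Matrix.mul_assoc]
        _ = (c s * (c t * (c b * (P * P₂)))) * (B₂ * (c s * c t)) := by
            rw [E3]; simp only [Matrix.mul_assoc]
        _ = _ := by rw [hz1, Matrix.one_mul]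
    rw [← E4, ← Matrix.mul_assoc, ← Matrix.mul_assoc] at h3
    exact ((hc t).mul_right_cancel h3).symm
  refine rank_one_end c b t N B₂ P A u y hA hu0 hy0 (hc b) (hc t) (hPdef ▸ hprodunit l₁) hNP hB₂ E1
    E4 ?_ hirr
  intro j hjb hjt
  have hj := hmem j
  rw [List.mem_cons, List.mem_append, List.mem_append] at hj
  rcases hj with h | h | h | h
  · exact absurd h hjb
  · exact Or.inl (hNl₁ j h)
  · exact Or.inr (hBl₂ j h)
  · rw [List.mem_cons, List.mem_singleton] at h
    rcases h with h | h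
    · rw [h]
      exact Or.inr E5
    · exact absurd h hjt

end Vale.Agent.P002R
end
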