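import Mathlib
import Vale.Agent.P002.Bdl.B2
import Vale.Agent.P002.Bdl.B3

set_option linter.all false

section

namespace Vale.Agent.P002R

open Matrix

variable {r : ℕ}

/-! ### Sequences of powers -/

/-- If all power sums vanish then all sums with weights factoring through the values vanish. -/
theorem interp_zero {S : Type*} [Fintype S] (v w c : S → ℂ) (h : ∀ s s', v s = v s' → w s = w s')
    (hc : ∀ k : ℕ, ∑ s, c s * v s ^ k = 0) : ∑ s, c s * w s = 0 := by
  classical
  have hpoly : ∀ p : Polynomial ℂ, ∑ s, c s * p.eval (v s) = 0 := by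
    intro p
    induction p using Polynomial.induction_on' with
    | add p q hp hq =>
      simp only [Polynomial.eval_add, mul_add, Finset.sum_add_distrib, hp, hq, add_zero]
    | monomial k a =>
      simp only [Polynomial.eval_monomial]
      have : ∀ s, c s * (a * v s ^ k) = a * (c s * v s ^ k) := fun s => by ring
      simp only [this]
      rw [← Finset.mul_sum, hc, mul_zero]
  -- interpolation
  let T : Finset ℂ := Finset.univ.image v
  let W : ℂ → ℂ := fun x => if hx : ∃ s, v s = x then w hx.choose else 0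
  have hW : ∀ s, W (v s) = w s := by
    intro s
    have hx : ∃ s', v s' = v s := ⟨s, rfl⟩
    simp only [W, dif_pos hx]
    exact h _ _ hx.choose_spec
  let p : Polynomial ℂ := Lagrange.interpolate T id W
  have hp : ∀ s, p.eval (v s) = w s := by
    intro s
    have hs : v s ∈ T := Finset.mem_image_of_mem _ (Finset.mem_univ _)
    have h1 := Lagrange.eval_interpolate_at_node (s := T) (v := id) W
      (Function.injective_id.injOn) hs
    rw [← hW s]
    exact h1
  have := hpoly p
  simpa only [hp] using this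

/-- Linear independence of the sequences `α ^ k` and `k α ^ k`. -/
theorem confluent_zero {S : Type*} [Fintype S] [DecidableEq S] (α c e : S → ℂ)
    (hα : Function.Injective α) (h0 : ∀ s, α s ≠ 0)
    (h : ∀ k : ℕ, ∑ s, (c s * α s ^ k + e s * (k * α s ^ k)) = 0) : ∀ s, e s = 0 := by
  have hpoly : ∀ p : Polynomial ℂ,
      ∑ s, (c s * p.eval (α s) + e s * (α s * p.derivative.eval (α s))) = 0 := by
    intro p
    induction p using Polynomial.induction_on' with
    | add p q hp hq =>
      have : ∀ s, c s * (p + q).eval (α s) + e s * (α s * (p + q).derivative.eval (α s)) =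
          (c s * p.eval (α s) + e s * (α s * p.derivative.eval (α s))) +
          (c s * q.eval (α s) + e s * (α s * q.derivative.eval (α s))) := by
        intro s
        simp only [Polynomial.derivative_add, Polynomial.eval_add]
        ring
      simp only [this, Finset.sum_add_distrib, hp, hq, add_zero]
    | monomial k a =>
      have : ∀ s, c s * (Polynomial.monomial k a).eval (α s) +
          e s * (α s * (Polynomial.monomial k a).derivative.eval (α s)) =
          a * (c s * α s ^ k + e s * (k * α s ^ k)) := by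
        intro s
        simp only [Polynomial.derivative_monomial, Polynomial.eval_monomial]
        rcases k with _ | k
        · simp; ring
        · simp only [Nat.add_sub_cancel, pow_succ]
          ring
      simp only [this, ← Finset.mul_sum, h, mul_zero]
  intro s
  let p : Polynomial ℂ := (Polynomial.X - Polynomial.C (α s)) *
    (∏ i ∈ Finset.univ.erase s, (Polynomial.X - Polynomial.C (α i))) ^ 2
  have h1 := hpoly p
  have hval : ∀ i, p.eval (α i) = 0 := by
    intro i
    by_cases hi : i = s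
    · subst hi; simp [p]
    · have : (∏ i ∈ Finset.univ.erase s, (Polynomial.X - Polynomial.C (α i))).eval (α i) = 0 := by
        rw [Polynomial.eval_prod]
        apply Finset.prod_eq_zero (i := i)
        · simp [hi]
        · simp
      simp only [p, Polynomial.eval_mul, Polynomial.eval_pow, this]
      simp
  have hder : ∀ i, i ≠ s → p.derivative.eval (α i) = 0 := by
    intro i hi
    have : (∏ i ∈ Finset.univ.erase s, (Polynomial.X - Polynomial.C (α i))).eval (α i) = 0 := by
      rw [Polynomial.eval_prod]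
      apply Finset.prod_eq_zero (i := i)
      · simp [hi]
      · simp
    simp only [p, Polynomial.derivative_mul, Polynomial.derivative_pow, Polynomial.eval_add,
      Polynomial.eval_mul, Polynomial.eval_pow, this]
    simp
  have hders : p.derivative.eval (α s) =
      ((∏ i ∈ Finset.univ.erase s, (Polynomial.X - Polynomial.C (α i))).eval (α s)) ^ 2 := by
    simp only [p, Polynomial.derivative_mul, Polynomial.eval_add, Polynomial.eval_mul,
      Polynomial.eval_pow]
    simp
  rw [Finset.sum_eq_single s] at h1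
  · rw [hval, hders, mul_zero, zero_add] at h1
    rcases mul_eq_zero.1 h1 with h2 | h2
    · exact h2
    · exfalso
      rcases mul_eq_zero.1 h2 with h3 | h3
      · exact h0 s h3
      · have h4 := pow_eq_zero_iff (two_ne_zero) |>.1 h3
        rw [Polynomial.eval_prod, Finset.prod_eq_zero_iff] at h4
        obtain ⟨i, hi, h5⟩ := h4
        simp only [Polynomial.eval_sub, Polynomial.eval_X, Polynomial.eval_C, sub_eq_zero] at h5
        exact (Finset.ne_of_mem_erase hi) (hα h5).symm
  · intro i _ hi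
    rw [hval, hder i hi]; ring
  · intro hs; exact absurd (Finset.mem_univ s) hs

theorem Reg3.inj {α : Fin r → ℂ} (h : Reg3 α) : Function.Injective α := by
  intro i j hij
  have := h.2 {i, i, i} {j, j, j} (by simp) (by simp) (by simp [hij])
  have hi : i ∈ ({j, j, j} : Multiset (Fin r)) := by rw [← this]; simp
  simpa using hi

theorem Reg3.triple {α : Fin r → ℂ} (h : Reg3 α) (i j k i' j' k' : Fin r)
    (he : α i * α j * α k = α i' * α j' * α k') (d : Fin r → ℂ) :
    d i * d j * d k = d i' * d j' * d k' := by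
  have h1 := h.2 {i, j, k} {i', j', k'} (by simp) (by simp)
    (by simp only [Multiset.insert_eq_cons, Multiset.map_cons, Multiset.prod_cons,
          Multiset.map_singleton, Multiset.prod_singleton]
        linear_combination he)
  have h2 := congrArg (fun s : Multiset (Fin r) => (s.map d).prod) h1
  simp only [Multiset.insert_eq_cons, Multiset.map_cons, Multiset.prod_cons,
          Multiset.map_singleton, Multiset.prod_singleton] at h2
  linear_combination h2

theorem Reg3.pair {α : Fin r → ℂ} (h : Reg3 α) (i j i' j' : Fin r)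
    (he : α i * α j = α i' * α j') (d : Fin r → ℂ) :
    d i * d j = d i' * d j' := by
  have h1 := h.triple i j i i' j' i (by rw [he]) (fun k => d k)
  -- use the weights `d + t` to cancel
  have h2 := h.2 {i, j, i} {i', j', i} (by simp) (by simp)
    (by simp only [Multiset.insert_eq_cons, Multiset.map_cons, Multiset.prod_cons,
          Multiset.map_singleton, Multiset.prod_singleton]
        linear_combination (α i) * he)
  have h3 : ({i, j} : Multiset (Fin r)) = {i', j'} := by
    have e1 : ({i, j, i} : Multiset (Fin r)) = i ::ₘ {i, j} := by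
      change i ::ₘ ({j, i} : Multiset (Fin r)) = i ::ₘ ({i, j} : Multiset (Fin r))
      rw [Multiset.pair_comm]
    have e2 : ({i', j', i} : Multiset (Fin r)) = i ::ₘ {i', j'} := by
      change i' ::ₘ ({j', i} : Multiset (Fin r)) = i ::ₘ (i' ::ₘ {j'})
      rw [Multiset.pair_comm, Multiset.cons_swap i i']
      rfl
    rw [e1, e2] at h2
    exact (Multiset.cons_inj_right i).1 h2
  have h4 := congrArg (fun s : Multiset (Fin r) => (s.map d).prod) h3
  simpa using h4

/-! ### Cocycles -/

section cocycle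

variable {L : Type*} (P : L → (Mat r ℂ)ˣ) (A : (Mat r ℂ)ˣ)

/-- The inverse as a matrix. -/
noncomputable abbrev iv (x : (Mat r ℂ)ˣ) : Mat r ℂ := ((x⁻¹ : (Mat r ℂ)ˣ) : Mat r ℂ)

theorem wP_append (p p' : List L) : wP P (p ++ p') = wP P p * wP P p' := by
  induction p with
  | nil => simp [wP]
  | cons q p ih => rw [List.cons_append, wP, wP, ih, mul_assoc]

theorem theta_append (R : L → Mat r ℂ) (p p' : List L) :
    theta P R (p ++ p') = theta P R p + (wP P p : Mat r ℂ) * theta P R p' * iv (wP P p) := by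
  induction p with
  | nil => simp [wP, theta, iv]
  | cons q p ih =>
    rw [List.cons_append, theta, theta, ih, wP]
    simp only [iv, _root_.mul_inv_rev, Units.val_mul, mul_add, add_mul, mul_assoc, add_assoc]

theorem theta_sub (R R' : L → Mat r ℂ) (p : List L) :
    theta P (fun q => R q - R' q) p = theta P R p - theta P R' p := by
  induction p with
  | nil => simp [theta]
  | cons q p ih =>
    rw [theta, theta, theta, ih, mul_sub, sub_mul]
    abel

theorem theta_cob (w : Mat r ℂ) (p : List L) :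
    theta P (fun q => w - (P q : Mat r ℂ) * w * iv (P q)) p =
      w - (wP P p : Mat r ℂ) * w * iv (wP P p) := by
  induction p with
  | nil => simp [theta, wP, iv]
  | cons q p ih =>
    rw [theta, ih, wP]
    simp only [iv, _root_.mul_inv_rev, Units.val_mul, mul_sub, sub_mul, mul_assoc]
    abel

theorem trace_cob (w : Mat r ℂ) (T : (Mat r ℂ)ˣ) (k : ℕ) :
    trace ((iv A * w * (A : Mat r ℂ) - (T : Mat r ℂ) * w * iv T) *
      ((T * A : (Mat r ℂ)ˣ) : Mat r ℂ) ^ k) = 0 := by
  have h1 : ∀ k : ℕ, (A : Mat r ℂ) * ((T * A : (Mat r ℂ)ˣ) : Mat r ℂ) ^ k =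
      ((A * T : (Mat r ℂ)ˣ) : Mat r ℂ) ^ k * (A : Mat r ℂ) := by
    intro k
    induction k with
    | zero => simp
    | succ k ih =>
      rw [pow_succ, ← mul_assoc, ih, pow_succ]
      simp only [Units.val_mul, mul_assoc]
  have h2 : ∀ k : ℕ, ((T * A : (Mat r ℂ)ˣ) : Mat r ℂ) ^ k * (T : Mat r ℂ) =
      (T : Mat r ℂ) * ((A * T : (Mat r ℂ)ˣ) : Mat r ℂ) ^ k := by
    intro k
    induction k with
    | zero => simp
    | succ k ih =>
      rw [pow_succ', pow_succ', mul_assoc, ih]
      simp only [Units.val_mul, mul_assoc]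
  rw [sub_mul, trace_sub, mul_assoc (iv A * w), h1, mul_assoc ((T : Mat r ℂ) * w),
    mul_assoc (iv A), Matrix.trace_mul_comm (iv A), mul_assoc w,
    mul_assoc (((A * T : (Mat r ℂ)ˣ) : Mat r ℂ) ^ k)]
  have h3 : (A : Mat r ℂ) * iv A = 1 := A.mul_inv
  rw [← mul_assoc w (((A * T : (Mat r ℂ)ˣ) : Mat r ℂ) ^ k), h3, mul_one]
  rw [mul_assoc (T : Mat r ℂ) w, Matrix.trace_mul_comm (T : Mat r ℂ), mul_assoc w, mul_assoc (iv T),
    h2, ← mul_assoc (iv T)]
  have h4 : iv T * (T : Mat r ℂ) = 1 := T.inv_mul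
  rw [h4, one_mul, sub_self]

end cocycle

theorem trace1 (X : Mat r ℂ) (d : Fin r → ℂ) : trace (X * diagonal d) = ∑ i, X i i * d i := by
  simp [trace, mul_diagonal]

theorem trace2 (X B : Mat r ℂ) (d : Fin r → ℂ) : trace (X * diagonal d * (B * diagonal d)) =
    ∑ p : Fin r × Fin r, (X p.2 p.1 * B p.1 p.2) * (d p.1 * d p.2) := by
  rw [Fintype.sum_prod_type, Finset.sum_comm]
  simp only [trace, Matrix.diag_apply]
  apply Finset.sum_congr rfl
  intro j _
  rw [mul_apply]
  apply Finset.sum_congr rfl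
  intro i _
  rw [mul_diagonal, mul_diagonal]
  ring

theorem trace3 (X B : Mat r ℂ) (d : Fin r → ℂ) :
    trace (X * diagonal d * (B * diagonal d) * (B * diagonal d)) =
    ∑ p : Fin r × Fin r × Fin r, (X p.2.2 p.1 * B p.1 p.2.1 * B p.2.1 p.2.2) *
      (d p.1 * d p.2.1 * d p.2.2) := by
  rw [Fintype.sum_prod_type]
  simp only [Fintype.sum_prod_type]
  simp only [trace, Matrix.diag_apply]
  have h1 : ∀ k, (X * diagonal d * (B * diagonal d) * (B * diagonal d)) k k =
      ∑ j, ∑ i, (X k i * B i j * B j k) * (d i * d j * d k) := by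
    intro k
    rw [mul_apply]
    apply Finset.sum_congr rfl
    intro j _
    rw [mul_apply, mul_diagonal, Finset.sum_mul]
    apply Finset.sum_congr rfl
    intro i _
    rw [mul_diagonal, mul_diagonal]
    ring
  simp only [h1]
  rw [Finset.sum_comm]
  have h2 : ∀ j, ∑ k, ∑ i, (X k i * B i j * B j k) * (d i * d j * d k) =
      ∑ i, ∑ k, (X k i * B i j * B j k) * (d i * d j * d k) := fun j => Finset.sum_comm
  simp only [h2]
  rw [Finset.sum_comm]

/-- The dual lemma when the matrix of `q₀` is diagonal. -/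
theorem dual3_diag {L : Type*} (P : L → (Mat r ℂ)ˣ) (R : L → Mat r ℂ) (Q : Mat r ℂ)
    (A : (Mat r ℂ)ˣ) (q₀ : L) (α : Fin r → ℂ) (hα : Reg3 α)
    (hq₀ : (P q₀ : Mat r ℂ) = diagonal α) (hA : Gen3 (A : Mat r ℂ))
    (H : ∀ p : List L, ∀ k : ℕ, 1 ≤ k → k ≤ 3 →
      trace ((Q + theta P R p) * ((wP P p * A : (Mat r ℂ)ˣ) : Mat r ℂ) ^ k) = 0) :
    ∃ η : Mat r ℂ, (∀ q, R q = η - (P q : Mat r ℂ) * η * iv (P q)) ∧
      Q = iv A * η * (A : Mat r ℂ) - η := by
  classical
  have hinj := hα.inj
  have h0 := hα.1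
  -- subtracting a coboundary
  have hsub : ∀ (R : L → Mat r ℂ) (Q w : Mat r ℂ), (∀ p : List L, ∀ k : ℕ, 1 ≤ k → k ≤ 3 →
      trace ((Q + theta P R p) * ((wP P p * A : (Mat r ℂ)ˣ) : Mat r ℂ) ^ k) = 0) →
      ∀ p : List L, ∀ k : ℕ, 1 ≤ k → k ≤ 3 →
      trace (((Q - (iv A * w * (A : Mat r ℂ) - w)) +
        theta P (fun q => R q - (w - (P q : Mat r ℂ) * w * iv (P q))) p) *
        ((wP P p * A : (Mat r ℂ)ˣ) : Mat r ℂ) ^ k) = 0 := by
    intro R Q w h p k h1 h2
    rw [theta_sub, theta_cob]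
    have e : Q - (iv A * w * (A : Mat r ℂ) - w) + (theta P R p -
        (w - (wP P p : Mat r ℂ) * w * iv (wP P p))) = (Q + theta P R p) -
        (iv A * w * (A : Mat r ℂ) - (wP P p : Mat r ℂ) * w * iv (wP P p)) := by abel
    rw [e, sub_mul, trace_sub, h p k h1 h2, trace_cob, sub_self]
  have hiv : iv (P q₀) = diagonal fun i => (α i)⁻¹ := by
    have h1 : (P q₀ : Mat r ℂ) * (diagonal fun i => (α i)⁻¹) = 1 := by
      rw [hq₀, diagonal_mul_diagonal]
      have : (fun i => α i * (α i)⁻¹) = fun _ => (1 : ℂ) := by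
        funext i; exact mul_inv_cancel₀ (h0 i)
      rw [this, diagonal_one]
    have h2 : iv (P q₀) * (P q₀ : Mat r ℂ) = 1 := (P q₀).inv_mul
    calc iv (P q₀) = iv (P q₀) * ((P q₀ : Mat r ℂ) * (diagonal fun i => (α i)⁻¹)) := by
          rw [h1, mul_one]
      _ = diagonal fun i => (α i)⁻¹ := by rw [← mul_assoc, h2, one_mul]
  have hwP : ∀ k : ℕ, (wP P (List.replicate k q₀) : Mat r ℂ) = diagonal fun i => α i ^ k := by
    intro k
    induction k with
    | zero => simp [wP]
    | succ k ih =>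
      rw [List.replicate_succ, wP, Units.val_mul, ih, hq₀, diagonal_mul_diagonal]
      congr 1
      funext i
      rw [pow_succ']
  have hivP : ∀ k : ℕ, iv (wP P (List.replicate k q₀)) = diagonal fun i => (α i ^ k)⁻¹ := by
    intro k
    have h1 : (wP P (List.replicate k q₀) : Mat r ℂ) * (diagonal fun i => (α i ^ k)⁻¹) = 1 := by
      rw [hwP, diagonal_mul_diagonal]
      have : (fun i => α i ^ k * (α i ^ k)⁻¹) = fun _ => (1 : ℂ) := by
        funext i; exact mul_inv_cancel₀ (pow_ne_zero _ (h0 i))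
      rw [this, diagonal_one]
    have h2 : iv (wP P (List.replicate k q₀)) * (wP P (List.replicate k q₀) : Mat r ℂ) = 1 :=
      (wP P (List.replicate k q₀)).inv_mul
    calc iv (wP P (List.replicate k q₀)) = iv (wP P (List.replicate k q₀)) *
          ((wP P (List.replicate k q₀) : Mat r ℂ) * (diagonal fun i => (α i ^ k)⁻¹)) := by
          rw [h1, mul_one]
      _ = diagonal fun i => (α i ^ k)⁻¹ := by rw [← mul_assoc, h2, one_mul]
  -- step 1
  obtain ⟨w, hw⟩ : ∃ w : Mat r ℂ, w = Matrix.of fun i j =>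
    if i = j then 0 else R q₀ i j / (1 - α i * (α j)⁻¹) := ⟨_, rfl⟩
  obtain ⟨R1, hR1⟩ : ∃ R1 : L → Mat r ℂ, R1 = fun q => R q - (w - (P q : Mat r ℂ) * w * iv (P q)) :=
    ⟨_, rfl⟩
  obtain ⟨Q1, hQ1⟩ : ∃ Q1 : Mat r ℂ, Q1 = Q - (iv A * w * (A : Mat r ℂ) - w) := ⟨_, rfl⟩
  have H1 := hsub R Q w H
  rw [← hR1, ← hQ1] at H1
  have hR1d : R1 q₀ = diagonal fun i => R q₀ i i := by
    rw [hR1]
    simp only
    rw [hiv, hq₀]
    ext i j
    simp only [Matrix.sub_apply, mul_diagonal, diagonal_mul, hw, Matrix.of_apply]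
    by_cases hij : i = j
    · subst hij; simp
    · have hne : 1 - α i * (α j)⁻¹ ≠ 0 := by
        intro h
        apply hij
        apply hinj
        have h1 := h0 j
        field_simp at h
        linear_combination -h
      simp only [hij, if_false, diagonal_apply_ne _ hij]
      have hq := div_mul_cancel₀ (R q₀ i j) hne
      linear_combination -hq
  have hth : ∀ k : ℕ, theta P R1 (List.replicate k q₀) =
      (k : ℂ) • diagonal fun i => R q₀ i i := by
    intro k
    induction k with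
    | zero => simp [theta]
    | succ k ih =>
      rw [List.replicate_succ, theta, ih, hR1d]
      change _ + (P q₀ : Mat r ℂ) * _ * iv (P q₀) = _
      rw [hiv, hq₀]
      ext i j
      by_cases hij : i = j
      · subst hij
        simp only [Matrix.add_apply, mul_diagonal, diagonal_mul, Matrix.smul_apply,
          diagonal_apply_eq, smul_eq_mul]
        have := h0 i
        push_cast
        field_simp
        ring
      · simp [hij]
  have hρ : ∀ i, R q₀ i i = 0 := by
    have h1 := confluent_zero α (fun i => ((A : Mat r ℂ) * Q1) i i)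
      (fun i => R q₀ i i * (A : Mat r ℂ) i i) hinj h0 (by
        intro k
        have h2 := H1 (List.replicate k q₀) 1 le_rfl (by norm_num)
        rw [pow_one, hth, Units.val_mul, hwP, add_mul, trace_add] at h2
        rw [← mul_assoc Q1, Matrix.trace_mul_comm (Q1 * _), ← mul_assoc, trace1,
          Matrix.smul_mul, trace_smul, ← mul_assoc, diagonal_mul_diagonal,
          Matrix.trace_mul_comm (diagonal _), trace1, smul_eq_mul, Finset.mul_sum,
          ← Finset.sum_add_distrib] at h2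
        rw [← h2]
        apply Finset.sum_congr rfl
        intro i _
        ring)
    intro i
    rcases mul_eq_zero.1 (h1 i) with h2 | h2
    · exact h2
    · exact absurd h2 (hA.1 i i)
  have hR10 : R1 q₀ = 0 := by
    rw [hR1d]
    simp [hρ]
  -- step 2
  have hth1 : ∀ k : ℕ, theta P R1 (List.replicate k q₀) = 0 := by
    intro k
    rw [hth]
    simp [hρ]
  have hpm : ∃ θ : Fin r → ℂ, (A : Mat r ℂ) * Q1 =
      diagonal θ * (A : Mat r ℂ) - (A : Mat r ℂ) * diagonal θ := by
    apply Vale.Agent.P002.principal_minor_lemma (A : Mat r ℂ) ((A : Mat r ℂ) * Q1)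
    · intro d
      rw [trace1]
      apply interp_zero α d (fun i => ((A : Mat r ℂ) * Q1) i i)
      · intro i j hij
        rw [hinj hij]
      · intro k
        have h2 := H1 (List.replicate k q₀) 1 le_rfl (by norm_num)
        rw [pow_one, hth1, add_zero, Units.val_mul, hwP, ← mul_assoc Q1,
          Matrix.trace_mul_comm (Q1 * _), ← mul_assoc, trace1] at h2
        exact h2
    · intro d
      rw [trace2]
      apply interp_zero (fun p : Fin r × Fin r => α p.1 * α p.2)
      · intro p p' hp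
        exact hα.pair _ _ _ _ hp d
      · intro k
        have h2 := H1 (List.replicate k q₀) 2 (by norm_num) (by norm_num)
        rw [pow_two, hth1, add_zero, Units.val_mul, hwP] at h2
        have e : trace (Q1 * ((diagonal fun i => α i ^ k) * (A : Mat r ℂ) *
            ((diagonal fun i => α i ^ k) * (A : Mat r ℂ)))) =
            trace ((A : Mat r ℂ) * Q1 * (diagonal fun i => α i ^ k) *
              ((A : Mat r ℂ) * diagonal fun i => α i ^ k)) := by
          have e1 : Q1 * ((diagonal fun i => α i ^ k) * (A : Mat r ℂ) *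
            ((diagonal fun i => α i ^ k) * (A : Mat r ℂ))) =
            (Q1 * (diagonal fun i => α i ^ k) * (A : Mat r ℂ) *
            (diagonal fun i => α i ^ k)) * (A : Mat r ℂ) := by simp only [mul_assoc]
          rw [e1, Matrix.trace_mul_comm]
          simp only [mul_assoc]
        rw [e, trace2] at h2
        rw [← h2]
        apply Finset.sum_congr rfl
        intro p _
        rw [mul_pow]
    · intro d
      rw [trace3]
      apply interp_zero (fun p : Fin r × Fin r × Fin r => α p.1 * α p.2.1 * α p.2.2)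
      · intro p p' hp
        exact hα.triple _ _ _ _ _ _ hp d
      · intro k
        have h2 := H1 (List.replicate k q₀) 3 (by norm_num) (by norm_num)
        rw [pow_succ, pow_two, hth1, add_zero, Units.val_mul, hwP] at h2
        have e : trace (Q1 * ((diagonal fun i => α i ^ k) * (A : Mat r ℂ) *
            ((diagonal fun i => α i ^ k) * (A : Mat r ℂ)) *
            ((diagonal fun i => α i ^ k) * (A : Mat r ℂ)))) =
            trace ((A : Mat r ℂ) * Q1 * (diagonal fun i => α i ^ k) *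
              ((A : Mat r ℂ) * diagonal fun i => α i ^ k) *
              ((A : Mat r ℂ) * diagonal fun i => α i ^ k)) := by
          have e1 : Q1 * ((diagonal fun i => α i ^ k) * (A : Mat r ℂ) *
            ((diagonal fun i => α i ^ k) * (A : Mat r ℂ)) *
            ((diagonal fun i => α i ^ k) * (A : Mat r ℂ))) =
            (Q1 * (diagonal fun i => α i ^ k) * (A : Mat r ℂ) *
            (diagonal fun i => α i ^ k) * (A : Mat r ℂ) *
            (diagonal fun i => α i ^ k)) * (A : Mat r ℂ) := by simp only [mul_assoc]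
          rw [e1, Matrix.trace_mul_comm]
          simp only [mul_assoc]
        rw [e, trace3] at h2
        rw [← h2]
        apply Finset.sum_congr rfl
        intro p _
        rw [mul_pow, mul_pow]
    · intro i j _
      exact hA.1 i j
    · intro i j k h1 h2 h3
      exact hA.2 i j k h1 h2 h3
  obtain ⟨θ, hθ⟩ := hpm
  have hAi : iv A * (A : Mat r ℂ) = 1 := A.inv_mul
  have hQ1e : Q1 = iv A * diagonal θ * (A : Mat r ℂ) - diagonal θ := by
    calc Q1 = iv A * ((A : Mat r ℂ) * Q1) := by rw [← mul_assoc, hAi, one_mul]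
      _ = iv A * diagonal θ * (A : Mat r ℂ) - diagonal θ := by
          rw [hθ, mul_sub, ← mul_assoc, ← mul_assoc, hAi, one_mul]
  -- step 3
  obtain ⟨R2, hR2⟩ : ∃ R2 : L → Mat r ℂ, R2 = fun q => R1 q -
    (diagonal θ - (P q : Mat r ℂ) * diagonal θ * iv (P q)) := ⟨_, rfl⟩
  have H2 := hsub R1 Q1 (diagonal θ) H1
  rw [← hR2, ← hQ1e, sub_self] at H2
  have hR20 : R2 q₀ = 0 := by
    rw [hR2]
    simp only
    rw [hR10, hiv, hq₀, diagonal_mul_diagonal, diagonal_mul_diagonal, zero_sub, neg_eq_zero,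
      sub_eq_zero]
    congr 1
    funext i
    have := h0 i
    field_simp
  have hth2 : ∀ k : ℕ, theta P R2 (List.replicate k q₀) = 0 := by
    intro k
    induction k with
    | zero => simp [theta]
    | succ k ih => rw [List.replicate_succ, theta, ih, hR20]; simp
  have hR2z : ∀ q, R2 q = 0 := by
    intro q
    have key : ∀ k l : ℕ, ∑ j, (∑ i, ((R2 q * (P q : Mat r ℂ)) i j * (A : Mat r ℂ) j i) *
        α i ^ k) * α j ^ l = 0 := by
      intro k l
      have h2 := H2 (List.replicate k q₀ ++ ([q] ++ List.replicate l q₀)) 1 le_rfl (by norm_num)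
      rw [pow_one, zero_add, theta_append, theta_append, hth2, hth2, wP_append, wP_append,
        hivP, hwP] at h2
      have e1 : theta P R2 [q] = R2 q := by simp [theta]
      have e2 : wP P [q] = P q := by simp [wP]
      rw [e1, e2, mul_zero, zero_mul, add_zero, zero_add] at h2
      simp only [Units.val_mul, hwP] at h2
      have e3 : (diagonal fun i => α i ^ k) * R2 q * (diagonal fun i => (α i ^ k)⁻¹) *
          ((diagonal fun i => α i ^ k) * ((P q : Mat r ℂ) * diagonal fun i => α i ^ l) *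
            (A : Mat r ℂ)) = (diagonal fun i => α i ^ k) * (R2 q * (P q : Mat r ℂ)) *
            (diagonal fun i => α i ^ l) * (A : Mat r ℂ) := by
        have e4 : (diagonal fun i => (α i ^ k)⁻¹) * (diagonal fun i => α i ^ k) =
            (1 : Mat r ℂ) := by
          rw [diagonal_mul_diagonal]
          have : (fun i => (α i ^ k)⁻¹ * α i ^ k) = fun _ => (1 : ℂ) := by
            funext i; exact inv_mul_cancel₀ (pow_ne_zero _ (h0 i))
          rw [this, diagonal_one]
        calc _ = (diagonal fun i => α i ^ k) * R2 q * ((diagonal fun i => (α i ^ k)⁻¹) *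
              (diagonal fun i => α i ^ k)) * (P q : Mat r ℂ) * (diagonal fun i => α i ^ l) *
              (A : Mat r ℂ) := by simp only [mul_assoc]
          _ = _ := by rw [e4, mul_one]; simp only [mul_assoc]
      rw [e3] at h2
      rw [← h2]
      simp only [trace, Matrix.diag_apply]
      have e5 : ∀ i, ((diagonal fun i => α i ^ k) * (R2 q * (P q : Mat r ℂ)) *
            (diagonal fun i => α i ^ l) * (A : Mat r ℂ)) i i =
          ∑ j, (((R2 q * (P q : Mat r ℂ)) i j * (A : Mat r ℂ) j i) * α i ^ k) * α j ^ l := by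
        intro i
        rw [mul_apply]
        apply Finset.sum_congr rfl
        intro j _
        rw [mul_diagonal, diagonal_mul]
        ring
      simp only [e5]
      rw [Finset.sum_comm]
      apply Finset.sum_congr rfl
      intro j _
      rw [Finset.sum_mul]
    have key2 : ∀ j k, ∑ i, ((R2 q * (P q : Mat r ℂ)) i j * (A : Mat r ℂ) j i) * α i ^ k = 0 := by
      intro j k
      have h1 := interp_zero α (fun s => if s = j then (1 : ℂ) else 0)
        (fun j => ∑ i, ((R2 q * (P q : Mat r ℂ)) i j * (A : Mat r ℂ) j i) * α i ^ k)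
        (fun s s' hs => by rw [hinj hs]) (key k)
      simpa using h1
    have key3 : ∀ i j, (R2 q * (P q : Mat r ℂ)) i j = 0 := by
      intro i j
      have h1 := interp_zero α (fun s => if s = i then (1 : ℂ) else 0)
        (fun i => (R2 q * (P q : Mat r ℂ)) i j * (A : Mat r ℂ) j i)
        (fun s s' hs => by rw [hinj hs]) (key2 j)
      simp only [mul_ite, mul_one, mul_zero, Finset.sum_ite_eq', Finset.mem_univ, if_true] at h1
      rcases mul_eq_zero.1 h1 with h2 | h2
      · exact h2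
      · exact absurd h2 (hA.1 j i)
    have key4 : R2 q * (P q : Mat r ℂ) = 0 := by
      ext i j; exact key3 i j
    have h5 : (P q : Mat r ℂ) * iv (P q) = 1 := (P q).mul_inv
    calc R2 q = R2 q * ((P q : Mat r ℂ) * iv (P q)) := by rw [h5, mul_one]
      _ = 0 := by rw [← mul_assoc, key4, zero_mul]
  refine ⟨w + diagonal θ, ?_, ?_⟩
  · intro q
    have h1 := hR2z q
    rw [hR2, hR1] at h1
    simp only at h1
    rw [sub_eq_zero] at h1
    have h2 : R q = (w - (P q : Mat r ℂ) * w * iv (P q)) +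
        (diagonal θ - (P q : Mat r ℂ) * diagonal θ * iv (P q)) := by
      rw [← h1]; abel
    rw [h2, mul_add, add_mul]
    abel
  · have h1 : Q = Q1 + (iv A * w * (A : Mat r ℂ) - w) := by rw [hQ1]; abel
    rw [h1, hQ1e, mul_add, add_mul]
    abel

/-- TASK F1. -/
theorem dual3 {L : Type*} (P : L → (Mat r ℂ)ˣ) (R : L → Mat r ℂ) (Q : Mat r ℂ) (A : (Mat r ℂ)ˣ)
    (q₀ : L) (U : (Mat r ℂ)ˣ) (α : Fin r → ℂ) (hα : Reg3 α)
    (hq₀ : (P q₀ : Mat r ℂ) = (U : Mat r ℂ) * diagonal α * ((U⁻¹ : (Mat r ℂ)ˣ) : Mat r ℂ))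
    (hA : Gen3 (((U⁻¹ * A * U : (Mat r ℂ)ˣ)) : Mat r ℂ))
    (H : ∀ p : List L, ∀ k : ℕ, 1 ≤ k → k ≤ 3 →
      trace ((Q + theta P R p) * ((wP P p * A : (Mat r ℂ)ˣ) : Mat r ℂ) ^ k) = 0) :
    ∃ η : Mat r ℂ, (∀ q, R q = η - (P q : Mat r ℂ) * η * (((P q)⁻¹ : (Mat r ℂ)ˣ) : Mat r ℂ)) ∧
      Q = ((A⁻¹ : (Mat r ℂ)ˣ) : Mat r ℂ) * η * (A : Mat r ℂ) - η := by
  have hU1 : (U : Mat r ℂ) * iv U = 1 := U.mul_inv
  have hU2 : iv U * (U : Mat r ℂ) = 1 := U.inv_mul
  -- conjugated data
  let P' : L → (Mat r ℂ)ˣ := fun q => U⁻¹ * P q * U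
  let R' : L → Mat r ℂ := fun q => iv U * R q * (U : Mat r ℂ)
  let Q' : Mat r ℂ := iv U * Q * (U : Mat r ℂ)
  let A' : (Mat r ℂ)ˣ := U⁻¹ * A * U
  have hwP' : ∀ p, wP P' p = U⁻¹ * wP P p * U := by
    intro p
    induction p with
    | nil => simp [wP]
    | cons q p ih =>
      rw [wP, wP, ih]
      simp only [P']
      group
  have hth' : ∀ p, theta P' R' p = iv U * theta P R p * (U : Mat r ℂ) := by
    intro p
    induction p with
    | nil => simp [theta]
    | cons q p ih =>
      rw [theta, theta, ih]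
      have e1 : (P' q : Mat r ℂ) = iv U * (P q : Mat r ℂ) * (U : Mat r ℂ) := by simp [P', iv]
      have e2 : (((P' q)⁻¹ : (Mat r ℂ)ˣ) : Mat r ℂ) = iv U * iv (P q) * (U : Mat r ℂ) := by
        simp [P', iv, mul_assoc]
      rw [e1, e2, mul_add, add_mul]
      congr 1
      calc _ = iv U * (P q : Mat r ℂ) * ((U : Mat r ℂ) * iv U) * theta P R p *
            ((U : Mat r ℂ) * iv U) * iv (P q) * (U : Mat r ℂ) := by simp only [mul_assoc]
        _ = _ := by rw [hU1, mul_one, mul_one]; simp only [mul_assoc, iv]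
  have hpow : ∀ (M : (Mat r ℂ)ˣ) (k : ℕ), ((U⁻¹ * M * U : (Mat r ℂ)ˣ) : Mat r ℂ) ^ k =
      iv U * (M : Mat r ℂ) ^ k * (U : Mat r ℂ) := by
    intro M k
    induction k with
    | zero => simp
    | succ k ih =>
      rw [pow_succ, ih, pow_succ]
      have e1 : ((U⁻¹ * M * U : (Mat r ℂ)ˣ) : Mat r ℂ) = iv U * (M : Mat r ℂ) * (U : Mat r ℂ) := by
        simp [iv]
      rw [e1]
      calc _ = iv U * (M : Mat r ℂ) ^ k * ((U : Mat r ℂ) * iv U) * (M : Mat r ℂ) *
            (U : Mat r ℂ) := by simp only [mul_assoc]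
        _ = _ := by rw [hU1, mul_one]; simp only [mul_assoc]
  obtain ⟨η, h1, h2⟩ := dual3_diag P' R' Q' A' q₀ α hα (by
      have : (P' q₀ : Mat r ℂ) = iv U * (P q₀ : Mat r ℂ) * (U : Mat r ℂ) := by simp [P', iv]
      rw [this, hq₀]
      change iv U * ((U : Mat r ℂ) * diagonal α * iv U) * (U : Mat r ℂ) = _
      calc _ = (iv U * (U : Mat r ℂ)) * diagonal α * (iv U * (U : Mat r ℂ)) := by
            simp only [mul_assoc]
        _ = _ := by rw [hU2, one_mul, mul_one]) hA (by
      intro p k hk1 hk2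
      have e1 : wP P' p * A' = U⁻¹ * (wP P p * A) * U := by
        rw [hwP']; simp only [A']; group
      rw [e1, hth', hpow]
      have e2 : (Q' + iv U * theta P R p * (U : Mat r ℂ)) *
          (iv U * ((wP P p * A : (Mat r ℂ)ˣ) : Mat r ℂ) ^ k * (U : Mat r ℂ)) =
          iv U * ((Q + theta P R p) * ((wP P p * A : (Mat r ℂ)ˣ) : Mat r ℂ) ^ k) *
            (U : Mat r ℂ) := by
        have e3 : Q' + iv U * theta P R p * (U : Mat r ℂ) = iv U * (Q + theta P R p) *
            (U : Mat r ℂ) := by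
          simp only [Q', mul_add, add_mul]
        rw [e3]
        calc _ = iv U * (Q + theta P R p) * ((U : Mat r ℂ) * iv U) *
              ((wP P p * A : (Mat r ℂ)ˣ) : Mat r ℂ) ^ k * (U : Mat r ℂ) := by
              simp only [mul_assoc]
          _ = _ := by rw [hU1, mul_one]; simp only [mul_assoc]
      rw [e2, mul_assoc, Matrix.trace_mul_comm, mul_assoc, hU1, mul_one]
      exact H p k hk1 hk2)
  refine ⟨(U : Mat r ℂ) * η * iv U, ?_, ?_⟩
  · intro q
    have h3 := h1 q
    have e2 : iv (P' q) = iv U * iv (P q) * (U : Mat r ℂ) := by simp [P', iv, mul_assoc]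
    have e1 : (P' q : Mat r ℂ) = iv U * (P q : Mat r ℂ) * (U : Mat r ℂ) := by simp [P', iv]
    have h4 : R q = (U : Mat r ℂ) * R' q * iv U := by
      simp only [R']
      calc R q = ((U : Mat r ℂ) * iv U) * R q * ((U : Mat r ℂ) * iv U) := by
            rw [hU1, one_mul, mul_one]
        _ = _ := by simp only [mul_assoc]
    rw [h4, h3, e1, e2, mul_sub, sub_mul]
    congr 1
    calc _ = ((U : Mat r ℂ) * iv U) * (P q : Mat r ℂ) * (U : Mat r ℂ) * η * iv U * iv (P q) *
          ((U : Mat r ℂ) * iv U) := by simp only [mul_assoc]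
      _ = _ := by rw [hU1, one_mul, mul_one]; simp only [mul_assoc, iv]
  · have e2 : iv A' = iv U * iv A * (U : Mat r ℂ) := by simp [A', iv, mul_assoc]
    have e1 : (A' : Mat r ℂ) = iv U * (A : Mat r ℂ) * (U : Mat r ℂ) := by simp [A', iv]
    have h4 : Q = (U : Mat r ℂ) * Q' * iv U := by
      simp only [Q']
      calc Q = ((U : Mat r ℂ) * iv U) * Q * ((U : Mat r ℂ) * iv U) := by
            rw [hU1, one_mul, mul_one]
        _ = _ := by simp only [mul_assoc]
    rw [h4, h2, e1, e2, mul_sub, sub_mul]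
    congr 1
    calc _ = ((U : Mat r ℂ) * iv U) * iv A * (U : Mat r ℂ) * η * iv U * (A : Mat r ℂ) *
          ((U : Mat r ℂ) * iv U) := by simp only [mul_assoc]
      _ = _ := by rw [hU1, one_mul, mul_one]; simp only [mul_assoc, iv]

end Vale.Agent.P002R
end

section

/-!
# The dual lemma for block data, part A: reduction to one matrix `μ`
-/

namespace Vale.Agent.P002R

open Matrix

variable {r : ℕ}

/-- The dual property. -/
def DualProp {L : Type*} (P : L → (Mat r ℂ)ˣ) (A : (Mat r ℂ)ˣ) : Prop :=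
  ∀ (R : L → Mat r ℂ) (Q : Mat r ℂ),
    (∀ p : List L, ∀ k : ℕ, 1 ≤ k →
      trace ((Q + theta P R p) * ((wP P p * A : (Mat r ℂ)ˣ) : Mat r ℂ) ^ k) = 0) →
    ∃ η : Mat r ℂ, (∀ q, R q = η - (P q : Mat r ℂ) * η * (((P q)⁻¹ : (Mat r ℂ)ˣ) : Mat r ℂ)) ∧
      Q = ((A⁻¹ : (Mat r ℂ)ˣ) : Mat r ℂ) * η * (A : Mat r ℂ) - η

/-- The functional of degree `k + 1` in `X`. -/
def Phi {S : Type*} [CommRing S] (k : ℕ) (μ A X : Mat r S) : S :=
  trace ((μ ⊙ X) * A * (X * A) ^ k) - trace ((μᵀ ⊙ A) * X * (A * X) ^ k)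

/-- The conditions on `μ`. -/
def MuOK {L : Type*} (P : L → (Mat r ℂ)ˣ) (A μ : Mat r ℂ) : Prop :=
  (∀ (p p' : List L) (i j k : Fin r), (wP P p : Mat r ℂ) i j ≠ 0 → (wP P p' : Mat r ℂ) j k ≠ 0 →
    μ i k = μ i j + μ j k) ∧ ∀ (p : List L) (k : ℕ), Phi k μ A (wP P p : Mat r ℂ) = 0

theorem single_interp {α : Fin r → ℂ} (hα : Function.Injective α) (c : Fin r → ℂ)
    (h : ∀ n : ℕ, ∑ i, c i * α i ^ n = 0) (i : Fin r) : c i = 0 := by
  classical
  have h1 := interp_zero α (fun s => if s = i then (1 : ℂ) else 0) c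
    (fun s s' hs => by rw [hα hs]) h
  simpa using h1

theorem double_interp {α : Fin r → ℂ} (hα : Function.Injective α) (M : Fin r → Fin r → ℂ)
    (h : ∀ n n' : ℕ, ∑ i, ∑ j, M i j * α i ^ n * α j ^ n' = 0) (i j : Fin r) : M i j = 0 := by
  have h1 : ∀ n j, ∑ i, M i j * α i ^ n = 0 := by
    intro n j
    apply single_interp hα (fun j => ∑ i, M i j * α i ^ n)
    intro n'
    rw [← h n n', Finset.sum_comm]
    refine Finset.sum_congr rfl fun j _ => ?_
    rw [Finset.sum_mul]
  exact single_interp hα (fun i => M i j) (fun n => h1 n j) i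

theorem trace_diag_mul (M X : Mat r ℂ) (a b : Fin r → ℂ) :
    trace (M * (diagonal a * X * diagonal b)) = ∑ i, ∑ j, M j i * X i j * a i * b j := by
  simp only [trace, Matrix.diag_apply]
  have h : ∀ j, (M * (diagonal a * X * diagonal b)) j j = ∑ i, M j i * X i j * a i * b j := by
    intro j
    rw [mul_apply]
    refine Finset.sum_congr rfl fun i _ => ?_
    rw [mul_diagonal, diagonal_mul]
    ring
  simp only [h]
  rw [Finset.sum_comm]

section

variable {L : Type*} (P : L → (Mat r ℂ)ˣ) (A : (Mat r ℂ)ˣ)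

/-- The derivation of a word. -/
noncomputable def dW (R : L → Mat r ℂ) (p : List L) : Mat r ℂ := theta P R p * (wP P p : Mat r ℂ)

theorem dW_append (R : L → Mat r ℂ) (p p' : List L) :
    dW P R (p ++ p') = dW P R p * (wP P p' : Mat r ℂ) + (wP P p : Mat r ℂ) * dW P R p' := by
  unfold dW
  rw [theta_append, wP_append, Units.val_mul, add_mul]
  have h : iv (wP P p) * (wP P p : Mat r ℂ) = 1 := (wP P p).inv_mul
  congr 1
  · simp only [mul_assoc]
  · calc _ = (wP P p : Mat r ℂ) * theta P R p' * (iv (wP P p) * (wP P p : Mat r ℂ)) *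
          (wP P p' : Mat r ℂ) := by simp only [mul_assoc]
      _ = _ := by rw [h, mul_one]; simp only [mul_assoc]

theorem wP_replicate (q₀ : L) (α : Fin r → ℂ) (hq₀ : (P q₀ : Mat r ℂ) = diagonal α) (k : ℕ) :
    (wP P (List.replicate k q₀) : Mat r ℂ) = diagonal fun i => α i ^ k := by
  induction k with
  | zero => simp [wP]
  | succ k ih =>
    rw [List.replicate_succ, wP, Units.val_mul, ih, hq₀, diagonal_mul_diagonal]
    congr 1
    funext i
    rw [pow_succ']

theorem alpha_ne_zero (q₀ : L) (α : Fin r → ℂ) (hq₀ : (P q₀ : Mat r ℂ) = diagonal α)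
    (i : Fin r) : α i ≠ 0 := by
  intro h
  have h1 : IsUnit (P q₀ : Mat r ℂ) := (P q₀).isUnit
  rw [hq₀, Matrix.isUnit_iff_isUnit_det, det_diagonal, isUnit_iff_ne_zero] at h1
  exact h1 (Finset.prod_eq_zero (Finset.mem_univ i) h)

/-- First gauge: make the cocycle zero at `q₀`. -/
theorem gauge_q₀ (R : L → Mat r ℂ) (Q : Mat r ℂ) (q₀ : L) (α : Fin r → ℂ)
    (hinj : Function.Injective α) (hq₀ : (P q₀ : Mat r ℂ) = diagonal α)
    (hA : ∀ i j, (A : Mat r ℂ) i j ≠ 0)
    (H : ∀ p : List L, ∀ k : ℕ, 1 ≤ k →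
      trace ((Q + theta P R p) * ((wP P p * A : (Mat r ℂ)ˣ) : Mat r ℂ) ^ k) = 0) :
    ∃ w : Mat r ℂ,
      (R q₀ - (w - (P q₀ : Mat r ℂ) * w * iv (P q₀)) = 0) ∧
      ∀ p : List L, ∀ k : ℕ, 1 ≤ k →
      trace (((Q - (iv A * w * (A : Mat r ℂ) - w)) +
        theta P (fun q => R q - (w - (P q : Mat r ℂ) * w * iv (P q))) p) *
        ((wP P p * A : (Mat r ℂ)ˣ) : Mat r ℂ) ^ k) = 0 := by
  classical
  have h0 := alpha_ne_zero P q₀ α hq₀
  have hsub : ∀ (R : L → Mat r ℂ) (Q w : Mat r ℂ), (∀ p : List L, ∀ k : ℕ, 1 ≤ k →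
      trace ((Q + theta P R p) * ((wP P p * A : (Mat r ℂ)ˣ) : Mat r ℂ) ^ k) = 0) →
      ∀ p : List L, ∀ k : ℕ, 1 ≤ k →
      trace (((Q - (iv A * w * (A : Mat r ℂ) - w)) +
        theta P (fun q => R q - (w - (P q : Mat r ℂ) * w * iv (P q))) p) *
        ((wP P p * A : (Mat r ℂ)ˣ) : Mat r ℂ) ^ k) = 0 := by
    intro R Q w h p k h1
    rw [theta_sub, theta_cob]
    have e : Q - (iv A * w * (A : Mat r ℂ) - w) + (theta P R p -
        (w - (wP P p : Mat r ℂ) * w * iv (wP P p))) = (Q + theta P R p) -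
        (iv A * w * (A : Mat r ℂ) - (wP P p : Mat r ℂ) * w * iv (wP P p)) := by abel
    rw [e, sub_mul, trace_sub, h p k h1, trace_cob, sub_self]
  have hiv : iv (P q₀) = diagonal fun i => (α i)⁻¹ := by
    have h1 : (P q₀ : Mat r ℂ) * (diagonal fun i => (α i)⁻¹) = 1 := by
      rw [hq₀, diagonal_mul_diagonal]
      have : (fun i => α i * (α i)⁻¹) = fun _ => (1 : ℂ) := by
        funext i; exact mul_inv_cancel₀ (h0 i)
      rw [this, diagonal_one]
    have h2 : iv (P q₀) * (P q₀ : Mat r ℂ) = 1 := (P q₀).inv_mul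
    calc iv (P q₀) = iv (P q₀) * ((P q₀ : Mat r ℂ) * (diagonal fun i => (α i)⁻¹)) := by
          rw [h1, mul_one]
      _ = diagonal fun i => (α i)⁻¹ := by rw [← mul_assoc, h2, one_mul]
  have hwP := wP_replicate P q₀ α hq₀
  obtain ⟨w, hw⟩ : ∃ w : Mat r ℂ, w = Matrix.of fun i j =>
    if i = j then 0 else R q₀ i j / (1 - α i * (α j)⁻¹) := ⟨_, rfl⟩
  obtain ⟨R1, hR1⟩ : ∃ R1 : L → Mat r ℂ, R1 = fun q => R q - (w - (P q : Mat r ℂ) * w * iv (P q)) :=
    ⟨_, rfl⟩
  obtain ⟨Q1, hQ1⟩ : ∃ Q1 : Mat r ℂ, Q1 = Q - (iv A * w * (A : Mat r ℂ) - w) := ⟨_, rfl⟩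
  have H1 := hsub R Q w H
  refine ⟨w, ?_, H1⟩
  rw [← hR1, ← hQ1] at H1
  have hR1d : R1 q₀ = diagonal fun i => R q₀ i i := by
    rw [hR1]
    simp only
    rw [hiv, hq₀]
    ext i j
    simp only [Matrix.sub_apply, mul_diagonal, diagonal_mul, hw, Matrix.of_apply]
    by_cases hij : i = j
    · subst hij; simp
    · have hne : 1 - α i * (α j)⁻¹ ≠ 0 := by
        intro h
        apply hij
        apply hinj
        have h1 := h0 j
        field_simp at h
        linear_combination -h
      simp only [hij, if_false, diagonal_apply_ne _ hij]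
      have hq := div_mul_cancel₀ (R q₀ i j) hne
      linear_combination -hq
  have hth : ∀ k : ℕ, theta P R1 (List.replicate k q₀) =
      (k : ℂ) • diagonal fun i => R q₀ i i := by
    intro k
    induction k with
    | zero => simp [theta]
    | succ k ih =>
      rw [List.replicate_succ, theta, ih, hR1d]
      change _ + (P q₀ : Mat r ℂ) * _ * iv (P q₀) = _
      rw [hiv, hq₀]
      ext i j
      by_cases hij : i = j
      · subst hij
        simp only [Matrix.add_apply, mul_diagonal, diagonal_mul, Matrix.smul_apply,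
          diagonal_apply_eq, smul_eq_mul]
        have := h0 i
        push_cast
        field_simp
        ring
      · simp [hij]
  have hρ : ∀ i, R q₀ i i = 0 := by
    have h1 := confluent_zero α (fun i => ((A : Mat r ℂ) * Q1) i i)
      (fun i => R q₀ i i * (A : Mat r ℂ) i i) hinj h0 (by
        intro k
        have h2 := H1 (List.replicate k q₀) 1 le_rfl
        rw [pow_one, hth, Units.val_mul, hwP, add_mul, trace_add] at h2
        rw [← mul_assoc Q1, Matrix.trace_mul_comm (Q1 * _), ← mul_assoc, trace1,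
          Matrix.smul_mul, trace_smul, ← mul_assoc, diagonal_mul_diagonal,
          Matrix.trace_mul_comm (diagonal _), trace1, smul_eq_mul, Finset.mul_sum,
          ← Finset.sum_add_distrib] at h2
        rw [← h2]
        apply Finset.sum_congr rfl
        intro i _
        ring)
    intro i
    rcases mul_eq_zero.1 (h1 i) with h2 | h2
    · exact h2
    · exact absurd h2 (hA i i)
  have : R1 q₀ = 0 := by
    rw [hR1d]
    simp [hρ]
  rw [hR1] at this
  exact this

theorem pow_shift (X A : Mat r ℂ) (k : ℕ) : (A * X) ^ k * A = A * (X * A) ^ k := by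
  induction k with
  | zero => simp
  | succ k ih => rw [pow_succ', mul_assoc, ih, pow_succ']; simp only [mul_assoc]

/-- The conditions in terms of `μ`. -/
theorem exists_mu (R : L → Mat r ℂ) (Q : Mat r ℂ) (q₀ : L) (α : Fin r → ℂ)
    (hinj : Function.Injective α) (hq₀ : (P q₀ : Mat r ℂ) = diagonal α)
    (hA : ∀ i j, (A : Mat r ℂ) i j ≠ 0) (hR : R q₀ = 0)
    (H : ∀ p : List L, ∀ k : ℕ, 1 ≤ k →
      trace ((Q + theta P R p) * ((wP P p * A : (Mat r ℂ)ˣ) : Mat r ℂ) ^ k) = 0) :
    ∃ μ : Mat r ℂ, MuOK P (A : Mat r ℂ) μ ∧ (∀ p, dW P R p = μ ⊙ (wP P p : Mat r ℂ)) ∧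
      (A : Mat r ℂ) * Q = -(μᵀ ⊙ (A : Mat r ℂ)) := by
  have hth : ∀ k : ℕ, dW P R (List.replicate k q₀) = 0 := by
    intro k
    unfold dW
    have : theta P R (List.replicate k q₀) = 0 := by
      induction k with
      | zero => simp [theta]
      | succ k ih => rw [List.replicate_succ, theta, ih, hR]; simp
    rw [this, zero_mul]
  have hwP := wP_replicate P q₀ α hq₀
  -- the conditions in terms of `dW`
  have H' : ∀ (p : List L) (k : ℕ), trace ((A : Mat r ℂ) * Q * (wP P p : Mat r ℂ) *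
      ((A : Mat r ℂ) * (wP P p : Mat r ℂ)) ^ k) +
      trace (dW P R p * (A : Mat r ℂ) * ((wP P p : Mat r ℂ) * (A : Mat r ℂ)) ^ k) = 0 := by
    intro p k
    have h1 := H p (k + 1) (by omega)
    rw [add_mul, trace_add, Units.val_mul, pow_succ'] at h1
    rw [← h1]
    congr 1
    · calc trace ((A : Mat r ℂ) * Q * (wP P p : Mat r ℂ) *
            ((A : Mat r ℂ) * (wP P p : Mat r ℂ)) ^ k) =
            trace ((A : Mat r ℂ) * (Q * (wP P p : Mat r ℂ) *
            ((A : Mat r ℂ) * (wP P p : Mat r ℂ)) ^ k)) := by simp only [mul_assoc]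
        _ = trace (Q * (wP P p : Mat r ℂ) *
            (((A : Mat r ℂ) * (wP P p : Mat r ℂ)) ^ k * (A : Mat r ℂ))) := by
            rw [Matrix.trace_mul_comm]; simp only [mul_assoc]
        _ = _ := by rw [pow_shift]; simp only [mul_assoc]
    · unfold dW
      simp only [mul_assoc]
  -- first identity
  have K1 : ∀ (p : List L) (i j : Fin r), ((A : Mat r ℂ) * Q) j i * (wP P p : Mat r ℂ) i j +
      dW P R p i j * (A : Mat r ℂ) j i = 0 := by
    intro p
    apply double_interp hinj (fun i j => ((A : Mat r ℂ) * Q) j i * (wP P p : Mat r ℂ) i j +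
      dW P R p i j * (A : Mat r ℂ) j i)
    intro n n'
    have h1 := H' (List.replicate n q₀ ++ (p ++ List.replicate n' q₀)) 0
    rw [pow_zero, pow_zero, mul_one, mul_one, dW_append, dW_append, hth, hth, zero_mul, mul_zero,
      zero_add, add_zero, wP_append, wP_append, Units.val_mul, Units.val_mul, hwP, hwP] at h1
    rw [← mul_assoc (diagonal _) (wP P p : Mat r ℂ), trace_diag_mul] at h1
    have h2 : trace ((diagonal fun i => α i ^ n) * (dW P R p * diagonal fun i => α i ^ n') *
        (A : Mat r ℂ)) = ∑ i, ∑ j, (A : Mat r ℂ) j i * dW P R p i j * α i ^ n * α j ^ n' := by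
      rw [Matrix.trace_mul_comm, ← mul_assoc (diagonal _) (dW P R p), trace_diag_mul]
    rw [h2, ← Finset.sum_add_distrib] at h1
    rw [← h1]
    refine Finset.sum_congr rfl fun i _ => ?_
    rw [← Finset.sum_add_distrib]
    refine Finset.sum_congr rfl fun j _ => ?_
    ring
  obtain ⟨μ, hμ⟩ : ∃ μ : Mat r ℂ, μ = Matrix.of fun i j =>
    -(((A : Mat r ℂ) * Q) j i / (A : Mat r ℂ) j i) := ⟨_, rfl⟩
  have hN : (A : Mat r ℂ) * Q = -(μᵀ ⊙ (A : Mat r ℂ)) := by
    ext j i
    rw [Matrix.neg_apply, Matrix.hadamard_apply, Matrix.transpose_apply, hμ, Matrix.of_apply]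
    have := hA j i
    field_simp
  have hD : ∀ p, dW P R p = μ ⊙ (wP P p : Mat r ℂ) := by
    intro p
    ext i j
    have h1 := K1 p i j
    rw [Matrix.hadamard_apply, hμ, Matrix.of_apply]
    have h2 := hA j i
    field_simp
    linear_combination h1
  refine ⟨μ, ⟨?_, ?_⟩, hD, hN⟩
  · intro p p' i j k h1 h2
    have h3 := single_interp hinj (fun j => (μ i k - μ i j - μ j k) *
      ((wP P p : Mat r ℂ) i j * (wP P p' : Mat r ℂ) j k)) (by
        intro n
        have h4 := hD (p ++ (List.replicate n q₀ ++ p'))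
        rw [dW_append, dW_append, hth, zero_mul, zero_add, hD, hD] at h4
        simp only [wP_append, Units.val_mul, hwP] at h4
        have h5 := congrFun (congrFun h4 i) k
        rw [Matrix.add_apply, Matrix.hadamard_apply, Matrix.mul_apply, Matrix.mul_apply,
          Matrix.mul_apply, Finset.mul_sum, ← Finset.sum_add_distrib] at h5
        rw [← sub_eq_zero, ← Finset.sum_sub_distrib] at h5
        rw [← neg_eq_zero, ← Finset.sum_neg_distrib, ← h5]
        refine Finset.sum_congr rfl fun j _ => ?_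
        simp only [Matrix.hadamard_apply, Matrix.diagonal_mul]
        ring) j
    rcases mul_eq_zero.1 h3 with h | h
    · linear_combination h
    · exact absurd h (mul_ne_zero h1 h2)
  · intro p k
    have h1 := H' p k
    rw [hN, hD] at h1
    unfold Phi
    rw [Matrix.neg_mul, Matrix.neg_mul, trace_neg] at h1
    linear_combination h1

/-- Reduction of the dual property to `μ`. -/
theorem dual_of_mu (q₀ : L) (α : Fin r → ℂ)
    (hinj : Function.Injective α) (hq₀ : (P q₀ : Mat r ℂ) = diagonal α)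
    (hA : ∀ i j, (A : Mat r ℂ) i j ≠ 0)
    (hμ : ∀ μ : Mat r ℂ, MuOK P (A : Mat r ℂ) μ →
      ∃ η : Fin r → ℂ, ∀ i j, μ i j = η i - η j) : DualProp P A := by
  intro R Q H
  obtain ⟨w, hw, H1⟩ := gauge_q₀ P A R Q q₀ α hinj hq₀ hA H
  obtain ⟨R1, hR1⟩ : ∃ R1 : L → Mat r ℂ, R1 = fun q => R q - (w - (P q : Mat r ℂ) * w * iv (P q)) :=
    ⟨_, rfl⟩
  obtain ⟨Q1, hQ1⟩ : ∃ Q1 : Mat r ℂ, Q1 = Q - (iv A * w * (A : Mat r ℂ) - w) := ⟨_, rfl⟩
  rw [← hR1, ← hQ1] at H1
  have hR10 : R1 q₀ = 0 := by rw [hR1]; exact hw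
  obtain ⟨μ, hOK, hD, hN⟩ := exists_mu P A R1 Q1 q₀ α hinj hq₀ hA hR10 H1
  obtain ⟨θ, hθ⟩ := hμ μ hOK
  have hcob : ∀ X : Mat r ℂ, μ ⊙ X = diagonal θ * X - X * diagonal θ := by
    intro X
    ext i j
    rw [Matrix.hadamard_apply, Matrix.sub_apply, Matrix.diagonal_mul, Matrix.mul_diagonal, hθ]
    ring
  have hcobt : ∀ X : Mat r ℂ, -(μᵀ ⊙ X) = diagonal θ * X - X * diagonal θ := by
    intro X
    ext i j
    rw [Matrix.neg_apply, Matrix.hadamard_apply, Matrix.transpose_apply, Matrix.sub_apply,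
      Matrix.diagonal_mul, Matrix.mul_diagonal, hθ]
    ring
  have hR1q : ∀ q, R1 q = diagonal θ - (P q : Mat r ℂ) * diagonal θ * iv (P q) := by
    intro q
    have h1 := hD [q]
    have e1 : theta P R1 [q] = R1 q := by simp [theta]
    have e2 : wP P [q] = P q := by simp [wP]
    rw [dW, e1, e2, hcob] at h1
    have h2 : (P q : Mat r ℂ) * iv (P q) = 1 := (P q).mul_inv
    calc R1 q = R1 q * (P q : Mat r ℂ) * iv (P q) := by rw [mul_assoc, h2, mul_one]
      _ = _ := by rw [h1, sub_mul, mul_assoc, h2, mul_one]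
  have hAi : iv A * (A : Mat r ℂ) = 1 := A.inv_mul
  have hQ1q : Q1 = iv A * diagonal θ * (A : Mat r ℂ) - diagonal θ := by
    calc Q1 = iv A * ((A : Mat r ℂ) * Q1) := by rw [← mul_assoc, hAi, one_mul]
      _ = _ := by rw [hN, hcobt, mul_sub, ← mul_assoc, ← mul_assoc, hAi, one_mul]
  refine ⟨w + diagonal θ, ?_, ?_⟩
  · intro q
    have h1 := hR1q q
    rw [hR1] at h1
    simp only at h1
    rw [sub_eq_iff_eq_add] at h1
    rw [h1, mul_add, add_mul]
    abel
  · rw [hQ1, sub_eq_iff_eq_add] at hQ1q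
    rw [hQ1q, mul_add, add_mul]
    abel

end

end Vale.Agent.P002R
end

section

/-! Determinant lemma for rank one updates over any commutative ring. -/

namespace Vale.Agent.P002

open Matrix

variable {ι : Type*} [Fintype ι] [DecidableEq ι]

theorem det_add_vecMulVec_field {K : Type*} [Field K] (N : Matrix ι ι K) (u v : ι → K)
    (hN : det N ≠ 0) :
    det (N + vecMulVec u v) = det N + v ⬝ᵥ (adjugate N *ᵥ u) := by
  have hu : IsUnit N.det := isUnit_iff_ne_zero.2 hN
  have h1 : vecMulVec u v = replicateCol Unit u * replicateRow Unit v := by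
    ext i j; simp [vecMulVec_apply, mul_apply]
  rw [h1, det_add_replicateCol_mul_replicateRow hu]
  have h2 : (1 + replicateRow Unit v * N⁻¹ * replicateCol Unit u).det
      = 1 + v ⬝ᵥ (N⁻¹ *ᵥ u) := by
    rw [det_unique]
    simp [mul_apply, dotProduct, mulVec, Finset.sum_mul, Finset.mul_sum]
    rw [Finset.sum_comm]
    simp [mul_assoc]
  rw [h2, inv_def, Ring.inverse_eq_inv']
  simp only [smul_mulVec, dotProduct_smul, smul_eq_mul]
  field_simp

/-- The rank one update formula is natural under ring homomorphisms. -/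
theorem rank_one_map {R S : Type*} [CommRing R] [CommRing S] (φ : R →+* S) (M : Matrix ι ι R)
    (u v : ι → R) :
    φ (det (M + vecMulVec u v) - (det M + v ⬝ᵥ (adjugate M *ᵥ u))) =
      det (M.map φ + vecMulVec (fun i => φ (u i)) fun i => φ (v i)) -
        (det (M.map φ) + (fun i => φ (v i)) ⬝ᵥ (adjugate (M.map φ) *ᵥ fun i => φ (u i))) := by
  have hadj : adjugate (M.map φ) = (adjugate M).map φ := by
    have := RingHom.map_adjugate φ M
    exact this.symm
  rw [map_sub, map_add, RingHom.map_det, RingHom.map_det, hadj]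
  congr 1
  · congr 1
    ext i j
    simp [vecMulVec_apply]
  · congr 1
    simp [dotProduct, mulVec, map_sum]

theorem det_add_vecMulVec' {R : Type*} [CommRing R] (M : Matrix ι ι R) (u v : ι → R) :
    det (M + vecMulVec u v) = det M + v ⬝ᵥ (adjugate M *ᵥ u) := by
  let P := MvPolynomial ((ι × ι) ⊕ (ι ⊕ ι)) ℤ
  let K := FractionRing P
  let M0 : Matrix ι ι P := Matrix.of fun i j => MvPolynomial.X (Sum.inl (i, j))
  let u0 : ι → P := fun i => MvPolynomial.X (Sum.inr (Sum.inl i))
  let v0 : ι → P := fun i => MvPolynomial.X (Sum.inr (Sum.inr i))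
  have hM0 : M0.det ≠ 0 := by
    let ρ : MvPolynomial (ι × ι) ℤ →ₐ[ℤ] P := MvPolynomial.rename Sum.inl
    have h1 : M0 = (mvPolynomialX ι ι ℤ).map ρ := by
      ext1 i j
      exact (MvPolynomial.rename_X _ _).symm
    have h2 : M0.det = ρ (mvPolynomialX ι ι ℤ).det := by
      rw [h1]
      exact (RingHom.map_det ρ.toRingHom _).symm
    rw [h2]
    intro h3
    have hinj : Function.Injective ρ := MvPolynomial.rename_injective _ Sum.inl_injective
    exact det_mvPolynomialX_ne_zero ι ℤ (hinj (h3.trans (map_zero ρ).symm))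
  have hzero : det (M0 + vecMulVec u0 v0) - (det M0 + v0 ⬝ᵥ (adjugate M0 *ᵥ u0)) = 0 := by
    apply FaithfulSMul.algebraMap_injective P K
    rw [rank_one_map (algebraMap P K), map_zero, sub_eq_zero]
    apply det_add_vecMulVec_field
    have : det (M0.map (algebraMap P K)) = algebraMap P K M0.det :=
      (RingHom.map_det (algebraMap P K) M0).symm
    rw [this]
    intro h
    exact hM0 (FaithfulSMul.algebraMap_injective P K (h.trans (map_zero _).symm))
  let e : P →+* R := MvPolynomial.eval₂Hom (Int.castRingHom R)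
    (Sum.elim (fun p => M p.1 p.2) (Sum.elim u v))
  have h := congrArg e hzero
  rw [rank_one_map e, map_zero, sub_eq_zero] at h
  have h1 : M0.map e = M := by
    ext1 i j
    exact MvPolynomial.eval₂Hom_X' _ _ _
  have h2 : (fun i => e (u0 i)) = u := by
    funext i
    exact MvPolynomial.eval₂Hom_X' _ _ _
  have h3 : (fun i => e (v0 i)) = v := by
    funext i
    exact MvPolynomial.eval₂Hom_X' _ _ _
  rw [h1, h2, h3] at h
  exact h

end Vale.Agent.P002
end

section

/-!
# The dual lemma for block data, part B: block scalars and block diagonal parts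
-/

namespace Vale.Agent.P002R

open Matrix

variable {r : ℕ}

/-- Multiplicative independence up to degree `D`. -/
def FreeUpTo (D : ℕ) (τ : Fin r → ℂ) : Prop :=
  ∀ e e' : Fin r → ℕ, ∑ i, e i = ∑ i, e' i → ∑ i, e i ≤ D →
    ∏ i, τ i ^ e i = ∏ i, τ i ^ e' i → e = e'

/-- Block data: after conjugation by `U` the matrices `P q` are block upper triangular for the
block function `c`, the blocks are irreducible, `P q₀` is diagonal with distinct entries `α` and
`α ^ M` is a block scalar with multiplicatively independent entries (up to degree `2 r + 3`). -/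
structure BlockData {L : Type*} (P : L → (Mat r ℂ)ˣ) (q₀ : L) (U : (Mat r ℂ)ˣ) (α : Fin r → ℂ)
    (c : Fin r → Fin r) (M : ℕ) (τ : Fin r → ℂ) : Prop where
  diag : (P q₀ : Mat r ℂ) = (U : Mat r ℂ) * diagonal α * ((U⁻¹ : (Mat r ℂ)ˣ) : Mat r ℂ)
  inj : Function.Injective α
  tri : ∀ q i j, c j < c i → ((U⁻¹ * P q * U : (Mat r ℂ)ˣ) : Mat r ℂ) i j = 0
  conn : ∀ i j, c i = c j → Relation.ReflTransGen
    (fun i j => ∃ q, ((U⁻¹ * P q * U : (Mat r ℂ)ˣ) : Mat r ℂ) i j ≠ 0) i j
  pow : ∀ i, α i ^ M = τ (c i)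
  free : FreeUpTo (2 * r + 3) τ

theorem homog_eq_zero {d D : ℕ} (τ : Fin r → ℂ) (hτ : FreeUpTo D τ) (hd : d ≤ D)
    (g : MvPolynomial (Fin r) ℂ) (hg : g.IsHomogeneous d)
    (h : ∀ n : ℕ, MvPolynomial.eval (fun b => τ b ^ n) g = 0) : g = 0 := by
  classical
  ext s₀
  rw [MvPolynomial.coeff_zero]
  by_contra hs₀
  have hdeg : ∀ s : Fin r →₀ ℕ, s ∈ g.support → ∑ i, s i = d := by
    intro s hs
    by_contra hne
    rw [MvPolynomial.mem_support_iff] at hs
    apply hs
    apply hg.coeff_eq_zero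
    rw [Finsupp.degree_eq_sum]
    exact hne
  have hmem : s₀ ∈ g.support := MvPolynomial.mem_support_iff.2 hs₀
  have h1 := interp_zero (S := {s // s ∈ g.support}) (fun s => ∏ i, τ i ^ (s : Fin r →₀ ℕ) i)
    (fun s => if (s : Fin r →₀ ℕ) = s₀ then (1 : ℂ) else 0) (fun s => g.coeff s)
    (by
      intro s s' hss
      have h2 := hτ s.1 s'.1 (by rw [hdeg _ s.2, hdeg _ s'.2]) (by rw [hdeg _ s.2]; exact hd) hss
      have h3 : s.1 = s'.1 := DFunLike.coe_injective h2
      simp only [h3])
    (by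
      intro n
      have h2 := MvPolynomial.eval_eq' (fun b => τ b ^ n) g
      rw [h n] at h2
      have h3 := Finset.sum_coe_sort g.support
        (fun s : Fin r →₀ ℕ => g.coeff s * ∏ i, (τ i ^ n) ^ s i)
      rw [h2, ← h3]
      refine Finset.sum_congr rfl fun s _ => ?_
      congr 1
      rw [← Finset.prod_pow]
      refine Finset.prod_congr rfl fun i _ => ?_
      rw [← pow_mul, ← pow_mul, mul_comm])
  rw [Finset.sum_eq_single (⟨s₀, hmem⟩ : {s // s ∈ g.support})] at h1
  · rw [if_pos rfl, mul_one] at h1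
    exact hs₀ h1
  · intro s _ hs
    rw [if_neg (fun h => hs (Subtype.ext h)), mul_zero]
  · intro h; exact absurd (Finset.mem_univ _) h

/-! ### Homogeneous matrices -/

/-- All entries are homogeneous of degree `d`. -/
def HomM (d : ℕ) (X : Mat r (MvPolynomial (Fin r) ℂ)) : Prop := ∀ i j, (X i j).IsHomogeneous d

theorem HomM.mul {d e : ℕ} {X Y : Mat r (MvPolynomial (Fin r) ℂ)} (hX : HomM d X)
    (hY : HomM e Y) : HomM (d + e) (X * Y) := by
  intro i j
  rw [Matrix.mul_apply]
  exact MvPolynomial.IsHomogeneous.sum _ _ _ fun k _ => (hX i k).mul (hY k j)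

theorem HomM.pow {d : ℕ} {X : Mat r (MvPolynomial (Fin r) ℂ)} (hX : HomM d X) (k : ℕ) :
    HomM (d * k) (X ^ k) := by
  induction k with
  | zero =>
    rw [pow_zero, mul_zero]
    intro i j
    rw [Matrix.one_apply]
    split_ifs
    · exact MvPolynomial.isHomogeneous_one _ _
    · exact MvPolynomial.isHomogeneous_zero _ _ _
  | succ k ih =>
    rw [pow_succ, mul_add, mul_one]
    exact ih.mul hX

theorem HomM.const (X : Mat r ℂ) : HomM 0 (X.map (MvPolynomial.C (σ := Fin r))) := by
  intro i j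
  rw [Matrix.map_apply]
  exact MvPolynomial.isHomogeneous_C _ _

theorem HomM.hadamard {d : ℕ} (μ : Mat r ℂ) {X : Mat r (MvPolynomial (Fin r) ℂ)} (hX : HomM d X) :
    HomM d (μ.map (MvPolynomial.C (σ := Fin r)) ⊙ X) := by
  intro i j
  rw [Matrix.hadamard_apply, Matrix.map_apply]
  exact (hX i j).C_mul _

theorem HomM.trace {d : ℕ} {X : Mat r (MvPolynomial (Fin r) ℂ)} (hX : HomM d X) :
    (Matrix.trace X).IsHomogeneous d :=
  MvPolynomial.IsHomogeneous.sum _ _ _ fun i _ => hX i i

/-- The generic block scalar. -/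
noncomputable def genD (c : Fin r → Fin r) : Mat r (MvPolynomial (Fin r) ℂ) :=
  diagonal fun i => MvPolynomial.X (c i)

theorem HomM.genD (c : Fin r → Fin r) : HomM 1 (genD c) := by
  intro i j
  unfold P002R.genD
  by_cases h : i = j
  · subst h; rw [diagonal_apply_eq]; exact MvPolynomial.isHomogeneous_X _ _
  · rw [diagonal_apply_ne _ h]; exact MvPolynomial.isHomogeneous_zero _ _ _

theorem Phi_map {S T : Type*} [CommRing S] [CommRing T] (f : S →+* T) (k : ℕ)
    (μ A X : Mat r S) : f (Phi k μ A X) = Phi k (μ.map f) (A.map f) (X.map f) := by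
  have hh : ∀ U V : Mat r S, (U ⊙ V).map f = U.map f ⊙ V.map f := by
    intro U V
    ext i j
    simp
  have hp : ∀ (U : Mat r S) (k : ℕ), (U ^ k).map f = (U.map f) ^ k := fun U k =>
    map_pow (RingHom.mapMatrix f) U k
  have ht : ∀ U : Mat r S, f (trace U) = trace (U.map f) := by
    intro U
    simp [Matrix.trace, map_sum]
  unfold Phi
  rw [map_sub, ht, ht, Matrix.map_mul, Matrix.map_mul, Matrix.map_mul, Matrix.map_mul, hh, hh, hp,
    hp, Matrix.map_mul, Matrix.map_mul, Matrix.transpose_map]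

theorem Phi_homog (k : ℕ) (μ A : Mat r ℂ) {X : Mat r (MvPolynomial (Fin r) ℂ)}
    (hX : HomM 1 X) :
    (Phi k (μ.map (MvPolynomial.C (σ := Fin r))) (A.map (MvPolynomial.C (σ := Fin r))) X).IsHomogeneous
      (k + 1) := by
  unfold Phi
  apply MvPolynomial.IsHomogeneous.sub
  · have h := (((HomM.hadamard μ hX).mul (HomM.const A)).mul ((hX.mul (HomM.const A)).pow k)).trace
    have e : 1 + 0 + (1 + 0) * k = k + 1 := by ring
    rwa [e] at h
  · have h := (((HomM.hadamard μᵀ (HomM.const A)).mul hX).mul (((HomM.const A).mul hX).pow k)).trace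
    have e : 0 + 1 + (0 + 1) * k = k + 1 := by ring
    rw [e] at h
    rw [← Matrix.transpose_map]
    exact h

/-- Extension from powers of `τ` to all block scalars. -/
theorem extend_block {k D : ℕ} (hk : k + 1 ≤ D) (τ : Fin r → ℂ) (hτ : FreeUpTo D τ)
    (c : Fin r → Fin r) (μ A X Y : Mat r ℂ)
    (h : ∀ n : ℕ, Phi k μ A (X * diagonal (fun i => τ (c i) ^ n) * Y) = 0) (δ : Fin r → ℂ) :
    Phi k μ A (X * diagonal (fun i => δ (c i)) * Y) = 0 := by
  obtain ⟨C, hC⟩ : ∃ C : ℂ →+* MvPolynomial (Fin r) ℂ, C = MvPolynomial.C := ⟨_, rfl⟩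
  obtain ⟨Z, hZ⟩ : ∃ Z : Mat r (MvPolynomial (Fin r) ℂ), Z = X.map C * genD c * Y.map C :=
    ⟨_, rfl⟩
  have hZh : HomM 1 Z := by
    rw [hZ, hC]
    have h := ((HomM.const X).mul (HomM.genD c)).mul (HomM.const Y)
    simpa using h
  have hev : ∀ δ : Fin r → ℂ, MvPolynomial.eval δ (Phi k (μ.map C) (A.map C) Z) =
      Phi k μ A (X * diagonal (fun i => δ (c i)) * Y) := by
    intro δ
    have hid : ∀ U : Mat r ℂ, (U.map C).map (MvPolynomial.eval δ) = U := by
      intro U
      ext i j
      simp [hC]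
    rw [Phi_map, hid, hid, hZ, Matrix.map_mul, Matrix.map_mul, hid, hid]
    congr 3
    ext i j
    rw [Matrix.map_apply, genD]
    by_cases hij : i = j
    · subst hij; simp
    · simp [diagonal_apply_ne _ hij]
  have hz : Phi k (μ.map C) (A.map C) Z = 0 := by
    refine homog_eq_zero τ hτ hk _ ?_ fun n => ?_
    · rw [hC]; exact Phi_homog k μ A hZh
    · rw [hev]
      exact h n
  rw [← hev, hz, map_zero]

/-- The block diagonal part. -/
def blkD (c : Fin r → Fin r) (X : Mat r ℂ) : Mat r ℂ :=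
  Matrix.of fun i j => if c i = c j then X i j else 0

theorem Phi_continuous (k : ℕ) (μ A : Mat r ℂ) {f : ℂ → Mat r ℂ} (hf : Continuous f) :
    Continuous fun t => Phi k μ A (f t) := by
  unfold Phi
  have h1 : Continuous fun t => μ ⊙ f t := by
    apply continuous_matrix
    intro i j
    simp only [Matrix.hadamard_apply]
    exact continuous_const.mul (hf.matrix_elem i j)
  exact (((h1.matrix_mul continuous_const).matrix_mul
    ((hf.matrix_mul continuous_const).pow k)).matrix_trace).sub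
    (((continuous_const.matrix_mul hf).matrix_mul
    ((continuous_const.matrix_mul hf).pow k)).matrix_trace)

section

variable {L : Type*} (P : L → (Mat r ℂ)ˣ)

/-- Products of block triangular matrices are block triangular. -/
theorem wP_tri (c : Fin r → Fin r) (htri : ∀ q i j, c j < c i → (P q : Mat r ℂ) i j = 0)
    (p : List L) (i j : Fin r) (hij : c j < c i) : (wP P p : Mat r ℂ) i j = 0 := by
  induction p generalizing i j with
  | nil =>
    rw [wP, Units.val_one, Matrix.one_apply_ne]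
    intro h
    rw [h] at hij
    exact lt_irrefl _ hij
  | cons q p ih =>
    rw [wP, Units.val_mul, Matrix.mul_apply]
    apply Finset.sum_eq_zero
    intro l _
    rcases lt_or_ge (c l) (c i) with h | h
    · rw [htri q i l h, zero_mul]
    · rw [ih l j (lt_of_lt_of_le hij h), mul_zero]

/-- `Phi` vanishes at all block scalar multiples of the block diagonal parts. -/
theorem Phi_block (A μ : Mat r ℂ) (q₀ : L) (α : Fin r → ℂ) (hq₀ : (P q₀ : Mat r ℂ) = diagonal α)
    (c : Fin r → Fin r) (htri : ∀ q i j, c j < c i → (P q : Mat r ℂ) i j = 0)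
    (M D : ℕ) (τ : Fin r → ℂ) (hpow : ∀ i, α i ^ M = τ (c i)) (hτ : FreeUpTo D τ)
    (h : ∀ (p : List L) (k : ℕ), Phi k μ A (wP P p : Mat r ℂ) = 0) (p : List L) (k : ℕ)
    (hk : k + 1 ≤ D) (δ : Fin r → ℂ) :
    Phi k μ A (diagonal (fun i => δ (c i)) * blkD c (wP P p : Mat r ℂ)) = 0 := by
  have hT : ∀ n : ℕ, (wP P (List.replicate (M * n) q₀) : Mat r ℂ) =
      diagonal fun i => τ (c i) ^ n := by
    intro n
    rw [wP_replicate P q₀ α hq₀]
    congr 1
    funext i
    rw [pow_mul, hpow]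
  have h1 : ∀ (p : List L) (δ : Fin r → ℂ),
      Phi k μ A (diagonal (fun i => δ (c i)) * (wP P p : Mat r ℂ)) = 0 := by
    intro p δ
    have := extend_block hk τ hτ c μ A 1 (wP P p : Mat r ℂ) (fun n => by
      rw [← hT n, one_mul, ← Units.val_mul, ← wP_append]
      exact h _ k) δ
    rwa [one_mul] at this
  have h2 : ∀ (δ δ' : Fin r → ℂ), Phi k μ A (diagonal (fun i => δ (c i)) * (wP P p : Mat r ℂ) *
      diagonal (fun i => δ' (c i))) = 0 := by
    intro δ δ'
    have := extend_block hk τ hτ c μ A (diagonal (fun i => δ (c i)) * (wP P p : Mat r ℂ)) 1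
      (fun n => by
        rw [← hT n, mul_one, mul_assoc, ← Units.val_mul, ← wP_append]
        exact h1 _ δ) δ'
    rwa [mul_one] at this
  -- the degeneration
  obtain ⟨W, hW⟩ : ∃ W : ℂ → Mat r ℂ, W = fun t => Matrix.of fun i j =>
    if c i ≤ c j then t ^ ((c j : ℕ) - (c i : ℕ)) * (wP P p : Mat r ℂ) i j else 0 := ⟨_, rfl⟩
  have hWc : Continuous W := by
    rw [hW]
    apply continuous_matrix
    intro i j
    simp only [Matrix.of_apply]
    split_ifs
    · exact (continuous_id.pow _).mul continuous_const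
    · exact continuous_const
  have hW0 : W 0 = blkD c (wP P p : Mat r ℂ) := by
    rw [hW]
    ext i j
    simp only [blkD, Matrix.of_apply]
    by_cases h3 : c i = c j
    · rw [if_pos h3, if_pos h3.le, h3, Nat.sub_self, pow_zero, one_mul]
    · rw [if_neg h3]
      split_ifs with h4
      · rw [zero_pow, zero_mul]
        have : (c i : ℕ) ≠ (c j : ℕ) := fun h => h3 (Fin.ext h)
        have : (c i : ℕ) ≤ (c j : ℕ) := h4
        omega
      · rfl
  have hWt : ∀ t : ℂ, t ≠ 0 → diagonal (fun i => δ (c i)) * W t =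
      diagonal (fun i => (fun b : Fin r => δ b * (t⁻¹) ^ (b : ℕ)) (c i)) * (wP P p : Mat r ℂ) *
        diagonal (fun i => (fun b : Fin r => t ^ (b : ℕ)) (c i)) := by
    intro t ht
    ext i j
    rw [mul_diagonal, diagonal_mul, diagonal_mul, hW]
    simp only [Matrix.of_apply]
    split_ifs with h4
    · have h5 : t ^ ((c j : ℕ)) = t ^ ((c j : ℕ) - (c i : ℕ)) * t ^ (c i : ℕ) := by
        rw [← pow_add, Nat.sub_add_cancel h4]
      rw [h5, inv_pow]
      have h6 : t ^ (c i : ℕ) ≠ 0 := pow_ne_zero _ ht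
      field_simp
    · rw [wP_tri P c htri p i j (not_le.1 h4)]
      ring
  have hcl : (fun t => Phi k μ A (diagonal (fun i => δ (c i)) * W t)) = fun _ => 0 := by
    apply Continuous.ext_on (dense_compl_singleton (0 : ℂ))
      (Phi_continuous k μ A (continuous_const.matrix_mul hWc)) continuous_const
    intro t ht
    simp only
    rw [hWt t ht]
    exact h2 (fun b : Fin r => δ b * (t⁻¹) ^ (b : ℕ)) (fun b : Fin r => t ^ (b : ℕ))
  have h5 : Phi k μ A (diagonal (fun i => δ (c i)) * W 0) = 0 := congrFun hcl 0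
  rwa [hW0] at h5

end

end Vale.Agent.P002R
end

section

/-!
# The dual lemma for block data, part C: the limit `A = 1 + ε B`, `ε → 0`
-/

namespace Vale.Agent.P002R

open Matrix Filter Topology

variable {r : ℕ}

/-- Block diagonal matrices. -/
def BD (c : Fin r → Fin r) (X : Mat r ℂ) : Prop := ∀ i j, c i ≠ c j → X i j = 0

theorem BD.mul {c : Fin r → Fin r} {X Y : Mat r ℂ} (hX : BD c X) (hY : BD c Y) : BD c (X * Y) := by
  intro i j hij
  rw [Matrix.mul_apply]
  apply Finset.sum_eq_zero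
  intro l _
  by_cases h : c i = c l
  · rw [hY l j (fun h' => hij (h.trans h')), mul_zero]
  · rw [hX i l h, zero_mul]

theorem BD.pow {c : Fin r → Fin r} {X : Mat r ℂ} (hX : BD c X) (k : ℕ) : BD c (X ^ k) := by
  induction k with
  | zero =>
    intro i j hij
    rw [pow_zero, Matrix.one_apply_ne]
    intro h; exact hij (by rw [h])
  | succ k ih => rw [pow_succ]; exact ih.mul hX

theorem BD.blkD (c : Fin r → Fin r) (X : Mat r ℂ) : BD c (blkD c X) := by
  intro i j hij
  rw [P002R.blkD, Matrix.of_apply, if_neg hij]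

theorem BD.diagonal (c : Fin r → Fin r) (a : Fin r → ℂ) : BD c (diagonal a) := by
  intro i j hij
  exact diagonal_apply_ne _ (fun h => hij (by rw [h]))

theorem trace_mul_BD {c : Fin r → Fin r} {V X : Mat r ℂ} (hV : ∀ i j, c i = c j → V i j = 0)
    (hX : BD c X) : trace (V * X) = 0 := by
  rw [Matrix.trace]
  apply Finset.sum_eq_zero
  intro i _
  rw [Matrix.diag_apply, Matrix.mul_apply]
  apply Finset.sum_eq_zero
  intro j _
  by_cases h : c i = c j
  · rw [hV i j h, zero_mul]
  · rw [hX j i (Ne.symm h), mul_zero]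

theorem pow_expand (ε : ℂ) (B X : Mat r ℂ) (k : ℕ) : ((1 + ε • B) * X) ^ k =
    X ^ k + ε • ∑ l ∈ Finset.range k, ((1 + ε • B) * X) ^ l * (B * X ^ (k - l)) := by
  induction k with
  | zero => simp
  | succ k ih =>
    have h1 : (1 + ε • B) * X = X + ε • (B * X) := by
      rw [add_mul, one_mul, Matrix.smul_mul]
    rw [pow_succ]
    conv_lhs => rw [h1, mul_add]
    conv_lhs => rw [← h1]
    rw [Finset.sum_range_succ, smul_add, ← add_assoc, Nat.add_sub_cancel_left, pow_one,
      Matrix.mul_smul]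
    congr 1
    have h2 : ((1 + ε • B) * X) ^ k * X = X ^ (k + 1) +
        ε • ∑ l ∈ Finset.range k, ((1 + ε • B) * X) ^ l * (B * X ^ (k + 1 - l)) := by
      conv_lhs => rw [ih]
      rw [add_mul, ← pow_succ, Matrix.smul_mul, Finset.sum_mul]
      congr 2
      refine Finset.sum_congr rfl fun l hl => ?_
      have : k + 1 - l = (k - l) + 1 := by
        have := Finset.mem_range.1 hl
        omega
      rw [this, pow_succ, mul_assoc, mul_assoc]
    exact h2

/-- The functional after division by `ε`. -/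
def Gk (k : ℕ) (μ B : Mat r ℂ) (ε : ℂ) (X : Mat r ℂ) : ℂ :=
  ∑ l ∈ Finset.range k, trace ((μᵀ ⊙ B) * X * (((1 + ε • B) * X) ^ l * (B * X ^ (k - l))))

/-- The trilinear functional. -/
def Tri (μ B U₁ U₂ U₃ : Mat r ℂ) : ℂ := trace ((μᵀ ⊙ B) * U₁ * B * U₂ * B * U₃)

/-- The idempotent of a block. -/
def eb (c : Fin r → Fin r) (b : Fin r) : Mat r ℂ := diagonal fun i => if c i = b then 1 else 0

theorem had_one_add {c : Fin r → Fin r} (μ B : Mat r ℂ) (ε : ℂ)
    (hμ : ∀ i j, c i = c j → μ i j = 0) : μᵀ ⊙ (1 + ε • B) = ε • (μᵀ ⊙ B) := by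
  ext i j
  rw [Matrix.hadamard_apply, Matrix.smul_apply, Matrix.hadamard_apply, Matrix.add_apply,
    Matrix.smul_apply, smul_eq_mul, smul_eq_mul, Matrix.transpose_apply]
  by_cases h : i = j
  · subst h; rw [hμ i i rfl]; ring
  · rw [Matrix.one_apply_ne h]; ring

theorem had_BD {c : Fin r → Fin r} (μ X : Mat r ℂ) (hμ : ∀ i j, c i = c j → μ i j = 0)
    (hX : BD c X) : μ ⊙ X = 0 := by
  ext i j
  rw [Matrix.hadamard_apply, Matrix.zero_apply]
  by_cases h : c i = c j
  · rw [hμ i j h, zero_mul]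
  · rw [hX i j h, mul_zero]

theorem Phi_BD {c : Fin r → Fin r} (k : ℕ) (μ B X : Mat r ℂ) (ε : ℂ) (hε : ε ≠ 0)
    (hμ : ∀ i j, c i = c j → μ i j = 0) (hX : BD c X) (h : Phi k μ (1 + ε • B) X = 0) :
    trace ((μᵀ ⊙ B) * X * ((1 + ε • B) * X) ^ k) = 0 := by
  unfold Phi at h
  rw [had_BD μ X hμ hX, had_one_add μ B ε hμ, zero_mul, zero_mul, trace_zero, zero_sub,
    neg_eq_zero, Matrix.smul_mul, Matrix.smul_mul, trace_smul, smul_eq_mul] at h
  exact (mul_eq_zero.1 h).resolve_left hε

theorem Gk_eq_zero {c : Fin r → Fin r} (k : ℕ) (μ B X : Mat r ℂ) (ε : ℂ) (hε : ε ≠ 0)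
    (hμ : ∀ i j, c i = c j → μ i j = 0) (hX : BD c X) (h : Phi k μ (1 + ε • B) X = 0) :
    Gk k μ B ε X = 0 := by
  have h1 := Phi_BD k μ B X ε hε hμ hX h
  rw [pow_expand, mul_add, trace_add, mul_assoc, ← pow_succ',
    trace_mul_BD (c := c) (V := μᵀ ⊙ B) (fun i j hij => by
      rw [Matrix.hadamard_apply, Matrix.transpose_apply, hμ j i hij.symm, zero_mul])
      (hX.pow (k + 1)), zero_add, Matrix.mul_smul, trace_smul, smul_eq_mul,
    Finset.mul_sum, trace_sum] at h1
  exact (mul_eq_zero.1 h1).resolve_left hε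

theorem eb_mul_eb {c : Fin r → Fin r} {b b' : Fin r} (h : b ≠ b') : eb c b * eb c b' = 0 := by
  rw [eb, eb, diagonal_mul_diagonal, ← diagonal_zero]
  congr 1
  funext i
  by_cases h1 : c i = b
  · rw [if_pos h1, if_neg (fun h2 => h (h1.symm.trans h2)), mul_zero]
  · rw [if_neg h1, zero_mul]

/-- Sum of the six terms. -/
def Six (μ B : Mat r ℂ) (c : Fin r → Fin r) (b₁ b₂ b₃ : Fin r) : ℂ :=
  Tri μ B (eb c b₁) (eb c b₂) (eb c b₃) + Tri μ B (eb c b₂) (eb c b₃) (eb c b₁) +
  Tri μ B (eb c b₃) (eb c b₁) (eb c b₂) + Tri μ B (eb c b₁) (eb c b₃) (eb c b₂) +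
  Tri μ B (eb c b₃) (eb c b₂) (eb c b₁) + Tri μ B (eb c b₂) (eb c b₁) (eb c b₃)

theorem polarize {V A : Mat r ℂ} (e₁ e₂ e₃ : Mat r ℂ)
    (h : ∀ X ∈ ({e₁, e₂, e₃, e₁ + e₂, e₁ + e₃, e₂ + e₃, e₁ + e₂ + e₃} : Set (Mat r ℂ)),
      trace (V * X * (A * X) ^ 2) = 0) :
    trace (V * e₁ * A * e₂ * A * e₃) + trace (V * e₂ * A * e₃ * A * e₁) +
    trace (V * e₃ * A * e₁ * A * e₂) + trace (V * e₁ * A * e₃ * A * e₂) +
    trace (V * e₃ * A * e₂ * A * e₁) + trace (V * e₂ * A * e₁ * A * e₃) = 0 := by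
  have h1 := h e₁ (by simp)
  have h2 := h e₂ (by simp)
  have h3 := h e₃ (by simp)
  have h4 := h (e₁ + e₂) (by simp)
  have h5 := h (e₁ + e₃) (by simp)
  have h6 := h (e₂ + e₃) (by simp)
  have h7 := h (e₁ + e₂ + e₃) (by simp)
  simp only [pow_two, mul_add, add_mul, trace_add, ← mul_assoc] at h1 h2 h3 h4 h5 h6 h7 ⊢
  linear_combination h7 - h4 - h5 - h6 + h1 + h2 + h3

theorem Six_eq_zero {c : Fin r → Fin r} (μ B : Mat r ℂ) (ε : ℂ) (hε : ε ≠ 0)
    (hμ : ∀ i j, c i = c j → μ i j = 0) (b₁ b₂ b₃ : Fin r) (h12 : b₁ ≠ b₂) (h23 : b₂ ≠ b₃)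
    (h13 : b₁ ≠ b₃)
    (h : ∀ δ : Fin r → ℂ, Phi 2 μ (1 + ε • B) (diagonal fun i => δ (c i)) = 0) :
    Six μ B c b₁ b₂ b₃ = 0 := by
  have hX : ∀ δ : Fin r → ℂ, trace ((μᵀ ⊙ B) * (diagonal fun i => δ (c i)) *
      ((1 + ε • B) * (diagonal fun i => δ (c i))) ^ 2) = 0 := fun δ =>
    Phi_BD 2 μ B _ ε hε hμ (BD.diagonal c _) (h δ)
  have hδ : ∀ (s : Fin r → Prop) [DecidablePred s], (trace ((μᵀ ⊙ B) *
      (diagonal fun i => if s (c i) then (1 : ℂ) else 0) *
      ((1 + ε • B) * (diagonal fun i => if s (c i) then (1 : ℂ) else 0)) ^ 2) = 0) :=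
    fun s _ => hX fun b => if s b then 1 else 0
  have hp := polarize (V := μᵀ ⊙ B) (A := 1 + ε • B) (eb c b₁) (eb c b₂) (eb c b₃) (by
    intro X hXm
    simp only [Set.mem_insert_iff, Set.mem_singleton_iff] at hXm
    have key : ∀ (f : Fin r → ℂ), X = (diagonal fun i => f (c i)) → trace ((μᵀ ⊙ B) * X *
      ((1 + ε • B) * X) ^ 2) = 0 := by
      intro f hf
      rw [hf]; exact hX f
    rcases hXm with h | h | h | h | h | h | h
    · exact key (fun b => if b = b₁ then 1 else 0) h
    · exact key (fun b => if b = b₂ then 1 else 0) h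
    · exact key (fun b => if b = b₃ then 1 else 0) h
    · exact key (fun b => (if b = b₁ then 1 else 0) + (if b = b₂ then 1 else 0)) (by
        rw [h, eb, eb, diagonal_add])
    · exact key (fun b => (if b = b₁ then 1 else 0) + (if b = b₃ then 1 else 0)) (by
        rw [h, eb, eb, diagonal_add])
    · exact key (fun b => (if b = b₂ then 1 else 0) + (if b = b₃ then 1 else 0)) (by
        rw [h, eb, eb, diagonal_add])
    · exact key (fun b => (if b = b₁ then 1 else 0) + (if b = b₂ then 1 else 0) +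
        (if b = b₃ then 1 else 0)) (by
        rw [h, eb, eb, eb, diagonal_add, diagonal_add]))
  have hA : ∀ {b b' : Fin r}, b ≠ b' → eb c b * (1 + ε • B) * eb c b' =
      ε • (eb c b * B * eb c b') := by
    intro b b' hb
    rw [mul_add, add_mul, mul_one, eb_mul_eb hb, zero_add, Matrix.mul_smul, Matrix.smul_mul]
  have hT : ∀ {b b' b'' : Fin r}, b ≠ b' → b' ≠ b'' →
      trace ((μᵀ ⊙ B) * eb c b * (1 + ε • B) * eb c b' * (1 + ε • B) * eb c b'') =
        ε ^ 2 * Tri μ B (eb c b) (eb c b') (eb c b'') := by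
    intro b b' b'' h1 h2
    have hid : eb c b' * eb c b' = eb c b' := by
      rw [eb, diagonal_mul_diagonal]
      congr 1
      funext i
      split_ifs <;> simp
    have e1 : (μᵀ ⊙ B) * eb c b * (1 + ε • B) * eb c b' * (1 + ε • B) * eb c b'' =
        (μᵀ ⊙ B) * (eb c b * (1 + ε • B) * eb c b') * (eb c b' * (1 + ε • B) * eb c b'') := by
      calc _ = (μᵀ ⊙ B) * eb c b * (1 + ε • B) * (eb c b' * eb c b') * (1 + ε • B) * eb c b'' := by
            rw [hid]
        _ = _ := by simp only [mul_assoc]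
    have e2 : (μᵀ ⊙ B) * eb c b * B * eb c b' * B * eb c b'' =
        (μᵀ ⊙ B) * (eb c b * B * eb c b') * (eb c b' * B * eb c b'') := by
      calc _ = (μᵀ ⊙ B) * eb c b * B * (eb c b' * eb c b') * B * eb c b'' := by
            rw [hid]
        _ = _ := by simp only [mul_assoc]
    unfold Tri
    rw [e1, e2, hA h1, hA h2]
    simp only [Matrix.mul_smul, Matrix.smul_mul, smul_smul, trace_smul, smul_eq_mul]
    ring
  rw [hT h12 h23, hT h23 h13.symm, hT h13.symm h12, hT h13 h23.symm, hT h23.symm h12.symm,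
    hT h12.symm h13] at hp
  have hε2 : ε ^ 2 ≠ 0 := pow_ne_zero _ hε
  have : ε ^ 2 * Six μ B c b₁ b₂ b₃ = 0 := by
    unfold Six
    linear_combination hp
  exact (mul_eq_zero.1 this).resolve_left hε2

/-- The conditions in the limit. -/
structure LimOK {L : Type*} (P : L → (Mat r ℂ)ˣ) (c : Fin r → Fin r) (D : ℕ) (μ B : Mat r ℂ) :
    Prop where
  zero : ∀ i j, c i = c j → μ i j = 0
  two : ∀ (p : List L) (k : ℕ), k + 1 ≤ D → ∀ δ : Fin r → ℂ,
    Gk k μ B 0 (diagonal (fun i => δ (c i)) * blkD c (wP P p : Mat r ℂ)) = 0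
  three : ∀ b₁ b₂ b₃ : Fin r, b₁ ≠ b₂ → b₂ ≠ b₃ → b₁ ≠ b₃ → Six μ B c b₁ b₂ b₃ = 0

theorem tendsto_mul {f g : ℕ → Mat r ℂ} {a b : Mat r ℂ} (hf : Tendsto f atTop (𝓝 a))
    (hg : Tendsto g atTop (𝓝 b)) : Tendsto (fun n => f n * g n) atTop (𝓝 (a * b)) :=
  hf.mul hg

theorem tendsto_trace {f : ℕ → Mat r ℂ} {a : Mat r ℂ} (hf : Tendsto f atTop (𝓝 a)) :
    Tendsto (fun n => trace (f n)) atTop (𝓝 (trace a)) :=
  ((continuous_id (X := Mat r ℂ)).matrix_trace.tendsto a).comp hf

theorem tendsto_had {f g : ℕ → Mat r ℂ} {a b : Mat r ℂ} (hf : Tendsto f atTop (𝓝 a))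
    (hg : Tendsto g atTop (𝓝 b)) : Tendsto (fun n => (f n)ᵀ ⊙ g n) atTop (𝓝 (aᵀ ⊙ b)) := by
  refine tendsto_pi_nhds.2 fun i => tendsto_pi_nhds.2 fun j => ?_
  have h1 : Tendsto (fun n => f n j i) atTop (𝓝 (a j i)) :=
    tendsto_pi_nhds.1 (tendsto_pi_nhds.1 hf j) i
  have h2 : Tendsto (fun n => g n i j) atTop (𝓝 (b i j)) :=
    tendsto_pi_nhds.1 (tendsto_pi_nhds.1 hg i) j
  exact h1.mul h2

/-- Passage to the limit. -/
theorem limOK_of_seq {L : Type*} (P : L → (Mat r ℂ)ˣ) (c : Fin r → Fin r) (D : ℕ) (hD : 3 ≤ D)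
    (μ B : ℕ → Mat r ℂ) (ε : ℕ → ℂ) (hε : ∀ n, ε n ≠ 0) (μ' B' : Mat r ℂ)
    (hμ : Tendsto μ atTop (𝓝 μ')) (hB : Tendsto B atTop (𝓝 B')) (hε0 : Tendsto ε atTop (𝓝 0))
    (hz : ∀ n i j, c i = c j → μ n i j = 0)
    (h : ∀ n (p : List L) (k : ℕ), k + 1 ≤ D → ∀ δ : Fin r → ℂ,
      Phi k (μ n) (1 + ε n • B n) (diagonal (fun i => δ (c i)) * blkD c (wP P p : Mat r ℂ)) = 0) :
    LimOK P c D μ' B' where
  zero i j hij := by
    have h1 : Tendsto (fun n => μ n i j) atTop (𝓝 (μ' i j)) :=
      (((continuous_id (X := Mat r ℂ)).matrix_elem i j).tendsto μ').comp hμ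
    have h2 : (fun n => μ n i j) = fun _ => 0 := funext fun n => hz n i j hij
    rw [h2] at h1
    exact (tendsto_nhds_unique h1 tendsto_const_nhds)
  two p k hk δ := by
    obtain ⟨X, hX⟩ : ∃ X, X = diagonal (fun i => δ (c i)) * blkD c (wP P p : Mat r ℂ) := ⟨_, rfl⟩
    have hXBD : BD c X := by rw [hX]; exact (BD.diagonal c _).mul (BD.blkD c _)
    rw [← hX]
    have h1 : Tendsto (fun n => Gk k (μ n) (B n) (ε n) X) atTop (𝓝 (Gk k μ' B' 0 X)) := by
      unfold Gk
      apply tendsto_finsetSum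
      intro l _
      apply tendsto_trace
      apply tendsto_mul
      · exact tendsto_mul (tendsto_had hμ hB) tendsto_const_nhds
      · apply tendsto_mul
        · exact (tendsto_mul (tendsto_const_nhds.add (hε0.smul hB)) tendsto_const_nhds).pow l
        · exact tendsto_mul hB tendsto_const_nhds
    have h2 : (fun n => Gk k (μ n) (B n) (ε n) X) = fun _ => 0 := by
      funext n
      exact Gk_eq_zero k (μ n) (B n) X (ε n) (hε n) (hz n) hXBD (by rw [hX]; exact h n p k hk δ)
    rw [h2] at h1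
    exact (tendsto_nhds_unique h1 tendsto_const_nhds)
  three b₁ b₂ b₃ h12 h23 h13 := by
    have hT : ∀ U₁ U₂ U₃ : Mat r ℂ, Tendsto (fun n => Tri (μ n) (B n) U₁ U₂ U₃) atTop
        (𝓝 (Tri μ' B' U₁ U₂ U₃)) := by
      intro U₁ U₂ U₃
      unfold Tri
      apply tendsto_trace
      exact tendsto_mul (tendsto_mul (tendsto_mul (tendsto_mul (tendsto_mul (tendsto_had hμ hB)
        tendsto_const_nhds) hB) tendsto_const_nhds) hB) tendsto_const_nhds
    have h1 : Tendsto (fun n => Six (μ n) (B n) c b₁ b₂ b₃) atTop (𝓝 (Six μ' B' c b₁ b₂ b₃)) := by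
      unfold Six
      exact (((((hT _ _ _).add (hT _ _ _)).add (hT _ _ _)).add (hT _ _ _)).add (hT _ _ _)).add
        (hT _ _ _)
    have h2 : (fun n => Six (μ n) (B n) c b₁ b₂ b₃) = fun _ => 0 := by
      funext n
      apply Six_eq_zero (μ n) (B n) (ε n) (hε n) (hz n) b₁ b₂ b₃ h12 h23 h13
      intro δ
      have h3 := h n [] 2 (by omega) δ
      have h4 : blkD c (wP P [] : Mat r ℂ) = 1 := by
        ext i j
        rw [blkD, Matrix.of_apply, wP, Units.val_one]
        by_cases hij : i = j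
        · subst hij; simp
        · rw [Matrix.one_apply_ne hij]; simp
      rwa [h4, mul_one] at h3
    rw [h2] at h1
    exact (tendsto_nhds_unique h1 tendsto_const_nhds)

end Vale.Agent.P002R
end
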