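import Mathlib
import Vale.Agent.P002.Bdl.B2
import Vale.Agent.P002.Bdl.B3
import Vale.Agent.P002.Bdl.B1

set_option linter.all false

section

/-!
# P002, genus 0: tuples with product one from elements of the cell
-/

namespace Vale.Agent.P002R

open Matrix

variable {r : ℕ} {S T : Type*} [CommRing S] [CommRing T]

/-- Products of the upper unitriangular factors. -/
def Uc (Y : ℕ → Mat r S) : ℕ → Mat r S
  | 0 => 1
  | k + 1 => Uc Y k * uU (Y k)

/-- Products of the lower triangular factors. -/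
def Lc (Y : ℕ → Mat r S) : ℕ → Mat r S
  | 0 => 1
  | k + 1 => lL (Y k) * Lc Y k

theorem Uc_zero (Y : ℕ → Mat r S) : Uc Y 0 = 1 := rfl

theorem Uc_succ (Y : ℕ → Mat r S) (k : ℕ) : Uc Y (k + 1) = Uc Y k * uU (Y k) := rfl

theorem Lc_zero (Y : ℕ → Mat r S) : Lc Y 0 = 1 := rfl

theorem Lc_succ (Y : ℕ → Mat r S) (k : ℕ) : Lc Y (k + 1) = lL (Y k) * Lc Y k := rfl

/-- The tuple `c_0, ..., c_{m+1}` attached to elements `Y 0, ..., Y (m-1)` of the cell; `κ k` is the
inverse of `det (Lc Y k)` and `t'` is the inverse of `t`. -/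
def ctup (m : ℕ) (t t' : Fin r → S) (κ : ℕ → S) (Y : ℕ → Mat r S) (j : ℕ) : Mat r S :=
  if j = 0 then diagonal t' * (Uc Y m).adjugate
  else if j ≤ m then κ (j - 1) • ((Lc Y (j - 1)).adjugate * zZ (Y (j - 1)) * Lc Y (j - 1))
  else κ m • ((Lc Y m).adjugate * diagonal t)

theorem ctup_zero (m : ℕ) (t t' : Fin r → S) (κ : ℕ → S) (Y : ℕ → Mat r S) :
    ctup m t t' κ Y 0 = diagonal t' * (Uc Y m).adjugate := by
  rw [ctup, if_pos rfl]

theorem ctup_mid (m : ℕ) (t t' : Fin r → S) (κ : ℕ → S) (Y : ℕ → Mat r S) (k : ℕ) (hk : k < m) :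
    ctup m t t' κ Y (k + 1) = κ k • ((Lc Y k).adjugate * zZ (Y k) * Lc Y k) := by
  rw [ctup, if_neg (Nat.succ_ne_zero k), if_pos (show k + 1 ≤ m from hk), Nat.add_sub_cancel]

theorem ctup_last (m : ℕ) (t t' : Fin r → S) (κ : ℕ → S) (Y : ℕ → Mat r S) :
    ctup m t t' κ Y (m + 1) = κ m • ((Lc Y m).adjugate * diagonal t) := by
  rw [ctup, if_neg (Nat.succ_ne_zero m), if_neg (by omega)]

theorem upT_Uc (Y : ℕ → Mat r S) (k : ℕ) : UpT (Uc Y k) := by
  induction k with
  | zero => exact upT_one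
  | succ k ih => rw [Uc_succ]; exact ih.mul (upT_uU _)

theorem loT_Lc (Y : ℕ → Mat r S) (k : ℕ) : LoT (Lc Y k) := by
  induction k with
  | zero => exact loT_one
  | succ k ih => rw [Lc_succ]; exact (loT_lL _).mul ih

theorem Uc_diag (Y : ℕ → Mat r S) (k : ℕ) (i : Fin r) : Uc Y k i i = 1 := by
  induction k with
  | zero => exact Matrix.one_apply_eq i
  | succ k ih => rw [Uc_succ, (upT_Uc Y k).mul_diag (upT_uU _), ih, uU_diag, one_mul]

theorem Lc_diag (Y : ℕ → Mat r S) (k : ℕ) (i : Fin r) :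
    Lc Y k i i = ∏ l ∈ Finset.range k, Y l i i := by
  induction k with
  | zero => rw [Finset.range_zero, Finset.prod_empty]; exact Matrix.one_apply_eq i
  | succ k ih =>
    rw [Lc_succ, (loT_lL _).mul_diag (loT_Lc Y k), ih, lL_diag, Finset.prod_range_succ, mul_comm]

theorem det_Uc (Y : ℕ → Mat r S) (k : ℕ) : (Uc Y k).det = 1 := by
  rw [(upT_Uc Y k).det]
  exact Finset.prod_eq_one fun i _ => Uc_diag Y k i

theorem det_Lc (Y : ℕ → Mat r S) (k : ℕ) :
    (Lc Y k).det = ∏ i, ∏ l ∈ Finset.range k, Y l i i := by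
  rw [(loT_Lc Y k).det]
  exact Finset.prod_congr rfl fun i _ => Lc_diag Y k i

theorem Uc_map (φ : S →+* T) (Y : ℕ → Mat r S) (k : ℕ) :
    (Uc Y k).map φ = Uc (fun l => (Y l).map φ) k := by
  induction k with
  | zero => exact Matrix.map_one φ (map_zero φ) (map_one φ)
  | succ k ih => rw [Uc_succ, Uc_succ, Matrix.map_mul, ih, uU_map]

theorem Lc_map (φ : S →+* T) (Y : ℕ → Mat r S) (k : ℕ) :
    (Lc Y k).map φ = Lc (fun l => (Y l).map φ) k := by
  induction k with
  | zero => exact Matrix.map_one φ (map_zero φ) (map_one φ)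
  | succ k ih => rw [Lc_succ, Lc_succ, Matrix.map_mul, ih, lL_map]

theorem adjugate_map (φ : S →+* T) (A : Mat r S) : A.adjugate.map φ = (A.map φ).adjugate :=
  RingHom.map_adjugate φ A

theorem smul_map (φ : S →+* T) (a : S) (A : Mat r S) : (a • A).map φ = φ a • A.map φ := by
  ext i j
  simp [Matrix.map_apply, Matrix.smul_apply]

theorem ctup_map (φ : S →+* T) (m : ℕ) (t t' : Fin r → S) (κ : ℕ → S) (Y : ℕ → Mat r S) (j : ℕ) :
    (ctup m t t' κ Y j).map φ =
      ctup m (fun i => φ (t i)) (fun i => φ (t' i)) (fun k => φ (κ k)) (fun l => (Y l).map φ) j := by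
  unfold ctup
  split_ifs
  · rw [Matrix.map_mul, adjugate_map, Uc_map, Matrix.diagonal_map (map_zero φ)]
  · rw [smul_map, Matrix.map_mul, Matrix.map_mul, adjugate_map, Lc_map, zZ_map]
  · rw [smul_map, Matrix.map_mul, adjugate_map, Lc_map, Matrix.diagonal_map (map_zero φ)]

/-- The tuple depends only on the first `m` elements. -/
theorem Uc_congr {Y Y' : ℕ → Mat r S} {k : ℕ} (h : ∀ l < k, Y l = Y' l) : Uc Y k = Uc Y' k := by
  induction k with
  | zero => rfl
  | succ k ih =>
    rw [Uc_succ, Uc_succ, ih fun l hl => h l (hl.trans (Nat.lt_succ_self k)),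
      h k (Nat.lt_succ_self k)]

theorem Lc_congr {Y Y' : ℕ → Mat r S} {k : ℕ} (h : ∀ l < k, Y l = Y' l) : Lc Y k = Lc Y' k := by
  induction k with
  | zero => rfl
  | succ k ih =>
    rw [Lc_succ, Lc_succ, ih fun l hl => h l (hl.trans (Nat.lt_succ_self k)),
      h k (Nat.lt_succ_self k)]

theorem ctup_congr {m : ℕ} {t t' : Fin r → S} {κ κ' : ℕ → S} {Y Y' : ℕ → Mat r S}
    (h : ∀ l < m, Y l = Y' l) (hκ : ∀ l ≤ m, κ l = κ' l) (j : ℕ) :
    ctup m t t' κ Y j = ctup m t t' κ' Y' j := by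
  unfold ctup
  split_ifs with h1 h2
  · rw [Uc_congr h]
  · rw [Lc_congr fun l (hl : l < j - 1) => h l (by omega), h (j - 1) (by omega),
      hκ (j - 1) (by omega)]
  · rw [Lc_congr h, hκ m le_rfl]

/-- Partial products. -/
theorem ctup_partial (m : ℕ) (t t' : Fin r → S) (κ : ℕ → S) (Y : ℕ → Mat r S)
    (hκ : ∀ k ≤ m, κ k * (Lc Y k).det = 1) (k : ℕ) (hk : k ≤ m) :
    (List.ofFn fun j : Fin k => ctup m t t' κ Y ((j : ℕ) + 1)).prod = Uc Y k * Lc Y k := by
  induction k with
  | zero => simp [Uc_zero, Lc_zero]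
  | succ k ih =>
    rw [List.ofFn_succ', List.concat_eq_append, List.prod_append, List.prod_singleton]
    have h1 : (List.ofFn fun i : Fin k => ctup m t t' κ Y (((Fin.castSucc i : Fin (k + 1)) : ℕ) + 1)).prod =
        Uc Y k * Lc Y k := ih (by omega)
    rw [h1, Fin.val_last, ctup_mid m t t' κ Y k hk]
    have h2 : Lc Y k * (κ k • ((Lc Y k).adjugate * zZ (Y k) * Lc Y k)) = zZ (Y k) * Lc Y k := by
      rw [mul_smul_comm, ← mul_assoc, ← mul_assoc, Matrix.mul_adjugate, smul_mul_assoc,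
        smul_mul_assoc, smul_smul, hκ k (by omega), one_smul, one_mul]
    rw [mul_assoc, h2, Uc_succ, Lc_succ, zZ]
    simp only [mul_assoc]

/-- The product of the tuple is one. -/
theorem ctup_prod (m : ℕ) (t t' : Fin r → S) (κ : ℕ → S) (Y : ℕ → Mat r S)
    (hκ : ∀ k ≤ m, κ k * (Lc Y k).det = 1) (ht : ∀ i, t' i * t i = 1) :
    (List.ofFn fun j : Fin (m + 2) => ctup m t t' κ Y j).prod = 1 := by
  rw [List.ofFn_succ, List.prod_cons, List.ofFn_succ', List.concat_eq_append, List.prod_append,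
    List.prod_singleton]
  have h1 : (List.ofFn fun i : Fin m =>
      ctup m t t' κ Y (((Fin.castSucc i).succ : Fin (m + 2)) : ℕ)).prod = Uc Y m * Lc Y m :=
    ctup_partial m t t' κ Y hκ m le_rfl
  rw [h1]
  have h2 : (((Fin.last m).succ : Fin (m + 2)) : ℕ) = m + 1 := by simp
  rw [h2, ctup_last, Fin.val_zero, ctup_zero]
  have h3 : Lc Y m * (κ m • ((Lc Y m).adjugate * diagonal t)) = diagonal t := by
    rw [mul_smul_comm, ← mul_assoc, Matrix.mul_adjugate, smul_mul_assoc, smul_smul,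
      hκ m le_rfl, one_smul, one_mul]
  rw [mul_assoc (Uc Y m), h3]
  calc diagonal t' * (Uc Y m).adjugate * (Uc Y m * diagonal t)
      = diagonal t' * ((Uc Y m).adjugate * Uc Y m) * diagonal t := by simp only [mul_assoc]
    _ = 1 := by
        rw [Matrix.adjugate_mul, det_Uc, one_smul, mul_one, Matrix.diagonal_mul_diagonal]
        rw [← Matrix.diagonal_one]
        congr 1
        funext i
        exact ht i

section field

variable {F : Type*} [Field F]

/-- Every tuple in general position is of the form `ctup`. -/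
theorem exists_ctup (m : ℕ) (c : ℕ → Mat r F) (X : ℕ → Mat r F)
    (hX : ∀ k ≤ m, (List.ofFn fun j : Fin k => c ((j : ℕ) + 1)).prod = zZ (X k))
    (hX0 : ∀ k ≤ m, ∀ i, X k i i ≠ 0)
    (hc0 : UpT (c 0)) (hcl : LoT (c (m + 1)))
    (hprod : (List.ofFn fun j : Fin (m + 2) => c j).prod = 1) :
    ∃ (Y : ℕ → Mat r F) (κ : ℕ → F) (t : Fin r → F), (∀ k ≤ m, κ k * (Lc Y k).det = 1) ∧
      (∀ i, c 0 i i * t i = 1) ∧ (∀ j ≤ m + 1, c j = ctup m t (fun i => c 0 i i) κ Y j) ∧
      (∀ k ≤ m, Lc Y k = lL (X k)) ∧ (∀ k < m, ∀ i, Y k i i ≠ 0) := by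
  have hdL : ∀ k ≤ m, IsUnit (lL (X k)).det := by
    intro k hk
    rw [det_lL, isUnit_iff_ne_zero, Finset.prod_ne_zero_iff]
    exact fun i _ => hX0 k hk i
  have hdU : ∀ k, IsUnit (uU (X k)).det := fun k => by rw [det_uU]; exact isUnit_one
  have hUinv : ∀ k, UpT (uU (X k))⁻¹ := fun k =>
    (upT_uU (X k)).inv fun i => by rw [uU_diag]; exact one_ne_zero
  have hLinv : ∀ k ≤ m, LoT (lL (X k))⁻¹ := fun k hk =>
    (loT_lL (X k)).inv fun i => by rw [lL_diag]; exact hX0 k hk i
  -- the elements of the cell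
  have hYex : ∀ k, ∃ Y : Mat r F, k < m → uU Y = (uU (X k))⁻¹ * uU (X (k + 1)) ∧
      lL Y = lL (X (k + 1)) * (lL (X k))⁻¹ ∧ ∀ i, Y i i ≠ 0 := by
    intro k
    by_cases hk : k < m
    · obtain ⟨Y, h1, h2, h3⟩ := exists_coord ((uU (X k))⁻¹ * uU (X (k + 1)))
        (lL (X (k + 1)) * (lL (X k))⁻¹) ((hUinv k).mul (upT_uU _))
        (fun i => by
          rw [(hUinv k).mul_diag (upT_uU _), uU_diag, mul_one,
            inv_diag (upT_uU (X k)) (fun i => by rw [uU_diag]; exact one_ne_zero), uU_diag, inv_one])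
        ((loT_lL _).mul (hLinv k hk.le))
      refine ⟨Y, fun _ => ⟨h1, h2, fun i => ?_⟩⟩
      rw [h3, (loT_lL _).mul_diag (hLinv k hk.le), lL_diag,
        (loT_lL (X k)).inv_diag (fun i => by rw [lL_diag]; exact hX0 k hk.le i), lL_diag]
      exact mul_ne_zero (hX0 (k + 1) hk i) (inv_ne_zero (hX0 k hk.le i))
    · exact ⟨0, fun h => absurd h hk⟩
  choose Y hY using hYex
  -- the first elements are trivial
  have h0 : zZ (X 0) = 1 := by
    rw [← hX 0 (Nat.zero_le m)]
    simp
  have hUL0 : uU (X 0) = 1 ∧ lL (X 0) = 1 := by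
    have h1 : lL (X 0) = (uU (X 0))⁻¹ := by
      rw [zZ] at h0
      exact (Matrix.inv_eq_right_inv h0).symm
    have h2 : lL (X 0) = 1 := by
      ext i j
      rcases lt_trichotomy i j with h | h | h
      · rw [loT_lL (X 0) i j h, Matrix.one_apply_ne h.ne]
      · subst h
        rw [h1, inv_diag (upT_uU (X 0)) (fun i => by rw [uU_diag]; exact one_ne_zero), uU_diag,
          inv_one, Matrix.one_apply_eq]
      · rw [h1, hUinv 0 i j h, Matrix.one_apply_ne h.ne']
    refine ⟨?_, h2⟩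
    rw [zZ, h2, mul_one] at h0
    exact h0
  have hUc : ∀ k ≤ m, Uc Y k = uU (X k) := by
    intro k
    induction k with
    | zero => exact fun _ => hUL0.1.symm
    | succ k ih =>
      intro hk
      rw [Uc_succ, ih (by omega), (hY k hk).1, ← mul_assoc, Matrix.mul_nonsing_inv _ (hdU k),
        one_mul]
  have hLc : ∀ k ≤ m, Lc Y k = lL (X k) := by
    intro k
    induction k with
    | zero => exact fun _ => hUL0.2.symm
    | succ k ih =>
      intro hk
      rw [Lc_succ, ih (by omega), (hY k hk).2.1, mul_assoc,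
        Matrix.nonsing_inv_mul _ (hdL k (by omega)), mul_one]
  obtain ⟨κ, hκdef⟩ : ∃ κ : ℕ → F, ∀ k, κ k = ((Lc Y k).det)⁻¹ := ⟨_, fun _ => rfl⟩
  have hκ : ∀ k ≤ m, κ k * (Lc Y k).det = 1 := by
    intro k hk
    rw [hκdef, inv_mul_cancel₀]
    rw [hLc k hk]
    exact (hdL k hk).ne_zero
  have hadj : ∀ k ≤ m, κ k • (Lc Y k).adjugate = (lL (X k))⁻¹ := by
    intro k hk
    rw [hκdef, hLc k hk, Matrix.inv_def, Ring.inverse_eq_inv']
  -- the diagonal matrix
  have hmid : ∀ k < m, c (k + 1) = (lL (X k))⁻¹ * zZ (Y k) * lL (X k) := by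
    intro k hk
    have h1 := hX (k + 1) hk
    rw [List.ofFn_succ', List.concat_eq_append, List.prod_append, List.prod_singleton] at h1
    have h2 : (List.ofFn fun i : Fin k => c (((Fin.castSucc i : Fin (k + 1)) : ℕ) + 1)).prod =
        zZ (X k) := hX k hk.le
    rw [h2, Fin.val_last] at h1
    have h3 : (lL (X k))⁻¹ * (uU (X k))⁻¹ * (uU (X k) * lL (X k)) = 1 := by
      calc (lL (X k))⁻¹ * (uU (X k))⁻¹ * (uU (X k) * lL (X k))
          = (lL (X k))⁻¹ * ((uU (X k))⁻¹ * uU (X k)) * lL (X k) := by simp only [mul_assoc]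
        _ = 1 := by
          rw [Matrix.nonsing_inv_mul _ (hdU k), mul_one, Matrix.nonsing_inv_mul _ (hdL k hk.le)]
    calc c (k + 1) = ((lL (X k))⁻¹ * (uU (X k))⁻¹ * (uU (X k) * lL (X k))) * c (k + 1) := by
          rw [h3, one_mul]
      _ = (lL (X k))⁻¹ * (uU (X k))⁻¹ * (zZ (X k) * c (k + 1)) := by
          rw [zZ]; simp only [mul_assoc]
      _ = (lL (X k))⁻¹ * (uU (X k))⁻¹ * (uU (X (k + 1)) * lL (X (k + 1))) := by rw [h1, zZ]
      _ = (lL (X k))⁻¹ * ((uU (X k))⁻¹ * uU (X (k + 1)) * (lL (X (k + 1)) * ((lL (X k))⁻¹ *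
            lL (X k)))) := by
          rw [Matrix.nonsing_inv_mul _ (hdL k hk.le), mul_one]; simp only [mul_assoc]
      _ = _ := by
          rw [zZ, (hY k hk).1, (hY k hk).2.1]; simp only [mul_assoc]
  have hpr : c 0 * (zZ (X m) * c (m + 1)) = 1 := by
    rw [List.ofFn_succ, List.prod_cons, List.ofFn_succ', List.concat_eq_append, List.prod_append,
      List.prod_singleton] at hprod
    have h1 : (List.ofFn fun i : Fin m =>
        c (((Fin.castSucc i).succ : Fin (m + 2)) : ℕ)).prod = zZ (X m) := hX m le_rfl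
    have h2 : (((Fin.last m).succ : Fin (m + 2)) : ℕ) = m + 1 := by simp
    rw [h1, h2] at hprod
    exact hprod
  have hD1 : (c 0 * uU (X m)) * (lL (X m) * c (m + 1)) = 1 := by
    rw [zZ] at hpr
    rw [← hpr]; simp only [mul_assoc]
  have hDl : c 0 * uU (X m) = (lL (X m) * c (m + 1))⁻¹ := (Matrix.inv_eq_left_inv hD1).symm
  have hDu : LoT (lL (X m) * c (m + 1)) := (loT_lL _).mul hcl
  have hDd : ∀ i, (lL (X m) * c (m + 1)) i i ≠ 0 := by
    have h1 : (lL (X m) * c (m + 1)).det ≠ 0 := by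
      have := congrArg Matrix.det hD1
      rw [det_mul, det_one] at this
      exact right_ne_zero_of_mul (by rw [this]; exact one_ne_zero)
    rw [hDu.det, Finset.prod_ne_zero_iff] at h1
    exact fun i => h1 i (Finset.mem_univ i)
  have hDup : UpT (c 0 * uU (X m)) := hc0.mul (upT_uU _)
  have hDii : ∀ i, (c 0 * uU (X m)) i i = c 0 i i := fun i => by
    rw [hc0.mul_diag (upT_uU _), uU_diag, mul_one]
  have hD : c 0 * uU (X m) = diagonal fun i => c 0 i i := by
    ext i j
    rcases lt_trichotomy i j with h | h | h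
    · rw [hDl, hDu.inv hDd i j h, Matrix.diagonal_apply_ne _ h.ne]
    · subst h
      rw [hDii, Matrix.diagonal_apply_eq]
    · rw [hDup i j h, Matrix.diagonal_apply_ne _ h.ne']
  have hξ0 : ∀ i, c 0 i i ≠ 0 := by
    intro i
    rw [← hDii i, hDl, hDu.inv_diag hDd]
    exact inv_ne_zero (hDd i)
  refine ⟨Y, κ, fun i => (c 0 i i)⁻¹, hκ, fun i => mul_inv_cancel₀ (hξ0 i), ?_, hLc,
    fun k hk => (hY k hk).2.2⟩
  intro j hj
  rcases Nat.eq_zero_or_pos j with rfl | hj0
  · rw [ctup_zero, hUc m le_rfl, ← hD, mul_assoc, Matrix.mul_adjugate, det_uU, one_smul, mul_one]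
  · obtain ⟨k, rfl⟩ : ∃ k, j = k + 1 := ⟨j - 1, by omega⟩
    rcases lt_or_eq_of_le (show k ≤ m by omega) with hk | rfl
    · rw [ctup_mid _ _ _ _ _ k hk, ← smul_mul_assoc, ← smul_mul_assoc, hadj k hk.le, hLc k hk.le,
        hmid k hk]
    · rw [ctup_last, ← smul_mul_assoc, hadj k le_rfl]
      have h1 : (diagonal fun i => (c 0 i i)⁻¹) = lL (X k) * c (k + 1) := by
        have h2 : (diagonal fun i => (c 0 i i)⁻¹) * (c 0 * uU (X k)) = 1 := by
          rw [hD, Matrix.diagonal_mul_diagonal, ← Matrix.diagonal_one]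
          congr 1
          funext i
          exact inv_mul_cancel₀ (hξ0 i)
        calc (diagonal fun i => (c 0 i i)⁻¹)
            = (diagonal fun i => (c 0 i i)⁻¹) * ((c 0 * uU (X k)) * (lL (X k) * c (k + 1))) := by
              rw [hD1, mul_one]
          _ = _ := by rw [← mul_assoc, h2, one_mul]
      rw [h1, ← mul_assoc, Matrix.nonsing_inv_mul _ (hdL k le_rfl), one_mul]

end field

end Vale.Agent.P002R
end

section

/-!
# Bordered matrices and their characteristic polynomials
-/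

namespace Vale.Agent.P002G

open Matrix Polynomial

variable {n : ℕ} {S : Type*} [CommRing S]

/-- Upper unitriangular bordering. -/
def ucons (x : Fin n → S) (U : Matrix (Fin n) (Fin n) S) : Matrix (Fin (n + 1)) (Fin (n + 1)) S :=
  Matrix.of (Fin.cons (Fin.cons 1 x) fun i => Fin.cons 0 (U i))

/-- Lower triangular bordering. -/
def lcons (q : S) (l : Fin n → S) (L : Matrix (Fin n) (Fin n) S) :
    Matrix (Fin (n + 1)) (Fin (n + 1)) S :=
  Matrix.of (Fin.cons (Fin.cons q 0) fun i => Fin.cons (l i) (L i))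

/-- Bordering. -/
def brd (q : S) (N : Matrix (Fin n) (Fin n) S) (b a : Fin n → S) :
    Matrix (Fin (n + 1)) (Fin (n + 1)) S :=
  Matrix.of (Fin.cons (Fin.cons (q + a ⬝ᵥ b) (a ᵥ* N)) fun i => Fin.cons (b i) (N i))

theorem ucons_mul_lcons (a : Fin n → S) (U : Matrix (Fin n) (Fin n) S) (q : S) (l : Fin n → S)
    (L : Matrix (Fin n) (Fin n) S) :
    ucons (a ᵥ* U) U * lcons q l L = brd q (U * L) (U *ᵥ l) a := by
  ext i j
  refine Fin.cases ?_ (fun i => ?_) i <;> refine Fin.cases ?_ (fun j => ?_) j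
  · have h : (a ᵥ* U) ⬝ᵥ l = a ⬝ᵥ (U *ᵥ l) := (dotProduct_mulVec a U l).symm
    simp only [dotProduct] at h
    simp [ucons, lcons, brd, Matrix.mul_apply, Fin.sum_univ_succ, dotProduct, h]
  · simp [ucons, lcons, brd, Matrix.mul_apply, Fin.sum_univ_succ, ← vecMul_vecMul, vecMul,
      dotProduct]
  · simp [ucons, lcons, brd, Matrix.mul_apply, Fin.sum_univ_succ, mulVec, dotProduct]
  · simp [ucons, lcons, brd, Matrix.mul_apply, Fin.sum_univ_succ]

/-- The divided difference of the characteristic polynomial, applied to `b`. -/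
noncomputable def wp (N : Matrix (Fin n) (Fin n) S) (b : Fin n → S) (k : Fin n) : S[X] :=
  ∑ i ∈ Finset.range (n + 1), ∑ j ∈ Finset.range i,
    C (N.charpoly.coeff i * ((N ^ (i - 1 - j)) *ᵥ b) k) * X ^ j

theorem charmatrix_mulVec_wp (N : Matrix (Fin n) (Fin n) S) (b : Fin n → S) :
    N.charmatrix *ᵥ wp N b = fun k => N.charpoly * C (b k) := by
  nontriviality S
  obtain ⟨x, hx⟩ : ∃ x : Matrix (Fin n) (Fin n) S[X], x = Matrix.scalar (Fin n) (X : S[X]) :=
    ⟨_, rfl⟩
  obtain ⟨y, hy⟩ : ∃ y : Matrix (Fin n) (Fin n) S[X], y = (C : S →+* S[X]).mapMatrix N :=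
    ⟨_, rfl⟩
  have hcm : N.charmatrix = x - y := by rw [hx, hy]; rfl
  have hcomm : Commute x y := by rw [hx]; exact Matrix.scalar_commute _ (Commute.all X) _
  -- powers
  have hxp : ∀ (j : ℕ) (v : Fin n → S[X]), x ^ j *ᵥ v = fun k => X ^ j * v k := by
    intro j v
    rw [hx, ← map_pow]
    ext k
    rw [Matrix.scalar_apply, Matrix.mulVec_diagonal]
  have hyp : ∀ (j : ℕ) (v : Fin n → S), y ^ j *ᵥ (fun k => C (v k)) =
      fun k => C (((N ^ j) *ᵥ v) k) := by
    intro j v
    rw [hy, ← map_pow]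
    ext1 k
    exact (RingHom.map_mulVec C (N ^ j) v k).symm
  obtain ⟨Cb, hCb⟩ : ∃ Cb : Fin n → S[X], Cb = fun k => C (b k) := ⟨_, rfl⟩
  have h1 : wp N b = (∑ i ∈ Finset.range (n + 1), C (N.charpoly.coeff i) •
      ∑ j ∈ Finset.range i, x ^ j * y ^ (i - 1 - j)) *ᵥ Cb := by
    rw [Matrix.sum_mulVec]
    ext1 k
    rw [Finset.sum_apply]
    unfold wp
    apply Finset.sum_congr rfl
    intro i _
    rw [smul_mulVec, Matrix.sum_mulVec, Pi.smul_apply, Finset.sum_apply, Finset.smul_sum]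
    apply Finset.sum_congr rfl
    intro j _
    rw [← mulVec_mulVec, hCb, hyp, hxp, smul_eq_mul, C_mul]
    ring
  have h2 : N.charmatrix * (∑ i ∈ Finset.range (n + 1), C (N.charpoly.coeff i) •
      ∑ j ∈ Finset.range i, x ^ j * y ^ (i - 1 - j)) =
      Matrix.scalar (Fin n) N.charpoly := by
    rw [Finset.mul_sum]
    have h3 : ∀ i ∈ Finset.range (n + 1), N.charmatrix * (C (N.charpoly.coeff i) •
        ∑ j ∈ Finset.range i, x ^ j * y ^ (i - 1 - j)) =
        C (N.charpoly.coeff i) • x ^ i - C (N.charpoly.coeff i) • y ^ i := by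
      intro i _
      rw [mul_smul_comm, hcm, hcomm.mul_geom_sum₂, smul_sub]
    rw [Finset.sum_congr rfl h3, Finset.sum_sub_distrib]
    have hdeg : N.charpoly.natDegree < n + 1 := by
      rw [Matrix.charpoly_natDegree_eq_dim, Fintype.card_fin]
      exact Nat.lt_succ_self n
    have h4 : ∑ i ∈ Finset.range (n + 1), C (N.charpoly.coeff i) • y ^ i = 0 := by
      have h5 := Matrix.aeval_self_charpoly N
      rw [Polynomial.aeval_eq_sum_range' hdeg] at h5
      have h6 := congrArg (C : S →+* S[X]).mapMatrix h5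
      rw [map_sum, map_zero] at h6
      rw [← h6]
      apply Finset.sum_congr rfl
      intro i _
      rw [hy, ← map_pow]
      ext1 a c
      simp [Matrix.map_apply]
    have h7 : ∑ i ∈ Finset.range (n + 1), C (N.charpoly.coeff i) • x ^ i =
        Matrix.scalar (Fin n) N.charpoly := by
      conv_rhs => rw [N.charpoly.as_sum_range' _ hdeg]
      rw [map_sum]
      apply Finset.sum_congr rfl
      intro i _
      rw [hx, ← map_pow, ← C_mul_X_pow_eq_monomial, map_mul, ← smul_eq_mul]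
      ext1 a c
      rw [Matrix.smul_apply, smul_eq_mul, smul_eq_mul]
      simp [Matrix.scalar_apply, Matrix.diagonal_apply, Matrix.mul_apply]
    rw [h4, h7, sub_zero]
  rw [h1, mulVec_mulVec, h2]
  ext1 k
  rw [Matrix.scalar_apply, Matrix.mulVec_diagonal, hCb]

theorem sum_mul_wp (N : Matrix (Fin n) (Fin n) S) (b : Fin n → S) (k : Fin n) :
    ∑ j, C (N k j) * wp N b j = X * wp N b k - N.charpoly * C (b k) := by
  have h4 := congrFun (charmatrix_mulVec_wp N b) k
  simp only [mulVec, dotProduct] at h4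
  have h5 : ∀ j, N.charmatrix k j * wp N b j =
      (if k = j then X * wp N b j else 0) - C (N k j) * wp N b j := by
    intro j
    by_cases h : k = j
    · subst h
      rw [Matrix.charmatrix_apply_eq, if_pos rfl]; ring
    · rw [Matrix.charmatrix_apply_ne _ _ _ h, if_neg h]; ring
  rw [Finset.sum_congr rfl fun j _ => h5 j, Finset.sum_sub_distrib,
    Finset.sum_ite_eq, if_pos (Finset.mem_univ k)] at h4
  rw [← h4]; ring

theorem vecMul_wp (N : Matrix (Fin n) (Fin n) S) (b a : Fin n → S) :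
    ∑ k, C ((a ᵥ* N) k) * wp N b k = X * ∑ k, C (a k) * wp N b k -
      C (a ⬝ᵥ b) * N.charpoly := by
  obtain ⟨w, hw⟩ : ∃ w, w = wp N b := ⟨_, rfl⟩
  obtain ⟨P, hP⟩ : ∃ P, P = N.charpoly := ⟨_, rfl⟩
  have h3 : ∀ k, ∑ j, C (N k j) * w j = X * w k - P * C (b k) := by
    rw [hw, hP]; exact sum_mul_wp N b
  rw [← hw, ← hP]
  clear hw hP
  have h6 : ∑ k, C ((a ᵥ* N) k) * w k = ∑ k, C (a k) * ∑ j, C (N k j) * w j := by
    simp only [vecMul, dotProduct, map_sum, Finset.sum_mul, Finset.mul_sum, C_mul]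
    rw [Finset.sum_comm]
    exact Finset.sum_congr rfl fun k _ => Finset.sum_congr rfl fun j _ => by ring
  have h7 : ∀ k, C (a k) * ∑ j, C (N k j) * w j =
      X * (C (a k) * w k) - C (a k * b k) * P := by
    intro k
    rw [h3 k, C_mul]
    ring
  rw [h6, Finset.sum_congr rfl fun k _ => h7 k, Finset.sum_sub_distrib, ← Finset.mul_sum,
    ← Finset.sum_mul, ← map_sum]
  rfl

theorem charpoly_brd_aux (q : S) (N : Matrix (Fin n) (Fin n) S) (b a : Fin n → S) :
    (brd q N b a).charpoly * N.charpoly = ((X - C (q + a ⬝ᵥ b)) * N.charpoly -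
      ∑ k, C ((a ᵥ* N) k) * wp N b k) * N.charpoly := by
  nontriviality S
  obtain ⟨w, hw⟩ : ∃ w, w = wp N b := ⟨_, rfl⟩
  obtain ⟨Q, hQ⟩ : ∃ Q, Q = N.charpoly := ⟨_, rfl⟩
  have hcm : N.charmatrix *ᵥ w = fun k => Q * C (b k) := by
    rw [hw, hQ]; exact charmatrix_mulVec_wp N b
  obtain ⟨P, hP⟩ : ∃ P : Matrix (Fin (n + 1)) (Fin (n + 1)) S[X], P =
      Matrix.of (Fin.cons (Fin.cons Q 0) fun i => Fin.cons (w i)
        ((1 : Matrix (Fin n) (Fin n) S[X]) i)) := ⟨_, rfl⟩
  have p00 : P 0 0 = Q := by rw [hP]; rfl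
  have p0s : ∀ j : Fin n, P 0 j.succ = 0 := fun j => by rw [hP]; rfl
  have ps0 : ∀ j : Fin n, P j.succ 0 = w j := fun j => by rw [hP]; rfl
  have pss : ∀ i j : Fin n, P i.succ j.succ = (1 : Matrix (Fin n) (Fin n) S[X]) i j := fun i j => by
    rw [hP]; rfl
  clear hP
  obtain ⟨M, hM⟩ : ∃ M, M = (brd q N b a).charmatrix := ⟨_, rfl⟩
  have e00 : M 0 0 = X - C (q + a ⬝ᵥ b) := by
    rw [hM, Matrix.charmatrix_apply_eq]; rfl
  have e0s : ∀ j : Fin n, M 0 j.succ = -C ((a ᵥ* N) j) := by
    intro j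
    rw [hM, Matrix.charmatrix_apply_ne _ _ _ (Fin.succ_ne_zero j).symm]; rfl
  have es0 : ∀ i : Fin n, M i.succ 0 = -C (b i) := by
    intro i
    rw [hM, Matrix.charmatrix_apply_ne _ _ _ (Fin.succ_ne_zero i)]; rfl
  have ess : ∀ i j : Fin n, M i.succ j.succ = N.charmatrix i j := by
    intro i j
    by_cases h : i = j
    · subst h
      rw [hM, Matrix.charmatrix_apply_eq, Matrix.charmatrix_apply_eq]; rfl
    · rw [hM, Matrix.charmatrix_apply_ne _ _ _ h, Matrix.charmatrix_apply_ne _ _ _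
        (fun h' => h (Fin.succ_injective _ h'))]; rfl
  have hMc : (brd q N b a).charpoly = M.det := by rw [hM]; rfl
  rw [hMc]
  clear hM hMc
  have hdetP : P.det = Q := by
    rw [Matrix.det_succ_row_zero, Fin.sum_univ_succ]
    have h1 : P.submatrix Fin.succ (Fin.succAbove 0) = 1 := by
      ext1 i j
      rw [Matrix.submatrix_apply, Fin.succAbove_zero, pss]
    rw [h1, p00]
    simp [p0s]
  have hcol : ∀ i : Fin n, (M * P) i.succ 0 = 0 := by
    intro i
    rw [Matrix.mul_apply, Fin.sum_univ_succ]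
    simp only [ps0, p00, es0, ess]
    have h4 := congrFun hcm i
    simp only [mulVec, dotProduct] at h4
    rw [h4]
    ring
  have htop' : (M * P) 0 0 = (X - C (q + a ⬝ᵥ b)) * Q - ∑ k, C ((a ᵥ* N) k) * w k := by
    rw [Matrix.mul_apply, Fin.sum_univ_succ]
    simp only [ps0, p00, e00, e0s, neg_mul, Finset.sum_neg_distrib]
    ring
  have hsub : (M * P).submatrix (Fin.succAbove 0) Fin.succ = N.charmatrix := by
    ext1 i j
    rw [Matrix.submatrix_apply, Fin.succAbove_zero, Matrix.mul_apply, Fin.sum_univ_succ]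
    simp only [p0s, pss, ess, mul_zero, zero_add]
    rw [← Matrix.mul_apply, Matrix.mul_one]
  have h1 : (M * P).det = ((X - C (q + a ⬝ᵥ b)) * Q - ∑ k, C ((a ᵥ* N) k) * w k) * Q := by
    rw [Matrix.det_succ_column_zero, Fin.sum_univ_succ, htop', hsub, hQ]
    simp [hcol, Matrix.charpoly]
  rw [← hw, ← hQ, ← h1, Matrix.det_mul, hdetP]

theorem charpoly_brd (q : S) (N : Matrix (Fin n) (Fin n) S) (b a : Fin n → S) :
    (brd q N b a).charpoly = N.charpoly * (X - C q) - X * ∑ k, C (a k) * wp N b k := by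
  have hreg : IsRightRegular N.charpoly := N.charpoly_monic.isRegular.right
  have h1 := hreg (charpoly_brd_aux q N b a)
  rw [h1, vecMul_wp, C_add]
  ring

end Vale.Agent.P002G
end

section

namespace Vale.Agent.P002

open Matrix

variable {r : ℕ} {R : Type*} [CommRing R]

/-- Krylov matrix with columns `A ^ j v`. -/
def kry (A : Mat r R) (v : Fin r → R) : Mat r R :=
  Matrix.of fun i j => ((A ^ (j : ℕ)) *ᵥ v) i

theorem kry_mulVec_single (A : Mat r R) (v : Fin r → R) (j : Fin r) :
    kry A v *ᵥ Pi.single j 1 = (A ^ (j : ℕ)) *ᵥ v := by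
  ext i
  simp [kry]

theorem mul_kry (M A : Mat r R) (v : Fin r → R) (A' : Mat r R) (h : M * A = A' * M) :
    M * kry A v = kry A' (M *ᵥ v) := by
  ext i j
  have h2 : ∀ n : ℕ, M * A ^ n = A' ^ n * M := by
    intro n
    induction n with
    | zero => simp
    | succ n ih => rw [pow_succ, ← mul_assoc, ih, mul_assoc, h, ← mul_assoc, ← pow_succ]
  have h1 : (M * kry A v) i j = (M *ᵥ ((A ^ (j : ℕ)) *ᵥ v)) i := by
    simp [Matrix.mul_apply, mulVec, dotProduct, kry]
  rw [h1, mulVec_mulVec, h2, ← mulVec_mulVec]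
  rfl

/-- Two Krylov matrices with the same characteristic polynomial. -/
theorem krylov_comm (A A' : Mat r R) (v w : Fin r → R) (hc : A.charpoly = A'.charpoly)
    (B : Mat r R) (hB : B * kry A v = kry A' w) (hu : IsUnit (kry A v)) :
    B * A = A' * B := by
  nontriviality R
  -- `B p(A) v = p(A') w` for all polynomials `p`
  have key1 : ∀ p : Polynomial R, p.degree < (r : WithBot ℕ) →
      B *ᵥ (Polynomial.aeval A p *ᵥ v) = Polynomial.aeval A' p *ᵥ w := by
    intro p hp
    have hd : p.natDegree < r ∨ p = 0 := by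
      by_cases h0 : p = 0
      · exact Or.inr h0
      · left
        rwa [← Polynomial.natDegree_lt_iff_degree_lt h0] at hp
    rcases hd with hd | rfl
    swap
    · simp
    rw [Polynomial.aeval_eq_sum_range' hd, Polynomial.aeval_eq_sum_range' hd]
    rw [Matrix.sum_mulVec, Matrix.sum_mulVec, Matrix.mulVec_sum]
    apply Finset.sum_congr rfl
    intro n hn
    rw [Finset.mem_range] at hn
    rw [smul_mulVec, smul_mulVec, mulVec_smul]
    congr 1
    have h1 := kry_mulVec_single A v ⟨n, hn⟩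
    have h2 := kry_mulVec_single A' w ⟨n, hn⟩
    simp only at h1 h2
    rw [← h1, ← h2, mulVec_mulVec, hB]
  have key2 : ∀ p : Polynomial R,
      B *ᵥ (Polynomial.aeval A p *ᵥ v) = Polynomial.aeval A' p *ᵥ w := by
    intro p
    have hm := Matrix.charpoly_monic A
    have hm' := Matrix.charpoly_monic A'
    have e1 := Polynomial.modByMonic_add_div p A.charpoly
    have hdeg : (p %ₘ A.charpoly).degree < (r : WithBot ℕ) := by
      have := Polynomial.degree_modByMonic_lt p hm
      rwa [Matrix.charpoly_degree_eq_dim, Fintype.card_fin] at this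
    have e2 : Polynomial.aeval A p = Polynomial.aeval A (p %ₘ A.charpoly) := by
      conv_lhs => rw [← e1]
      rw [map_add, map_mul, Matrix.aeval_self_charpoly, zero_mul, add_zero]
    have e3 : Polynomial.aeval A' p = Polynomial.aeval A' (p %ₘ A.charpoly) := by
      conv_lhs => rw [← e1]
      rw [map_add, map_mul, hc, Matrix.aeval_self_charpoly, zero_mul, add_zero]
    rw [e2, e3]
    exact key1 _ hdeg
  have hcancel : (B * A) * kry A v = (A' * B) * kry A v := by
    have h : ∀ j : Fin r, ((B * A) * kry A v) *ᵥ Pi.single j 1 =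
        ((A' * B) * kry A v) *ᵥ Pi.single j 1 := by
      intro j
      rw [← mulVec_mulVec, ← mulVec_mulVec, ← mulVec_mulVec, ← mulVec_mulVec, kry_mulVec_single,
        mulVec_mulVec v A (A ^ (j : ℕ))]
      have k1 := key2 (Polynomial.X ^ (j : ℕ))
      have k2 := key2 (Polynomial.X ^ ((j : ℕ) + 1))
      simp only [map_pow, Polynomial.aeval_X] at k1 k2
      rw [k1, ← pow_succ', k2, pow_succ', mulVec_mulVec]
    ext i j
    have := congrFun (h j) i
    simpa using this
  exact hu.mul_right_cancel hcancel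

end Vale.Agent.P002
end

section

/-!
# Cyclic vectors and bordering
-/

namespace Vale.Agent.P002G

open Matrix Polynomial
open Vale.Agent.P002 (kry mul_kry kry_mulVec_single)

variable {n : ℕ} {S T : Type*} [CommRing S] [CommRing T]

/-- `v` is a cyclic vector of `Z` (over the ring `S`). -/
def Cyc (Z : Matrix (Fin n) (Fin n) S) (v : Fin n → S) : Prop :=
  ∀ M : Submodule S (Fin n → S), v ∈ M → (∀ y ∈ M, Z *ᵥ y ∈ M) → M = ⊤

theorem pow_mem_of_stable {Z : Matrix (Fin n) (Fin n) S} {M : Submodule S (Fin n → S)}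
    (hZ : ∀ y ∈ M, Z *ᵥ y ∈ M) {v : Fin n → S} (hv : v ∈ M) (j : ℕ) : (Z ^ j) *ᵥ v ∈ M := by
  induction j with
  | zero => simpa using hv
  | succ j ih => rw [pow_succ', ← mulVec_mulVec]; exact hZ _ ih

theorem kry_mulVec (Z : Matrix (Fin n) (Fin n) S) (v y : Fin n → S) :
    kry Z v *ᵥ y = ∑ j, y j • ((Z ^ (j : ℕ)) *ᵥ v) := by
  ext i
  simp [kry, mulVec, dotProduct, mul_comm]

theorem cyc_iff (Z : Matrix (Fin n) (Fin n) S) (v : Fin n → S) :
    Cyc Z v ↔ IsUnit (kry Z v) := by
  rw [← Matrix.mulVec_surjective_iff_isUnit]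
  constructor
  · intro h x
    rcases n with _ | n
    · exact ⟨0, Subsingleton.elim _ _⟩
    obtain ⟨M, hM⟩ : ∃ M, M = LinearMap.range (kry Z v).mulVecLin := ⟨_, rfl⟩
    have hpow : ∀ j : ℕ, j < n + 1 → (Z ^ j) *ᵥ v ∈ M := by
      intro j hj
      rw [hM]
      exact ⟨Pi.single ⟨j, hj⟩ 1, kry_mulVec_single Z v ⟨j, hj⟩⟩
    have htop : (Z ^ (n + 1)) *ᵥ v ∈ M := by
      nontriviality S
      have h1 := Matrix.aeval_self_charpoly Z
      have h2 : Z.charpoly.natDegree = n + 1 := by
        rw [Matrix.charpoly_natDegree_eq_dim, Fintype.card_fin]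
      rw [Polynomial.aeval_eq_sum_range, h2, Finset.sum_range_succ] at h1
      have h3 : Z.charpoly.coeff (n + 1) = 1 := by
        have := Z.charpoly_monic
        rwa [Polynomial.Monic, Polynomial.leadingCoeff, h2] at this
      rw [h3, one_smul] at h1
      have h4 : Z ^ (n + 1) = -∑ i ∈ Finset.range (n + 1), Z.charpoly.coeff i • Z ^ i :=
        eq_neg_of_add_eq_zero_right h1
      rw [h4, Matrix.neg_mulVec, Matrix.sum_mulVec]
      apply M.neg_mem
      apply M.sum_mem
      intro i hi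
      rw [smul_mulVec]
      exact M.smul_mem _ (hpow i (Finset.mem_range.1 hi))
    have hall : M = ⊤ := by
      apply h M
      · simpa using hpow 0 (Nat.succ_pos n)
      · intro y hy
        rw [hM] at hy
        obtain ⟨z, rfl⟩ := hy
        rw [Matrix.mulVecLin_apply, kry_mulVec, Matrix.mulVec_sum]
        apply M.sum_mem
        intro j _
        rw [mulVec_smul, mulVec_mulVec, ← pow_succ']
        apply M.smul_mem
        rcases Nat.lt_or_ge ((j : ℕ) + 1) (n + 1) with h1 | h1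
        · exact hpow _ h1
        · have h2 : (j : ℕ) + 1 = n + 1 := by
            have := j.2
            omega
          rw [h2]
          exact htop
    have hx : x ∈ M := by rw [hall]; trivial
    rw [hM] at hx
    obtain ⟨y, hy⟩ := hx
    exact ⟨y, hy⟩
  · intro h M hv hZ
    rw [eq_top_iff]
    intro x _
    obtain ⟨y, rfl⟩ := h x
    rw [kry_mulVec]
    exact M.sum_mem fun j _ => M.smul_mem _ (pow_mem_of_stable hZ hv j)

/-- Cyclic vectors in terms of polynomials. -/
theorem Cyc.exists_poly {Z : Matrix (Fin n) (Fin n) S} {v : Fin n → S} (h : Cyc Z v)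
    (x : Fin n → S) : ∃ p : S[X], aeval Z p *ᵥ v = x := by
  have h1 := (Matrix.mulVec_surjective_iff_isUnit (A := kry Z v)).2 ((cyc_iff Z v).1 h)
  obtain ⟨y, hy⟩ := h1 x
  refine ⟨∑ j : Fin n, C (y j) * X ^ (j : ℕ), ?_⟩
  rw [← hy]
  rw [kry_mulVec, map_sum, Matrix.sum_mulVec]
  refine Finset.sum_congr rfl fun j _ => ?_
  rw [map_mul, map_pow, aeval_X, aeval_C, ← Algebra.smul_def, smul_mulVec]

theorem Cyc.map {Z : Matrix (Fin n) (Fin n) S} {v : Fin n → S} (h : Cyc Z v) (φ : S →+* T) :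
    Cyc (Z.map φ) fun i => φ (v i) := by
  rw [cyc_iff] at h ⊢
  have h1 : kry (Z.map φ) (fun i => φ (v i)) = φ.mapMatrix (kry Z v) := by
    ext i j
    simp only [kry, Matrix.of_apply, RingHom.mapMatrix_apply, Matrix.map_apply]
    have h2 : (Z.map φ) ^ (j : ℕ) = (Z ^ (j : ℕ)).map φ := by
      have := map_pow φ.mapMatrix Z (j : ℕ)
      exact this.symm
    rw [h2, RingHom.map_mulVec]
    rfl
  rw [h1]
  exact h.map φ.mapMatrix

theorem Cyc.of_comm {Z P : Matrix (Fin n) (Fin n) S} {v : Fin n → S} (h : Cyc Z v)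
    (hP : P * Z = Z * P) (hu : IsUnit P) : Cyc Z (P *ᵥ v) := by
  rw [cyc_iff] at h ⊢
  rw [← mul_kry P Z v Z hP]
  exact hu.mul h

theorem cyc_conj {Z : Matrix (Fin n) (Fin n) S} {v : Fin n → S} (P : (Matrix (Fin n) (Fin n) S)ˣ)
    (h : Cyc Z v) : Cyc ((P : Matrix (Fin n) (Fin n) S) * Z * ((P⁻¹ : (Matrix (Fin n) (Fin n) S)ˣ) :
      Matrix (Fin n) (Fin n) S)) ((P : Matrix (Fin n) (Fin n) S) *ᵥ v) := by
  rw [cyc_iff] at h ⊢
  rw [← mul_kry (P : Matrix (Fin n) (Fin n) S) Z v _ (by
    rw [mul_assoc _ ((P⁻¹ : (Matrix (Fin n) (Fin n) S)ˣ) : Matrix (Fin n) (Fin n) S), Units.inv_mul,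
      mul_one])]
  exact P.isUnit.mul h

/-- The first basis vector. -/
def e0 (n : ℕ) (S : Type*) [CommRing S] : Fin (n + 1) → S := Fin.cons 1 0

theorem brd_mulVec (q : S) (N : Matrix (Fin n) (Fin n) S) (b a : Fin n → S) (x₀ : S)
    (y : Fin n → S) : brd q N b a *ᵥ (Fin.cons x₀ y) =
      Fin.cons ((q + a ⬝ᵥ b) * x₀ + (a ᵥ* N) ⬝ᵥ y) (x₀ • b + N *ᵥ y) := by
  ext i
  refine Fin.cases ?_ (fun i => ?_) i
  · simp [brd, mulVec, dotProduct, Fin.sum_univ_succ]
  · simp [brd, mulVec, dotProduct, Fin.sum_univ_succ, mul_comm]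

theorem cyc_brd (q : S) (N : Matrix (Fin n) (Fin n) S) (b a : Fin n → S) :
    Cyc (brd q N b a) (e0 n S) ↔ Cyc N b := by
  constructor
  · intro h M hb hN
    obtain ⟨M', hM'⟩ : ∃ M' : Submodule S (Fin (n + 1) → S), ∀ x, x ∈ M' ↔ Fin.tail x ∈ M :=
      ⟨{ carrier := {x | Fin.tail x ∈ M}
         add_mem' := fun {x y} hx hy => M.add_mem hx hy
         zero_mem' := M.zero_mem
         smul_mem' := fun c x hx => M.smul_mem c hx }, fun x => Iff.rfl⟩
    have h1 : M' = ⊤ := by
      apply h M'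
      · rw [hM', e0, Fin.tail_cons]
        exact M.zero_mem
      · intro y hy
        rw [hM'] at hy
        rw [← Fin.cons_self_tail y, brd_mulVec, hM', Fin.tail_cons]
        exact M.add_mem (M.smul_mem _ hb) (hN _ hy)
    rw [eq_top_iff]
    intro x _
    have h2 : (Fin.cons 0 x : Fin (n + 1) → S) ∈ M' := by rw [h1]; trivial
    rw [hM', Fin.tail_cons] at h2
    exact h2
  · intro h M he hZ
    have key : ∀ y : Fin n → S, (Fin.cons 0 y : Fin (n + 1) → S) ∈ M := by
      obtain ⟨M', hM'⟩ : ∃ M' : Submodule S (Fin n → S), ∀ x, x ∈ M' ↔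
          (Fin.cons 0 x : Fin (n + 1) → S) ∈ M := by
        have ha : ∀ x y : Fin n → S, (Fin.cons 0 (x + y) : Fin (n + 1) → S) =
            Fin.cons 0 x + Fin.cons 0 y := by
          intro x y
          ext i
          refine Fin.cases ?_ (fun i => ?_) i <;> simp
        have hc : ∀ (c : S) (x : Fin n → S), (Fin.cons 0 (c • x) : Fin (n + 1) → S) =
            c • Fin.cons 0 x := by
          intro c x
          ext i
          refine Fin.cases ?_ (fun i => ?_) i <;> simp
        have h0 : (Fin.cons 0 (0 : Fin n → S) : Fin (n + 1) → S) = 0 := by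
          ext i
          refine Fin.cases ?_ (fun i => ?_) i <;> simp
        exact ⟨{ carrier := {x | (Fin.cons 0 x : Fin (n + 1) → S) ∈ M}
                 add_mem' := fun {x y} hx hy => by
                  rw [Set.mem_ofPred_eq, ha]; exact M.add_mem hx hy
                 zero_mem' := by rw [Set.mem_ofPred_eq, h0]; exact M.zero_mem
                 smul_mem' := fun c x hx => by
                  rw [Set.mem_ofPred_eq, hc]; exact M.smul_mem c hx }, fun x => Iff.rfl⟩
      have hstep : ∀ (c x₀ : S) (z : Fin n → S), (Fin.cons x₀ z : Fin (n + 1) → S) ∈ M →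
          (Fin.cons 0 z : Fin (n + 1) → S) ∈ M := by
        intro c x₀ z hz
        have h1 := M.sub_mem hz (M.smul_mem x₀ he)
        have h2 : (Fin.cons x₀ z : Fin (n + 1) → S) - x₀ • e0 n S = Fin.cons 0 z := by
          ext i
          refine Fin.cases ?_ (fun i => ?_) i <;> simp [e0]
        rwa [h2] at h1
      have h1 : M' = ⊤ := by
        apply h M'
        · rw [hM']
          have h2 := hZ _ he
          rw [e0, brd_mulVec] at h2
          have h3 := hstep 0 _ _ h2
          rw [one_smul, mulVec_zero, add_zero] at h3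
          exact h3
        · intro y hy
          rw [hM'] at hy ⊢
          have h2 := hZ _ hy
          rw [brd_mulVec] at h2
          have h3 := hstep 0 _ _ h2
          rw [zero_smul, zero_add] at h3
          exact h3
      intro y
      rw [← hM', h1]
      trivial
    rw [eq_top_iff]
    intro x _
    have h1 := M.add_mem (M.smul_mem (x 0) he) (key (Fin.tail x))
    have h2 : x 0 • e0 n S + (Fin.cons 0 (Fin.tail x) : Fin (n + 1) → S) = x := by
      ext i
      refine Fin.cases ?_ (fun i => ?_) i <;> simp [e0, Fin.tail]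
    rwa [h2] at h1

/-! ### The linear system for the first row -/

/-- The matrix of the linear system. -/
noncomputable def WW (N : Matrix (Fin n) (Fin n) S) (b : Fin n → S) : Matrix (Fin n) (Fin n) S :=
  Matrix.of fun j k => (wp N b k).coeff j

/-- The antitriangular matrix of the coefficients of the characteristic polynomial. -/
noncomputable def TT (N : Matrix (Fin n) (Fin n) S) : Matrix (Fin n) (Fin n) S :=
  Matrix.of fun m j => N.charpoly.coeff (m + j + 1)

theorem wp_coeff (N : Matrix (Fin n) (Fin n) S) (b : Fin n → S) (k : Fin n) (j : ℕ) :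
    (wp N b k).coeff j = ∑ m ∈ Finset.range n, N.charpoly.coeff (m + j + 1) * ((N ^ m) *ᵥ b) k := by
  unfold wp
  rw [Polynomial.finsetSum_coeff]
  have h1 : ∀ i ∈ Finset.range (n + 1), (∑ j ∈ Finset.range i,
      C (N.charpoly.coeff i * ((N ^ (i - 1 - j)) *ᵥ b) k) * X ^ j).coeff j =
      if j < i then N.charpoly.coeff i * ((N ^ (i - 1 - j)) *ᵥ b) k else 0 := by
    intro i _
    rw [Polynomial.finsetSum_coeff]
    simp only [Polynomial.coeff_C_mul, Polynomial.coeff_X_pow, mul_ite, mul_one, mul_zero]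
    by_cases h : j < i
    · rw [if_pos h, Finset.sum_ite_eq, if_pos (Finset.mem_range.2 h)]
    · rw [if_neg h, Finset.sum_ite_eq, if_neg (by rw [Finset.mem_range]; exact h)]
  rw [Finset.sum_congr rfl h1, ← Finset.sum_filter]
  have h2 : ∀ m, n ≤ m + j → N.charpoly.coeff (m + j + 1) * ((N ^ m) *ᵥ b) k = 0 := by
    intro m hm
    nontriviality S
    rw [Polynomial.coeff_eq_zero_of_natDegree_lt, zero_mul]
    rw [Matrix.charpoly_natDegree_eq_dim, Fintype.card_fin]
    omega
  have h3 : ∑ m ∈ Finset.range n, N.charpoly.coeff (m + j + 1) * ((N ^ m) *ᵥ b) k =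
      ∑ m ∈ (Finset.range n).filter (fun m => m + j < n),
        N.charpoly.coeff (m + j + 1) * ((N ^ m) *ᵥ b) k := by
    rw [Finset.sum_filter]
    refine Finset.sum_congr rfl fun m _ => ?_
    by_cases h : m + j < n
    · rw [if_pos h]
    · rw [if_neg h, h2 m (by omega)]
  rw [h3]
  refine Finset.sum_bij' (fun i _ => i - 1 - j) (fun m _ => m + j + 1) ?_ ?_ ?_ ?_ ?_
  · intro i hi
    rw [Finset.mem_filter, Finset.mem_range] at hi ⊢
    omega
  · intro m hm
    rw [Finset.mem_filter, Finset.mem_range] at hm ⊢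
    omega
  · intro i hi
    rw [Finset.mem_filter, Finset.mem_range] at hi
    omega
  · intro m hm
    omega
  · intro i hi
    rw [Finset.mem_filter, Finset.mem_range] at hi
    have h4 : i - 1 - j + j + 1 = i := by omega
    rw [h4]

theorem WW_eq (N : Matrix (Fin n) (Fin n) S) (b : Fin n → S) : (WW N b)ᵀ = kry N b * TT N := by
  ext k j
  rw [Matrix.transpose_apply, WW, Matrix.of_apply, wp_coeff, Matrix.mul_apply,
    ← Fin.sum_univ_eq_sum_range (fun m => N.charpoly.coeff (m + j + 1) * ((N ^ m) *ᵥ b) k)]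
  refine Finset.sum_congr rfl fun m _ => ?_
  rw [TT, Matrix.of_apply, kry, Matrix.of_apply, mul_comm]

theorem isUnit_TT (N : Matrix (Fin n) (Fin n) S) : IsUnit (TT N) := by
  nontriviality S
  rw [Matrix.isUnit_iff_isUnit_det]
  have h1 : ((TT N).submatrix id Fin.revPerm).det = 1 := by
    rw [Matrix.det_of_isUpperTriangular]
    · apply Finset.prod_eq_one
      intro i _
      rw [Matrix.submatrix_apply, TT, Matrix.of_apply, id, Fin.revPerm_apply, Fin.val_rev]
      have h2 : (i : ℕ) + (n - (i + 1)) + 1 = n := by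
        have := i.2
        omega
      rw [h2]
      have h3 := N.charpoly_monic
      rw [Polynomial.Monic, Polynomial.leadingCoeff, Matrix.charpoly_natDegree_eq_dim,
        Fintype.card_fin] at h3
      exact h3
    · intro i j hij
      change j < i at hij
      rw [Matrix.submatrix_apply, TT, Matrix.of_apply, id, Fin.revPerm_apply, Fin.val_rev]
      apply Polynomial.coeff_eq_zero_of_natDegree_lt
      rw [Matrix.charpoly_natDegree_eq_dim, Fintype.card_fin]
      have h1 := i.2
      have h2 : (j : ℕ) < i := hij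
      omega
  rw [Matrix.det_permute'] at h1
  exact isUnit_iff_exists_inv'.2 ⟨_, h1⟩

theorem isUnit_WW (N : Matrix (Fin n) (Fin n) S) (b : Fin n → S) :
    IsUnit (WW N b) ↔ Cyc N b := by
  rw [cyc_iff, ← Matrix.isUnit_transpose, WW_eq]
  constructor
  · intro h
    have := h.mul (isUnit_TT N).unit⁻¹.isUnit
    rwa [mul_assoc, IsUnit.mul_val_inv, mul_one] at this
  · intro h
    exact h.mul (isUnit_TT N)

end Vale.Agent.P002G
end

section

/-!
# Coordinates of the cells `U L` and the first row of a bordered matrix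
-/

namespace Vale.Agent.P002G

open Matrix Polynomial
open Vale.Agent.P002 (kry mul_kry kry_mulVec_single)

variable {n : ℕ} {S T : Type*} [CommRing S] [CommRing T]

/-- The upper unitriangular matrix with the strict upper entries of `X`. -/
def uU (X : Matrix (Fin n) (Fin n) S) : Matrix (Fin n) (Fin n) S :=
  Matrix.of fun i j => if i = j then 1 else if i < j then X i j else 0

/-- The lower triangular part of `X`, with the diagonal. -/
def lL (X : Matrix (Fin n) (Fin n) S) : Matrix (Fin n) (Fin n) S :=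
  Matrix.of fun i j => if j ≤ i then X i j else 0

/-- The element of the cell with the coordinates `X`. -/
def zZ (X : Matrix (Fin n) (Fin n) S) : Matrix (Fin n) (Fin n) S := uU X * lL X

/-- The matrix `[[q, u], [l, X]]`. -/
def bcons (q : S) (u l : Fin n → S) (X : Matrix (Fin n) (Fin n) S) :
    Matrix (Fin (n + 1)) (Fin (n + 1)) S :=
  Matrix.of (Fin.cons (Fin.cons q u) fun i => Fin.cons (l i) (X i))

omit [CommRing S] in
theorem bcons_zero_zero (q : S) (u l : Fin n → S) (X : Matrix (Fin n) (Fin n) S) :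
    bcons q u l X 0 0 = q := rfl

omit [CommRing S] in
theorem bcons_zero_succ (q : S) (u l : Fin n → S) (X : Matrix (Fin n) (Fin n) S) (j : Fin n) :
    bcons q u l X 0 j.succ = u j := rfl

omit [CommRing S] in
theorem bcons_succ_zero (q : S) (u l : Fin n → S) (X : Matrix (Fin n) (Fin n) S) (i : Fin n) :
    bcons q u l X i.succ 0 = l i := rfl

omit [CommRing S] in
theorem bcons_succ_succ (q : S) (u l : Fin n → S) (X : Matrix (Fin n) (Fin n) S) (i j : Fin n) :
    bcons q u l X i.succ j.succ = X i j := rfl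

omit [CommRing S] in
/-- Every matrix is of this form. -/
theorem bcons_eta (Y : Matrix (Fin (n + 1)) (Fin (n + 1)) S) :
    bcons (Y 0 0) (fun j => Y 0 j.succ) (fun i => Y i.succ 0)
      (Matrix.of fun i j => Y i.succ j.succ) = Y := by
  ext i j
  refine Fin.cases ?_ (fun i => ?_) i <;> refine Fin.cases ?_ (fun j => ?_) j <;> rfl

theorem uU_bcons (q : S) (u l : Fin n → S) (X : Matrix (Fin n) (Fin n) S) :
    uU (bcons q u l X) = ucons u (uU X) := by
  ext i j
  refine Fin.cases ?_ (fun i => ?_) i <;> refine Fin.cases ?_ (fun j => ?_) j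
  · simp [uU, ucons]
  · simp only [uU, Matrix.of_apply, ucons, Fin.cons_zero, Fin.cons_succ, bcons_zero_succ]
    rw [if_neg (Fin.succ_ne_zero j).symm, if_pos (Fin.succ_pos j)]
  · simp only [uU, Matrix.of_apply, ucons, Fin.cons_zero, Fin.cons_succ, bcons_succ_zero]
    rw [if_neg (Fin.succ_ne_zero i), if_neg (by simp)]
  · simp only [uU, Matrix.of_apply, ucons, Fin.cons_succ, bcons_succ_succ, Fin.succ_inj,
      Fin.succ_lt_succ_iff]

theorem lL_bcons (q : S) (u l : Fin n → S) (X : Matrix (Fin n) (Fin n) S) :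
    lL (bcons q u l X) = lcons q l (lL X) := by
  ext i j
  refine Fin.cases ?_ (fun i => ?_) i <;> refine Fin.cases ?_ (fun j => ?_) j
  · simp [lL, lcons, bcons_zero_zero]
  · simp only [lL, Matrix.of_apply, lcons, Fin.cons_zero, Fin.cons_succ, bcons_zero_succ]
    rw [if_neg (by simp)]
    rfl
  · simp only [lL, Matrix.of_apply, lcons, Fin.cons_zero, Fin.cons_succ, bcons_succ_zero]
    rw [if_pos (Fin.zero_le _)]
  · simp only [lL, Matrix.of_apply, lcons, Fin.cons_succ, bcons_succ_succ, Fin.succ_le_succ_iff]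

theorem zZ_bcons (q : S) (a l : Fin n → S) (X : Matrix (Fin n) (Fin n) S) :
    zZ (bcons q (a ᵥ* uU X) l X) = brd q (zZ X) (uU X *ᵥ l) a := by
  rw [zZ, uU_bcons, lL_bcons, ucons_mul_lcons, zZ]

theorem det_uU (X : Matrix (Fin n) (Fin n) S) : (uU X).det = 1 := by
  rw [Matrix.det_of_isUpperTriangular]
  · apply Finset.prod_eq_one
    intro i _
    simp [uU]
  · intro i j hij
    have h : j < i := hij
    simp only [uU, Matrix.of_apply]
    rw [if_neg h.ne', if_neg (not_lt.2 h.le)]

theorem det_lL (X : Matrix (Fin n) (Fin n) S) : (lL X).det = ∏ i, X i i := by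
  rw [Matrix.det_of_isLowerTriangular]
  · apply Finset.prod_congr rfl
    intro i _
    simp [lL]
  · intro i j hij
    have h : i < j := hij
    simp only [lL, Matrix.of_apply]
    rw [if_neg (not_le.2 h)]

theorem det_zZ (X : Matrix (Fin n) (Fin n) S) : (zZ X).det = ∏ i, X i i := by
  rw [zZ, Matrix.det_mul, det_uU, det_lL, one_mul]

theorem isUnit_uU (X : Matrix (Fin n) (Fin n) S) : IsUnit (uU X) := by
  rw [Matrix.isUnit_iff_isUnit_det, det_uU]
  exact isUnit_one

theorem exists_vecMul_uU (X : Matrix (Fin n) (Fin n) S) (u : Fin n → S) :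
    (u ᵥ* (uU X)⁻¹) ᵥ* uU X = u := by
  rw [Matrix.vecMul_vecMul, Matrix.nonsing_inv_mul _ ((Matrix.isUnit_iff_isUnit_det _).1
    (isUnit_uU X)), Matrix.vecMul_one]

theorem uU_map (φ : S →+* T) (X : Matrix (Fin n) (Fin n) S) : (uU X).map φ = uU (X.map φ) := by
  ext i j
  simp only [uU, Matrix.map_apply, Matrix.of_apply]
  split_ifs
  · exact map_one φ
  · rfl
  · exact map_zero φ

theorem lL_map (φ : S →+* T) (X : Matrix (Fin n) (Fin n) S) : (lL X).map φ = lL (X.map φ) := by
  ext i j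
  simp only [lL, Matrix.map_apply, Matrix.of_apply]
  split_ifs
  · rfl
  · exact map_zero φ

theorem zZ_map (φ : S →+* T) (X : Matrix (Fin n) (Fin n) S) : (zZ X).map φ = zZ (X.map φ) := by
  rw [zZ, Matrix.map_mul, uU_map, lL_map, zZ]

/-- The solution of the linear system for the first row. -/
noncomputable def aOf (χ : S[X]) (q : S) (N : Matrix (Fin n) (Fin n) S) (b : Fin n → S) :
    Fin n → S :=
  (WW N b)⁻¹ *ᵥ fun j => (N.charpoly * (X - C q) - χ).coeff (j + 1)

/-- The first row of a bordered matrix is determined by the characteristic polynomial. -/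
theorem charpoly_brd_iff {χ : S[X]} (hχ : χ.Monic) (hχd : χ.natDegree = n + 1) {q : S}
    {N : Matrix (Fin n) (Fin n) S} {b : Fin n → S} (hb : Cyc N b)
    (h0 : χ.coeff 0 = -(q * N.charpoly.coeff 0)) (a : Fin n → S) :
    (brd q N b a).charpoly = χ ↔ a = aOf χ q N b := by
  nontriviality S
  have hW : IsUnit (WW N b).det := (Matrix.isUnit_iff_isUnit_det _).1 ((isUnit_WW N b).2 hb)
  obtain ⟨D, hD⟩ : ∃ D, D = N.charpoly * (X - C q) - χ := ⟨_, rfl⟩
  have hNd : N.charpoly.natDegree = n := by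
    rw [Matrix.charpoly_natDegree_eq_dim, Fintype.card_fin]
  have hP1 : (N.charpoly * (X - C q)).Monic := N.charpoly_monic.mul (monic_X_sub_C q)
  have hP2 : (N.charpoly * (X - C q)).natDegree = n + 1 := by
    rw [N.charpoly_monic.natDegree_mul (monic_X_sub_C q), hNd, natDegree_X_sub_C]
  have hD0 : D.coeff 0 = 0 := by
    rw [hD, coeff_sub, mul_coeff_zero, coeff_sub, coeff_X_zero, coeff_C_zero, h0]
    ring
  have hDtop : ∀ j, n + 1 ≤ j → D.coeff j = 0 := by
    intro j hj
    rw [hD, coeff_sub]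
    rcases Nat.eq_or_lt_of_le hj with h | h
    · rw [← h]
      have h1 : (N.charpoly * (X - C q)).coeff (n + 1) = 1 := by
        have := hP1
        rwa [Monic, leadingCoeff, hP2] at this
      have h2 : χ.coeff (n + 1) = 1 := by
        have := hχ
        rwa [Monic, leadingCoeff, hχd] at this
      rw [h1, h2, sub_self]
    · rw [coeff_eq_zero_of_natDegree_lt (by rw [hP2]; exact h),
        coeff_eq_zero_of_natDegree_lt (by rw [hχd]; exact h), sub_self]
  have hwt : ∀ (k : Fin n) (j : ℕ), n ≤ j → (wp N b k).coeff j = 0 := by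
    intro k j hj
    rw [wp_coeff]
    apply Finset.sum_eq_zero
    intro m _
    rw [coeff_eq_zero_of_natDegree_lt (by rw [hNd]; omega), zero_mul]
  have key : (brd q N b a).charpoly = χ ↔ ∑ k, C (a k) * wp N b k * X = D := by
    rw [charpoly_brd, hD, ← Finset.sum_mul, mul_comm X, sub_eq_iff_eq_add, ← sub_eq_iff_eq_add']
    exact eq_comm
  rw [key]
  have hcoef : ∀ j, (∑ k, C (a k) * wp N b k * X).coeff (j + 1) =
      ∑ k, a k * (wp N b k).coeff j := by
    intro j
    rw [finsetSum_coeff]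
    refine Finset.sum_congr rfl fun k _ => ?_
    rw [coeff_mul_X, coeff_C_mul]
  have h3 : ∑ k, C (a k) * wp N b k * X = D ↔
      WW N b *ᵥ a = fun j : Fin n => D.coeff (j + 1) := by
    constructor
    · intro h
      ext j
      rw [← h, hcoef, mulVec, dotProduct]
      refine Finset.sum_congr rfl fun k _ => ?_
      rw [WW, Matrix.of_apply, mul_comm]
    · intro h
      ext j
      rcases j with _ | j
      · rw [hD0, finsetSum_coeff]
        apply Finset.sum_eq_zero
        intro k _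
        rw [coeff_mul_X_zero]
      · rw [hcoef]
        rcases Nat.lt_or_ge j n with hj | hj
        · have h4 := congrFun h ⟨j, hj⟩
          rw [mulVec, dotProduct] at h4
          rw [← h4]
          refine Finset.sum_congr rfl fun k _ => ?_
          rw [WW, Matrix.of_apply, mul_comm]
        · rw [hDtop _ (by omega)]
          apply Finset.sum_eq_zero
          intro k _
          rw [hwt k j hj, mul_zero]
  rw [h3, aOf, ← hD]
  constructor
  · intro h
    rw [← h, mulVec_mulVec, Matrix.nonsing_inv_mul _ hW, one_mulVec]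
  · intro h
    rw [h, mulVec_mulVec, Matrix.mul_nonsing_inv _ hW, one_mulVec]

/-- The constant coefficient in terms of the diagonal. -/
theorem charpoly_zZ_coeff_zero (X : Matrix (Fin n) (Fin n) S) :
    (zZ X).charpoly.coeff 0 = (-1) ^ n * ∏ i, X i i := by
  have h := Matrix.det_eq_sign_charpoly_coeff (zZ X)
  rw [Fintype.card_fin, det_zZ] at h
  rw [h, ← mul_assoc, ← mul_pow]
  simp

theorem wp_map (φ : S →+* T) (N : Matrix (Fin n) (Fin n) S) (b : Fin n → S) (k : Fin n) (j : ℕ) :
    φ ((wp N b k).coeff j) = (wp (N.map φ) (fun i => φ (b i)) k).coeff j := by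
  rw [wp_coeff, wp_coeff, map_sum]
  refine Finset.sum_congr rfl fun m _ => ?_
  have h1 : (N.map φ).charpoly = N.charpoly.map φ := Matrix.charpoly_map N φ
  rw [map_mul, h1, coeff_map, RingHom.map_mulVec]
  have h2 : (N.map φ) ^ m = (N ^ m).map φ := by
    have := map_pow φ.mapMatrix N m
    exact this.symm
  rw [h2]
  rfl

theorem WW_map (φ : S →+* T) (N : Matrix (Fin n) (Fin n) S) (b : Fin n → S) :
    (WW N b).map φ = WW (N.map φ) fun i => φ (b i) := by
  ext j k
  rw [Matrix.map_apply, WW, WW, Matrix.of_apply, Matrix.of_apply, wp_map]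

theorem aOf_map (φ : S →+* T) {N : Matrix (Fin n) (Fin n) S} {b : Fin n → S} (hb : Cyc N b)
    (χ : S[X]) (q : S) :
    (fun i => φ (aOf χ q N b i)) = aOf (χ.map φ) (φ q) (N.map φ) fun i => φ (b i) := by
  have hW : IsUnit (WW N b).det := (Matrix.isUnit_iff_isUnit_det _).1 ((isUnit_WW N b).2 hb)
  have hW' : IsUnit (WW (N.map φ) fun i => φ (b i)).det :=
    (Matrix.isUnit_iff_isUnit_det _).1 ((isUnit_WW _ _).2 (hb.map φ))
  have h1 : WW N b *ᵥ aOf χ q N b = fun j => (N.charpoly * (X - C q) - χ).coeff (j + 1) := by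
    rw [aOf, mulVec_mulVec, Matrix.mul_nonsing_inv _ hW, one_mulVec]
  have h2 : WW (N.map φ) (fun i => φ (b i)) *ᵥ (fun i => φ (aOf χ q N b i)) =
      fun j => ((N.map φ).charpoly * (X - C (φ q)) - χ.map φ).coeff (j + 1) := by
    ext j
    have h3 := congrArg φ (congrFun h1 j)
    rw [RingHom.map_mulVec] at h3
    have h4 : (N.map φ).charpoly = N.charpoly.map φ := Matrix.charpoly_map N φ
    rw [h4]
    have h5 : N.charpoly.map φ * (X - C (φ q)) - χ.map φ =
        (N.charpoly * (X - C q) - χ).map φ := by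
      simp
    rw [h5, coeff_map, ← h3, ← WW_map]
    rfl
  conv_rhs => rw [aOf, ← h2, mulVec_mulVec, Matrix.nonsing_inv_mul _ hW', one_mulVec]

end Vale.Agent.P002G
end

section

/-!
# P002: duality for elements of the cell
-/

namespace Vale.Agent.P002R

open Matrix

variable {r n : ℕ} {S T : Type*} [CommRing S] [CommRing T]

/-- The strict upper part. -/
def upS (A : Mat r S) : Mat r S := Matrix.of fun i j => if i < j then A i j else 0

theorem upS_apply (A : Mat r S) (i j : Fin r) : upS A i j = if i < j then A i j else 0 := rfl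

theorem upS_add_lL (A : Mat r S) : upS A + lL A = A := by
  ext i j
  rw [Matrix.add_apply, upS_apply, lL_apply]
  by_cases h : i < j
  · rw [if_pos h, if_neg (not_le.2 h), add_zero]
  · rw [if_neg h, if_pos (not_lt.1 h), zero_add]

theorem upT_one_sub_upS (A : Mat r S) : UpT (1 - upS A) := by
  intro i j h
  rw [Matrix.sub_apply, Matrix.one_apply_ne h.ne', upS_apply, if_neg h.not_gt, sub_zero]

theorem one_sub_upS_diag (A : Mat r S) (i : Fin r) : (1 - upS A) i i = 1 := by
  rw [Matrix.sub_apply, Matrix.one_apply_eq, upS_apply, if_neg (lt_irrefl i), sub_zero]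

theorem det_one_sub_upS (A : Mat r S) : (1 - upS A).det = 1 := by
  rw [(upT_one_sub_upS A).det]
  exact Finset.prod_eq_one fun i _ => one_sub_upS_diag A i

/-- The inverse of `1 - upS A`. -/
def dU (A : Mat r S) : Mat r S := (1 - upS A).adjugate

theorem dU_mul (A : Mat r S) : dU A * (1 - upS A) = 1 := by
  rw [dU, Matrix.adjugate_mul, det_one_sub_upS, one_smul]

theorem mul_dU (A : Mat r S) : (1 - upS A) * dU A = 1 := by
  rw [dU, Matrix.mul_adjugate, det_one_sub_upS, one_smul]

theorem inv_upT {A B : Mat r S} (hA : UpT A) (hA1 : ∀ i, A i i = 1) (h : B * A = 1) :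
    UpT B ∧ ∀ i, B i i = 1 := by
  have hdet : A.det = 1 := by
    rw [hA.det]
    exact Finset.prod_eq_one fun i _ => hA1 i
  have hB : B = A⁻¹ := (Matrix.inv_eq_left_inv h).symm
  have hinv : Invertible A := Matrix.invertibleOfIsUnitDet A (by rw [hdet]; exact isUnit_one)
  have h1 : UpT B := by
    rw [hB]
    intro i j hij
    exact Matrix.blockTriangular_inv_of_blockTriangular (M := A) (b := id)
      (fun i j h => hA i j h) hij
  refine ⟨h1, fun i => ?_⟩
  have h2 := h1.mul_diag hA i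
  rw [h, Matrix.one_apply_eq, hA1, mul_one] at h2
  exact h2.symm

theorem upT_dU (A : Mat r S) : UpT (dU A) :=
  (inv_upT (upT_one_sub_upS A) (one_sub_upS_diag A) (dU_mul A)).1

theorem dU_diag (A : Mat r S) (i : Fin r) : dU A i i = 1 :=
  (inv_upT (upT_one_sub_upS A) (one_sub_upS_diag A) (dU_mul A)).2 i

/-- The cell coordinates of `ζ (1 + dU A * A)`. -/
def dX (ζ : S) (A : Mat r S) : Mat r S := Matrix.of fun i j =>
  if i < j then dU A i j else ζ * ((1 : Mat r S) i j + A i j)

theorem dX_apply (ζ : S) (A : Mat r S) (i j : Fin r) :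
    dX ζ A i j = if i < j then dU A i j else ζ * ((1 : Mat r S) i j + A i j) := rfl

theorem dX_diag (ζ : S) (A : Mat r S) (i : Fin r) : dX ζ A i i = ζ * (1 + A i i) := by
  rw [dX_apply, if_neg (lt_irrefl i), Matrix.one_apply_eq]

theorem uU_dX (ζ : S) (A : Mat r S) : uU (dX ζ A) = dU A := by
  ext i j
  rw [uU_apply, dX_apply]
  split_ifs with h1 h2
  · rw [← h1, dU_diag]
  · rfl
  · exact (upT_dU A i j (lt_of_le_of_ne (not_lt.1 h2) (Ne.symm h1))).symm

theorem lL_dX (ζ : S) (A : Mat r S) : lL (dX ζ A) = ζ • (1 + lL A) := by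
  ext i j
  rw [lL_apply, dX_apply, Matrix.smul_apply, Matrix.add_apply, lL_apply, smul_eq_mul]
  by_cases h : i < j
  · rw [if_neg (not_le.2 h), if_neg (not_le.2 h), Matrix.one_apply_ne h.ne, add_zero, mul_zero]
  · rw [if_pos (not_lt.1 h), if_neg h, if_pos (not_lt.1 h)]

theorem zZ_dX (ζ : S) (A : Mat r S) : zZ (dX ζ A) = ζ • (1 + dU A * A) := by
  rw [zZ, uU_dX, lL_dX, Matrix.mul_smul]
  congr 1
  have h1 : 1 + lL A = (1 - upS A) + A := by
    have h2 := upS_add_lL A
    calc 1 + lL A = (1 - upS A) + (upS A + lL A) := by abel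
      _ = _ := by rw [h2]
  rw [h1, Matrix.mul_add, dU_mul]

theorem upS_map (φ : S →+* T) (A : Mat r S) : (upS A).map φ = upS (A.map φ) := by
  ext i j
  rw [Matrix.map_apply, upS_apply, upS_apply, Matrix.map_apply]
  split_ifs
  · rfl
  · exact map_zero φ

theorem one_sub_map (φ : S →+* T) (A : Mat r S) : (1 - A).map φ = 1 - A.map φ := by
  rw [Matrix.map_sub φ (map_sub φ), Matrix.map_one φ (map_zero φ) (map_one φ)]

theorem dU_map (φ : S →+* T) (A : Mat r S) : (dU A).map φ = dU (A.map φ) := by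
  rw [dU, dU, adjugate_map, one_sub_map, upS_map]

theorem dX_map (φ : S →+* T) (ζ : S) (A : Mat r S) : (dX ζ A).map φ = dX (φ ζ) (A.map φ) := by
  ext i j
  rw [Matrix.map_apply, dX_apply, dX_apply, ← dU_map, Matrix.map_apply, Matrix.map_apply]
  split_ifs
  · rfl
  · rw [map_mul, map_add]
    congr 2
    rw [Matrix.one_apply, Matrix.one_apply]
    split_ifs
    · exact map_one φ
    · exact map_zero φ

/-- Every element of the cell is of this form. -/
theorem eq_dX {ζ ζ' : S} (h : ζ * ζ' = 1) (X V : Mat r S) (hV : V * uU X = 1) :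
    X = dX ζ (ζ' • lL X - V) := by
  obtain ⟨hV1, hV2⟩ := inv_upT (upT_uU X) (uU_diag X) hV
  have h1 : upS (ζ' • lL X - V) = 1 - V := by
    ext i j
    rw [upS_apply, Matrix.sub_apply, Matrix.smul_apply, lL_apply, Matrix.sub_apply,
      Matrix.one_apply]
    by_cases hij : i < j
    · rw [if_pos hij, if_neg (not_le.2 hij), if_neg hij.ne, smul_zero]
    · rw [if_neg hij]
      rcases eq_or_lt_of_le (not_lt.1 hij) with h2 | h2
      · rw [← h2, if_pos rfl, hV2, sub_self]
      · rw [if_neg h2.ne', hV1 i j h2, sub_zero]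
  have h2 : dU (ζ' • lL X - V) = uU X := by
    have h3 := mul_dU (ζ' • lL X - V)
    rw [h1, sub_sub_cancel] at h3
    have h4 : uU X * V = 1 := mul_eq_one_comm.1 hV
    calc dU (ζ' • lL X - V) = (uU X * V) * dU (ζ' • lL X - V) := by rw [h4, one_mul]
      _ = uU X * (V * dU (ζ' • lL X - V)) := by rw [mul_assoc]
      _ = _ := by rw [h3, mul_one]
  ext i j
  rw [dX_apply, h2]
  by_cases hij : i < j
  · rw [if_pos hij, uU_apply, if_neg hij.ne, if_pos hij]
  · rw [if_neg hij, Matrix.sub_apply, Matrix.smul_apply, lL_apply, if_pos (not_lt.1 hij),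
      smul_eq_mul, Matrix.one_apply]
    rcases eq_or_lt_of_le (not_lt.1 hij) with h3 | h3
    · rw [← h3, if_pos rfl, hV2, add_sub_cancel, ← mul_assoc, h, one_mul]
    · rw [if_neg h3.ne', hV1 i j h3, sub_zero, zero_add, ← mul_assoc, h, one_mul]

/-! ### Products of reflections -/

/-- The product of the elements `1 + ξ_i υ_i`. -/
theorem prod_refl_aux : ∀ {r : ℕ} (Ξ : Matrix (Fin n) (Fin r) S) (Υ V : Matrix (Fin r) (Fin n) S),
    V = Υ + upS (Υ * Ξ) * V →
    (List.ofFn fun i => 1 + vecMulVec (fun a => Ξ a i) (Υ i)).prod = 1 + Ξ * V := by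
  intro r
  induction r with
  | zero =>
    intro Ξ Υ V _
    rw [List.ofFn_zero, List.prod_nil]
    have : Ξ * V = 0 := by
      ext i j
      rw [Matrix.mul_apply, Finset.univ_eq_empty, Finset.sum_empty, Matrix.zero_apply]
    rw [this, add_zero]
  | succ r ih =>
    intro Ξ Υ V hV
    obtain ⟨Ξ', hΞ⟩ : ∃ Ξ' : Matrix (Fin n) (Fin r) S, Ξ' = Matrix.of fun a i => Ξ a i.succ :=
      ⟨_, rfl⟩
    obtain ⟨Υ', hΥ⟩ : ∃ Υ' : Matrix (Fin r) (Fin n) S, Υ' = Matrix.of fun i a => Υ i.succ a :=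
      ⟨_, rfl⟩
    obtain ⟨V', hV'⟩ : ∃ V' : Matrix (Fin r) (Fin n) S, V' = Matrix.of fun i a => V i.succ a :=
      ⟨_, rfl⟩
    have hT : ∀ i j : Fin r, (Υ * Ξ) i.succ j.succ = (Υ' * Ξ') i j := by
      intro i j
      rw [Matrix.mul_apply, Matrix.mul_apply]
      exact Finset.sum_congr rfl fun a _ => by rw [hΞ, hΥ]; rfl
    have hV1 : V' = Υ' + upS (Υ' * Ξ') * V' := by
      ext i a
      have h1 := congrFun (congrFun hV i.succ) a
      rw [Matrix.add_apply, Matrix.mul_apply, Fin.sum_univ_succ, upS_apply,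
        if_neg (Fin.succ_pos i).not_gt, zero_mul, zero_add] at h1
      rw [Matrix.add_apply, Matrix.mul_apply]
      have h2 : V' i a = V i.succ a := by rw [hV']; rfl
      have h3 : Υ' i a = Υ i.succ a := by rw [hΥ]; rfl
      rw [h2, h3, h1]
      congr 1
      refine Finset.sum_congr rfl fun j _ => ?_
      rw [upS_apply, upS_apply, hT, hV']
      simp only [Fin.succ_lt_succ_iff]
      rfl
    have hV0 : V 0 = Υ 0 + (Υ 0 ᵥ* Ξ') ᵥ* V' := by
      funext a
      have h1 := congrFun (congrFun hV 0) a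
      rw [Matrix.add_apply, Matrix.mul_apply, Fin.sum_univ_succ, upS_apply,
        if_neg (lt_irrefl _), zero_mul, zero_add] at h1
      rw [h1, Pi.add_apply]
      congr 1
      rw [Matrix.vecMul, dotProduct]
      refine Finset.sum_congr rfl fun j _ => ?_
      rw [upS_apply, if_pos (Fin.succ_pos j), hV', Matrix.mul_apply, Matrix.vecMul, dotProduct]
      congr 1
      exact Finset.sum_congr rfl fun b _ => by rw [hΞ]; rfl
    rw [List.ofFn_succ, List.prod_cons]
    have h4 : (List.ofFn fun i : Fin r => 1 + vecMulVec (fun a => Ξ a i.succ) (Υ i.succ)) =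
        List.ofFn fun i : Fin r => 1 + vecMulVec (fun a => Ξ' a i) (Υ' i) := by
      rw [hΞ, hΥ]
      rfl
    rw [h4, ih Ξ' Υ' V' hV1]
    have h5 : Ξ * V = vecMulVec (fun a => Ξ a 0) (V 0) + Ξ' * V' := by
      ext a b
      rw [Matrix.mul_apply, Fin.sum_univ_succ, Matrix.add_apply, vecMulVec_apply,
        Matrix.mul_apply]
      congr 1
      exact Finset.sum_congr rfl fun j _ => by rw [hΞ, hV']; rfl
    have h6 : vecMulVec (fun a => Ξ a 0) (V 0) =
        vecMulVec (fun a => Ξ a 0) (Υ 0) * (1 + Ξ' * V') := by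
      rw [hV0, Matrix.vecMulVec_mul, Matrix.vecMul_add, Matrix.vecMul_one, Matrix.vecMul_vecMul]
    rw [h5, h6, Matrix.add_mul, Matrix.one_mul]
    abel

theorem prod_refl (Ξ : Matrix (Fin n) (Fin r) S) (Υ : Matrix (Fin r) (Fin n) S) :
    (List.ofFn fun i => 1 + vecMulVec (fun a => Ξ a i) (Υ i)).prod =
      1 + Ξ * (dU (Υ * Ξ) * Υ) := by
  refine prod_refl_aux Ξ Υ _ ?_
  have h1 := mul_dU (Υ * Ξ)
  have h2 : dU (Υ * Ξ) = 1 + upS (Υ * Ξ) * dU (Υ * Ξ) := by
    rw [Matrix.sub_mul, Matrix.one_mul] at h1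
    rw [← h1]
    abel
  calc dU (Υ * Ξ) * Υ = (1 + upS (Υ * Ξ) * dU (Υ * Ξ)) * Υ := by rw [← h2]
    _ = _ := by rw [Matrix.add_mul, Matrix.one_mul, Matrix.mul_assoc]

end Vale.Agent.P002R
end

section

/-!
# Lagrange interpolation: the integral cyclic vectors are dense
-/

namespace Vale.Agent.P002G

open Matrix Polynomial
open Vale.Agent.P002 (kry mul_kry kry_mulVec_single)

variable {n : ℕ} {S T : Type*} [CommRing S] [CommRing T]

/-- The vector `(1, 0, ..., 0)`. -/
def en (n : ℕ) (S : Type*) [CommRing S] : Fin n → S := fun i => if (i : ℕ) = 0 then 1 else 0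

theorem en_succ : en (n + 1) S = Fin.cons 1 0 := by
  ext i
  refine Fin.cases ?_ (fun i => ?_) i
  · simp [en]
  · simp [en]

theorem en_eq_e0 : en (n + 1) S = e0 n S := en_succ

theorem en_map (φ : S →+* T) : (fun i => φ (en n S i)) = en n T := by
  ext i
  simp only [en]
  split_ifs
  · exact map_one φ
  · exact map_zero φ

theorem uU_mulVec_en (X : Matrix (Fin n) (Fin n) S) : uU X *ᵥ en n S = en n S := by
  ext i
  rw [mulVec, dotProduct]
  by_cases hi : (i : ℕ) = 0
  · rw [Finset.sum_eq_single i]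
    · simp [uU, en, hi]
    · intro j _ hj
      have : (j : ℕ) ≠ 0 := fun h => hj (Fin.ext (h.trans hi.symm))
      simp [en, this]
    · intro h; exact absurd (Finset.mem_univ i) h
  · have h1 : en n S i = 0 := by simp [en, hi]
    rw [h1]
    apply Finset.sum_eq_zero
    intro j _
    by_cases hj : (j : ℕ) = 0
    · have h2 : i ≠ j := fun h => hi (by rw [h]; exact hj)
      have h3 : ¬ i < j := by
        rw [Fin.lt_def]
        omega
      simp [uU, h2, h3]
    · simp [en, hj]

/-- The Lagrange numerators. -/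
noncomputable def lagr (ν : Fin n → S) (i : Fin n) : S[X] :=
  ∏ j ∈ Finset.univ.erase i, (X - C (ν j))

/-- The Lagrange denominators. -/
def lden (ν : Fin n → S) (i : Fin n) : S := ∏ j ∈ Finset.univ.erase i, (ν i - ν j)

theorem eval_lagr_self (ν : Fin n → S) (i : Fin n) : (lagr ν i).eval (ν i) = lden ν i := by
  simp [lagr, lden, Polynomial.eval_prod]

theorem eval_lagr_ne (ν : Fin n → S) {i j : Fin n} (h : j ≠ i) : (lagr ν i).eval (ν j) = 0 := by
  rw [lagr, Polynomial.eval_prod]
  apply Finset.prod_eq_zero (Finset.mem_erase.2 ⟨h, Finset.mem_univ j⟩)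
  simp

theorem lagr_map (φ : S →+* T) (ν : Fin n → S) (i : Fin n) :
    (lagr ν i).map φ = lagr (fun j => φ (ν j)) i := by
  simp [lagr, Polynomial.map_prod]

theorem lden_map (φ : S →+* T) (ν : Fin n → S) (i : Fin n) :
    φ (lden ν i) = lden (fun j => φ (ν j)) i := by
  simp [lden, map_prod]

/-- The interpolation polynomial. -/
noncomputable def ipol (ν c : Fin n → S) : S[X] := 1 + ∑ i, C (c i) * lagr ν i

theorem eval_ipol (ν c : Fin n → S) (j : Fin n) :
    (ipol ν c).eval (ν j) = 1 + c j * lden ν j := by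
  rw [ipol, eval_add, eval_one, eval_finsetSum, Finset.sum_eq_single j]
  · rw [eval_mul, eval_C, eval_lagr_self]
  · intro i _ hi
    rw [eval_mul, eval_lagr_ne ν hi.symm, mul_zero]
  · intro h; exact absurd (Finset.mem_univ j) h

theorem lden_ne_zero [IsDomain S] {ν : Fin n → S} (hν : Function.Injective ν) (i : Fin n) :
    lden ν i ≠ 0 := by
  rw [lden, Finset.prod_ne_zero_iff]
  intro j hj
  rw [Finset.mem_erase] at hj
  exact sub_ne_zero.2 fun h => hj.1 (hν h.symm)

/-- A polynomial which vanishes at the distinct eigenvalues vanishes at the matrix. -/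
theorem aeval_eq_zero_of_roots [IsDomain S] {Z : Matrix (Fin n) (Fin n) S} {ν : Fin n → S}
    (hν : Function.Injective ν) (hZ : Z.charpoly = ∏ i, (X - C (ν i))) {f : S[X]}
    (hf : ∀ i, f.eval (ν i) = 0) : aeval Z f = 0 := by
  have h1 : f %ₘ Z.charpoly = 0 := by
    have hdeg : (f %ₘ Z.charpoly).degree < (n : WithBot ℕ) := by
      have := Polynomial.degree_modByMonic_lt f Z.charpoly_monic
      rwa [Matrix.charpoly_degree_eq_dim, Fintype.card_fin] at this
    by_contra hne
    have hnat : (f %ₘ Z.charpoly).natDegree < n := by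
      rwa [← Polynomial.natDegree_lt_iff_degree_lt hne] at hdeg
    apply hne
    apply Polynomial.eq_zero_of_natDegree_lt_card_of_eval_eq_zero _ hν
    · intro i
      have h2 := congrArg (Polynomial.eval (ν i)) (Polynomial.modByMonic_add_div f Z.charpoly)
      rw [eval_add, eval_mul, hf i] at h2
      have h3 : Z.charpoly.eval (ν i) = 0 := by
        rw [hZ, Polynomial.eval_prod]
        apply Finset.prod_eq_zero (Finset.mem_univ i)
        simp
      rw [h3, zero_mul, add_zero] at h2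
      exact h2
    · rw [Fintype.card_fin]
      exact hnat
  have h2 := Polynomial.modByMonic_add_div f Z.charpoly
  rw [h1, zero_add] at h2
  rw [← h2, map_mul, Matrix.aeval_self_charpoly, zero_mul]

theorem ipol_mul_inv [IsDomain S] {Z : Matrix (Fin n) (Fin n) S} {ν : Fin n → S}
    (hν : Function.Injective ν) (hZ : Z.charpoly = ∏ i, (X - C (ν i))) {c c' : Fin n → S}
    (h : ∀ i, (1 + c i * lden ν i) * (1 + c' i * lden ν i) = 1) :
    aeval Z (ipol ν c) * aeval Z (ipol ν c') = 1 := by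
  have h1 : aeval Z (ipol ν c * ipol ν c' - 1) = 0 := by
    apply aeval_eq_zero_of_roots hν hZ
    intro i
    rw [eval_sub, eval_mul, eval_ipol, eval_ipol, h, eval_one, sub_self]
  rw [map_sub, map_mul, map_one, sub_eq_zero] at h1
  exact h1

/-- Divisibility of `w - 1` for the inverse. -/
theorem dvd_inv_sub_one {D : S} {w : Sˣ} (h : D ∣ (w : S) - 1) : D ∣ ((w⁻¹ : Sˣ) : S) - 1 := by
  obtain ⟨e, he⟩ := h
  refine ⟨-(((w⁻¹ : Sˣ) : S) * e), ?_⟩
  have h1 : ((w⁻¹ : Sˣ) : S) * ((w : S) - 1) = 1 - ((w⁻¹ : Sˣ) : S) := by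
    rw [mul_sub, Units.inv_mul, mul_one]
  rw [he] at h1
  linear_combination h1

theorem dvd_pow_sub_one {D : S} {w : S} (h : D ∣ w - 1) (k : ℕ) : D ∣ w ^ k - 1 :=
  h.trans (by simpa using sub_dvd_pow_sub_pow w 1 k)

/-- `ℓ` is congruent to the first basis vector. -/
def Be (Δ : S) (l : Fin n → S) : Prop := ∀ i, Δ ∣ l i - en n S i

/-- `X` is congruent to a bidiagonal matrix below the diagonal. -/
def Bi (Δ : S) (X : Matrix (Fin n) (Fin n) S) : Prop :=
  ∀ i j, j < i → Δ ∣ X i j - if (i : ℕ) = j + 1 then 1 else 0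

theorem bi_bcons {Δ q : S} {u l : Fin n → S} {X : Matrix (Fin n) (Fin n) S} :
    Bi Δ (bcons q u l X) ↔ Be Δ l ∧ Bi Δ X := by
  constructor
  · intro h
    refine ⟨fun i => ?_, fun i j hij => ?_⟩
    · have := h i.succ 0 (Fin.succ_pos i)
      rw [bcons_succ_zero] at this
      simpa [en] using this
    · have := h i.succ j.succ (Fin.succ_lt_succ_iff.2 hij)
      rw [bcons_succ_succ] at this
      simpa using this
  · rintro ⟨h1, h2⟩ i j
    refine Fin.cases ?_ (fun i => ?_) i
    · intro hij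
      exact absurd hij (Fin.not_lt_zero _)
    · refine Fin.cases ?_ (fun j => ?_) j
      · intro _
        rw [bcons_succ_zero]
        simpa [en] using h1 i
      · intro hij
        rw [bcons_succ_succ]
        simpa using h2 i j (Fin.succ_lt_succ_iff.1 hij)

variable {R : Type*} [CommRing R]

theorem infinite_pow_unit (φ : R →+* ℂ) (u : Rˣ) (hu : ∀ k : ℕ, 0 < k → φ (u : R) ^ k ≠ 1) {M : ℕ}
    (hM : 0 < M) : (Set.range fun k : ℕ => φ (u : R) ^ (M * k)).Infinite := by
  apply Set.infinite_range_of_injective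
  intro k l hkl
  beta_reduce at hkl
  have hu0 : φ (u : R) ≠ 0 := (u.isUnit.map φ).ne_zero
  have key : ∀ k l : ℕ, k < l → φ (u : R) ^ (M * k) ≠ φ (u : R) ^ (M * l) := by
    intro k l hkl h
    apply hu (M * (l - k)) (by
      have : 0 < l - k := by omega
      positivity)
    have h1 : M * l = M * k + M * (l - k) := by
      rw [← mul_add]
      congr 1
      omega
    rw [h1, pow_add] at h
    have h2 := mul_left_cancel₀ (pow_ne_zero (M * k) hu0) ((mul_one _).trans h)
    exact h2.symm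
  rcases lt_trichotomy k l with h | h | h
  · exact absurd hkl (key k l h)
  · exact h
  · exact absurd hkl.symm (key l k h)

/-- Steps 1 and 2 of the proof of Lemma B. -/
theorem lagrange_density (φ : R →+* ℂ) (hφ : Function.Injective φ) (u : Rˣ)
    (hu : ∀ k : ℕ, 0 < k → φ (u : R) ^ k ≠ 1)
    (hUP : ∀ D : R, D ≠ 0 → ∃ M : ℕ, 0 < M ∧ D ∣ (u : R) ^ M - 1)
    {Δ : R} (hΔ : Δ ≠ 0) (X : Matrix (Fin n) (Fin n) R) {ν : Fin n → R}
    (hν : Function.Injective ν) (hX : (zZ X).charpoly = ∏ i, (Polynomial.X - C (ν i)))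
    (hcyc : Cyc (zZ X) (en n R)) {F : (Fin n → ℂ) → ℂ} (hF : IsPoly F)
    (h : ∀ l : Fin n → R, Be Δ l → Cyc (zZ X) (uU X *ᵥ l) → F (fun i => φ (l i)) = 0)
    (l : Fin n → ℂ) : F l = 0 := by
  have : IsDomain R := hφ.isDomain φ
  have hνφ : Function.Injective fun i => φ (ν i) := hφ.comp hν
  have hUd : IsUnit (uU X).det := (Matrix.isUnit_iff_isUnit_det _).1 (isUnit_uU X)
  -- the modulus
  obtain ⟨D, hD⟩ : ∃ D, D = Δ * ∏ i, lden ν i := ⟨_, rfl⟩
  have hD0 : D ≠ 0 := by
    rw [hD]
    exact mul_ne_zero hΔ (Finset.prod_ne_zero_iff.2 fun i _ => lden_ne_zero hν i)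
  obtain ⟨M, hM, hMD⟩ := hUP D hD0
  have hc : ∀ w : Rˣ, D ∣ (w : R) - 1 → ∀ i, ∃ c : R, Δ ∣ c ∧ 1 + c * lden ν i = w := by
    rintro w ⟨e, he⟩ i
    refine ⟨Δ * ((∏ j ∈ Finset.univ.erase i, lden ν j) * e), dvd_mul_right _ _, ?_⟩
    have h1 : (∏ j ∈ Finset.univ.erase i, lden ν j) * lden ν i = ∏ i, lden ν i :=
      Finset.prod_erase_mul _ _ (Finset.mem_univ i)
    have h2 : Δ * ((∏ j ∈ Finset.univ.erase i, lden ν j) * e) * lden ν i = D * e := by
      rw [hD, ← h1]; ring
    rw [h2, ← he]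
    ring
  -- the vectors `g i`
  obtain ⟨g, hg⟩ : ∃ g : Fin n → Fin n → R, g = fun i =>
      (uU X)⁻¹ *ᵥ (aeval (zZ X) (lagr ν i) *ᵥ en n R) := ⟨_, rfl⟩
  have huinv : (uU X)⁻¹ *ᵥ en n R = en n R := by
    conv_lhs => rw [← uU_mulVec_en X]
    rw [mulVec_mulVec, Matrix.nonsing_inv_mul _ hUd, one_mulVec]
  have hlc : ∀ c : Fin n → R, (uU X)⁻¹ *ᵥ (aeval (zZ X) (ipol ν c) *ᵥ en n R) =
      en n R + ∑ i, c i • g i := by
    intro c
    rw [ipol, map_add, map_one, map_sum, Matrix.add_mulVec, Matrix.one_mulVec, Matrix.mulVec_add,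
      huinv, Matrix.sum_mulVec, Matrix.mulVec_sum]
    congr 1
    refine Finset.sum_congr rfl fun i _ => ?_
    rw [map_mul, aeval_C, ← Algebra.smul_def, smul_mulVec, mulVec_smul, hg]
  -- the integral points
  have hint : ∀ k : Fin n → ℕ, F (fun j => φ (en n R j) +
      ∑ i, (φ (u : R) ^ (M * k i) - 1) / φ (lden ν i) * φ (g i j)) = 0 := by
    intro k
    have hw : ∀ i, D ∣ ((u ^ (M * k i) : Rˣ) : R) - 1 := by
      intro i
      rw [Units.val_pow_eq_pow_val, pow_mul]
      exact dvd_pow_sub_one hMD (k i)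
    choose c hc1 hc2 using fun i => hc (u ^ (M * k i)) (hw i) i
    choose c' hc1' hc2' using fun i => hc (u ^ (M * k i))⁻¹ (dvd_inv_sub_one (hw i)) i
    obtain ⟨l, hl⟩ : ∃ l, l = (uU X)⁻¹ *ᵥ (aeval (zZ X) (ipol ν c) *ᵥ en n R) := ⟨_, rfl⟩
    have hl1 : uU X *ᵥ l = aeval (zZ X) (ipol ν c) *ᵥ en n R := by
      rw [hl, mulVec_mulVec, Matrix.mul_nonsing_inv _ hUd, one_mulVec]
    have hl2 : l = en n R + ∑ i, c i • g i := by rw [hl, hlc]
    have hinv : aeval (zZ X) (ipol ν c) * aeval (zZ X) (ipol ν c') = 1 :=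
      ipol_mul_inv hν hX fun i => by rw [hc2, hc2', Units.mul_inv]
    have h1 := h l (by
      intro j
      rw [hl2, Pi.add_apply, add_sub_cancel_left, Finset.sum_apply]
      apply Finset.dvd_sum
      intro i _
      exact (hc1 i).mul_right _) (by
      rw [hl1]
      refine hcyc.of_comm ?_ (IsUnit.of_mul_eq_one _ hinv)
      have h := congrArg (aeval (zZ X)) (mul_comm (ipol ν c) Polynomial.X)
      rw [map_mul, map_mul, aeval_X] at h
      exact h)
    have h2 : (fun i => φ (l i)) = fun j => φ (en n R j) +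
        ∑ i, (φ (u : R) ^ (M * k i) - 1) / φ (lden ν i) * φ (g i j) := by
      ext j
      rw [hl2, Pi.add_apply, map_add, Finset.sum_apply, map_sum]
      congr 1
      refine Finset.sum_congr rfl fun i _ => ?_
      rw [Pi.smul_apply, smul_eq_mul, map_mul]
      congr 1
      have h3 : φ (lden ν i) ≠ 0 := fun h0 => lden_ne_zero hν i (hφ (h0.trans (map_zero φ).symm))
      rw [eq_div_iff h3, ← map_mul]
      have h4 := hc2 i
      rw [Units.val_pow_eq_pow_val] at h4
      have h5 : c i * lden ν i = (u : R) ^ (M * k i) - 1 := by rw [← h4]; ring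
      rw [h5, map_sub, map_pow, map_one]
    rw [← h2]
    exact h1
  -- all complex values
  have hpoly : IsPoly fun y : Fin n → ℂ => F (fun j => φ (en n R j) +
      ∑ i, (y i - 1) / φ (lden ν i) * φ (g i j)) := by
    apply PolyMap.comp _ hF
    refine polyMap_pi fun j => IsPoly.polyMap ?_
    refine (isPoly_const _).add (IsPoly.sum _ fun i _ => ?_)
    refine (((isPoly_coord i).sub (isPoly_const 1)).mul
      (isPoly_const ((φ (lden ν i))⁻¹ * φ (g i j)))).congr fun y => ?_
    rw [div_eq_mul_inv]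
    ring
  have hall := hpoly.eq_zero_of_pi (fun _ => Set.range fun k : ℕ => φ (u : R) ^ (M * k))
    (fun _ => infinite_pow_unit φ u hu hM) (fun y hy => by
      choose k hk using hy
      have := hint k
      beta_reduce at hk
      simp only [hk] at this
      exact this)
  -- surjectivity
  obtain ⟨p, hp⟩ := (hcyc.map φ).exists_poly ((uU X).map φ *ᵥ l)
  rw [en_map] at hp
  have h1 := hall fun i => p.eval (φ (ν i))
  have h2 : (fun j => φ (en n R j) +
      ∑ i, (p.eval (φ (ν i)) - 1) / φ (lden ν i) * φ (g i j)) = l := by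
    obtain ⟨cc, hcc⟩ : ∃ cc : Fin n → ℂ, cc = fun i => (p.eval (φ (ν i)) - 1) / φ (lden ν i) :=
      ⟨_, rfl⟩
    have hgφ : ∀ i, (fun j => φ (g i j)) = (uU (X.map φ))⁻¹ *ᵥ
        (aeval (zZ (X.map φ)) (lagr (fun j => φ (ν j)) i) *ᵥ en n ℂ) := by
      intro i
      have h3 : uU X *ᵥ g i = aeval (zZ X) (lagr ν i) *ᵥ en n R := by
        rw [hg]
        beta_reduce
        rw [mulVec_mulVec, Matrix.mul_nonsing_inv _ hUd, one_mulVec]
      have h4 : uU (X.map φ) *ᵥ (fun j => φ (g i j)) =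
          aeval (zZ (X.map φ)) (lagr (fun j => φ (ν j)) i) *ᵥ en n ℂ := by
        ext j
        have h5 := congrArg φ (congrFun h3 j)
        rw [RingHom.map_mulVec, RingHom.map_mulVec] at h5
        rw [← uU_map, ← zZ_map, ← lagr_map, ← en_map φ]
        have h6 : (aeval (zZ X) (lagr ν i)).map φ = aeval ((zZ X).map φ) ((lagr ν i).map φ) := by
          rw [Polynomial.aeval_def, Polynomial.aeval_def, Polynomial.eval₂_map]
          have h7 := Polynomial.hom_eval₂ (lagr ν i) (algebraMap R (Matrix (Fin n) (Fin n) R))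
            φ.mapMatrix (zZ X)
          have h8 : (φ.mapMatrix : Matrix (Fin n) (Fin n) R →+* _).comp
              (algebraMap R (Matrix (Fin n) (Fin n) R)) =
              (algebraMap ℂ (Matrix (Fin n) (Fin n) ℂ)).comp φ := by
            ext a b c
            simp [Matrix.algebraMap_matrix_apply]
            split_ifs <;> simp
          rw [h8] at h7
          exact h7
        rw [← h6]
        exact h5
      rw [← h4, mulVec_mulVec, Matrix.nonsing_inv_mul _ ((Matrix.isUnit_iff_isUnit_det _).1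
        (isUnit_uU _)), one_mulVec]
    have hUd' : IsUnit (uU (X.map φ)).det := (Matrix.isUnit_iff_isUnit_det _).1 (isUnit_uU _)
    have h3 : (fun j => φ (en n R j) + ∑ i, cc i * φ (g i j)) = (uU (X.map φ))⁻¹ *ᵥ
        (aeval (zZ (X.map φ)) (ipol (fun j => φ (ν j)) cc) *ᵥ en n ℂ) := by
      have huinv' : (uU (X.map φ))⁻¹ *ᵥ en n ℂ = en n ℂ := by
        conv_lhs => rw [← uU_mulVec_en (X.map φ)]
        rw [mulVec_mulVec, Matrix.nonsing_inv_mul _ hUd', one_mulVec]
      rw [ipol, map_add, map_one, map_sum, Matrix.add_mulVec, Matrix.one_mulVec,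
        Matrix.mulVec_add, huinv', Matrix.sum_mulVec, Matrix.mulVec_sum]
      ext j
      rw [Pi.add_apply, Finset.sum_apply, ← en_map φ]
      congr 1
      refine Finset.sum_congr rfl fun i _ => ?_
      rw [map_mul, aeval_C, ← Algebra.smul_def, smul_mulVec, mulVec_smul, Pi.smul_apply,
        smul_eq_mul, en_map φ, ← hgφ]
    have h4 : aeval (zZ (X.map φ)) (ipol (fun j => φ (ν j)) cc) = aeval (zZ (X.map φ)) p := by
      rw [← sub_eq_zero, ← map_sub]
      apply aeval_eq_zero_of_roots hνφ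
      · rw [← zZ_map, Matrix.charpoly_map, hX, Polynomial.map_prod]
        simp
      · intro i
        rw [eval_sub]
        have h5 := eval_ipol (fun j => φ (ν j)) cc i
        beta_reduce at h5
        rw [h5, ← lden_map, hcc]
        have h6 : φ (lden ν i) ≠ 0 := fun h0 =>
          lden_ne_zero hν i (hφ (h0.trans (map_zero φ).symm))
        beta_reduce
        rw [div_mul_cancel₀ _ h6]
        ring
    rw [hcc] at h3
    beta_reduce at h3
    rw [h3, ← hcc, h4, ← zZ_map, hp, uU_map, mulVec_mulVec, Matrix.nonsing_inv_mul _ hUd',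
      one_mulVec]
  rw [h2] at h1
  exact h1

end Vale.Agent.P002G
end

section

namespace Vale.Agent.P002

open Matrix

/-- Polynomials not vanishing at `0` and `1`. -/
def Sub01 : Submonoid (Polynomial ℂ) where
  carrier := {p | p.eval 0 ≠ 0 ∧ p.eval 1 ≠ 0}
  mul_mem' := by
    intro a b ha hb
    simp only [Set.mem_ofPred_eq, Polynomial.eval_mul] at *
    exact ⟨mul_ne_zero ha.1 hb.1, mul_ne_zero ha.2 hb.2⟩
  one_mem' := by simp

theorem mem_Sub01 (p : Polynomial ℂ) : p ∈ Sub01 ↔ p.eval 0 ≠ 0 ∧ p.eval 1 ≠ 0 := Iff.rfl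

/-- Rational functions regular at `0` and `1`. -/
abbrev T01 := Localization Sub01

theorem Sub01_le : Sub01 ≤ nonZeroDivisors (Polynomial ℂ) := by
  intro p hp
  rw [mem_nonZeroDivisors_iff_ne_zero]
  rintro rfl
  simp [mem_Sub01] at hp

instance : IsDomain T01 := IsLocalization.isDomain_localization Sub01_le

/-- Evaluation at `0`. -/
noncomputable def ev0 : T01 →+* ℂ :=
  IsLocalization.lift (M := Sub01) (g := Polynomial.evalRingHom (0 : ℂ)) (fun y =>
    isUnit_iff_ne_zero.2 (by simpa using y.2.1))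

/-- Evaluation at `1`. -/
noncomputable def ev1 : T01 →+* ℂ :=
  IsLocalization.lift (M := Sub01) (g := Polynomial.evalRingHom (1 : ℂ)) (fun y =>
    isUnit_iff_ne_zero.2 (by simpa using y.2.2))

@[simp] theorem ev0_algebraMap (p : Polynomial ℂ) : ev0 (algebraMap _ T01 p) = p.eval 0 := by
  unfold ev0
  rw [IsLocalization.lift_eq]
  rfl

@[simp] theorem ev1_algebraMap (p : Polynomial ℂ) : ev1 (algebraMap _ T01 p) = p.eval 1 := by
  unfold ev1
  rw [IsLocalization.lift_eq]
  rfl

theorem isUnit_T01 (x : T01) (h0 : ev0 x ≠ 0) (h1 : ev1 x ≠ 0) : IsUnit x := by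
  obtain ⟨⟨p, s⟩, hx⟩ := IsLocalization.surj (M := Sub01) x
  simp only at hx
  have e0 := congrArg ev0 hx
  have e1 := congrArg ev1 hx
  rw [map_mul, ev0_algebraMap, ev0_algebraMap] at e0
  rw [map_mul, ev1_algebraMap, ev1_algebraMap] at e1
  have hp : p ∈ Sub01 := by
    rw [mem_Sub01, ← e0, ← e1]
    exact ⟨mul_ne_zero h0 s.2.1, mul_ne_zero h1 s.2.2⟩
  have hu : IsUnit (algebraMap _ T01 p) := IsLocalization.map_units (M := Sub01) T01 ⟨p, hp⟩
  rw [← hx] at hu
  exact isUnit_of_mul_isUnit_left hu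

/-- The algebra structure over the complex numbers. -/
noncomputable instance : Algebra ℂ T01 := inferInstance

theorem algebraMap_T01 (c : ℂ) : algebraMap ℂ T01 c = algebraMap _ T01 (Polynomial.C c) := by
  rw [IsScalarTower.algebraMap_apply ℂ (Polynomial ℂ) T01]
  rfl

@[simp] theorem ev0_C (c : ℂ) : ev0 (algebraMap ℂ T01 c) = c := by
  rw [algebraMap_T01]; simp

@[simp] theorem ev1_C (c : ℂ) : ev1 (algebraMap ℂ T01 c) = c := by
  rw [algebraMap_T01]; simp

/-- Linear interpolation. -/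
noncomputable def lin (a b : ℂ) : T01 :=
  algebraMap _ T01 (Polynomial.C a + Polynomial.X * Polynomial.C (b - a))

@[simp] theorem ev0_lin (a b : ℂ) : ev0 (lin a b) = a := by simp [lin]

@[simp] theorem ev1_lin (a b : ℂ) : ev1 (lin a b) = b := by simp [lin]

theorem isUnit_mat {r : ℕ} (M : Mat r T01) (h0 : IsUnit (M.map ev0)) (h1 : IsUnit (M.map ev1)) :
    IsUnit M := by
  rw [Matrix.isUnit_iff_isUnit_det]
  rw [Matrix.isUnit_iff_isUnit_det, isUnit_iff_ne_zero] at h0 h1
  apply isUnit_T01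
  · rw [RingHom.map_det]; exact h0
  · rw [RingHom.map_det]; exact h1

end Vale.Agent.P002
end
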