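import Mathlib
import Vale.Agent.P002.Bdl.B2
import Vale.Agent.P002.Bdl.B8
import Vale.Agent.P002.Bdl.B5
import Vale.Agent.P002.Bdl.B10
import Vale.Agent.P002.Bdl.B1

set_option linter.all false

section

/-!
# The chart in genus one: algebra
-/

namespace Vale.Agent.P002G

open Matrix Polynomial
open Vale.Agent.P002 (kry mul_kry kry_mulVec_single krylov_comm)
open Vale.Agent.P002R (GenU FU relatorU)

variable {r : ℕ} {S T : Type*} [CommRing S] [CommRing T]

/-- Products of the lower triangular factors. -/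
def Lp (X : ℕ → Matrix (Fin r) (Fin r) S) : ℕ → Matrix (Fin r) (Fin r) S
  | 0 => 1
  | k + 1 => lL (X k) * Lp X k

/-- Products of the upper triangular factors. -/
def Up (X : ℕ → Matrix (Fin r) (Fin r) S) : ℕ → Matrix (Fin r) (Fin r) S
  | 0 => 1
  | k + 1 => Up X k * uU (X k)

/-- Products. -/
def Pp (c : ℕ → Matrix (Fin r) (Fin r) S) : ℕ → Matrix (Fin r) (Fin r) S
  | 0 => 1
  | k + 1 => Pp c k * c k

theorem Lp_zero (X : ℕ → Matrix (Fin r) (Fin r) S) : Lp X 0 = 1 := rfl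

theorem Lp_succ (X : ℕ → Matrix (Fin r) (Fin r) S) (k : ℕ) : Lp X (k + 1) = lL (X k) * Lp X k :=
  rfl

theorem Up_zero (X : ℕ → Matrix (Fin r) (Fin r) S) : Up X 0 = 1 := rfl

theorem Up_succ (X : ℕ → Matrix (Fin r) (Fin r) S) (k : ℕ) : Up X (k + 1) = Up X k * uU (X k) :=
  rfl

theorem Pp_zero (c : ℕ → Matrix (Fin r) (Fin r) S) : Pp c 0 = 1 := rfl

theorem Pp_succ (c : ℕ → Matrix (Fin r) (Fin r) S) (k : ℕ) : Pp c (k + 1) = Pp c k * c k := rfl

theorem prod_ofFn_eq_Pp (c : ℕ → Matrix (Fin r) (Fin r) S) (k : ℕ) :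
    (List.ofFn fun j : Fin k => c j).prod = Pp c k := by
  induction k with
  | zero => simp [Pp_zero]
  | succ k ih =>
    rw [List.ofFn_succ', List.concat_eq_append, List.prod_append, Pp_succ, ← ih]
    simp

theorem det_Lp (X : ℕ → Matrix (Fin r) (Fin r) S) (k : ℕ) :
    (Lp X k).det = ∏ j ∈ Finset.range k, ∏ i, X j i i := by
  induction k with
  | zero => simp [Lp_zero]
  | succ k ih => rw [Lp_succ, Matrix.det_mul, det_lL, ih, Finset.prod_range_succ, mul_comm]

theorem isUnit_Lp {X : ℕ → Matrix (Fin r) (Fin r) S} {k : ℕ}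
    (hX : ∀ j < k, ∀ i, IsUnit (X j i i)) : IsUnit (Lp X k) := by
  rw [Matrix.isUnit_iff_isUnit_det, det_Lp, IsUnit.prod_iff]
  intro j hj
  rw [IsUnit.prod_iff]
  exact fun i _ => hX j (Finset.mem_range.1 hj) i

theorem isUnit_Up (X : ℕ → Matrix (Fin r) (Fin r) S) (k : ℕ) : IsUnit (Up X k) := by
  induction k with
  | zero => exact isUnit_one
  | succ k ih => rw [Up_succ]; exact ih.mul (isUnit_uU _)

theorem inv_mul_self {A : Matrix (Fin r) (Fin r) S} (h : IsUnit A) : A⁻¹ * A = 1 :=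
  Matrix.nonsing_inv_mul _ ((Matrix.isUnit_iff_isUnit_det _).1 h)

theorem mul_inv_self' {A : Matrix (Fin r) (Fin r) S} (h : IsUnit A) : A * A⁻¹ = 1 :=
  Matrix.mul_nonsing_inv _ ((Matrix.isUnit_iff_isUnit_det _).1 h)

theorem isUnit_inv' {A : Matrix (Fin r) (Fin r) S} (h : IsUnit A) : IsUnit A⁻¹ :=
  ⟨⟨A⁻¹, A, inv_mul_self h, mul_inv_self' h⟩, rfl⟩

/-- The middle factors. -/
noncomputable def cmid (X : ℕ → Matrix (Fin r) (Fin r) S) (k : ℕ) : Matrix (Fin r) (Fin r) S :=
  (Lp X k)⁻¹ * zZ (X k) * Lp X k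

theorem Pp_cmid {X : ℕ → Matrix (Fin r) (Fin r) S} {k : ℕ}
    (hX : ∀ j < k, ∀ i, IsUnit (X j i i)) : Pp (cmid X) k = Up X k * Lp X k := by
  induction k with
  | zero => rw [Pp_zero, Up_zero, Lp_zero, one_mul]
  | succ k ih =>
    have hL : IsUnit (Lp X k) := isUnit_Lp fun j hj => hX j (by omega)
    rw [Pp_succ, ih fun j hj => hX j (by omega), cmid, zZ, Up_succ, Lp_succ]
    calc Up X k * Lp X k * ((Lp X k)⁻¹ * (uU (X k) * lL (X k)) * Lp X k)
        = Up X k * (Lp X k * (Lp X k)⁻¹) * (uU (X k) * lL (X k)) * Lp X k := by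
          simp only [Matrix.mul_assoc]
      _ = _ := by rw [mul_inv_self' hL, Matrix.mul_one]; simp only [Matrix.mul_assoc]

/-- The matrix `ã = a'⁻¹`. -/
noncomputable def atil (ξ : Fin r → S) (X : ℕ → Matrix (Fin r) (Fin r) S) (m : ℕ) :
    Matrix (Fin r) (Fin r) S := diagonal ξ * Lp X (m + 1)

/-- The matrix `b`. -/
noncomputable def bmat (ξ : Fin r → S) (X : ℕ → Matrix (Fin r) (Fin r) S) (m : ℕ) (y : Fin r → S) :
    Matrix (Fin r) (Fin r) S :=
  kry (atil ξ X m) y * (kry (zZ (X m)) (en r S))⁻¹ * Lp X m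

/-- The tuple of the chart. -/
noncomputable def tup (ξ : Fin r → S) (X : ℕ → Matrix (Fin r) (Fin r) S) (m : ℕ) (y : Fin r → S) :
    GenU 1 (m + 1) → Matrix (Fin r) (Fin r) S
  | Sum.inl (_, false) => cmid X m
  | Sum.inl (_, true) => bmat ξ X m y
  | Sum.inr j => if (j : ℕ) = 0 then diagonal ξ * (Up X (m + 1))⁻¹ else cmid X (j - 1)

theorem isUnit_zZ {X : Matrix (Fin r) (Fin r) S} (hX : ∀ i, IsUnit (X i i)) : IsUnit (zZ X) := by
  rw [Matrix.isUnit_iff_isUnit_det, det_zZ, IsUnit.prod_iff]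
  exact fun i _ => hX i

theorem isUnit_cmid {X : ℕ → Matrix (Fin r) (Fin r) S} {k : ℕ}
    (hX : ∀ j ≤ k, ∀ i, IsUnit (X j i i)) : IsUnit (cmid X k) := by
  have hL : IsUnit (Lp X k) := isUnit_Lp fun j hj => hX j hj.le
  exact ((isUnit_inv' hL).mul (isUnit_zZ (hX k le_rfl))).mul hL

theorem isUnit_diag {ξ : Fin r → S} (hξ : ∀ i, IsUnit (ξ i)) : IsUnit (diagonal ξ) := by
  rw [Matrix.isUnit_iff_isUnit_det, Matrix.det_diagonal, IsUnit.prod_iff]
  exact fun i _ => hξ i

theorem isUnit_atil {ξ : Fin r → S} (hξ : ∀ i, IsUnit (ξ i)) {X : ℕ → Matrix (Fin r) (Fin r) S}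
    {m : ℕ} (hX : ∀ j ≤ m, ∀ i, IsUnit (X j i i)) : IsUnit (atil ξ X m) :=
  (isUnit_diag hξ).mul (isUnit_Lp fun j hj => hX j (by omega))

theorem isUnit_bmat {ξ : Fin r → S} {X : ℕ → Matrix (Fin r) (Fin r) S}
    {m : ℕ} (hX : ∀ j ≤ m, ∀ i, IsUnit (X j i i)) {y : Fin r → S} (hy : Cyc (atil ξ X m) y)
    (hc : Cyc (zZ (X m)) (en r S)) : IsUnit (bmat ξ X m y) :=
  (((cyc_iff _ _).1 hy).mul (isUnit_inv' ((cyc_iff _ _).1 hc))).mul
    (isUnit_Lp fun j hj => hX j hj.le)

theorem isUnit_tup {ξ : Fin r → S} (hξ : ∀ i, IsUnit (ξ i)) {X : ℕ → Matrix (Fin r) (Fin r) S}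
    {m : ℕ} (hX : ∀ j ≤ m, ∀ i, IsUnit (X j i i)) {y : Fin r → S} (hy : Cyc (atil ξ X m) y)
    (hc : Cyc (zZ (X m)) (en r S)) (k : GenU 1 (m + 1)) : IsUnit (tup ξ X m y k) := by
  rcases k with ⟨i, _ | _⟩ | j
  · exact isUnit_cmid hX
  · exact isUnit_bmat hX hy hc
  · change IsUnit (if (j : ℕ) = 0 then diagonal ξ * (Up X (m + 1))⁻¹ else cmid X (j - 1))
    split_ifs
    · exact (isUnit_diag hξ).mul (isUnit_inv' (isUnit_Up _ _))
    · exact isUnit_cmid fun i hi => hX i (by have := j.2; omega)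

/-- The intertwining relation. -/
theorem bmat_mul {ξ : Fin r → S} {X : ℕ → Matrix (Fin r) (Fin r) S} {m : ℕ}
    (hX : ∀ j ≤ m, ∀ i, IsUnit (X j i i)) {y : Fin r → S}
    (hc : Cyc (zZ (X m)) (en r S)) (hch : (atil ξ X m).charpoly = (zZ (X m)).charpoly) :
    bmat ξ X m y * cmid X m = atil ξ X m * bmat ξ X m y := by
  have hL : IsUnit (Lp X m) := isUnit_Lp fun j hj => hX j hj.le
  have hK := (cyc_iff _ _).1 hc
  obtain ⟨B, hB⟩ : ∃ B, B = kry (atil ξ X m) y * (kry (zZ (X m)) (en r S))⁻¹ := ⟨_, rfl⟩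
  have h1 : B * zZ (X m) = atil ξ X m * B := by
    refine krylov_comm (zZ (X m)) (atil ξ X m) (en r S) y hch.symm B ?_ hK
    rw [hB, Matrix.mul_assoc, inv_mul_self hK, Matrix.mul_one]
  have h2 : bmat ξ X m y = B * Lp X m := by rw [hB]; rfl
  rw [h2, cmid]
  calc B * Lp X m * ((Lp X m)⁻¹ * zZ (X m) * Lp X m)
      = B * (Lp X m * (Lp X m)⁻¹) * zZ (X m) * Lp X m := by simp only [Matrix.mul_assoc]
    _ = B * zZ (X m) * Lp X m := by rw [mul_inv_self' hL, Matrix.mul_one]
    _ = _ := by rw [h1, Matrix.mul_assoc]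

/-- The boundary product. -/
theorem tup_boundary {ξ : Fin r → S} {X : ℕ → Matrix (Fin r) (Fin r) S} {m : ℕ}
    (hX : ∀ j ≤ m, ∀ i, IsUnit (X j i i)) {y : Fin r → S} :
    (List.ofFn fun j : Fin (m + 1) => tup ξ X m y (Sum.inr j)).prod * cmid X m = atil ξ X m := by
  have h1 : (List.ofFn fun j : Fin (m + 1) => tup ξ X m y (Sum.inr j)).prod =
      diagonal ξ * (Up X (m + 1))⁻¹ * Pp (cmid X) m := by
    rw [List.ofFn_succ, List.prod_cons, ← prod_ofFn_eq_Pp]
    rfl
  rw [h1, Matrix.mul_assoc, ← Pp_succ, Pp_cmid fun j hj => hX j (by omega), Matrix.mul_assoc,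
    ← Matrix.mul_assoc (Up X (m + 1))⁻¹, inv_mul_self (isUnit_Up _ _), Matrix.one_mul, atil]

/-- A homomorphism given by units. -/
theorem relator_one {m : ℕ} {M : Type*} [Group M] (Y : GenU 1 (m + 1) → M)
    (h : (List.ofFn fun j : Fin (m + 1) => Y (Sum.inr j)).prod * Y (Sum.inl (0, false)) *
      Y (Sum.inl (0, true)) = Y (Sum.inl (0, true)) * Y (Sum.inl (0, false))) :
    FreeGroup.lift Y (relatorU 1 (m + 1)) = 1 := by
  rw [P002R.relatorU_eqn, map_mul, map_list_prod, map_list_prod, List.map_ofFn, List.map_ofFn]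
  have h1 : (⇑(FreeGroup.lift Y) ∘ fun j : Fin (m + 1) => (FreeGroup.of (Sum.inr j) : FU 1 (m + 1))) =
      fun j => Y (Sum.inr j) := by
    funext j
    exact FreeGroup.lift_apply_of
  rw [h1]
  simp only [List.ofFn_succ, List.ofFn_zero, List.prod_cons, List.prod_nil, Function.comp,
    map_mul, map_inv, FreeGroup.lift_apply_of, mul_one]
  rw [List.ofFn_succ, List.prod_cons] at h
  rw [← mul_assoc, ← mul_assoc, ← mul_assoc, h]
  group

end Vale.Agent.P002G
end

section

namespace Vale.Agent.P002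

open Matrix

variable {r : ℕ} {R : Type*} [CommRing R]

/-- `τ - M` with `τ` a natural number. -/
def tm (n : ℕ) (M : Mat r R) : Mat r R := (n : R) • (1 : Mat r R) - M

/-- Matrix of the linear system; `C` stands for the inverse of the commutator. -/
def sysM (C Y : Mat r R) : Mat r R :=
  Matrix.of fun i j => if (i : ℕ) = 0 then ((1 : Fin r → R) ᵥ* adjugate Y) j
    else ((1 : Fin r → R) ᵥ* (adjugate (tm i Y) - adjugate (tm i (C * Y)) * C)) j

/-- Right-hand side of the linear system. -/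
def sysR (C Y : Mat r R) (θ : R) : Fin r → R :=
  fun i => if (i : ℕ) = 0 then θ - det Y else det (tm i Y) - det (tm i (C * Y))

theorem tm_add (n : ℕ) (Y : Mat r R) (c : Fin r → R) :
    tm n (Y + vecMulVec c 1) = tm n Y + vecMulVec (-c) 1 := by
  unfold tm
  ext i j
  simp
  ring

theorem sys_det (hr : 0 < r) (C Y : Mat r R) (θ : R) (c : Fin r → R)
    (h : sysM C Y *ᵥ c = sysR C Y θ) : det (Y + vecMulVec c 1) = θ := by
  have h0 := congrFun h ⟨0, hr⟩
  simp only [sysM, sysR, mulVec, dotProduct, Matrix.of_apply, if_true] at h0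
  rw [det_add_vecMulVec']
  have h1 : (1 : Fin r → R) ⬝ᵥ adjugate Y *ᵥ c = ∑ x, ((1 : Fin r → R) ᵥ* adjugate Y) x * c x := by
    rw [dotProduct_mulVec]
    rfl
  rw [h1, h0]
  ring

theorem sys_tm (C Y : Mat r R) (θ : R) (c : Fin r → R)
    (h : sysM C Y *ᵥ c = sysR C Y θ) (i : Fin r) (hi : (i : ℕ) ≠ 0) :
    det (tm i (Y + vecMulVec c 1)) = det (tm i (C * (Y + vecMulVec c 1))) := by
  have h0 := congrFun h i
  simp only [sysM, sysR, mulVec, dotProduct, Matrix.of_apply, if_neg hi] at h0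
  have e1 : C * (Y + vecMulVec c 1) = C * Y + vecMulVec (C *ᵥ c) 1 := by
    rw [mul_add, mul_vecMulVec]
  rw [e1, tm_add, tm_add, det_add_vecMulVec', det_add_vecMulVec']
  have h1 : ∑ x, ((1 : Fin r → R) ᵥ* (adjugate (tm i Y) - adjugate (tm i (C * Y)) * C)) x * c x
      = (1 : Fin r → R) ⬝ᵥ adjugate (tm i Y) *ᵥ c
        - (1 : Fin r → R) ⬝ᵥ adjugate (tm i (C * Y)) *ᵥ (C *ᵥ c) := by
    rw [mulVec_mulVec, ← dotProduct_sub, ← sub_mulVec, dotProduct_mulVec]
    rfl
  rw [h1] at h0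
  simp only [mulVec_neg, dotProduct_neg]
  linear_combination -h0

theorem eval_charpoly_tm (M : Mat r R) (n : ℕ) :
    M.charpoly.eval (n : R) = det (tm n M) := by
  rw [Matrix.eval_charpoly]
  congr 1
  unfold tm
  rw [scalar_apply]
  ext i j
  by_cases hij : i = j
  · subst hij; simp
  · simp [hij]

theorem charpoly_eq_of_tm [IsDomain R] [CharZero R] (A A' : Mat r R)
    (h0 : det A = det A') (h : ∀ i : Fin r, (i : ℕ) ≠ 0 → det (tm i A) = det (tm i A')) :
    A.charpoly = A'.charpoly := by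
  have hdeg : (A.charpoly - A'.charpoly).degree < ((Finset.univ : Finset (Fin r)).card : ℕ) := by
    rw [Finset.card_univ, Fintype.card_fin]
    have e1 : A.charpoly.degree = (r : WithBot ℕ) := by
      rw [Matrix.charpoly_degree_eq_dim, Fintype.card_fin]
    have e2 : A'.charpoly.degree = (r : WithBot ℕ) := by
      rw [Matrix.charpoly_degree_eq_dim, Fintype.card_fin]
    have := Polynomial.degree_sub_lt_left (p := A.charpoly) (q := A'.charpoly) (by rw [e1, e2])
      (Matrix.charpoly_monic A).ne_zero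
      (by rw [(Matrix.charpoly_monic A).leadingCoeff, (Matrix.charpoly_monic A').leadingCoeff])
    rwa [e1] at this
  refine Polynomial.eq_of_degree_sub_lt_of_eval_index_eq (v := fun i : Fin r => ((i : ℕ) : R))
    (s := Finset.univ) ?_ hdeg ?_
  · intro i _ j _ hij
    simp only [Nat.cast_inj] at hij
    exact Fin.ext hij
  · intro i _
    rw [eval_charpoly_tm, eval_charpoly_tm]
    by_cases hi : (i : ℕ) = 0
    · have e : ∀ M : Mat r R, det (tm (i : ℕ) M) = (-1) ^ r * det M := by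
        intro M
        rw [hi]
        have : tm 0 M = -M := by simp [tm]
        rw [this, det_neg, Fintype.card_fin]
      rw [e, e, h0]
    · exact h i hi

/-- Naturality. -/
theorem sysM_map {S : Type*} [CommRing S] (φ : R →+* S) (C Y : Mat r R) :
    (sysM C Y).map φ = sysM (C.map φ) (Y.map φ) := by
  have ht : ∀ (n : ℕ) (M : Mat r R), (tm n M).map φ = tm n (M.map φ) := by
    intro n M
    unfold tm
    ext i j
    simp [one_apply, apply_ite φ]
  have hadj : ∀ M : Mat r R, (adjugate M).map φ = adjugate (M.map φ) := fun M =>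
    RingHom.map_adjugate φ M
  have hmul : ∀ M N : Mat r R, (M * N).map φ = M.map φ * N.map φ := fun M N => Matrix.map_mul
  ext i j
  simp only [sysM, Matrix.map_apply, Matrix.of_apply]
  have hv : ∀ M : Mat r R, φ (((1 : Fin r → R) ᵥ* M) j) = ((1 : Fin r → S) ᵥ* (M.map φ)) j := by
    intro M
    simp [vecMul, dotProduct]
  split_ifs
  · rw [hv, hadj]
  · rw [hv]
    congr 1
    have h2 : (adjugate (tm i Y) - adjugate (tm i (C * Y)) * C).map φ =
        (adjugate (tm i Y)).map φ - (adjugate (tm i (C * Y)) * C).map φ :=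
      map_sub (RingHom.mapMatrix φ) _ _
    rw [h2, hmul, hadj, hadj, ht, ht, hmul]

theorem sysR_map {S : Type*} [CommRing S] (φ : R →+* S) (C Y : Mat r R) (θ : R) :
    (fun i => φ (sysR C Y θ i)) = sysR (C.map φ) (Y.map φ) (φ θ) := by
  have ht : ∀ (n : ℕ) (M : Mat r R), (tm n M).map φ = tm n (M.map φ) := by
    intro n M
    unfold tm
    ext i j
    simp [one_apply, apply_ite φ]
  have hmul : ∀ M N : Mat r R, (M * N).map φ = M.map φ * N.map φ := fun M N => Matrix.map_mul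
  have hdet : ∀ M : Mat r R, φ (det M) = det (M.map φ) := fun M => RingHom.map_det φ M
  funext i
  simp only [sysR]
  split_ifs
  · rw [map_sub, hdet]
  · rw [map_sub, hdet, hdet, ht, ht, hmul]

theorem kry_map {S : Type*} [CommRing S] (φ : R →+* S) (A : Mat r R) (v : Fin r → R) :
    (kry A v).map φ = kry (A.map φ) (fun i => φ (v i)) := by
  have hpow : ∀ n : ℕ, (A ^ n).map φ = (A.map φ) ^ n := fun n =>
    map_pow (RingHom.mapMatrix φ) A n
  ext i j
  simp only [kry, Matrix.map_apply, Matrix.of_apply, mulVec, dotProduct, map_sum, map_mul]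
  apply Finset.sum_congr rfl
  intro k _
  rw [← hpow]
  rfl

end Vale.Agent.P002
end

section

namespace Vale.Agent.P002

open Matrix

variable {n r : ℕ}

section
variable {R : Type*}

/-- Add a last handle. -/
def addH (y : Fin n × Bool → Mat r R) (A B : Mat r R) : Fin (n + 1) × Bool → Mat r R :=
  fun k => Fin.lastCases (motive := fun _ => Mat r R) (if k.2 = true then B else A)
    (fun i => y (i, k.2)) k.1

@[simp] theorem addH_last_false (y : Fin n × Bool → Mat r R) (A B : Mat r R) :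
    addH y A B (Fin.last n, false) = A := by simp [addH]

@[simp] theorem addH_last_true (y : Fin n × Bool → Mat r R) (A B : Mat r R) :
    addH y A B (Fin.last n, true) = B := by simp [addH]

@[simp] theorem addH_castSucc (y : Fin n × Bool → Mat r R) (A B : Mat r R) (i : Fin n)
    (b : Bool) : addH y A B (i.castSucc, b) = y (i, b) := by simp [addH]

theorem addH_forall (p : Mat r R → Prop) (y : Fin n × Bool → Mat r R) (A B : Mat r R)
    (hy : ∀ k, p (y k)) (hA : p A) (hB : p B) : ∀ k, p (addH y A B k) := by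
  rintro ⟨i, b⟩
  refine Fin.lastCases ?_ (fun i => ?_) i
  · cases b
    · rw [addH_last_false]; exact hA
    · rw [addH_last_true]; exact hB
  · rw [addH_castSucc]; exact hy _

end

variable {R : Type*} [CommRing R]

theorem addH_map {S : Type*} [CommRing S] (φ : R →+* S) (y : Fin n × Bool → Mat r R)
    (A B : Mat r R) (k : Fin (n + 1) × Bool) :
    (addH y A B k).map φ = addH (fun k => (y k).map φ) (A.map φ) (B.map φ) k := by
  obtain ⟨i, b⟩ := k
  refine Fin.lastCases ?_ (fun i => ?_) i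
  · cases b
    · simp
    · simp
  · simp

theorem relI_addH (y y' : Fin n × Bool → Mat r R) (A B A' B' : Mat r R) :
    relI (addH y A B) (addH y' A' B') = relI y y' * (A * B * A' * B') := by
  unfold relI
  rw [List.ofFn_succ', List.prod_concat]
  simp

theorem relI_det (y y' : Fin n × Bool → Mat r R) (h : ∀ k, y k * y' k = 1) :
    det (relI y y') = 1 := by
  unfold relI
  have h1 : ∀ l : List (Mat r R), (∀ M ∈ l, det M = 1) → det l.prod = 1 := by
    intro l
    induction l with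
    | nil => simp
    | cons a l ih =>
      intro hl
      rw [List.prod_cons, det_mul, hl a (by simp), ih (fun M hM => hl M (by simp [hM])), one_mul]
  apply h1
  intro M hM
  rw [List.mem_ofFn] at hM
  obtain ⟨i, rfl⟩ := hM
  rw [det_mul, det_mul, det_mul]
  have e1 : det (y (i, false)) * det (y' (i, false)) = 1 := by rw [← det_mul, h, det_one]
  have e2 : det (y (i, true)) * det (y' (i, true)) = 1 := by rw [← det_mul, h, det_one]
  calc _ = (det (y (i, false)) * det (y' (i, false))) * (det (y (i, true)) * det (y' (i, true))) := by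
        ring
    _ = 1 := by rw [e1, e2, one_mul]

/-- Good pairs. -/
def Good (A B : Mat r ℂ) : Prop :=
  IsUnit A ∧ IsUnit B ∧ IsUnit (kry A 1) ∧ IsUnit (sysM (B * A * B⁻¹ * A⁻¹) A)

theorem map_inv_of_unit {S : Type*} [CommRing S] (φ : R →+* S) (M : Mat r R) (h : IsUnit M) :
    (M⁻¹).map φ = (M.map φ)⁻¹ := by
  rw [Matrix.isUnit_iff_isUnit_det] at h
  symm
  apply Matrix.inv_eq_right_inv
  have := Matrix.mul_nonsing_inv M h
  have h2 := congrArg (fun N : Mat r R => N.map φ) this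
  beta_reduce at h2
  rw [Matrix.map_mul, Matrix.map_one _ (map_zero φ) (map_one φ)] at h2
  exact h2

theorem evalT_of_map {g : ℕ} {T : Type*} [CommRing T] [Algebra ℂ T] (φ : T →+* ℂ)
    (hφ : ∀ c : ℂ, φ (algebraMap ℂ T c) = c) (X : Fin g × Bool → Mat r T)
    (F : MvPolynomial ((Fin g × Bool) × Fin r × Fin r) ℂ) :
    φ (MvPolynomial.aeval (fun p : (Fin g × Bool) × Fin r × Fin r => X p.1 p.2.1 p.2.2) F) =
      evalT (fun k => (X k).map φ) F := by
  let φ' : T →ₐ[ℂ] ℂ := { φ with commutes' := hφ }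
  have h : (φ'.comp (MvPolynomial.aeval
      (fun p : (Fin g × Bool) × Fin r × Fin r => X p.1 p.2.1 p.2.2))) =
      evalT (fun k => (X k).map φ) := by
    apply MvPolynomial.algHom_ext
    intro p
    simp [evalT, φ']
  exact DFunLike.congr_fun h F

/-- The inverse of the commutator, from the relation. -/
theorem rel_inv {W A B : Mat r ℂ} (hA : IsUnit A) (hB : IsUnit B)
    (h : W * (A * B * A⁻¹ * B⁻¹) = 1) : W = B * A * B⁻¹ * A⁻¹ := by
  rw [Matrix.isUnit_iff_isUnit_det] at hA hB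
  have h2 : (A * B * A⁻¹ * B⁻¹) * (B * A * B⁻¹ * A⁻¹) = 1 := by
    have e1 : (A * B * A⁻¹ * B⁻¹) * (B * A * B⁻¹ * A⁻¹) =
        A * B * A⁻¹ * (B⁻¹ * B) * A * B⁻¹ * A⁻¹ := by
      simp only [mul_assoc]
    rw [e1, Matrix.nonsing_inv_mul _ hB, mul_one, mul_assoc (A * B), Matrix.nonsing_inv_mul _ hA,
      mul_one, mul_assoc A, Matrix.mul_nonsing_inv _ hB, mul_one, Matrix.mul_nonsing_inv _ hA]
  calc W = W * ((A * B * A⁻¹ * B⁻¹) * (B * A * B⁻¹ * A⁻¹)) := by rw [h2, mul_one]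
    _ = B * A * B⁻¹ * A⁻¹ := by rw [← mul_assoc, h, one_mul]

theorem sysR_zero {A B : Mat r ℂ} (hA : IsUnit A) (hB : IsUnit B) :
    sysR (B * A * B⁻¹ * A⁻¹) A (det A) = 0 := by
  rw [Matrix.isUnit_iff_isUnit_det] at hA hB
  have e : B * A * B⁻¹ * A⁻¹ * A = B * A * B⁻¹ := by
    rw [mul_assoc, Matrix.nonsing_inv_mul _ hA, mul_one]
  funext i
  simp only [sysR, Pi.zero_apply]
  split_ifs
  · rw [sub_self]
  · rw [e]
    have : tm (i : ℕ) (B * A * B⁻¹) = B * tm (i : ℕ) A * B⁻¹ := by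
      unfold tm
      rw [mul_sub, sub_mul, Matrix.mul_smul, mul_one, Matrix.smul_mul,
        Matrix.mul_nonsing_inv _ hB]
    rw [this, det_mul, det_mul, mul_right_comm, ← det_mul, Matrix.mul_nonsing_inv _ hB, det_one,
      one_mul, sub_self]

theorem path_lemma
    (f h : MvPolynomial ((Fin (n + 1) × Bool) × Fin r × Fin r) ℂ)
    (hfh : ∀ X : Fin (n + 1) × Bool → Mat r ℂ, (∀ k, IsUnit (X k)) → relT X = 1 →
      evalT X h * evalT X f = 0)
    (y0 y1 : Fin n × Bool → Mat r ℂ) (A0 B0 A1 B1 : Mat r ℂ)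
    (hy0 : ∀ k, IsUnit (y0 k)) (hy1 : ∀ k, IsUnit (y1 k))
    (hg0 : Good A0 B0) (hg1 : Good A1 B1)
    (hrel0 : relT (addH y0 A0 B0) = 1) (hrel1 : relT (addH y1 A1 B1) = 1)
    (hh : evalT (addH y0 A0 B0) h ≠ 0) : evalT (addH y1 A1 B1) f = 0 := by
  classical
  obtain ⟨hA0, hB0, hK0, hS0⟩ := hg0
  obtain ⟨hA1, hB1, hK1, hS1⟩ := hg1
  -- relations at the end points
  have hW : ∀ (y : Fin n × Bool → Mat r ℂ) (A B : Mat r ℂ), IsUnit A → IsUnit B →
      relT (addH y A B) = 1 → relT y = B * A * B⁻¹ * A⁻¹ := by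
    intro y A B hA hB hrel
    apply rel_inv hA hB
    rw [relT_eq_relI] at hrel ⊢
    have e : (fun k => (addH y A B k)⁻¹) = addH (fun k => (y k)⁻¹) A⁻¹ B⁻¹ := by
      funext k
      obtain ⟨i, b⟩ := k
      refine Fin.lastCases ?_ (fun i => ?_) i
      · cases b
        · simp
        · simp
      · simp
    rw [e, relI_addH] at hrel
    exact hrel
  have hW0 := hW y0 A0 B0 hA0 hB0 hrel0
  have hW1 := hW y1 A1 B1 hA1 hB1 hrel1
  -- the path
  let L : Mat r ℂ → Mat r ℂ → Mat r T01 := fun M N => Matrix.of fun i j => lin (M i j) (N i j)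
  have hL0 : ∀ M N, (L M N).map ev0 = M := by intro M N; ext i j; simp [L]
  have hL1 : ∀ M N, (L M N).map ev1 = N := by intro M N; ext i j; simp [L]
  let y : Fin n × Bool → Mat r T01 := fun k => L (y0 k) (y1 k)
  have hyu : ∀ k, IsUnit (y k) := fun k =>
    isUnit_mat _ (by rw [hL0]; exact hy0 k) (by rw [hL1]; exact hy1 k)
  have hyd : ∀ k, IsUnit (y k).det := fun k => (Matrix.isUnit_iff_isUnit_det _).1 (hyu k)
  let W : Mat r T01 := relI y (fun k => (y k)⁻¹)
  have hWdet : det W = 1 := relI_det _ _ fun k => Matrix.mul_nonsing_inv _ (hyd k)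
  have hWev0 : W.map ev0 = B0 * A0 * B0⁻¹ * A0⁻¹ := by
    rw [← hW0, relT_eq_relI, relI_map]
    congr 1
    · funext k; exact hL0 _ _
    · funext k
      rw [map_inv_of_unit _ _ (hyu k), hL0]
  have hWev1 : W.map ev1 = B1 * A1 * B1⁻¹ * A1⁻¹ := by
    rw [← hW1, relT_eq_relI, relI_map]
    congr 1
    · funext k; exact hL1 _ _
    · funext k
      rw [map_inv_of_unit _ _ (hyu k), hL1]
  let Y : Mat r T01 := L A0 A1
  let θ : T01 := lin (det A0) (det A1)
  have hMu : IsUnit (sysM W Y) := by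
    apply isUnit_mat
    · rw [sysM_map, hWev0, hL0]; exact hS0
    · rw [sysM_map, hWev1, hL1]; exact hS1
  have hMd := (Matrix.isUnit_iff_isUnit_det _).1 hMu
  let c : Fin r → T01 := (sysM W Y)⁻¹ *ᵥ sysR W Y θ
  have hc : sysM W Y *ᵥ c = sysR W Y θ := by
    simp only [c]
    rw [mulVec_mulVec, Matrix.mul_nonsing_inv _ hMd, one_mulVec]
  have hcφ : ∀ φ : T01 →+* ℂ, sysR (W.map φ) (Y.map φ) (φ θ) = 0 → ∀ i, φ (c i) = 0 := by
    intro φ hφ i
    have h1 := sysR_map φ W Y θ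
    rw [hφ] at h1
    simp only [c, mulVec, dotProduct, map_sum, map_mul]
    apply Finset.sum_eq_zero
    intro j _
    have h2 := congrFun h1 j
    simp only [Pi.zero_apply] at h2
    rw [h2, mul_zero]
  have hc0 : ∀ i, ev0 (c i) = 0 := by
    apply hcφ
    rw [hWev0, hL0, ev0_lin]
    exact sysR_zero hA0 hB0
  have hc1 : ∀ i, ev1 (c i) = 0 := by
    apply hcφ
    rw [hWev1, hL1, ev1_lin]
    exact sysR_zero hA1 hB1
  let A : Mat r T01 := Y + vecMulVec c 1
  have hAφ : ∀ φ : T01 →+* ℂ, (∀ i, φ (c i) = 0) → A.map φ = Y.map φ := by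
    intro φ hφ
    ext i j
    simp [A, hφ]
  have hAev0 : A.map ev0 = A0 := by rw [hAφ _ hc0, hL0]
  have hAev1 : A.map ev1 = A1 := by rw [hAφ _ hc1, hL1]
  have hAu : IsUnit A := isUnit_mat _ (by rw [hAev0]; exact hA0) (by rw [hAev1]; exact hA1)
  have hAd := (Matrix.isUnit_iff_isUnit_det _).1 hAu
  let A' : Mat r T01 := W * A
  have : CharZero T01 := by
    refine charZero_of_injective_algebraMap (R := ℂ) ?_
    exact FaithfulSMul.algebraMap_injective ℂ T01
  have hchar : A.charpoly = A'.charpoly := by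
    apply charpoly_eq_of_tm
    · simp only [A']
      rw [det_mul, hWdet, one_mul]
    · intro i hi
      exact sys_tm W Y θ c hc i hi
  have hKu : IsUnit (kry A 1) := by
    apply isUnit_mat
    · rw [kry_map, hAev0]
      have h7 : (fun i => ev0 ((1 : Fin r → T01) i)) = (1 : Fin r → ℂ) := by
        funext i; simp
      rw [h7]
      exact hK0
    · rw [kry_map, hAev1]
      have h7 : (fun i => ev1 ((1 : Fin r → T01) i)) = (1 : Fin r → ℂ) := by
        funext i; simp
      rw [h7]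
      exact hK1
  have hKd := (Matrix.isUnit_iff_isUnit_det _).1 hKu
  let w : Fin r → T01 := fun i => lin ((B0 *ᵥ 1) i) ((B1 *ᵥ 1) i)
  let B : Mat r T01 := kry A' w * (kry A 1)⁻¹
  have hBK : B * kry A 1 = kry A' w := by
    simp only [B]
    rw [mul_assoc, Matrix.nonsing_inv_mul _ hKd, mul_one]
  have hBev : ∀ (φ : T01 →+* ℂ) (A2 B2 : Mat r ℂ), IsUnit A2 → IsUnit B2 → IsUnit (kry A2 1) →
      A.map φ = A2 → W.map φ = B2 * A2 * B2⁻¹ * A2⁻¹ → (fun i => φ (w i)) = B2 *ᵥ 1 →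
      B.map φ = B2 := by
    intro φ A2 B2 hA2 hB2 hK2 h1 h2 h3
    have h4 := congrArg (fun N : Mat r T01 => N.map φ) hBK
    beta_reduce at h4
    rw [Matrix.map_mul, kry_map, kry_map, h1, h3] at h4
    have h5 : A'.map φ = B2 * A2 * B2⁻¹ := by
      simp only [A']
      rw [Matrix.map_mul, h1, h2, mul_assoc _ A2⁻¹ A2,
        Matrix.nonsing_inv_mul _ ((Matrix.isUnit_iff_isUnit_det _).1 hA2), mul_one]
    rw [h5] at h4
    have h6 : B2 * kry A2 1 = kry (B2 * A2 * B2⁻¹) (B2 *ᵥ 1) := by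
      apply mul_kry
      rw [mul_assoc (B2 * A2), Matrix.nonsing_inv_mul _ ((Matrix.isUnit_iff_isUnit_det _).1 hB2),
        mul_one]
    have h7 : (fun i => φ ((1 : Fin r → T01) i)) = (1 : Fin r → ℂ) := by
      funext i; simp
    rw [h7, ← h6] at h4
    exact hK2.mul_right_cancel h4
  have hBev0 : B.map ev0 = B0 :=
    hBev ev0 A0 B0 hA0 hB0 hK0 hAev0 hWev0 (by funext i; simp [w])
  have hBev1 : B.map ev1 = B1 :=
    hBev ev1 A1 B1 hA1 hB1 hK1 hAev1 hWev1 (by funext i; simp [w])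
  have hBu : IsUnit B := isUnit_mat _ (by rw [hBev0]; exact hB0) (by rw [hBev1]; exact hB1)
  have hBd := (Matrix.isUnit_iff_isUnit_det _).1 hBu
  have hcomm : B * A = A' * B := krylov_comm A A' 1 w hchar B hBK hKu
  -- the relation
  have hXY : ∀ k, addH y A B k * addH (fun k => (y k)⁻¹) A⁻¹ B⁻¹ k = 1 := by
    rintro ⟨i, b⟩
    refine Fin.lastCases ?_ (fun i => ?_) i
    · cases b
      · simp only [addH_last_false]; exact Matrix.mul_nonsing_inv _ hAd
      · simp only [addH_last_true]; exact Matrix.mul_nonsing_inv _ hBd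
    · simp only [addH_castSucc]; exact Matrix.mul_nonsing_inv _ (hyd _)
  have hrel : relI (addH y A B) (addH (fun k => (y k)⁻¹) A⁻¹ B⁻¹) = 1 := by
    rw [relI_addH]
    change W * (A * B * A⁻¹ * B⁻¹) = 1
    have e1 : W * (A * B * A⁻¹ * B⁻¹) = (A' * B) * A⁻¹ * B⁻¹ := by
      simp only [A', mul_assoc]
    rw [e1, ← hcomm, mul_assoc B, Matrix.mul_nonsing_inv _ hAd, mul_one,
      Matrix.mul_nonsing_inv _ hBd]
  have hzero := transfer (T := T01) (h * f) (by
    intro X hX hrelX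
    rw [map_mul]
    exact hfh X hX hrelX) _ _ hXY hrel
  rw [map_mul, mul_eq_zero] at hzero
  have hend : ∀ (φ : T01 →+* ℂ) (hφ : ∀ c : ℂ, φ (algebraMap ℂ T01 c) = c)
      (F : MvPolynomial ((Fin (n + 1) × Bool) × Fin r × Fin r) ℂ)
      (y2 : Fin n × Bool → Mat r ℂ) (A2 B2 : Mat r ℂ), (∀ k, (y k).map φ = y2 k) →
      A.map φ = A2 → B.map φ = B2 →
      φ (MvPolynomial.aeval (fun p : (Fin (n + 1) × Bool) × Fin r × Fin r =>
        addH y A B p.1 p.2.1 p.2.2) F) = evalT (addH y2 A2 B2) F := by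
    intro φ hφ F y2 A2 B2 h1 h2 h3
    rw [evalT_of_map φ hφ]
    congr 2
    funext k
    rw [addH_map, h2, h3]
    congr 1
    funext k
    exact h1 k
  rcases hzero with hz | hz
  · exfalso
    apply hh
    rw [← hend ev0 ev0_C h y0 A0 B0 (fun k => hL0 _ _) hAev0 hBev0, hz, map_zero]
  · rw [← hend ev1 ev1_C f y1 A1 B1 (fun k => hL1 _ _) hAev1 hBev1, hz, map_zero]

end Vale.Agent.P002
end

section

namespace Vale.Agent.P002

open Matrix

variable {r : ℕ}

/-- The system matrix with cleared denominators. -/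
def sysHat {R : Type*} [CommRing R] (A B : Mat r R) : Mat r R :=
  Matrix.of fun i j => if (i : ℕ) = 0 then ((1 : Fin r → R) ᵥ* adjugate A) j
    else ((1 : Fin r → R) ᵥ* ((det A * det B) • adjugate (tm i A)
      - B * adjugate (tm i A) * A * adjugate B * adjugate A)) j

/-- Polynomial detecting good pairs. -/
def Ghat {R : Type*} [CommRing R] (A B : Mat r R) : R :=
  det A * det B * det (kry A 1) * det (sysHat A B)

theorem Ghat_map {R S : Type*} [CommRing R] [CommRing S] (φ : R →+* S) (A B : Mat r R) :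
    φ (Ghat A B) = Ghat (A.map φ) (B.map φ) := by
  have ht : ∀ (n : ℕ) (M : Mat r R), (tm n M).map φ = tm n (M.map φ) := by
    intro n M
    unfold tm
    ext i j
    simp [one_apply, apply_ite φ]
  have hadj : ∀ M : Mat r R, (adjugate M).map φ = adjugate (M.map φ) := fun M =>
    RingHom.map_adjugate φ M
  have hmul : ∀ M N : Mat r R, (M * N).map φ = M.map φ * N.map φ := fun M N => Matrix.map_mul
  have hdet : ∀ M : Mat r R, φ (det M) = det (M.map φ) := fun M => RingHom.map_det φ M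
  have hsub : ∀ M N : Mat r R, (M - N).map φ = M.map φ - N.map φ := fun M N =>
    map_sub (RingHom.mapMatrix φ) _ _
  have hsmul : ∀ (c : R) (M : Mat r R), (c • M).map φ = φ c • M.map φ := by
    intro c M; ext i j; simp
  have h1 : (fun i => φ ((1 : Fin r → R) i)) = (1 : Fin r → S) := by
    funext i; simp
  have hv : ∀ (M : Mat r R) j, φ (((1 : Fin r → R) ᵥ* M) j) = ((1 : Fin r → S) ᵥ* (M.map φ)) j := by
    intro M j
    simp [vecMul, dotProduct]
  have hsys : (sysHat A B).map φ = sysHat (A.map φ) (B.map φ) := by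
    ext i j
    simp only [sysHat, Matrix.map_apply, Matrix.of_apply]
    split_ifs
    · rw [hv, hadj]
    · rw [hv, hsub, hsmul, hmul, hmul, hmul, hmul, hadj, hadj, hadj, ht, map_mul, hdet, hdet]
  unfold Ghat
  rw [map_mul, map_mul, map_mul, hdet, hdet, hdet, hdet, kry_map, hsys, h1]

theorem adjugate_conj_unit (B : Mat r ℂ) (hB : IsUnit B.det) (M : Mat r ℂ) :
    adjugate (B * M * B⁻¹) = B * adjugate M * B⁻¹ := by
  have h2 : det B ≠ 0 := isUnit_iff_ne_zero.1 hB
  have hadjB : adjugate B = det B • B⁻¹ := by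
    rw [Matrix.inv_def, smul_smul, Ring.inverse_eq_inv', mul_inv_cancel₀ h2, one_smul]
  have hBi : adjugate B⁻¹ = (det B)⁻¹ • B := by
    calc adjugate B⁻¹ = adjugate B⁻¹ * (B⁻¹ * B) := by
          rw [Matrix.nonsing_inv_mul _ hB, mul_one]
      _ = (adjugate B⁻¹ * B⁻¹) * B := by rw [mul_assoc]
      _ = (det B)⁻¹ • B := by
          rw [adjugate_mul, Matrix.smul_mul, one_mul, det_nonsing_inv, Ring.inverse_eq_inv']
  rw [adjugate_mul_distrib, adjugate_mul_distrib, hBi, hadjB, Matrix.smul_mul, Matrix.mul_smul,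
    Matrix.mul_smul, smul_smul, inv_mul_cancel₀ h2, one_smul, mul_assoc]

theorem clear_identity (A B P Ai Bi : Mat r ℂ) (a b : ℂ) (h : Bi * B = 1) :
    (a * b) • P - B * P * A * (b • Bi) * (a • Ai) =
      (a * b) • (P - B * P * Bi * (B * A * Bi * Ai)) := by
  have h6 : B * P * Bi * (B * A * Bi * Ai) = B * P * (Bi * B) * A * Bi * Ai := by
    simp only [mul_assoc]
  rw [h6, h, mul_one, smul_sub, Matrix.mul_smul, Matrix.mul_smul, Matrix.smul_mul, smul_smul]

theorem good_of_Ghat {A B : Mat r ℂ} (h : Ghat A B ≠ 0) : Good A B := by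
  unfold Ghat at h
  have h4 : det (sysHat A B) ≠ 0 := right_ne_zero_of_mul h
  have h3 : det (kry A 1) ≠ 0 := right_ne_zero_of_mul (left_ne_zero_of_mul h)
  have h2 : det B ≠ 0 := right_ne_zero_of_mul (left_ne_zero_of_mul (left_ne_zero_of_mul h))
  have h1 : det A ≠ 0 := left_ne_zero_of_mul (left_ne_zero_of_mul (left_ne_zero_of_mul h))
  have hA : IsUnit A.det := isUnit_iff_ne_zero.2 h1
  have hB : IsUnit B.det := isUnit_iff_ne_zero.2 h2
  refine ⟨(Matrix.isUnit_iff_isUnit_det _).2 hA, (Matrix.isUnit_iff_isUnit_det _).2 hB,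
    (Matrix.isUnit_iff_isUnit_det _).2 (isUnit_iff_ne_zero.2 h3), ?_⟩
  rw [Matrix.isUnit_iff_isUnit_det, isUnit_iff_ne_zero]
  have hadjA : adjugate A = det A • A⁻¹ := by
    rw [Matrix.inv_def, smul_smul, Ring.inverse_eq_inv', mul_inv_cancel₀ h1, one_smul]
  have hadjB : adjugate B = det B • B⁻¹ := by
    rw [Matrix.inv_def, smul_smul, Ring.inverse_eq_inv', mul_inv_cancel₀ h2, one_smul]
  have e : B * A * B⁻¹ * A⁻¹ * A = B * A * B⁻¹ := by
    rw [mul_assoc, Matrix.nonsing_inv_mul _ hA, mul_one]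
  have hconj := adjugate_conj_unit B hB
  have htm : ∀ i : ℕ, tm i (B * A * B⁻¹) = B * tm i A * B⁻¹ := by
    intro i
    unfold tm
    rw [mul_sub, sub_mul, Matrix.mul_smul, mul_one, Matrix.smul_mul,
      Matrix.mul_nonsing_inv _ hB]
  have key : sysHat A B = diagonal (fun i : Fin r => if (i : ℕ) = 0 then 1 else det A * det B) *
      sysM (B * A * B⁻¹ * A⁻¹) A := by
    ext i j
    rw [diagonal_mul]
    simp only [sysHat, sysM, Matrix.of_apply]
    split_ifs
    · rw [one_mul]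
    · rw [e, htm, hconj, hadjA, hadjB]
      have h5 := clear_identity A B (adjugate (tm i A)) A⁻¹ B⁻¹ (det A) (det B)
        (Matrix.nonsing_inv_mul _ hB)
      rw [h5, vecMul_smul]
      rfl
  rw [key, det_mul] at h4
  exact right_ne_zero_of_mul h4

/-- Example: the diagonal part. -/
def exA (r : ℕ) : Mat r ℂ := diagonal fun i : Fin r => ((i : ℕ) : ℂ) + 1

/-- Example: all ones plus identity. -/
def exB (r : ℕ) : Mat r ℂ := vecMulVec 1 1 + 1

theorem exB_mulVec (z : Fin r → ℂ) (i : Fin r) : (exB r *ᵥ z) i = (∑ j, z j) + z i := by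
  simp [exB, mulVec, dotProduct, one_apply, add_mul, Finset.sum_add_distrib]

theorem one_vecMul_exB (i : Fin r) : ((1 : Fin r → ℂ) ᵥ* exB r) i = r + 1 := by
  simp [exB, vecMul, dotProduct, one_apply, Finset.sum_add_distrib]

/-- The Lagrange type argument. -/
theorem lagrange_zero (a : Fin r → ℂ) (ha : Function.Injective a) (x : Fin r → ℂ)
    (h : ∀ i : Fin r, ∑ k, (∏ j ∈ Finset.univ.erase k, (((i : ℕ) : ℂ) - a j)) * x k = 0) :
    x = 0 := by
  classical
  let q : Polynomial ℂ := ∑ k, Polynomial.C (x k) *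
    ∏ j ∈ Finset.univ.erase k, (Polynomial.X - Polynomial.C (a j))
  have heval : ∀ t : ℂ, q.eval t = ∑ k, (∏ j ∈ Finset.univ.erase k, (t - a j)) * x k := by
    intro t
    simp only [q, Polynomial.eval_finsetSum, Polynomial.eval_mul, Polynomial.eval_C,
      Polynomial.eval_prod, Polynomial.eval_sub, Polynomial.eval_X]
    apply Finset.sum_congr rfl
    intro k _
    ring
  rcases Nat.eq_zero_or_pos r with hr | hr
  · subst hr
    exact Subsingleton.elim _ _
  have hdeg : q.degree < ((Finset.univ : Finset (Fin r)).card : ℕ) := by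
    rw [Finset.card_univ, Fintype.card_fin]
    refine lt_of_le_of_lt (Polynomial.degree_sum_le _ _) ?_
    rw [Finset.sup_lt_iff (by exact_mod_cast WithBot.bot_lt_coe r)]
    intro k _
    have h1 : (∏ j ∈ Finset.univ.erase k, (Polynomial.X - Polynomial.C (a j))).degree
        = ((r - 1 : ℕ) : WithBot ℕ) := by
      rw [Polynomial.degree_prod]
      simp only [Polynomial.degree_X_sub_C]
      rw [Finset.sum_const, Finset.card_erase_of_mem (Finset.mem_univ k), Finset.card_univ,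
        Fintype.card_fin]
      simp
    calc (Polynomial.C (x k) * ∏ j ∈ Finset.univ.erase k, (Polynomial.X - Polynomial.C (a j))).degree
        ≤ (Polynomial.C (x k)).degree +
          (∏ j ∈ Finset.univ.erase k, (Polynomial.X - Polynomial.C (a j))).degree :=
          Polynomial.degree_mul_le _ _
      _ ≤ 0 + ((r - 1 : ℕ) : WithBot ℕ) := by
          rw [h1]
          gcongr
          exact Polynomial.degree_C_le
      _ < (r : WithBot ℕ) := by
          rw [zero_add]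
          exact_mod_cast Nat.sub_lt hr one_pos
  have hq : q = 0 := by
    refine Polynomial.eq_zero_of_degree_lt_of_eval_index_eq_zero
      (v := fun i : Fin r => ((i : ℕ) : ℂ)) (s := Finset.univ) ?_ hdeg ?_
    · intro i _ j _ hij
      simp only [Nat.cast_inj] at hij
      exact Fin.ext hij
    · intro i _
      rw [heval]
      exact h i
  funext k
  have h1 := heval (a k)
  rw [hq, Polynomial.eval_zero, Finset.sum_eq_single k] at h1
  · have h2 : (∏ j ∈ Finset.univ.erase k, (a k - a j)) ≠ 0 := by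
      rw [Finset.prod_ne_zero_iff]
      intro j hj
      rw [sub_ne_zero]
      intro he
      exact (Finset.ne_of_mem_erase hj) (ha he).symm
    simpa [h2] using h1.symm
  · intro b _ hb
    have : (∏ j ∈ Finset.univ.erase b, (a k - a j)) = 0 := by
      apply Finset.prod_eq_zero (i := k)
      · simp [Ne.symm hb]
      · simp
    rw [this, zero_mul]
  · simp

theorem exA_det_ne : det (exA r) ≠ 0 := by
  unfold exA
  rw [det_diagonal, Finset.prod_ne_zero_iff]
  intro i _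
  exact_mod_cast Nat.succ_ne_zero (i : ℕ)

theorem exB_det_ne : det (exB r) ≠ 0 := by
  intro h
  rw [← exists_mulVec_eq_zero_iff] at h
  obtain ⟨v, hv, h0⟩ := h
  apply hv
  have h1 : ∀ i, (∑ j, v j) + v i = 0 := by
    intro i
    rw [← exB_mulVec, h0]
    rfl
  have h2 : (r + 1 : ℂ) * ∑ j, v j = 0 := by
    have := Finset.sum_congr rfl fun i (_ : i ∈ (Finset.univ : Finset (Fin r))) => h1 i
    rw [Finset.sum_add_distrib, Finset.sum_const, Finset.card_univ, Fintype.card_fin,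
      nsmul_eq_mul, Finset.sum_const_zero] at this
    linear_combination this
  have h3 : (r + 1 : ℂ) ≠ 0 := by exact_mod_cast Nat.succ_ne_zero r
  have h4 : ∑ j, v j = 0 := (mul_eq_zero.1 h2).resolve_left h3
  funext i
  have := h1 i
  rw [h4, zero_add] at this
  exact this

theorem ex_kry_ne : det (kry (exA r) 1) ≠ 0 := by
  have h : kry (exA r) 1 = vandermonde (fun i : Fin r => ((i : ℕ) : ℂ) + 1) := by
    ext i j
    simp only [kry, exA, Matrix.of_apply, vandermonde_apply]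
    rw [diagonal_pow, mulVec_diagonal]
    simp
  rw [h, det_vandermonde_ne_zero_iff]
  intro i j hij
  simp only [add_left_inj, Nat.cast_inj] at hij
  exact Fin.ext hij

theorem ex_sysHat_ne (hr : 0 < r) : det (sysHat (exA r) (exB r)) ≠ 0 := by
  intro hdet
  rw [← exists_mulVec_eq_zero_iff] at hdet
  obtain ⟨δ, hδ, h0⟩ := hdet
  apply hδ
  set A := exA r with hA
  set B := exB r with hB
  have hAn : det A ≠ 0 := exA_det_ne
  have hBn : det B ≠ 0 := exB_det_ne
  have hAu : IsUnit (det A) := isUnit_iff_ne_zero.2 hAn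
  have hBu : IsUnit (det B) := isUnit_iff_ne_zero.2 hBn
  obtain ⟨z, hz⟩ : ∃ z : Fin r → ℂ, δ = A *ᵥ (B *ᵥ z) := by
    refine ⟨B⁻¹ *ᵥ (A⁻¹ *ᵥ δ), ?_⟩
    rw [mulVec_mulVec _ B, Matrix.mul_nonsing_inv _ hBu, one_mulVec, mulVec_mulVec,
      Matrix.mul_nonsing_inv _ hAu, one_mulVec]
  let a : Fin r → ℂ := fun i => ((i : ℕ) : ℂ) + 1
  have ha : Function.Injective a := by
    intro i j hij
    simp only [a, add_left_inj, Nat.cast_inj] at hij
    exact Fin.ext hij
  have hmulA : ∀ v : Fin r → ℂ, ∀ i, (A *ᵥ v) i = a i * v i := by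
    intro v i
    rw [hA, exA, mulVec_diagonal]
  have hone : ∀ v : Fin r → ℂ, (1 : Fin r → ℂ) ⬝ᵥ v = ∑ i, v i := by
    intro v; simp [dotProduct]
  have hr0 : (r : ℂ) + 1 ≠ 0 := by exact_mod_cast Nat.succ_ne_zero r
  have hsum : ∑ i, (B *ᵥ z) i = (r + 1) * ∑ i, z i := by
    simp only [hB, exB_mulVec]
    rw [Finset.sum_add_distrib, Finset.sum_const, Finset.card_univ, Fintype.card_fin,
      nsmul_eq_mul]
    ring
  -- rows
  have hrow : ∀ i : Fin r, (i : ℕ) ≠ 0 →
      ∑ k, (∏ j ∈ Finset.univ.erase k, (((i : ℕ) : ℂ) - a j)) *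
        (a k * ((B *ᵥ z) k - (r + 1) * z k)) = 0 := by
    intro i hi
    have h1 := congrFun h0 i
    simp only [sysHat, mulVec, dotProduct, Matrix.of_apply, if_neg hi, Pi.zero_apply] at h1
    have h2 : ∀ M : Mat r ℂ, ∑ x, ((1 : Fin r → ℂ) ᵥ* M) x * δ x = (1 : Fin r → ℂ) ⬝ᵥ (M *ᵥ δ) := by
      intro M
      rw [dotProduct_mulVec]
      rfl
    rw [h2, sub_mulVec, dotProduct_sub] at h1
    have h3 : (B * adjugate (tm i A) * A * adjugate B * adjugate A) *ᵥ δ =
        (det A * det B) • (B *ᵥ (adjugate (tm i A) *ᵥ (A *ᵥ z))) := by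
      rw [hz]
      simp only [← mulVec_mulVec]
      have e1 : adjugate A *ᵥ A *ᵥ B *ᵥ z = det A • (B *ᵥ z) := by
        rw [mulVec_mulVec _ (adjugate A) A, adjugate_mul, smul_mulVec, one_mulVec]
      rw [e1, mulVec_smul, mulVec_mulVec _ (adjugate B) B, adjugate_mul, smul_mulVec, one_mulVec]
      simp only [mulVec_smul, smul_smul]
    have h4 : tm (i : ℕ) A = diagonal fun j => ((i : ℕ) : ℂ) - a j := by
      unfold tm
      rw [hA, exA]
      ext p q
      by_cases hpq : p = q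
      · subst hpq; simp [a]
      · simp [hpq]
    rw [h3, h4, adjugate_diagonal, smul_mulVec, dotProduct_smul, dotProduct_smul, ← smul_sub,
      smul_eq_mul, mul_eq_zero] at h1
    have h5 := h1.resolve_left (mul_ne_zero hAn hBn)
    rw [dotProduct_mulVec _ B] at h5
    simp only [dotProduct, mulVec_diagonal, hz, hmulA, hB, one_vecMul_exB, Pi.one_apply,
      one_mul] at h5
    rw [← Finset.sum_sub_distrib] at h5
    rw [← h5]
    apply Finset.sum_congr rfl
    intro k _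
    ring
  have hrow0 : ∑ k, (∏ j ∈ Finset.univ.erase k, ((0 : ℂ) - a j)) *
        (a k * ((B *ᵥ z) k - (r + 1) * z k)) = 0 := by
    have h1 : ∀ k, (∏ j ∈ Finset.univ.erase k, ((0 : ℂ) - a j)) *
        (a k * ((B *ᵥ z) k - (r + 1) * z k)) =
        -(∏ j, ((0 : ℂ) - a j)) * ((B *ᵥ z) k - (r + 1) * z k) := by
      intro k
      rw [← Finset.prod_erase_mul (Finset.univ) (fun j => (0 : ℂ) - a j) (Finset.mem_univ k)]
      ring
    simp only [h1]
    rw [← Finset.mul_sum, Finset.sum_sub_distrib, hsum, ← Finset.mul_sum, sub_self, mul_zero]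
  have hx := lagrange_zero a ha (fun k => a k * ((B *ᵥ z) k - (r + 1) * z k)) (by
    intro i
    by_cases hi : (i : ℕ) = 0
    · rw [hi, Nat.cast_zero]
      exact hrow0
    · exact hrow i hi)
  have hak : ∀ k, a k ≠ 0 := fun k => by
    simp only [a]
    exact_mod_cast Nat.succ_ne_zero (k : ℕ)
  have hBz : ∀ k, (∑ j, z j) = r * z k := by
    intro k
    have h1 := congrFun hx k
    simp only [Pi.zero_apply] at h1
    have h2 := (mul_eq_zero.1 h1).resolve_left (hak k)
    rw [hB, exB_mulVec] at h2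
    linear_combination h2
  have hz0 : ∑ j, z j = 0 := by
    have h1 := congrFun h0 ⟨0, hr⟩
    simp only [sysHat, mulVec, dotProduct, Matrix.of_apply, if_true, Pi.zero_apply] at h1
    have h2 : ∑ x, ((1 : Fin r → ℂ) ᵥ* adjugate A) x * δ x =
        (1 : Fin r → ℂ) ⬝ᵥ (adjugate A *ᵥ δ) := by
      rw [dotProduct_mulVec]
      rfl
    rw [h2, hz, mulVec_mulVec, adjugate_mul, smul_mulVec, one_mulVec, dotProduct_smul, hone,
      hsum, smul_eq_mul] at h1
    have h3 := (mul_eq_zero.1 h1).resolve_left hAn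
    exact (mul_eq_zero.1 h3).resolve_left hr0
  have hrn : (r : ℂ) ≠ 0 := by exact_mod_cast hr.ne'
  have hzk : z = 0 := by
    funext k
    have h1 := hBz k
    rw [hz0] at h1
    exact (mul_eq_zero.1 h1.symm).resolve_left hrn
  rw [hz, hzk, mulVec_zero, mulVec_zero]

theorem ex_Ghat_ne (hr : 0 < r) : Ghat (exA r) (exB r) ≠ 0 := by
  unfold Ghat
  exact mul_ne_zero (mul_ne_zero (mul_ne_zero exA_det_ne exB_det_ne) ex_kry_ne) (ex_sysHat_ne hr)

/-- Good pairs are dense. -/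
theorem good_dense (hr : 0 < r) (A B : Mat r ℂ) (U : Set (Mat r ℂ × Mat r ℂ))
    (hU : U ∈ nhds (A, B)) : ∃ p ∈ U, Good p.1 p.2 := by
  let AX : Mat r (Polynomial ℂ) := Matrix.of fun i j =>
    Polynomial.C (A i j) + Polynomial.X * Polynomial.C (exA r i j - A i j)
  let BX : Mat r (Polynomial ℂ) := Matrix.of fun i j =>
    Polynomial.C (B i j) + Polynomial.X * Polynomial.C (exB r i j - B i j)
  let P : Polynomial ℂ := Ghat AX BX
  have hP : ∀ t : ℂ, P.eval t = Ghat (A + t • (exA r - A)) (B + t • (exB r - B)) := by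
    intro t
    have h1 := Ghat_map (Polynomial.evalRingHom t) AX BX
    simp only [Polynomial.coe_evalRingHom] at h1
    rw [show P.eval t = Polynomial.eval t (Ghat AX BX) from rfl, h1]
    congr 1
    · ext i j; simp [AX]
    · ext i j; simp [BX]
  have hP0 : P ≠ 0 := by
    intro h
    have h1 := hP 1
    rw [h, Polynomial.eval_zero] at h1
    simp only [one_smul, add_sub_cancel] at h1
    exact ex_Ghat_ne hr h1.symm
  have hfin : {t : ℂ | P.eval t = 0}.Finite := by
    refine (P.roots.toFinset.finite_toSet).subset ?_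
    intro t ht
    simp only [Finset.mem_coe, Multiset.mem_toFinset, Polynomial.mem_roots hP0,
      Polynomial.IsRoot]
    exact ht
  have hcont : Continuous fun t : ℂ => (A + t • (exA r - A), B + t • (exB r - B)) := by
    fun_prop
  have hV : (fun t : ℂ => (A + t • (exA r - A), B + t • (exB r - B))) ⁻¹' U ∈ nhds (0 : ℂ) := by
    apply hcont.continuousAt.preimage_mem_nhds
    simpa using hU
  have hdense := hfin.countable.dense_compl ℂ
  obtain ⟨t, ht1, ht2⟩ := hdense.inter_nhds_nonempty hV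
  refine ⟨_, ht2, ?_⟩
  apply good_of_Ghat
  rw [← hP]
  exact ht1

end Vale.Agent.P002
end

section

namespace Vale.Agent.P002

open Matrix

variable {n r : ℕ}

theorem eq_addH (X : Fin (n + 1) × Bool → Mat r ℂ) :
    X = addH (fun k => X (k.1.castSucc, k.2)) (X (Fin.last n, false)) (X (Fin.last n, true)) := by
  funext k
  obtain ⟨i, b⟩ := k
  refine Fin.lastCases ?_ (fun i => ?_) i
  · cases b
    · simp
    · simp
  · simp

theorem relT_addH (y : Fin n × Bool → Mat r ℂ) (A B : Mat r ℂ) :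
    relT (addH y A B) = relT y * (A * B * A⁻¹ * B⁻¹) := by
  rw [relT_eq_relI, relT_eq_relI]
  have e : (fun k => (addH y A B k)⁻¹) = addH (fun k => (y k)⁻¹) A⁻¹ B⁻¹ := by
    funext k
    obtain ⟨i, b⟩ := k
    refine Fin.lastCases ?_ (fun i => ?_) i
    · cases b
      · simp
      · simp
    · simp
  rw [e, relI_addH]

theorem continuousAt_matInv {M : Mat r ℂ} (hM : IsUnit M) :
    ContinuousAt (fun N : Mat r ℂ => N⁻¹) M := by
  have h1 : (fun N : Mat r ℂ => N⁻¹) =
      (fun N : Mat r ℂ => (det N)⁻¹) • fun N : Mat r ℂ => adjugate N := by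
    funext N
    rw [Matrix.inv_def, Ring.inverse_eq_inv']
    rfl
  rw [h1]
  rw [Matrix.isUnit_iff_isUnit_det, isUnit_iff_ne_zero] at hM
  apply ContinuousAt.smul
  · apply ContinuousAt.inv₀ _ hM
    exact (Continuous.matrix_det continuous_id).continuousAt
  · exact (Continuous.matrix_adjugate continuous_id).continuousAt

theorem isOpen_isUnit : IsOpen {M : Mat r ℂ | IsUnit M} := by
  have h : {M : Mat r ℂ | IsUnit M} = det ⁻¹' {0}ᶜ := by
    ext M
    simp [Matrix.isUnit_iff_isUnit_det]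
  rw [h]
  exact isOpen_compl_singleton.preimage (Continuous.matrix_det continuous_id)

/-- Points with scalar centralizer of the first handles are limits of points with a good last
pair. -/
theorem near_good (hr : 0 < r) (y : Fin n × Bool → Mat r ℂ) (A B : Mat r ℂ)
    (hy : ∀ k, IsUnit (y k)) (hA : IsUnit A) (hB : IsUnit B)
    (hrel : relT (addH y A B) = 1)
    (hc : ∀ N : Mat r ℂ, (∀ k, Commute N (y k)) → ∃ c : ℂ, N = c • (1 : Mat r ℂ))
    (U : Set (Fin (n + 1) × Bool → Mat r ℂ)) (hU : U ∈ nhds (addH y A B)) :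
    ∃ (y' : Fin n × Bool → Mat r ℂ) (A' B' : Mat r ℂ), addH y' A' B' ∈ U ∧
      (∀ k, IsUnit (y' k)) ∧ Good A' B' ∧ relT (addH y' A' B') = 1 := by
  classical
  rw [relT_addH] at hrel
  have hW := rel_inv hA hB hrel
  -- product neighbourhoods
  have hcont : Continuous fun q : (Fin n × Bool → Mat r ℂ) × (Mat r ℂ × Mat r ℂ) =>
      addH q.1 q.2.1 q.2.2 := by
    apply continuous_pi
    rintro ⟨i, b⟩
    refine Fin.lastCases ?_ (fun i => ?_) i
    · cases b
      · simp only [addH_last_false]; fun_prop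
      · simp only [addH_last_true]; fun_prop
    · simp only [addH_castSucc]; fun_prop
  have h1 : (fun q : (Fin n × Bool → Mat r ℂ) × (Mat r ℂ × Mat r ℂ) =>
      addH q.1 q.2.1 q.2.2) ⁻¹' U ∈ nhds (y, (A, B)) := hcont.continuousAt.preimage_mem_nhds hU
  rw [nhds_prod_eq, Filter.mem_prod_iff] at h1
  obtain ⟨Uy, hUy, Up, hUp, hsub⟩ := h1
  have h2 : {y' : Fin n × Bool → Mat r ℂ | ∀ k, IsUnit (y' k)} ∈ nhds y := by
    have : {y' : Fin n × Bool → Mat r ℂ | ∀ k, IsUnit (y' k)} =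
        ⋂ k, (fun y' : Fin n × Bool → Mat r ℂ => y' k) ⁻¹' {M : Mat r ℂ | IsUnit M} := by
      ext y'; simp
    rw [this]
    apply (isOpen_iInter_of_finite fun k => isOpen_isUnit.preimage (continuous_apply k)).mem_nhds
    simp only [Set.mem_iInter, Set.mem_preimage]
    exact hy
  obtain ⟨V, hV, hV2⟩ := open_relT y hy hc (Uy ∩ {y' | ∀ k, IsUnit (y' k)})
    (Filter.inter_mem hUy h2)
  have hcc : ContinuousAt (fun p : Mat r ℂ × Mat r ℂ => p.2 * p.1 * p.2⁻¹ * p.1⁻¹) (A, B) := by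
    apply ContinuousAt.mul
    · apply ContinuousAt.mul
      · exact (continuous_snd.mul continuous_fst).continuousAt
      · exact ContinuousAt.comp (f := Prod.snd) (x := (A, B)) (continuousAt_matInv hB)
          continuous_snd.continuousAt
    · exact ContinuousAt.comp (f := Prod.fst) (x := (A, B)) (continuousAt_matInv hA)
          continuous_fst.continuousAt
  have h3 : (fun p : Mat r ℂ × Mat r ℂ => p.2 * p.1 * p.2⁻¹ * p.1⁻¹) ⁻¹' V ∈ nhds (A, B) := by
    apply hcc.preimage_mem_nhds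
    simp only
    rw [← hW]
    exact hV
  obtain ⟨⟨A', B'⟩, ⟨hp1, hp2⟩, hgood⟩ := good_dense hr A B _ (Filter.inter_mem hUp h3)
  simp only [Set.mem_preimage] at hp2
  have hA' := hgood.1
  have hB' := hgood.2.1
  have hAd := (Matrix.isUnit_iff_isUnit_det _).1 hA'
  have hBd := (Matrix.isUnit_iff_isUnit_det _).1 hB'
  have hdet : (B' * A' * B'⁻¹ * A'⁻¹).det = 1 := by
    rw [det_mul, det_mul, det_mul, det_nonsing_inv, det_nonsing_inv, Ring.inverse_eq_inv']
    have e1 := isUnit_iff_ne_zero.1 hAd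
    have e2 := isUnit_iff_ne_zero.1 hBd
    simp only at e1 e2
    field_simp
  obtain ⟨y', ⟨hy1, hy2⟩, hy3⟩ := hV2 _ hp2 hdet
  refine ⟨y', A', B', ?_, hy2, hgood, ?_⟩
  · exact hsub (Set.mk_mem_prod hy1 hp1)
  · rw [relT_addH, hy3]
    simp only at hAd hBd ⊢
    have e1 : B' * A' * B'⁻¹ * A'⁻¹ * (A' * B' * A'⁻¹ * B'⁻¹) =
        B' * A' * B'⁻¹ * (A'⁻¹ * A') * B' * A'⁻¹ * B'⁻¹ := by
      simp only [mul_assoc]
    rw [e1, Matrix.nonsing_inv_mul _ hAd, mul_one, mul_assoc (B' * A') B'⁻¹ B',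
      Matrix.nonsing_inv_mul _ hBd, mul_one, mul_assoc B' A' A'⁻¹, Matrix.mul_nonsing_inv _ hAd,
      mul_one, Matrix.mul_nonsing_inv _ hBd]

theorem evalT_continuous {g : ℕ} (f : MvPolynomial ((Fin g × Bool) × Fin r × Fin r) ℂ) :
    Continuous fun X : Fin g × Bool → Mat r ℂ => evalT X f := by
  have h : (fun X : Fin g × Bool → Mat r ℂ => evalT X f) =
      (fun v => MvPolynomial.eval v f) ∘ fun X : Fin g × Bool → Mat r ℂ =>
        fun p : (Fin g × Bool) × Fin r × Fin r => X p.1 p.2.1 p.2.2 := by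
    funext X
    simp [evalT]
  rw [h]
  apply (MvPolynomial.continuous_eval f).comp
  apply continuous_pi
  intro p
  exact (continuous_apply p.2.2).comp ((continuous_apply p.2.1).comp (continuous_apply p.1))

theorem partII_succ (hr : 0 < r)
    (f h : MvPolynomial ((Fin (n + 1) × Bool) × Fin r × Fin r) ℂ)
    (hfh : ∀ X : Fin (n + 1) × Bool → Mat r ℂ, (∀ k, IsUnit (X k)) → relT X = 1 →
      evalT X h * evalT X f = 0)
    (X₀ : Fin (n + 1) × Bool → Mat r ℂ) (hX₀ : ∀ k, IsUnit (X₀ k)) (hrel₀ : relT X₀ = 1)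
    (hc₀ : ∀ N : Mat r ℂ, (∀ k, k.1 ≠ Fin.last n → Commute N (X₀ k)) →
      ∃ c : ℂ, N = c • (1 : Mat r ℂ))
    (hh₀ : evalT X₀ h ≠ 0)
    (X₁ : Fin (n + 1) × Bool → Mat r ℂ) (hX₁ : ∀ k, IsUnit (X₁ k)) (hrel₁ : relT X₁ = 1)
    (hc₁ : ∀ N : Mat r ℂ, (∀ k, k.1 ≠ Fin.last n → Commute N (X₁ k)) →
      ∃ c : ℂ, N = c • (1 : Mat r ℂ)) :
    evalT X₁ f = 0 := by
  have hcy : ∀ X : Fin (n + 1) × Bool → Mat r ℂ,
      (∀ N : Mat r ℂ, (∀ k, k.1 ≠ Fin.last n → Commute N (X k)) →
        ∃ c : ℂ, N = c • (1 : Mat r ℂ)) →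
      ∀ N : Mat r ℂ, (∀ k : Fin n × Bool, Commute N (X (k.1.castSucc, k.2))) →
        ∃ c : ℂ, N = c • (1 : Mat r ℂ) := by
    intro X hX N hN
    apply hX N
    rintro ⟨i, b⟩ hi
    revert hi
    refine Fin.lastCases ?_ (fun i => ?_) i
    · intro hi; exact absurd rfl hi
    · intro _; exact hN (i, b)
  -- a good starting point
  obtain ⟨y0, A0, B0, hU0, hy0, hg0, hr0⟩ := near_good hr _ _ _ (fun k => hX₀ _) (hX₀ _) (hX₀ _)
    (by rw [← eq_addH]; exact hrel₀) (hcy X₀ hc₀)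
    {X | evalT X h ≠ 0} (by
      rw [← eq_addH]
      exact (isOpen_compl_singleton.preimage (evalT_continuous h)).mem_nhds hh₀)
  by_contra hf
  obtain ⟨y1, A1, B1, hU1, hy1, hg1, hr1⟩ := near_good hr _ _ _ (fun k => hX₁ _) (hX₁ _) (hX₁ _)
    (by rw [← eq_addH]; exact hrel₁) (hcy X₁ hc₁)
    {X | evalT X f ≠ 0} (by
      rw [← eq_addH]
      exact (isOpen_compl_singleton.preimage (evalT_continuous f)).mem_nhds hf)
  exact hU1 (path_lemma f h hfh y0 y1 A0 B0 A1 B1 hy0 hy1 hg0 hg1 hr0 hr1 hU0)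

/-- TASK J. -/
theorem partII {g : ℕ} (hr : 1 ≤ r) (i₀ : Fin g) (hi₀ : (i₀ : ℕ) + 1 = g)
    (f h : MvPolynomial ((Fin g × Bool) × Fin r × Fin r) ℂ)
    (hfh : ∀ X : Fin g × Bool → Mat r ℂ, (∀ k, IsUnit (X k)) → relT X = 1 →
      evalT X h * evalT X f = 0)
    (X₀ : Fin g × Bool → Mat r ℂ) (hX₀ : ∀ k, IsUnit (X₀ k)) (hrel₀ : relT X₀ = 1)
    (hc₀ : ∀ N : Mat r ℂ, (∀ k, k.1 ≠ i₀ → Commute N (X₀ k)) → ∃ c : ℂ, N = c • (1 : Mat r ℂ))
    (hh₀ : evalT X₀ h ≠ 0)
    (X₁ : Fin g × Bool → Mat r ℂ) (hX₁ : ∀ k, IsUnit (X₁ k)) (hrel₁ : relT X₁ = 1)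
    (hc₁ : ∀ N : Mat r ℂ, (∀ k, k.1 ≠ i₀ → Commute N (X₁ k)) → ∃ c : ℂ, N = c • (1 : Mat r ℂ)) :
    evalT X₁ f = 0 := by
  obtain ⟨n, rfl⟩ : ∃ n, g = n + 1 := ⟨i₀, hi₀.symm⟩
  have h0 : i₀ = Fin.last n := Fin.ext (by simpa using hi₀)
  subst h0
  exact partII_succ hr f h hfh X₀ hX₀ hrel₀ hc₀ hh₀ X₁ hX₁ hrel₁ hc₁

end Vale.Agent.P002
end

section

namespace Vale.Agent.P002R

open Matrix
open Vale.Agent.P002 (T01 ev0 ev1 lin ev0_lin ev1_lin ev0_C ev1_C isUnit_mat Good sysM sysR kry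
  sysM_map sysR_map kry_map mul_kry krylov_comm sys_tm charpoly_eq_of_tm map_inv_of_unit rel_inv
  sysR_zero good_dense open_relT relT continuousAt_matInv isOpen_isUnit)

variable {m n r : ℕ}

/-- The relation in terms of the last handle. -/
theorem relM_eq_last (X : Gen (m + 1) n → Mat r ℂ) :
    relM X = relW X (fun k => (X k)⁻¹) *
      (X (Sum.inl (Fin.last m, false)) * X (Sum.inl (Fin.last m, true)) *
        (X (Sum.inl (Fin.last m, false)))⁻¹ * (X (Sum.inl (Fin.last m, true)))⁻¹) := by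
  rw [relM_eq_relR, relR_eq]

/-- Two points with good last handles are joined by a rational curve. -/
theorem rpath_lemma
    (f h : MvPolynomial (Gen (m + 1) n × Bool × Fin r × Fin r) ℂ) (J : Fin n → Mat r ℂ)
    (hfh : ∀ X : Gen (m + 1) n → Mat r ℂ, (∀ k, IsUnit (X k)) → (∀ j, X (Sum.inr (j, true)) = J j) →
      relM X = 1 → evalM X h * evalM X f = 0)
    (X0 X1 : Gen (m + 1) n → Mat r ℂ) (hX0 : ∀ k, IsUnit (X0 k)) (hX1 : ∀ k, IsUnit (X1 k))
    (hJ0 : ∀ j, X0 (Sum.inr (j, true)) = J j) (hJ1 : ∀ j, X1 (Sum.inr (j, true)) = J j)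
    (hg0 : Good (X0 (Sum.inl (Fin.last m, false))) (X0 (Sum.inl (Fin.last m, true))))
    (hg1 : Good (X1 (Sum.inl (Fin.last m, false))) (X1 (Sum.inl (Fin.last m, true))))
    (hrel0 : relM X0 = 1) (hrel1 : relM X1 = 1)
    (hh : evalM X0 h ≠ 0) : evalM X1 f = 0 := by
  classical
  set a : Gen (m + 1) n := Sum.inl (Fin.last m, false) with ha
  set b : Gen (m + 1) n := Sum.inl (Fin.last m, true) with hb
  have hab : a ≠ b := by simp [ha, hb]
  obtain ⟨hA0, hB0, hK0, hS0⟩ := hg0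
  obtain ⟨hA1, hB1, hK1, hS1⟩ := hg1
  have hW : ∀ X : Gen (m + 1) n → Mat r ℂ, IsUnit (X a) → IsUnit (X b) → relM X = 1 →
      relW X (fun k => (X k)⁻¹) = X b * X a * (X b)⁻¹ * (X a)⁻¹ := by
    intro X hA hB hrel
    apply rel_inv hA hB
    rw [relM_eq_last] at hrel
    exact hrel
  have hW0 := hW X0 hA0 hB0 hrel0
  have hW1 := hW X1 hA1 hB1 hrel1
  -- the path
  let L : Mat r ℂ → Mat r ℂ → Mat r T01 := fun M N => Matrix.of fun i j => lin (M i j) (N i j)
  have hL0 : ∀ M N, (L M N).map ev0 = M := by intro M N; ext i j; simp [L]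
  have hL1 : ∀ M N, (L M N).map ev1 = N := by intro M N; ext i j; simp [L]
  have hLc : ∀ M, L M M = M.map (algebraMap ℂ T01) := by
    intro M; ext i j
    simp [L, lin, Vale.Agent.P002.algebraMap_T01]
  let y : Gen (m + 1) n → Mat r T01 := fun k => L (X0 k) (X1 k)
  have hyu : ∀ k, IsUnit (y k) := fun k =>
    isUnit_mat _ (by rw [hL0]; exact hX0 k) (by rw [hL1]; exact hX1 k)
  have hyd : ∀ k, IsUnit (y k).det := fun k => (Matrix.isUnit_iff_isUnit_det _).1 (hyu k)
  have hyJ : ∀ j, y (Sum.inr (j, true)) = (J j).map (algebraMap ℂ T01) := by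
    intro j
    change L (X0 (Sum.inr (j, true))) (X1 (Sum.inr (j, true))) = _
    rw [hJ0, hJ1, hLc]
  let W : Mat r T01 := relW y (fun k => (y k)⁻¹)
  have hWdet : det W = 1 := by
    have h1 := relW_det y (fun k => (y k)⁻¹) fun k => Matrix.mul_nonsing_inv _ (hyd k)
    have h2 := relW_det X0 (fun k => (X0 k)⁻¹) fun k =>
      Matrix.mul_nonsing_inv _ ((Matrix.isUnit_iff_isUnit_det _).1 (hX0 k))
    have h3 : det (relW X0 (fun k => (X0 k)⁻¹)) = 1 := by
      rw [hW0]
      have e1 := isUnit_iff_ne_zero.1 ((Matrix.isUnit_iff_isUnit_det _).1 hA0)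
      have e2 := isUnit_iff_ne_zero.1 ((Matrix.isUnit_iff_isUnit_det _).1 hB0)
      rw [det_mul, det_mul, det_mul, det_nonsing_inv, det_nonsing_inv, Ring.inverse_eq_inv']
      field_simp
    change det (relW y (fun k => (y k)⁻¹)) = 1
    rw [h1]
    rw [h3] at h2
    simp only [hJ0] at h2
    have h4 : ∀ j, det (y (Sum.inr (j, true))) = algebraMap ℂ T01 (det (J j)) := by
      intro j
      rw [hyJ]
      exact (RingHom.map_det (algebraMap ℂ T01) (J j)).symm
    simp only [h4]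
    rw [← map_prod, ← h2, map_one]
  have hWev0 : W.map ev0 = X0 b * X0 a * (X0 b)⁻¹ * (X0 a)⁻¹ := by
    rw [← hW0]
    change (relW y (fun k => (y k)⁻¹)).map ev0 = _
    rw [relW_map]
    congr 1
    · funext k; exact hL0 _ _
    · funext k
      rw [map_inv_of_unit _ _ (hyu k), hL0]
  have hWev1 : W.map ev1 = X1 b * X1 a * (X1 b)⁻¹ * (X1 a)⁻¹ := by
    rw [← hW1]
    change (relW y (fun k => (y k)⁻¹)).map ev1 = _
    rw [relW_map]
    congr 1
    · funext k; exact hL1 _ _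
    · funext k
      rw [map_inv_of_unit _ _ (hyu k), hL1]
  let Y : Mat r T01 := L (X0 a) (X1 a)
  let θ : T01 := lin (det (X0 a)) (det (X1 a))
  have hMu : IsUnit (sysM W Y) := by
    apply isUnit_mat
    · rw [sysM_map, hWev0, hL0]; exact hS0
    · rw [sysM_map, hWev1, hL1]; exact hS1
  have hMd := (Matrix.isUnit_iff_isUnit_det _).1 hMu
  let c : Fin r → T01 := (sysM W Y)⁻¹ *ᵥ sysR W Y θ
  have hc : sysM W Y *ᵥ c = sysR W Y θ := by
    simp only [c]
    rw [mulVec_mulVec, Matrix.mul_nonsing_inv _ hMd, one_mulVec]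
  have hcφ : ∀ φ : T01 →+* ℂ, sysR (W.map φ) (Y.map φ) (φ θ) = 0 → ∀ i, φ (c i) = 0 := by
    intro φ hφ i
    have h1 := sysR_map φ W Y θ
    rw [hφ] at h1
    simp only [c, mulVec, dotProduct, map_sum, map_mul]
    apply Finset.sum_eq_zero
    intro j _
    have h2 := congrFun h1 j
    simp only [Pi.zero_apply] at h2
    rw [h2, mul_zero]
  have hc0 : ∀ i, ev0 (c i) = 0 := by
    apply hcφ
    rw [hWev0, hL0, ev0_lin]
    exact sysR_zero hA0 hB0
  have hc1 : ∀ i, ev1 (c i) = 0 := by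
    apply hcφ
    rw [hWev1, hL1, ev1_lin]
    exact sysR_zero hA1 hB1
  let A : Mat r T01 := Y + vecMulVec c 1
  have hAφ : ∀ φ : T01 →+* ℂ, (∀ i, φ (c i) = 0) → A.map φ = Y.map φ := by
    intro φ hφ
    ext i j
    simp [A, hφ]
  have hAev0 : A.map ev0 = X0 a := by rw [hAφ _ hc0, hL0]
  have hAev1 : A.map ev1 = X1 a := by rw [hAφ _ hc1, hL1]
  have hAu : IsUnit A := isUnit_mat _ (by rw [hAev0]; exact hA0) (by rw [hAev1]; exact hA1)
  have hAd := (Matrix.isUnit_iff_isUnit_det _).1 hAu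
  let A' : Mat r T01 := W * A
  have : CharZero T01 := by
    refine charZero_of_injective_algebraMap (R := ℂ) ?_
    exact FaithfulSMul.algebraMap_injective ℂ T01
  have hchar : A.charpoly = A'.charpoly := by
    apply charpoly_eq_of_tm
    · simp only [A']
      rw [det_mul, hWdet, one_mul]
    · intro i hi
      exact sys_tm W Y θ c hc i hi
  have hKu : IsUnit (kry A 1) := by
    apply isUnit_mat
    · rw [kry_map, hAev0]
      have h7 : (fun i => ev0 ((1 : Fin r → T01) i)) = (1 : Fin r → ℂ) := by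
        funext i; simp
      rw [h7]
      exact hK0
    · rw [kry_map, hAev1]
      have h7 : (fun i => ev1 ((1 : Fin r → T01) i)) = (1 : Fin r → ℂ) := by
        funext i; simp
      rw [h7]
      exact hK1
  have hKd := (Matrix.isUnit_iff_isUnit_det _).1 hKu
  let v : Fin r → T01 := fun i => lin ((X0 b *ᵥ 1) i) ((X1 b *ᵥ 1) i)
  let B : Mat r T01 := kry A' v * (kry A 1)⁻¹
  have hBK : B * kry A 1 = kry A' v := by
    simp only [B]
    rw [mul_assoc, Matrix.nonsing_inv_mul _ hKd, mul_one]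
  have hBev : ∀ (φ : T01 →+* ℂ) (A2 B2 : Mat r ℂ), IsUnit A2 → IsUnit B2 → IsUnit (kry A2 1) →
      A.map φ = A2 → W.map φ = B2 * A2 * B2⁻¹ * A2⁻¹ → (fun i => φ (v i)) = B2 *ᵥ 1 →
      B.map φ = B2 := by
    intro φ A2 B2 hA2 hB2 hK2 h1 h2 h3
    have h4 := congrArg (fun N : Mat r T01 => N.map φ) hBK
    beta_reduce at h4
    rw [Matrix.map_mul, kry_map, kry_map, h1, h3] at h4
    have h5 : A'.map φ = B2 * A2 * B2⁻¹ := by
      simp only [A']
      rw [Matrix.map_mul, h1, h2, mul_assoc _ A2⁻¹ A2,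
        Matrix.nonsing_inv_mul _ ((Matrix.isUnit_iff_isUnit_det _).1 hA2), mul_one]
    rw [h5] at h4
    have h6 : B2 * kry A2 1 = kry (B2 * A2 * B2⁻¹) (B2 *ᵥ 1) := by
      apply mul_kry
      rw [mul_assoc (B2 * A2), Matrix.nonsing_inv_mul _ ((Matrix.isUnit_iff_isUnit_det _).1 hB2),
        mul_one]
    have h7 : (fun i => φ ((1 : Fin r → T01) i)) = (1 : Fin r → ℂ) := by
      funext i; simp
    rw [h7, ← h6] at h4
    exact hK2.mul_right_cancel h4
  have hBev0 : B.map ev0 = X0 b :=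
    hBev ev0 _ _ hA0 hB0 hK0 hAev0 hWev0 (by funext i; simp [v])
  have hBev1 : B.map ev1 = X1 b :=
    hBev ev1 _ _ hA1 hB1 hK1 hAev1 hWev1 (by funext i; simp [v])
  have hBu : IsUnit B := isUnit_mat _ (by rw [hBev0]; exact hB0) (by rw [hBev1]; exact hB1)
  have hBd := (Matrix.isUnit_iff_isUnit_det _).1 hBu
  have hcomm : B * A = A' * B := krylov_comm A A' 1 v hchar B hBK hKu
  -- the point over `T01`
  let Z : Gen (m + 1) n → Mat r T01 := fun k => if k = a then A else if k = b then B else y k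
  have hZa : Z a = A := by simp [Z]
  have hZb : Z b = B := by simp [Z, Ne.symm hab]
  have hZk : ∀ k, k ≠ a → k ≠ b → Z k = y k := by
    intro k h1 h2; simp [Z, h1, h2]
  have hZd : ∀ k, IsUnit (Z k).det := by
    intro k
    by_cases h1 : k = a
    · rw [h1, hZa]; exact hAd
    · by_cases h2 : k = b
      · rw [h2, hZb]; exact hBd
      · rw [hZk k h1 h2]; exact hyd k
  have hZu : ∀ k, IsUnit (Z k) := fun k => (Matrix.isUnit_iff_isUnit_det _).2 (hZd k)
  have hXY : ∀ k, Z k * (Z k)⁻¹ = 1 := fun k => Matrix.mul_nonsing_inv _ (hZd k)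
  have hZJ : ∀ j, Z (Sum.inr (j, true)) = (J j).map (algebraMap ℂ T01) := by
    intro j
    rw [hZk _ (by simp [ha]) (by simp [hb])]
    exact hyJ j
  have hrel : relR Z (fun k => (Z k)⁻¹) = 1 := by
    rw [relR_eq]
    change relW Z (fun k => (Z k)⁻¹) * (Z a * Z b * (Z a)⁻¹ * (Z b)⁻¹) = 1
    rw [hZa, hZb]
    have e0 : relW Z (fun k => (Z k)⁻¹) = W := by
      apply relW_congr
      intro k h1 h2
      rw [hZk k h1 h2]
      exact ⟨rfl, rfl⟩
    rw [e0]
    have e1 : W * (A * B * A⁻¹ * B⁻¹) = (A' * B) * A⁻¹ * B⁻¹ := by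
      simp only [A', mul_assoc]
    rw [e1, ← hcomm, mul_assoc B, Matrix.mul_nonsing_inv _ hAd, mul_one,
      Matrix.mul_nonsing_inv _ hBd]
  have hzero := rtransfer (T := T01) J (h * f) (by
    intro X hX hJX hrelX
    rw [map_mul]
    exact hfh X hX hJX hrelX) _ _ hXY hZJ hrel
  rw [map_mul, mul_eq_zero] at hzero
  have hend : ∀ (φ : T01 →+* ℂ) (_ : ∀ c : ℂ, φ (algebraMap ℂ T01 c) = c)
      (F : MvPolynomial (Gen (m + 1) n × Bool × Fin r × Fin r) ℂ)
      (X2 : Gen (m + 1) n → Mat r ℂ), (∀ k, (y k).map φ = X2 k) →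
      A.map φ = X2 a → B.map φ = X2 b →
      φ (evalR Z (fun k => (Z k)⁻¹) F) = evalM X2 F := by
    intro φ hφ F X2 h1 h2 h3
    have hZφ : ∀ k, (Z k).map φ = X2 k := by
      intro k
      by_cases h4 : k = a
      · rw [h4, hZa, h2]
      · by_cases h5 : k = b
        · rw [h5, hZb, h3]
        · rw [hZk k h4 h5]
          exact h1 k
    rw [evalR_map φ hφ, evalM_eq_evalR]
    congr 2
    · funext k; exact hZφ k
    · funext k
      rw [map_inv_of_unit _ _ (hZu k), hZφ]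
  rcases hzero with hz | hz
  · exfalso
    apply hh
    rw [← hend ev0 ev0_C h X0 (fun k => hL0 _ _) hAev0 hBev0, hz, map_zero]
  · rw [← hend ev1 ev1_C f X1 (fun k => hL1 _ _) hAev1 hBev1, hz, map_zero]

open Vale.Agent.P002 (addH addH_last_false addH_last_true addH_castSucc relT_addH)

/-- The product of the puncture words. -/
noncomputable def puncW (X : Gen (m + 1) n → Mat r ℂ) : Mat r ℂ :=
  (List.ofFn fun j : Fin n =>
    X (Sum.inr (j, false)) * X (Sum.inr (j, true)) * (X (Sum.inr (j, false)))⁻¹).prod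

theorem relM_eq_relT (X : Gen (m + 1) n → Mat r ℂ) :
    relM X = puncW X * relT fun k => X (Sum.inl k) := rfl

/-- Replace the handles. -/
def setH (X : Gen (m + 1) n → Mat r ℂ) (y : Fin m × Bool → Mat r ℂ) (A B : Mat r ℂ) :
    Gen (m + 1) n → Mat r ℂ := Sum.elim (addH y A B) fun p => X (Sum.inr p)

theorem eq_setH (X : Gen (m + 1) n → Mat r ℂ) :
    X = setH X (fun k => X (Sum.inl (k.1.castSucc, k.2))) (X (Sum.inl (Fin.last m, false)))
      (X (Sum.inl (Fin.last m, true))) := by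
  have h := Vale.Agent.P002.eq_addH fun k => X (Sum.inl k)
  funext k
  rcases k with k | k
  · exact congrFun h k
  · rfl

theorem relM_setH (X : Gen (m + 1) n → Mat r ℂ) (y : Fin m × Bool → Mat r ℂ) (A B : Mat r ℂ) :
    relM (setH X y A B) = puncW X * (relT y * (A * B * A⁻¹ * B⁻¹)) := by
  rw [relM_eq_relT]
  have : (fun k => setH X y A B (Sum.inl k)) = addH y A B := rfl
  rw [this, relT_addH]
  rfl

/-- Points whose first handles have scalar centralizer are limits of points with a good last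
handle. -/
theorem near_good_rel (hr : 0 < r) (X : Gen (m + 1) n → Mat r ℂ) (hX : ∀ k, IsUnit (X k))
    (hrel : relM X = 1)
    (hc : ∀ N : Mat r ℂ, (∀ (i : Fin m) (b : Bool), Commute N (X (Sum.inl (i.castSucc, b)))) →
      ∃ c : ℂ, N = c • (1 : Mat r ℂ))
    (U : Set (Gen (m + 1) n → Mat r ℂ)) (hU : U ∈ nhds X) :
    ∃ X' ∈ U, (∀ k, IsUnit (X' k)) ∧ (∀ p, X' (Sum.inr p) = X (Sum.inr p)) ∧ relM X' = 1 ∧
      Good (X' (Sum.inl (Fin.last m, false))) (X' (Sum.inl (Fin.last m, true))) := by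
  classical
  obtain ⟨y, hy0⟩ : ∃ y : Fin m × Bool → Mat r ℂ, y = fun k => X (Sum.inl (k.1.castSucc, k.2)) :=
    ⟨_, rfl⟩
  obtain ⟨A, hA0⟩ : ∃ A, A = X (Sum.inl (Fin.last m, false)) := ⟨_, rfl⟩
  obtain ⟨B, hB0⟩ : ∃ B, B = X (Sum.inl (Fin.last m, true)) := ⟨_, rfl⟩
  have hXe : X = setH X y A B := by rw [hy0, hA0, hB0]; exact eq_setH X
  have hy : ∀ k, IsUnit (y k) := fun k => by rw [hy0]; exact hX _
  have hA : IsUnit A := by rw [hA0]; exact hX _
  have hB : IsUnit B := by rw [hB0]; exact hX _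
  have hcy : ∀ N : Mat r ℂ, (∀ k, Commute N (y k)) → ∃ c : ℂ, N = c • (1 : Mat r ℂ) := by
    intro N hN
    apply hc N
    intro i b
    have := hN (i, b)
    rw [hy0] at this
    exact this
  rw [hXe, relM_setH] at hrel
  obtain ⟨P, hP⟩ : ∃ P, P = puncW X := ⟨_, rfl⟩
  rw [← hP] at hrel
  have hAd := (Matrix.isUnit_iff_isUnit_det _).1 hA
  have hBd := (Matrix.isUnit_iff_isUnit_det _).1 hB
  have hPd : IsUnit P.det := Matrix.isUnit_det_of_right_inverse hrel
  have hP' : IsUnit P := (Matrix.isUnit_iff_isUnit_det _).2 hPd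
  -- the value of `relT y`
  have hW : P * relT y = B * A * B⁻¹ * A⁻¹ := by
    apply rel_inv hA hB
    rw [mul_assoc]
    exact hrel
  have hWy : relT y = P⁻¹ * (B * A * B⁻¹ * A⁻¹) := by
    rw [← hW, ← mul_assoc, Matrix.nonsing_inv_mul _ hPd, one_mul]
  have hcomm : ∀ A B : Mat r ℂ, IsUnit A.det → IsUnit B.det → (B * A * B⁻¹ * A⁻¹).det = 1 := by
    intro A B hA hB
    have e1 := isUnit_iff_ne_zero.1 hA
    have e2 := isUnit_iff_ne_zero.1 hB
    rw [det_mul, det_mul, det_mul, det_nonsing_inv, det_nonsing_inv, Ring.inverse_eq_inv']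
    field_simp
  have hPdet : P.det = 1 := by
    have h1 : (P * relT y).det = 1 := by rw [hW]; exact hcomm A B hAd hBd
    rw [det_mul, Vale.Agent.P002.det_relT hy, mul_one] at h1
    exact h1
  -- product neighbourhoods
  have hcont : Continuous fun q : (Fin m × Bool → Mat r ℂ) × (Mat r ℂ × Mat r ℂ) =>
      setH X q.1 q.2.1 q.2.2 := by
    apply continuous_pi
    rintro (⟨i, b⟩ | p)
    · refine Fin.lastCases ?_ (fun i => ?_) i
      · cases b
        · simp only [setH, Sum.elim_inl, addH_last_false]; fun_prop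
        · simp only [setH, Sum.elim_inl, addH_last_true]; fun_prop
      · simp only [setH, Sum.elim_inl, addH_castSucc]; fun_prop
    · simp only [setH, Sum.elim_inr]; fun_prop
  have h1 : (fun q : (Fin m × Bool → Mat r ℂ) × (Mat r ℂ × Mat r ℂ) =>
      setH X q.1 q.2.1 q.2.2) ⁻¹' U ∈ nhds (y, (A, B)) := by
    apply hcont.continuousAt.preimage_mem_nhds
    rw [← hXe]
    exact hU
  rw [nhds_prod_eq, Filter.mem_prod_iff] at h1
  obtain ⟨Uy, hUy, Up, hUp, hsub⟩ := h1
  have h2 : {y' : Fin m × Bool → Mat r ℂ | ∀ k, IsUnit (y' k)} ∈ nhds y := by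
    have : {y' : Fin m × Bool → Mat r ℂ | ∀ k, IsUnit (y' k)} =
        ⋂ k, (fun y' : Fin m × Bool → Mat r ℂ => y' k) ⁻¹' {M : Mat r ℂ | IsUnit M} := by
      ext y'; simp
    rw [this]
    apply (isOpen_iInter_of_finite fun k => isOpen_isUnit.preimage (continuous_apply k)).mem_nhds
    simp only [Set.mem_iInter, Set.mem_preimage]
    exact hy
  obtain ⟨V, hV, hV2⟩ := open_relT y hy hcy (Uy ∩ {y' | ∀ k, IsUnit (y' k)})
    (Filter.inter_mem hUy h2)
  have hcc : ContinuousAt (fun p : Mat r ℂ × Mat r ℂ => P⁻¹ * (p.2 * p.1 * p.2⁻¹ * p.1⁻¹))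
      (A, B) := by
    apply ContinuousAt.mul continuousAt_const
    apply ContinuousAt.mul
    · apply ContinuousAt.mul
      · exact (continuous_snd.mul continuous_fst).continuousAt
      · exact ContinuousAt.comp (f := Prod.snd) (x := (A, B)) (continuousAt_matInv hB)
          continuous_snd.continuousAt
    · exact ContinuousAt.comp (f := Prod.fst) (x := (A, B)) (continuousAt_matInv hA)
          continuous_fst.continuousAt
  have h3 : (fun p : Mat r ℂ × Mat r ℂ => P⁻¹ * (p.2 * p.1 * p.2⁻¹ * p.1⁻¹)) ⁻¹' V ∈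
      nhds (A, B) := by
    apply hcc.preimage_mem_nhds
    simp only
    rw [← hWy]
    exact hV
  obtain ⟨⟨A', B'⟩, ⟨hp1, hp2⟩, hgood⟩ := good_dense hr A B _ (Filter.inter_mem hUp h3)
  simp only [Set.mem_preimage] at hp2
  have hA' := hgood.1
  have hB' := hgood.2.1
  have hAd' := (Matrix.isUnit_iff_isUnit_det _).1 hA'
  have hBd' := (Matrix.isUnit_iff_isUnit_det _).1 hB'
  have hdet : (P⁻¹ * (B' * A' * B'⁻¹ * A'⁻¹)).det = 1 := by
    rw [det_mul, hcomm A' B' hAd' hBd', det_nonsing_inv, hPdet, Ring.inverse_one, mul_one]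
  obtain ⟨y', ⟨hy1, hy2⟩, hy3⟩ := hV2 _ hp2 hdet
  refine ⟨setH X y' A' B', hsub (Set.mk_mem_prod hy1 hp1), ?_, fun p => rfl, ?_, ?_⟩
  · rintro (k | p)
    · exact Vale.Agent.P002.addH_forall (fun M => IsUnit M) y' A' B' hy2 hA' hB' k
    · exact hX _
  · rw [relM_setH, hy3, ← hP]
    simp only at hAd' hBd' ⊢
    have e1 : P * (P⁻¹ * (B' * A' * B'⁻¹ * A'⁻¹) * (A' * B' * A'⁻¹ * B'⁻¹)) =
        P * P⁻¹ * B' * A' * B'⁻¹ * (A'⁻¹ * A') * B' * A'⁻¹ * B'⁻¹ := by
      simp only [mul_assoc]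
    rw [e1, Matrix.mul_nonsing_inv _ hPd, one_mul, Matrix.nonsing_inv_mul _ hAd', mul_one,
      mul_assoc (B' * A') B'⁻¹ B', Matrix.nonsing_inv_mul _ hBd', mul_one, mul_assoc B' A' A'⁻¹,
      Matrix.mul_nonsing_inv _ hAd', mul_one, Matrix.mul_nonsing_inv _ hBd']
  · simpa [setH] using hgood

theorem evalM_continuousAt {κ : Type*} [Finite κ]
    (f : MvPolynomial (κ × Bool × Fin r × Fin r) ℂ) (X : κ → Mat r ℂ)
    (hX : ∀ k, IsUnit (X k)) : ContinuousAt (fun X : κ → Mat r ℂ => evalM X f) X := by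
  have h : (fun X : κ → Mat r ℂ => evalM X f) =
      (fun v => MvPolynomial.eval v f) ∘ fun X : κ → Mat r ℂ =>
        fun p : κ × Bool × Fin r × Fin r => if p.2.1 then (X p.1)⁻¹ p.2.2.1 p.2.2.2
          else X p.1 p.2.2.1 p.2.2.2 := by
    funext X
    simp [evalM]
  rw [h]
  apply ContinuousAt.comp
  · exact (MvPolynomial.continuous_eval f).continuousAt
  · rw [continuousAt_pi]
    rintro ⟨k, b, i, j⟩
    cases b
    · simp only [Bool.false_eq_true, if_false]
      exact ((continuous_apply j).comp ((continuous_apply i).comp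
        (continuous_apply k))).continuousAt
    · simp only [if_true]
      have h1 : ContinuousAt (fun X : κ → Mat r ℂ => (X k)⁻¹) X :=
        ContinuousAt.comp (f := fun X : κ → Mat r ℂ => X k) (x := X)
          (continuousAt_matInv (hX k)) (continuous_apply k).continuousAt
      have h2 : Continuous fun M : Mat r ℂ => M i j :=
        (continuous_apply j).comp (continuous_apply i)
      exact ContinuousAt.comp (f := fun X : κ → Mat r ℂ => (X k)⁻¹) (x := X)
        (g := fun M : Mat r ℂ => M i j) h2.continuousAt h1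

/-- TASK J. -/
theorem partII (hr : 1 ≤ r) (hm : 1 ≤ m)
    (f h : MvPolynomial (Gen (m + 1) n × Bool × Fin r × Fin r) ℂ) (J : Fin n → Mat r ℂ)
    (hJ : ∀ j, IsUnit (J j))
    (hfh : ∀ X : Gen (m + 1) n → Mat r ℂ, (∀ k, IsUnit (X k)) → (∀ j, X (Sum.inr (j, true)) = J j) →
      relM X = 1 → evalM X h * evalM X f = 0)
    (X₀ : Gen (m + 1) n → Mat r ℂ) (hX₀ : ∀ k, IsUnit (X₀ k))
    (hJ₀ : ∀ j, X₀ (Sum.inr (j, true)) = J j) (hrel₀ : relM X₀ = 1)
    (hc₀ : ∀ N : Mat r ℂ, (∀ (i : Fin m) (b : Bool), Commute N (X₀ (Sum.inl (i.castSucc, b)))) →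
      ∃ c : ℂ, N = c • (1 : Mat r ℂ))
    (hh₀ : evalM X₀ h ≠ 0)
    (X₁ : Gen (m + 1) n → Mat r ℂ) (hX₁ : ∀ k, IsUnit (X₁ k))
    (hJ₁ : ∀ j, X₁ (Sum.inr (j, true)) = J j) (hrel₁ : relM X₁ = 1)
    (hc₁ : ∀ N : Mat r ℂ, (∀ (i : Fin m) (b : Bool), Commute N (X₁ (Sum.inl (i.castSucc, b)))) →
      ∃ c : ℂ, N = c • (1 : Mat r ℂ)) :
    evalM X₁ f = 0 := by
  have _ := hm
  have _ := hJ
  obtain ⟨X0, hU0, hX0, hp0, hr0, hg0⟩ := near_good_rel hr X₀ hX₀ hrel₀ hc₀
    {X | evalM X h ≠ 0} ((evalM_continuousAt h X₀ hX₀).preimage_mem_nhds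
      (isOpen_compl_singleton.mem_nhds hh₀))
  by_contra hf
  obtain ⟨X1, hU1, hX1, hp1, hr1, hg1⟩ := near_good_rel hr X₁ hX₁ hrel₁ hc₁
    {X | evalM X f ≠ 0} ((evalM_continuousAt f X₁ hX₁).preimage_mem_nhds
      (isOpen_compl_singleton.mem_nhds hf))
  exact hU1 (rpath_lemma f h J hfh X0 X1 hX0 hX1 (fun j => by rw [hp0, hJ₀])
    (fun j => by rw [hp1, hJ₁]) hg0 hg1 hr0 hr1 hU0)

end Vale.Agent.P002R
end
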