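import Mathlib
import Vale.Agent.P002.Bdl.B2
import Vale.Agent.P002.Bdl.B1

set_option linter.all false

section

/-! TASK P: existence of base points. -/

namespace Vale.Agent.P002R

open Matrix

section Prelim

variable {R : Type*} [CommRing R] {r : ℕ}

/-- matrices over `R`, as complex matrices -/
def PhiU (φ : R →+* ℂ) : (Mat r R)ˣ →* (Mat r ℂ)ˣ :=
  Units.map (RingHom.mapMatrix φ).toMonoidHom

theorem PhiU_coe (φ : R →+* ℂ) (Y : (Mat r R)ˣ) : (PhiU φ Y : Mat r ℂ) = (Y : Mat r R).map φ := rfl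

theorem slU_coe (φ : R →+* ℂ) (A : SpecialLinearGroup (Fin r) R) :
    (slU φ A : Mat r ℂ) = (A : Mat r R).map φ := by
  ext i j
  simp [slU]

theorem scalarU_mul_coe (c : ℂˣ) (U : (Mat r ℂ)ˣ) :
    ((scalarU c * U : (Mat r ℂ)ˣ) : Mat r ℂ) = (c : ℂ) • (U : Mat r ℂ) := by
  simp only [Units.val_mul, scalarU, Units.coe_map, RingHom.toMonoidHom_eq_coe,
    MonoidHom.coe_coe]
  rw [← Algebra.smul_def]

/-- a complex matrix with entries in `R` whose determinant is an `r`-th power of a unit -/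
theorem mem_GR_of (φ : R →+* ℂ) (X : (Mat r ℂ)ˣ) (Y : Mat r R) (hXY : (X : Mat r ℂ) = Y.map φ)
    (c : Rˣ) (hc : Y.det = (c : R) ^ r) : X ∈ GR r φ := by
  have hdet : (((c⁻¹ : Rˣ) : R) • Y).det = 1 := by
    rw [Matrix.det_smul, Fintype.card_fin, hc, ← mul_pow, ← Units.val_mul, inv_mul_cancel,
      Units.val_one, one_pow]
  obtain ⟨y, hy⟩ : ∃ y : SpecialLinearGroup (Fin r) R, (y : Mat r R) = ((c⁻¹ : Rˣ) : R) • Y :=
    ⟨⟨((c⁻¹ : Rˣ) : R) • Y, hdet⟩, rfl⟩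
  refine ⟨Units.map (φ : R →* ℂ) c, y, ?_⟩
  apply Units.ext
  rw [scalarU_mul_coe, slU_coe, hy, hXY]
  ext i j
  simp only [Matrix.map_apply, Matrix.smul_apply, smul_eq_mul, map_mul, Units.coe_map,
    MonoidHom.coe_coe]
  rw [← mul_assoc, ← map_mul, ← Units.val_mul, mul_inv_cancel, Units.val_one, map_one, one_mul]

theorem PhiU_mem_GR (φ : R →+* ℂ) (Y : (Mat r R)ˣ) (c : Rˣ) (hc : (Y : Mat r R).det = (c : R) ^ r) :
    PhiU φ Y ∈ GR r φ :=
  mem_GR_of φ _ (Y : Mat r R) (PhiU_coe φ Y) c hc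

theorem exists_root (φ : R →+* ℂ) (hφ : Function.Injective φ) (hr : 1 ≤ r) (M : ℕ) (hM : 0 < M)
    (hμ : ∀ z : ℂ, z ^ (M * r) = 1 → z ∈ Set.range φ) (z : R) (hz : z ^ M = 1) :
    ∃ c : Rˣ, z = (c : R) ^ r := by
  obtain ⟨w, hw⟩ := IsAlgClosed.exists_pow_nat_eq (φ z) (n := r) (by omega)
  have h1 : w ^ (M * r) = 1 := by
    rw [mul_comm, pow_mul, hw, ← map_pow, hz, map_one]
  obtain ⟨γ, rfl⟩ := hμ w h1
  have h2 : γ ^ (M * r) = 1 := by
    apply hφ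
    rw [map_pow, h1, map_one]
  have h3 : IsUnit γ := IsUnit.of_pow_eq_one h2 (by
    have : 0 < M * r := Nat.mul_pos hM hr
    omega)
  obtain ⟨c, rfl⟩ := h3
  refine ⟨c, ?_⟩
  apply hφ
  rw [map_pow, hw]

/-- strictly upper triangular matrices -/
def SUp (E : Mat r R) : Prop := ∀ i j, ¬ i < j → E i j = 0

theorem SUp.mul {E F : Mat r R} (hE : SUp E) (hF : SUp F) : SUp (E * F) := by
  intro i j hij
  rw [Matrix.mul_apply]
  apply Finset.sum_eq_zero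
  intro k _
  by_cases h : i < k
  · rw [hF k j (fun h' => hij (h.trans h')), mul_zero]
  · rw [hE i k h, zero_mul]

theorem SUp.add {E F : Mat r R} (hE : SUp E) (hF : SUp F) : SUp (E + F) := by
  intro i j hij
  rw [Matrix.add_apply, hE i j hij, hF i j hij, add_zero]

theorem SUp.smul {E : Mat r R} (c : R) (hE : SUp E) : SUp (c • E) := by
  intro i j hij
  rw [Matrix.smul_apply, hE i j hij, smul_zero]

theorem SUp.mul_diag {E : Mat r R} (d : Fin r → R) (hE : SUp E) : SUp (E * diagonal d) := by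
  intro i j hij
  rw [Matrix.mul_diagonal, hE i j hij, zero_mul]

theorem SUp.diag_mul {E : Mat r R} (d : Fin r → R) (hE : SUp E) : SUp (diagonal d * E) := by
  intro i j hij
  rw [Matrix.diagonal_mul, hE i j hij, mul_zero]

theorem fixed_point (E w : Mat r R) (hE : SUp E) :
    ∃ v : Mat r R, ∀ i j, v i j = (1 : Mat r R) i j + (if i < j then w i j * (E * v) i j else 0) := by
  let L : Module.End R (Mat r R) :=
    { toFun := fun v => Matrix.of fun i j => if i < j then w i j * (E * v) i j else 0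
      map_add' := by
        intro a b
        ext i j
        simp only [Matrix.of_apply, Matrix.add_apply, Matrix.mul_add]
        split_ifs <;> ring
      map_smul' := by
        intro c a
        ext i j
        simp only [Matrix.of_apply, Matrix.smul_apply, Matrix.mul_smul, RingHom.id_apply,
          smul_eq_mul]
        split_ifs <;> ring }
  have hL : ∀ v i j, L v i j = if i < j then w i j * (E * v) i j else 0 := fun v i j => rfl
  have hnil : ∀ s : ℕ, ∀ v : Mat r R, ∀ i j : Fin r, r ≤ (i : ℕ) + s → (L ^ s) v i j = 0 := by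
    intro s
    induction s with
    | zero => intro v i j h; exact absurd i.2 (by omega)
    | succ s ih =>
      intro v i j h
      rw [pow_succ', Module.End.mul_apply, hL]
      split_ifs
      · rw [Matrix.mul_apply, Finset.sum_eq_zero, mul_zero]
        intro k _
        by_cases hik : i < k
        · rw [ih v k j (by
            have : (i : ℕ) < (k : ℕ) := hik
            omega), mul_zero]
        · rw [hE i k hik, zero_mul]
      · rfl
  have hLnil : IsNilpotent L := by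
    refine ⟨r, ?_⟩
    ext1 v
    ext i j
    rw [hnil r v i j (by omega)]
    rfl
  have hunit : IsUnit (1 - L) := hLnil.isUnit_one_sub
  obtain ⟨K, hK⟩ := hunit
  refine ⟨(K⁻¹ : (Module.End R (Mat r R))ˣ).val 1, ?_⟩
  intro i j
  set v := (K⁻¹ : (Module.End R (Mat r R))ˣ).val 1 with hv
  have h1 : (1 - L) v = 1 := by
    rw [← hK, hv, ← Module.End.mul_apply, ← Units.val_mul, mul_inv_cancel, Units.val_one,
      Module.End.one_apply]
  have h2 : v = 1 + L v := by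
    rw [LinearMap.sub_apply, Module.End.one_apply] at h1
    rw [← h1, sub_add_cancel]
  have h3 := congrFun (congrFun h2 i) j
  rw [Matrix.add_apply, hL] at h3
  exact h3

theorem exists_comm (t : Fin r → R) (Δ : R) (w : Mat r R)
    (hw : ∀ i j, i < j → w i j * (t j - t i) = Δ) (E : Mat r R) (hE : SUp E) :
    ∃ v : Mat r R, v.det = 1 ∧
      v * diagonal t = (1 + Δ • E) * diagonal t * v := by
  obtain ⟨v, hv⟩ := fixed_point (E * diagonal t) w (hE.mul_diag t)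
  have hlow : ∀ i j, j < i → v i j = 0 := by
    intro i j hij
    rw [hv, if_neg (not_lt.mpr hij.le), Matrix.one_apply_ne hij.ne', add_zero]
  have hdiag : ∀ i, v i i = 1 := by
    intro i
    rw [hv, if_neg (lt_irrefl i), Matrix.one_apply_eq, add_zero]
  refine ⟨v, ?_, ?_⟩
  · rw [Matrix.det_of_isUpperTriangular]
    · simp [hdiag]
    · intro i j hij
      exact hlow i j hij
  · ext i j
    have h1 : ((1 + Δ • E) * diagonal t * v) i j = t i * v i j +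
        Δ * ((E * diagonal t) * v) i j := by
      rw [Matrix.add_mul, Matrix.one_mul, Matrix.smul_mul, Matrix.add_mul, Matrix.smul_mul,
        Matrix.add_apply, Matrix.smul_apply, smul_eq_mul, Matrix.diagonal_mul]
    rw [h1, Matrix.mul_diagonal]
    rcases lt_trichotomy i j with h | h | h
    · have h2 := hv i j
      rw [if_pos h, Matrix.one_apply_ne h.ne, zero_add] at h2
      have h3 : v i j * (t j - t i) = Δ * ((E * diagonal t) * v) i j := by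
        rw [h2, ← hw i j h]
        ring
      linear_combination h3
    · subst h
      have h2 : ((E * diagonal t) * v) i i = 0 := by
        rw [Matrix.mul_apply]
        apply Finset.sum_eq_zero
        intro k _
        by_cases hik : i < k
        · rw [hlow k i hik, mul_zero]
        · rw [(hE.mul_diag t) i k hik, zero_mul]
      rw [h2]
      ring
    · have h2 : ((E * diagonal t) * v) i j = 0 := by
        rw [Matrix.mul_apply]
        apply Finset.sum_eq_zero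
        intro k _
        by_cases hik : i < k
        · rw [hlow k j (h.trans hik), mul_zero]
        · rw [(hE.mul_diag t) i k hik, zero_mul]
      rw [h2, hlow i j h]
      ring

end Prelim

section Tor

variable {R : Type*} [CommRing R] {r : ℕ}

/-- the torus element `t = diag (u^(r 4^i))` -/
def tU (r : ℕ) (u : Rˣ) (i : Fin r) : Rˣ := u ^ (r * 4 ^ (i : ℕ))

theorem phi_pow_inj (φ : R →+* ℂ) (u : Rˣ) (hu : ∀ k : ℕ, 0 < k → φ (u : R) ^ k ≠ 1) :
    Function.Injective fun k : ℕ => φ (u : R) ^ k := by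
  have hφu : φ (u : R) ≠ 0 := (u.isUnit.map φ).ne_zero
  have aux : ∀ a b : ℕ, a < b → φ (u : R) ^ a ≠ φ (u : R) ^ b := by
    intro a b hab h
    obtain ⟨d, hd, rfl⟩ : ∃ d, 0 < d ∧ b = a + d := ⟨b - a, by omega, by omega⟩
    rw [pow_add] at h
    have h0 : φ (u : R) ^ a ≠ 0 := pow_ne_zero _ hφu
    exact hu d hd (mul_left_cancel₀ h0 (by rw [mul_one]; exact h.symm))
  intro a b h
  by_contra hab
  rcases lt_or_gt_of_ne hab with h' | h'
  · exact aux a b h' h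
  · exact aux b a h' h.symm

theorem sum_four_pow_inj (s t : Multiset (Fin r)) (hs : s.card = 3) (ht : t.card = 3)
    (h : (s.map fun i : Fin r => 4 ^ (i : ℕ)).sum = (t.map fun i : Fin r => 4 ^ (i : ℕ)).sum) : s = t := by
  classical
  have key : ∀ s : Multiset (Fin r), (s.map fun i : Fin r => 4 ^ (i : ℕ)).sum =
      Nat.ofDigits 4 (List.ofFn fun i : Fin r => s.count i) := by
    intro s
    rw [Nat.ofDigits_eq_sum_mapIdx]
    have h1 : (List.mapIdx (fun i a => a * 4 ^ i) (List.ofFn fun i : Fin r => s.count i)) =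
        List.ofFn fun i : Fin r => s.count i * 4 ^ (i : ℕ) := by
      apply List.ext_getElem
      · simp
      · intro n h1 h2
        simp
    rw [h1, List.sum_ofFn, Finset.sum_multiset_map_count]
    have h2 : ∀ i : Fin r, i ∉ s.toFinset → s.count i * 4 ^ (i : ℕ) = 0 := by
      intro i hi
      rw [Multiset.mem_toFinset] at hi
      rw [Multiset.count_eq_zero_of_notMem hi, zero_mul]
    simp only [smul_eq_mul]
    exact Finset.sum_subset (Finset.subset_univ _) fun i _ hi => h2 i hi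
  rw [key, key] at h
  have hlt : ∀ s : Multiset (Fin r), s.card = 3 → ∀ l ∈ List.ofFn fun i : Fin r => s.count i,
      l < 4 := by
    intro s hs l hl
    rw [List.mem_ofFn] at hl
    obtain ⟨i, rfl⟩ := hl
    have := Multiset.count_le_card i s
    omega
  have h3 := Nat.ofDigits_inj_of_len_eq (b := 4) (by norm_num) (by simp) (hlt s hs) (hlt t ht) h
  ext i
  exact congrFun (List.ofFn_injective h3) i

theorem reg3_tU (φ : R →+* ℂ) (u : Rˣ) (hu : ∀ k : ℕ, 0 < k → φ (u : R) ^ k ≠ 1) (hr : 1 ≤ r) :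
    Reg3 fun i : Fin r => φ ((tU r u i)⁻¹ : Rˣ) := by
  have hne : ∀ i : Fin r, φ ((tU r u i)⁻¹ : Rˣ) ≠ 0 := fun i => ((tU r u i)⁻¹.isUnit.map φ).ne_zero
  refine ⟨hne, ?_⟩
  intro s t hs ht h
  have hprod : ∀ s : Multiset (Fin r), (s.map fun i : Fin r => φ ((tU r u i)⁻¹ : Rˣ)).prod =
      (φ (u : R) ^ (r * (s.map fun i : Fin r => 4 ^ (i : ℕ)).sum))⁻¹ := by
    intro s
    induction s using Multiset.induction_on with
    | empty => simp
    | cons a s ih =>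
      rw [Multiset.map_cons, Multiset.prod_cons, ih, Multiset.map_cons, Multiset.sum_cons,
        mul_add, pow_add, mul_inv]
      congr 1
      have : φ ((tU r u a)⁻¹ : Rˣ) * φ (u : R) ^ (r * 4 ^ (a : ℕ)) = 1 := by
        rw [← map_pow, ← map_mul, ← Units.val_pow_eq_pow_val, ← Units.val_mul]
        rw [tU, inv_mul_cancel, Units.val_one, map_one]
      exact eq_inv_of_mul_eq_one_left this
  rw [hprod, hprod, _root_.inv_inj] at h
  have h1 := phi_pow_inj φ u hu h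
  have h2 : (s.map fun i : Fin r => 4 ^ (i : ℕ)).sum = (t.map fun i : Fin r => 4 ^ (i : ℕ)).sum :=
    Nat.eq_of_mul_eq_mul_left (by omega) h1
  exact sum_four_pow_inj s t hs ht h2

/-- the discriminant -/
def disc (r : ℕ) (u : Rˣ) : R :=
  ∏ p ∈ Finset.univ.filter (fun p : Fin r × Fin r => p.1 < p.2),
    ((tU r u p.2 : R) - (tU r u p.1 : R))

/-- the discriminant with one factor removed -/
def discw (r : ℕ) (u : Rˣ) : Mat r R := Matrix.of fun i j =>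
  ∏ p ∈ (Finset.univ.filter (fun p : Fin r × Fin r => p.1 < p.2)).erase (i, j),
    ((tU r u p.2 : R) - (tU r u p.1 : R))

theorem discw_mul (u : Rˣ) (i j : Fin r) (h : i < j) :
    discw r u i j * ((tU r u j : R) - (tU r u i : R)) = disc r u := by
  unfold disc discw
  rw [Matrix.of_apply]
  exact Finset.prod_erase_mul _ (fun p : Fin r × Fin r => (tU r u p.2 : R) - (tU r u p.1 : R))
    (by simp [h])

theorem phi_disc_ne (φ : R →+* ℂ) (u : Rˣ) (hu : ∀ k : ℕ, 0 < k → φ (u : R) ^ k ≠ 1) :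
    φ (disc r u) ≠ 0 := by
  unfold disc
  rw [map_prod, Finset.prod_ne_zero_iff]
  intro p hp
  rw [Finset.mem_filter] at hp
  have hr : 0 < r := lt_of_le_of_lt (Nat.zero_le _) p.1.2
  rw [map_sub, sub_ne_zero]
  intro h
  have h1 : ∀ i : Fin r, φ (tU r u i : R) = φ (u : R) ^ (r * 4 ^ (i : ℕ)) := by
    intro i
    rw [tU, Units.val_pow_eq_pow_val, map_pow]
  rw [h1, h1] at h
  have h2 := phi_pow_inj φ u hu h
  have h3 := Nat.eq_of_mul_eq_mul_left hr h2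
  have h4 := Nat.pow_right_injective (le_refl 2 |>.trans (by norm_num : 2 ≤ 4)) h3
  have : (p.1 : ℕ) < (p.2 : ℕ) := hp.2
  omega

theorem det_tU (u : Rˣ) : (diagonal fun i : Fin r => (tU r u i : R)).det =
    ((u ^ (∑ i : Fin r, 4 ^ (i : ℕ)) : Rˣ) : R) ^ r := by
  rw [Matrix.det_diagonal, ← Units.coe_prod, ← Units.val_pow_eq_pow_val]
  congr 1
  unfold tU
  rw [Finset.prod_pow_eq_pow_sum, ← pow_mul, ← Finset.mul_sum, mul_comm]

end Tor

section Data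

variable {R : Type*} [CommRing R] {r n : ℕ}

theorem comm_diag (hr : 1 ≤ r) (δ : Fin r → Rˣ) (hδ : ∏ i, δ i = 1) :
    ∃ (b : Fin r → Rˣ) (P : Mat r R), (∀ N : ℕ, (∀ i, δ i ^ N = 1) → ∀ i, b i ^ N = 1) ∧
      (P.det = 1 ∨ P.det = -1) ∧
      diagonal (fun i => (b i : R)) * P =
        diagonal (fun i => (δ i : R)) * P * diagonal (fun i => (b i : R)) := by
  obtain ⟨n, rfl⟩ : ∃ n, r = n + 1 := ⟨r - 1, by omega⟩
  let L := List.ofFn δ
  have hLlen : L.length = n + 1 := by simp [L]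
  let b : Fin (n + 1) → Rˣ := fun i => (L.take ((i : ℕ) + 1)).prod
  have hstep : ∀ (k : ℕ) (hk : k < n + 1), (L.take (k + 1)).prod = (L.take k).prod * δ ⟨k, hk⟩ := by
    intro k hk
    rw [List.prod_take_succ L k (by omega)]
    simp only [L, List.getElem_ofFn]
  have hfull : (L.take (n + 1)).prod = 1 := by
    rw [List.take_of_length_le (by omega)]
    simp only [L]
    rw [List.prod_ofFn, hδ]
  have hb : ∀ j : Fin (n + 1), b (finRotate (n + 1) j) = δ (finRotate (n + 1) j) * b j := by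
    intro j
    rcases Nat.lt_or_ge (j : ℕ) n with hj | hj
    · have h1 : finRotate (n + 1) j = ⟨(j : ℕ) + 1, by omega⟩ := by
        apply Fin.ext
        rw [coe_finRotate_of_ne_last]
        intro h
        rw [h] at hj
        simp at hj
      rw [h1]
      simp only [b]
      rw [hstep ((j : ℕ) + 1) (by omega), mul_comm]
    · have h0 : j = Fin.last n := by
        apply Fin.ext
        simp
        omega
      rw [h0, finRotate_last]
      simp only [b]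
      rw [Fin.val_last, hfull, mul_one]
      have := hstep 0 (by omega)
      simpa using this
  refine ⟨b, (1 : Mat (n + 1) R).submatrix id (finRotate (n + 1)), ?_, ?_, ?_⟩
  · intro N hN i
    have h1 : b i ∈ (powMonoidHom N : Rˣ →* Rˣ).ker := by
      apply Subgroup.list_prod_mem
      intro x hx
      have hx' := List.mem_of_mem_take hx
      simp only [L, List.mem_ofFn] at hx'
      obtain ⟨l, rfl⟩ := hx'
      rw [MonoidHom.mem_ker, powMonoidHom_apply]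
      exact hN l
    rwa [MonoidHom.mem_ker, powMonoidHom_apply] at h1
  · rw [Matrix.det_permute', Matrix.det_one, mul_one]
    rcases Int.units_eq_one_or (Equiv.Perm.sign (finRotate (n + 1))) with h | h
    · left; rw [h]; simp
    · right; rw [h]; simp
  · ext i j
    rw [Matrix.diagonal_mul, Matrix.mul_diagonal, Matrix.diagonal_mul, Matrix.submatrix_apply,
      id_eq, Matrix.one_apply]
    by_cases h : i = finRotate (n + 1) j
    · rw [if_pos h, mul_one, mul_one, h, hb, Units.val_mul]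
    · rw [if_neg h, mul_zero, mul_zero, zero_mul]

/-- matrices of the form `diagonal p + Δ • E` -/
def IsJ (Δ : R) (p : Fin r → R) (X : Mat r R) : Prop := ∃ E, SUp E ∧ X = diagonal p + Δ • E

theorem IsJ.mul {Δ : R} {p q : Fin r → R} {X Y : Mat r R} (hX : IsJ Δ p X) (hY : IsJ Δ q Y) :
    IsJ Δ (p * q) (X * Y) := by
  obtain ⟨E, hE, rfl⟩ := hX
  obtain ⟨F, hF, rfl⟩ := hY
  refine ⟨diagonal p * F + E * diagonal q + Δ • (E * F),
    ((hF.diag_mul p).add (hE.mul_diag q)).add ((hE.mul hF).smul Δ), ?_⟩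
  rw [Matrix.add_mul, Matrix.mul_add, Matrix.mul_add, Matrix.diagonal_mul_diagonal]
  simp only [Matrix.mul_smul, Matrix.smul_mul, smul_add, smul_smul]
  have : (diagonal fun i => p i * q i) = diagonal (p * q) := rfl
  rw [this]
  abel

theorem IsJ.one {Δ : R} : IsJ Δ (1 : Fin r → R) (1 : Mat r R) :=
  ⟨0, fun _ _ _ => rfl, by simp⟩

theorem IsJ.det {Δ : R} {p : Fin r → R} {X : Mat r R} (hX : IsJ Δ p X) : X.det = ∏ i, p i := by
  obtain ⟨E, hE, rfl⟩ := hX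
  rw [Matrix.det_of_isUpperTriangular]
  · refine Finset.prod_congr rfl fun i _ => ?_
    rw [Matrix.add_apply, Matrix.diagonal_apply_eq, Matrix.smul_apply, hE i i (lt_irrefl i)]
    simp
  · intro i j hij
    have hji : j < i := hij
    have h1 : (diagonal p + Δ • E) i j = 0 := by
      rw [Matrix.add_apply, Matrix.diagonal_apply_ne _ hji.ne', Matrix.smul_apply,
        hE i j (not_lt.mpr hji.le)]
      simp
    exact h1

theorem IsJ.list {ι : Type*} {Δ : R} (p : ι → Fin r → R) (X : ι → Mat r R)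
    (h : ∀ j, IsJ Δ (p j) (X j)) (l : List ι) : IsJ Δ (l.map p).prod (l.map X).prod := by
  induction l with
  | nil => exact IsJ.one
  | cons a l ih =>
    rw [List.map_cons, List.map_cons, List.prod_cons, List.prod_cons]
    exact (h a).mul ih

theorem exists_data (φ : R →+* ℂ) (hφ : Function.Injective φ) (N : ℕ) (hN : 0 < N)
    (hμ : ∀ z : ℂ, z ^ N = 1 → z ∈ Set.range φ) (Δ : R) (hΔ : φ Δ ≠ 0) (C : (Mat r ℂ)ˣ)
    (hC : IsNilpotent ((C : Mat r ℂ) ^ N - 1)) :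
    ∃ (δ : Fin r → Rˣ) (J : (Mat r R)ˣ), (∀ i, δ i ^ N = 1) ∧
      IsJ Δ (fun i => (δ i : R)) (J : Mat r R) ∧ IsConj C (PhiU φ J) := by
  obtain ⟨d, ν, hd, hν, h⟩ := exists_jordan (C : Mat r ℂ) N hN hC
  have hlift : ∀ i, ∃ δ : Rˣ, φ (δ : R) = d i ∧ δ ^ N = 1 := by
    intro i
    obtain ⟨γ, hγ⟩ := hμ (d i) (hd i)
    have h2 : γ ^ N = 1 := by
      apply hφ
      rw [map_pow, hγ, hd, map_one]
    obtain ⟨c, rfl⟩ := IsUnit.of_pow_eq_one h2 (by omega)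
    refine ⟨c, hγ, ?_⟩
    apply Units.ext
    rw [Units.val_pow_eq_pow_val, h2, Units.val_one]
  choose δ hδ1 hδ2 using hlift
  have hJ : IsJ Δ (fun i => (δ i : R)) (diagonal (fun i => (δ i : R)) +
      Δ • ν.map (Int.castRingHom R)) := by
    refine ⟨ν.map (Int.castRingHom R), ?_, rfl⟩
    intro i j hij
    rw [Matrix.map_apply, hν i j hij, map_zero]
  have hu : IsUnit (diagonal (fun i => (δ i : R)) + Δ • ν.map (Int.castRingHom R)) := by
    rw [Matrix.isUnit_iff_isUnit_det, hJ.det, ← Units.coe_prod]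
    exact Units.isUnit _
  obtain ⟨J, hJ'⟩ := hu
  refine ⟨δ, J, hδ2, by rw [hJ']; exact hJ, ?_⟩
  obtain ⟨P, hP⟩ := h (φ Δ) hΔ
  rw [isConj_comm, isConj_iff]
  refine ⟨P, ?_⟩
  apply Units.ext
  rw [Units.val_mul, Units.val_mul, PhiU_coe, hJ', hP]
  congr 2
  ext i j
  simp only [Matrix.map_apply, Matrix.add_apply, Matrix.smul_apply, smul_eq_mul, map_add,
    map_mul]
  congr 1
  · by_cases hij : i = j
    · subst hij
      simp [hδ1]
    · simp [Matrix.diagonal_apply_ne _ hij]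
  · congr 1
    simp

theorem exists_unit_of_det {Y : Mat r R} (h : IsUnit Y.det) : ∃ X : (Mat r R)ˣ, (X : Mat r R) = Y := by
  have : IsUnit Y := (Matrix.isUnit_iff_isUnit_det Y).mpr h
  exact this

theorem finish {m : ℕ} (φ : R →+* ℂ) (C : Fin n → (Mat r ℂ)ˣ) (J : Fin n → (Mat r R)ˣ)
    (hJ : ∀ j, IsConj (C j) (PhiU φ (J j))) (hJdet : ∀ j, ∃ c : Rˣ, (J j : Mat r R).det = (c : R) ^ r)
    (a b : Fin (m + 1) → (Mat r R)ˣ) (ha : ∀ i, ∃ c : Rˣ, (a i : Mat r R).det = (c : R) ^ r)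
    (hb : ∀ i, ∃ c : Rˣ, (b i : Mat r R).det = (c : R) ^ r) (hlast : b (Fin.last m) = 1)
    (hprod : (List.ofFn fun j => J j).prod *
      (List.ofFn fun i => a i * b i * (a i)⁻¹ * (b i)⁻¹).prod = 1)
    (i₀ : Fin m) (t : Fin r → Rˣ) (hreg : Reg3 fun i => φ ((t i)⁻¹ : Rˣ))
    (hai : (a i₀.castSucc : Mat r R) = diagonal fun i => (t i : R)) :
    ∃ J : Fin n → (Mat r ℂ)ˣ, (∀ j, IsConj (C j) (J j)) ∧ ∃ ρ ∈ DFr (g := m + 1) φ J,
      ρ (gB (Fin.last m)) = 1 ∧ (∀ j, ρ (gD j) = 1) ∧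
        ∃ (i₀ : Fin m) (α : Fin r → ℂ) (U : (Mat r ℂ)ˣ), Reg3 α ∧
          (ρ (gB i₀.castSucc * (gA i₀.castSucc)⁻¹ * (gB i₀.castSucc)⁻¹) : Mat r ℂ) =
            (U : Mat r ℂ) * diagonal α * ((U⁻¹ : (Mat r ℂ)ˣ) : Mat r ℂ) := by
  let ρ : FF (m + 1) n →* (Mat r ℂ)ˣ := FreeGroup.lift fun k =>
    match k with
    | Sum.inl (i, false) => PhiU φ (a i)
    | Sum.inl (i, true) => PhiU φ (b i)
    | Sum.inr (_, false) => 1
    | Sum.inr (j, true) => PhiU φ (J j)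
  have hA : ∀ i, ρ (gA i) = PhiU φ (a i) := fun i => FreeGroup.lift_apply_of
  have hB : ∀ i, ρ (gB i) = PhiU φ (b i) := fun i => FreeGroup.lift_apply_of
  have hD : ∀ j, ρ (gD j) = 1 := fun i => FreeGroup.lift_apply_of
  have hE : ∀ j, ρ (gE j) = PhiU φ (J j) := fun i => FreeGroup.lift_apply_of
  have hC : ∀ j, ρ (gC j) = PhiU φ (J j) := by
    intro j
    rw [gC, map_mul, map_mul, map_inv, hD, hE, one_mul, inv_one, mul_one]
  have hH : ∀ i, ρ (hcomm i) = PhiU φ (a i * b i * (a i)⁻¹ * (b i)⁻¹) := by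
    intro i
    rw [hcomm, map_mul, map_mul, map_mul, map_inv, map_inv, hA, hB, map_mul, map_mul, map_mul,
      map_inv, map_inv]
  refine ⟨fun j => PhiU φ (J j), hJ, ρ, ⟨?_, hE, ?_, ?_⟩, ?_, hD, i₀,
    fun i => φ ((t i)⁻¹ : Rˣ), PhiU φ (b i₀.castSucc), hreg, ?_⟩
  · rw [relator, map_mul, map_list_prod, map_list_prod, List.map_ofFn, List.map_ofFn]
    have e1 : (⇑ρ ∘ fun j : Fin n => gC j) = fun j => PhiU φ (J j) := funext hC
    have e2 : (⇑ρ ∘ fun i : Fin (m + 1) => hcomm i) =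
        fun i => PhiU φ (a i * b i * (a i)⁻¹ * (b i)⁻¹) := funext hH
    rw [e1, e2]
    have h1 := congrArg (PhiU φ) hprod
    rw [map_mul, map_list_prod, map_list_prod, List.map_ofFn, List.map_ofFn, map_one] at h1
    exact h1
  · rintro ⟨i, b'⟩
    cases b' with
    | false =>
      have := hA i
      rw [gA] at this
      rw [this]
      obtain ⟨c, hc⟩ := ha i
      exact PhiU_mem_GR φ _ c hc
    | true =>
      have := hB i
      rw [gB] at this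
      rw [this]
      obtain ⟨c, hc⟩ := hb i
      exact PhiU_mem_GR φ _ c hc
  · intro j
    rw [hC]
    obtain ⟨c, hc⟩ := hJdet j
    exact PhiU_mem_GR φ _ c hc
  · rw [hB, hlast, map_one]
  · rw [map_mul, map_mul, map_inv, map_inv, hA, hB, Units.val_mul, Units.val_mul]
    congr 2
    have h1 : (a i₀.castSucc : Mat r R) * diagonal (fun i => ((t i)⁻¹ : Rˣ) : Fin r → R) = 1 := by
      rw [hai, Matrix.diagonal_mul_diagonal]
      have : (fun i => (t i : R) * (((t i)⁻¹ : Rˣ) : R)) = fun _ => 1 := by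
        funext i
        rw [← Units.val_mul, mul_inv_cancel, Units.val_one]
      rw [this, Matrix.diagonal_one]
    have h2 : (((a i₀.castSucc)⁻¹ : (Mat r R)ˣ) : Mat r R) =
        diagonal (fun i => ((t i)⁻¹ : Rˣ) : Fin r → R) := by
      calc (((a i₀.castSucc)⁻¹ : (Mat r R)ˣ) : Mat r R) =
          (((a i₀.castSucc)⁻¹ : (Mat r R)ˣ) : Mat r R) * ((a i₀.castSucc : Mat r R) *
            diagonal (fun i => ((t i)⁻¹ : Rˣ) : Fin r → R)) := by rw [h1, mul_one]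
        _ = _ := by rw [← mul_assoc, ← Units.val_mul, inv_mul_cancel, Units.val_one, one_mul]
    rw [← map_inv, PhiU_coe, h2]
    ext i j
    by_cases hij : i = j
    · subst hij; simp
    · simp [Matrix.diagonal_apply_ne _ hij]

/-- TASK P (file RBase.lean): existence of base points. -/
theorem exists_base {m : ℕ} (φ : R →+* ℂ) (hφ : Function.Injective φ) (u : Rˣ)
    (hu : ∀ k : ℕ, 0 < k → φ (u : R) ^ k ≠ 1) (hr : 1 ≤ r) (N : ℕ) (hN : 0 < N)
    (hμ : ∀ z : ℂ, z ^ (2 * N * r) = 1 → z ∈ Set.range φ)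
    (C : Fin n → (Mat r ℂ)ˣ) (hC : ∀ j, IsNilpotent ((C j : Mat r ℂ) ^ N - 1))
    (hdet : ∏ j, (C j : Mat r ℂ).det = 1) (hm : 1 ≤ m)
    (hmn : 2 ≤ m ∨ ∀ j, IsNilpotent ((C j : Mat r ℂ) - 1)) :
    ∃ J : Fin n → (Mat r ℂ)ˣ, (∀ j, IsConj (C j) (J j)) ∧ ∃ ρ ∈ DFr (g := m + 1) φ J,
      ρ (gB (Fin.last m)) = 1 ∧ (∀ j, ρ (gD j) = 1) ∧
        ∃ (i₀ : Fin m) (α : Fin r → ℂ) (U : (Mat r ℂ)ˣ), Reg3 α ∧
          (ρ (gB i₀.castSucc * (gA i₀.castSucc)⁻¹ * (gB i₀.castSucc)⁻¹) : Mat r ℂ) =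
            (U : Mat r ℂ) * diagonal α * ((U⁻¹ : (Mat r ℂ)ˣ) : Mat r ℂ) := by
  have hroot : ∀ z : R, z ^ (2 * N) = 1 → ∃ c : Rˣ, z = (c : R) ^ r := fun z hz =>
    exists_root φ hφ hr (2 * N) (by omega) hμ z hz
  obtain ⟨N', hN', hNN, hC', hm'⟩ : ∃ N' : ℕ, 0 < N' ∧ N' ∣ N ∧
      (∀ j, IsNilpotent ((C j : Mat r ℂ) ^ N' - 1)) ∧ (2 ≤ m ∨ N' = 1) := by
    rcases hmn with h | h
    · exact ⟨N, hN, dvd_rfl, hC, Or.inl h⟩
    · exact ⟨1, one_pos, one_dvd _, fun j => by rw [pow_one]; exact h j, Or.inr rfl⟩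
  have hμ' : ∀ z : ℂ, z ^ N' = 1 → z ∈ Set.range φ := by
    intro z hz
    apply hμ
    obtain ⟨k, hk⟩ := hNN
    have : 2 * N * r = N' * (2 * k * r) := by rw [hk]; ring
    rw [this, pow_mul, hz, one_pow]
  have hpowN : ∀ c : Rˣ, c ^ N' = 1 → c ^ (2 * N) = 1 := by
    intro c hc
    obtain ⟨k, hk⟩ := hNN
    have : 2 * N = N' * (2 * k) := by rw [hk]; ring
    rw [this, pow_mul, hc, one_pow]
  set Δ : R := disc r u with hΔdef
  have hΔ : φ Δ ≠ 0 := phi_disc_ne φ u hu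
  choose δ J hδ hJ hconj using fun j => exists_data φ hφ N' hN' hμ' Δ hΔ (C j) (hC' j)
  -- the product of the boundary matrices
  have hP := IsJ.list (Δ := Δ) (fun j i => (δ j i : R)) (fun j => (J j : Mat r R)) hJ
    (List.finRange n)
  obtain ⟨E, hE, hPE⟩ := hP
  let p : Fin r → Rˣ := fun i => ∏ j, δ j i
  have hp : ((List.finRange n).map fun j i => (δ j i : R)).prod = fun i => (p i : R) := by
    rw [← List.ofFn_eq_map, List.prod_ofFn]
    funext i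
    rw [Finset.prod_apply, ← Units.coe_prod]
  rw [hp] at hPE
  have hp1 : ∀ i, p i ^ N' = 1 := by
    intro i
    simp only [p]
    rw [← Finset.prod_pow]
    exact Finset.prod_eq_one fun j _ => hδ j i
  have hdetJ : ∀ j, φ ((J j : Mat r R).det) = (C j : Mat r ℂ).det := by
    intro j
    obtain ⟨X, hX⟩ := isConj_iff.mp (hconj j)
    have h1 : ((PhiU φ (J j) : (Mat r ℂ)ˣ) : Mat r ℂ).det = (C j : Mat r ℂ).det := by
      rw [← hX, Units.val_mul, Units.val_mul, Matrix.det_mul, Matrix.det_mul, mul_right_comm,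
        ← Matrix.det_mul, ← Units.val_mul, mul_inv_cancel, Units.val_one, Matrix.det_one, one_mul]
    rw [← h1, PhiU_coe]
    exact RingHom.map_det φ _
  have hpprod : ∏ i, p i = 1 := by
    apply Units.ext
    apply hφ
    rw [Units.val_one, map_one, ← hdet]
    simp only [p]
    rw [Finset.prod_comm, Units.coe_prod, map_prod]
    refine Finset.prod_congr rfl fun j _ => ?_
    rw [← hdetJ, (hJ j).det, Units.coe_prod]
  -- the triangular part
  let pi : Fin r → Rˣ := fun i => (p i)⁻¹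
  obtain ⟨V, hVdet, hV⟩ := exists_comm (fun i => (tU r u i : R)) Δ (discw r u)
    (fun i j hij => discw_mul u i j hij) (E * diagonal fun i => (pi i : R)) (hE.mul_diag _)
  obtain ⟨VU, hVU⟩ := exists_unit_of_det (Y := V) (by rw [hVdet]; exact isUnit_one)
  obtain ⟨TU, hTU⟩ := exists_unit_of_det (Y := diagonal fun i => (tU r u i : R)) (by
    rw [det_tU]; exact (Units.isUnit _).pow _)
  -- the diagonal part
  obtain ⟨b, Pm, hbN, hPmdet, hbPm⟩ := comm_diag hr pi (by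
    simp only [pi]; rw [Finset.prod_inv_distrib, hpprod, inv_one])
  obtain ⟨BU, hBU⟩ := exists_unit_of_det (Y := diagonal fun i => (b i : R)) (by
    rw [Matrix.det_diagonal, ← Units.coe_prod]; exact Units.isUnit _)
  obtain ⟨PmU, hPmU⟩ := exists_unit_of_det (Y := Pm) (by
    rcases hPmdet with h | h <;> rw [h]
    · exact isUnit_one
    · exact isUnit_one.neg)
  obtain ⟨DU', hDU⟩ := exists_unit_of_det (Y := diagonal fun i => (pi i : R)) (by
    rw [Matrix.det_diagonal, ← Units.coe_prod]; exact Units.isUnit _)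
  have hcommD : BU * PmU * BU⁻¹ * PmU⁻¹ = DU' := by
    rw [mul_inv_eq_iff_eq_mul, mul_inv_eq_iff_eq_mul]
    apply Units.ext
    rw [Units.val_mul, Units.val_mul, Units.val_mul, hBU, hPmU, hDU]
    exact hbPm
  have hprodJ : (((List.ofFn fun j => J j).prod : (Mat r R)ˣ) : Mat r R) =
      diagonal (fun i => (p i : R)) + Δ • E := by
    rw [← hPE, ← List.ofFn_eq_map, ← Units.coeHom_apply, map_list_prod, List.map_ofFn]
    rfl
  have hprodD : (((List.ofFn fun j => J j).prod * DU' : (Mat r R)ˣ) : Mat r R) =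
      1 + Δ • (E * diagonal fun i => (pi i : R)) := by
    rw [Units.val_mul, hprodJ, hDU, Matrix.add_mul, Matrix.diagonal_mul_diagonal, Matrix.smul_mul]
    congr 1
    have : (fun i => (p i : R) * (pi i : R)) = fun _ => 1 := by
      funext i
      simp only [pi]
      rw [← Units.val_mul, mul_inv_cancel, Units.val_one]
    rw [this, Matrix.diagonal_one]
  have hmain : (List.ofFn fun j => J j).prod * (DU' * (TU * VU * TU⁻¹ * VU⁻¹)) = 1 := by
    have h1 : (List.ofFn fun j => J j).prod * DU' * TU * VU = VU * TU := by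
      apply Units.ext
      rw [Units.val_mul, Units.val_mul, hprodD, hVU, hTU, Units.val_mul, hVU, hTU]
      exact hV.symm
    calc (List.ofFn fun j => J j).prod * (DU' * (TU * VU * TU⁻¹ * VU⁻¹)) =
        ((List.ofFn fun j => J j).prod * DU' * TU * VU) * (TU⁻¹ * VU⁻¹) := by
          simp only [mul_assoc]
      _ = 1 := by rw [h1]; group
  -- determinants
  have hdetB : ∃ c : Rˣ, (BU : Mat r R).det = (c : R) ^ r := by
    apply hroot
    rw [hBU, Matrix.det_diagonal, ← Finset.prod_pow]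
    refine Finset.prod_eq_one fun i _ => ?_
    rw [← Units.val_pow_eq_pow_val, hpowN _ (hbN N' (fun i => by
      simp only [pi]; rw [inv_pow, hp1, inv_one]) i), Units.val_one]
  have hdetPm : ∃ c : Rˣ, (PmU : Mat r R).det = (c : R) ^ r := by
    apply hroot
    rw [hPmU, pow_mul]
    rcases hPmdet with h | h <;> rw [h] <;> simp
  have hdetT : ∃ c : Rˣ, (TU : Mat r R).det = (c : R) ^ r := ⟨_, by rw [hTU, det_tU]⟩
  have hdetV : ∃ c : Rˣ, (VU : Mat r R).det = (c : R) ^ r := ⟨1, by rw [hVU, hVdet]; simp⟩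
  have hdet1 : ∃ c : Rˣ, ((1 : (Mat r R)ˣ) : Mat r R).det = (c : R) ^ r := ⟨1, by simp⟩
  have hdetJ' : ∀ j, ∃ c : Rˣ, (J j : Mat r R).det = (c : R) ^ r := by
    intro j
    apply hroot
    rw [(hJ j).det, ← Finset.prod_pow]
    refine Finset.prod_eq_one fun i _ => ?_
    rw [← Units.val_pow_eq_pow_val, hpowN _ (hδ j i), Units.val_one]
  rcases Nat.lt_or_ge m 2 with hm2 | hm2
  · -- one free handle, unipotent case
    obtain rfl : m = 1 := by omega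
    have hN1 : N' = 1 := by
      rcases hm' with h | h
      · omega
      · exact h
    have hDU1 : DU' = 1 := by
      apply Units.ext
      rw [hDU, Units.val_one]
      have : (fun i => (pi i : R)) = fun _ => 1 := by
        funext i
        have := hp1 i
        rw [hN1, pow_one] at this
        simp only [pi]
        rw [this, inv_one, Units.val_one]
      rw [this, Matrix.diagonal_one]
    rw [hDU1, one_mul] at hmain
    refine finish φ C J hconj hdetJ' (Fin.cons TU fun _ => 1) (Fin.cons VU fun _ => 1)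
      ?_ ?_ rfl ?_ 0 (tU r u) (reg3_tU φ u hu hr) ?_
    · intro i
      refine Fin.cases ?_ (fun i => ?_) i
      · exact hdetT
      · exact hdet1
    · intro i
      refine Fin.cases ?_ (fun i => ?_) i
      · exact hdetV
      · exact hdet1
    · rw [List.ofFn_succ (n := 1)]
      simp only [Fin.cons_zero, Fin.cons_succ]
      rw [List.prod_cons]
      simp only [mul_one, inv_one, List.ofFn_const, List.prod_replicate, one_pow]
      exact hmain
    · exact hTU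
  · -- two free handles
    obtain ⟨k, rfl⟩ : ∃ k, m = k + 2 := ⟨m - 2, by omega⟩
    refine finish φ C J hconj hdetJ' (Fin.cons BU (Fin.cons TU fun _ => 1))
      (Fin.cons PmU (Fin.cons VU fun _ => 1)) ?_ ?_ ?_ ?_ ⟨1, by omega⟩ (tU r u)
      (reg3_tU φ u hu hr) ?_
    · intro i
      refine Fin.cases ?_ (fun i => ?_) i
      · exact hdetB
      · refine Fin.cases ?_ (fun i => ?_) i
        · exact hdetT
        · exact hdet1
    · intro i
      refine Fin.cases ?_ (fun i => ?_) i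
      · exact hdetPm
      · refine Fin.cases ?_ (fun i => ?_) i
        · exact hdetV
        · exact hdet1
    · rfl
    · rw [List.ofFn_succ, List.ofFn_succ]
      simp only [Fin.cons_zero, Fin.cons_succ]
      rw [List.prod_cons, List.prod_cons]
      simp only [mul_one, inv_one, List.ofFn_const, List.prod_replicate, one_pow]
      rw [hcommD]
      exact hmain
    · exact hTU

end Data

end Vale.Agent.P002R
end

section

/-! TASK L: relative reducible case. -/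

namespace Vale.Agent.P002R

open Matrix

section Eval

variable {κ : Type*} {r : ℕ} {S T : Type*} [CommRing S] [CommRing T] [Algebra ℂ S] [Algebra ℂ T]

/-- evaluation of a polynomial at a tuple of matrices over an algebra -/
noncomputable def evK (X : κ → Mat r S) : MvPolynomial (κ × Fin r × Fin r) ℂ →ₐ[ℂ] S :=
  MvPolynomial.aeval fun p => X p.1 p.2.1 p.2.2

theorem evK_map (θ : S →ₐ[ℂ] T) (X : κ → Mat r S) (f : MvPolynomial (κ × Fin r × Fin r) ℂ) :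
    θ (evK X f) = evK (fun k => (X k).map θ) f := by
  unfold evK
  rw [← AlgHom.comp_apply, MvPolynomial.comp_aeval]
  rfl

theorem evalG_eq_evK (x : FreeGroup κ →* (Mat r ℂ)ˣ) (f : MvPolynomial (κ × Fin r × Fin r) ℂ) :
    evalG x f = evK (fun k => (x (FreeGroup.of k) : Mat r ℂ)) f := rfl

end Eval

section Conj

variable {κ : Type*} {g n r : ℕ}

/-- conjugate of a representation -/
noncomputable def conjH (U : (Mat r ℂ)ˣ) (y : FreeGroup κ →* (Mat r ℂ)ˣ) :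
    FreeGroup κ →* (Mat r ℂ)ˣ :=
  (MulAut.conj U).toMonoidHom.comp y

theorem conjH_apply (U : (Mat r ℂ)ˣ) (y : FreeGroup κ →* (Mat r ℂ)ˣ) (w : FreeGroup κ) :
    conjH U y w = U * y w * U⁻¹ := by
  simp [conjH, MulAut.conj_apply]

theorem conjH_mem_YU {C : Fin n → (Mat r ℂ)ˣ} {y : FU g n →* (Mat r ℂ)ˣ} (hy : y ∈ YU g C)
    (U : (Mat r ℂ)ˣ) : conjH U y ∈ YU g C := by
  obtain ⟨h1, h2, h3⟩ := hy
  refine ⟨?_, ?_, ?_⟩
  · rw [conjH_apply, h1, mul_one, mul_inv_cancel]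
  · intro j
    refine (h2 j).trans ?_
    rw [isConj_iff]
    exact ⟨U, (conjH_apply _ _ _).symm⟩
  · exact P002.SS.conj U (fun w => conjH_apply _ _ w) h3

theorem slU_int_mem_GR {R : Type*} [CommRing R] (φ : R →+* ℂ) (X : SpecialLinearGroup (Fin r) ℤ) :
    slU (Int.castRingHom ℂ) X ∈ GR r φ := by
  refine ⟨1, SpecialLinearGroup.map (Int.castRingHom R) X, ?_⟩
  rw [map_one, one_mul]
  apply Units.ext
  ext i j
  simp [slU]

theorem conjH_mem_DU {R : Type*} [CommRing R] (φ : R →+* ℂ) {C : Fin n → (Mat r ℂ)ˣ}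
    {y : FU g n →* (Mat r ℂ)ˣ} (hy : y ∈ DU g φ C) (X : SpecialLinearGroup (Fin r) ℤ) :
    conjH (slU (Int.castRingHom ℂ) X) y ∈ DU g φ C := by
  refine ⟨conjH_mem_YU hy.1 _, fun k => ?_⟩
  rw [conjH_apply]
  exact (GR r φ).mul_mem ((GR r φ).mul_mem (slU_int_mem_GR φ X) (hy.2 k))
    ((GR r φ).inv_mem (slU_int_mem_GR φ X))

theorem conj_vanish {R : Type*} [CommRing R] (φ : R →+* ℂ) {C : Fin n → (Mat r ℂ)ˣ}
    (f : MvPolynomial (GenU g n × Fin r × Fin r) ℂ)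
    (hf : ∀ y ∈ DU g φ C, evalG y f = 0) (y : FU g n →* (Mat r ℂ)ˣ)
    (hy : y ∈ DU g φ C) (U : (Mat r ℂ)ˣ) : evalG (conjH U y) f = 0 := by
  classical
  obtain ⟨N, H, hH⟩ := P002.exists_homog f
  let XX : Mat r (MvPolynomial (Fin r × Fin r) ℂ) := Matrix.of fun i j => MvPolynomial.X (i, j)
  let Y : GenU g n → Mat r ℂ := fun k => (y (FreeGroup.of k) : Mat r ℂ)
  let Z : GenU g n → Mat r (MvPolynomial (Fin r × Fin r) ℂ) := fun k =>
    XX * (Y k).map MvPolynomial.C * XX.adjugate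
  let G : MvPolynomial (Fin r × Fin r) ℂ :=
    MvPolynomial.aeval (fun o : Option (GenU g n × Fin r × Fin r) =>
      o.elim XX.det fun p => Z p.1 p.2.1 p.2.2) H
  have key : ∀ U : (Mat r ℂ)ˣ, MvPolynomial.eval (fun p => (U : Mat r ℂ) p.1 p.2) G =
      (U : Mat r ℂ).det ^ N * evalG (conjH U y) f := by
    intro U
    let ev : MvPolynomial (Fin r × Fin r) ℂ →ₐ[ℂ] ℂ :=
      MvPolynomial.aeval fun p => (U : Mat r ℂ) p.1 p.2
    have hev : ∀ q, MvPolynomial.eval (fun p => (U : Mat r ℂ) p.1 p.2) q = ev q := by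
      intro q
      rw [← MvPolynomial.coe_aeval_eq_eval]
      rfl
    have h1 : XX.map ev = (U : Mat r ℂ) := by
      ext i j
      simp [XX, ev]
    have hdet : ev XX.det = (U : Mat r ℂ).det := by
      rw [← h1]
      exact AlgHom.map_det ev XX
    have hadj : XX.adjugate.map ev = (U : Mat r ℂ).adjugate := by
      rw [← h1]
      exact AlgHom.map_adjugate ev XX
    have hY : ∀ k, ((Y k).map MvPolynomial.C).map ev = Y k := by
      intro k
      ext i j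
      simp [ev]
    have hd0 : (U : Mat r ℂ).det ≠ 0 := by
      have := (Matrix.isUnit_iff_isUnit_det _).mp U.isUnit
      exact this.ne_zero
    rw [hev]
    simp only [G]
    rw [← AlgHom.comp_apply, MvPolynomial.comp_aeval]
    have h2 : (fun o : Option (GenU g n × Fin r × Fin r) =>
        ev (o.elim XX.det fun p => Z p.1 p.2.1 p.2.2)) =
        fun o => o.elim (U : Mat r ℂ).det
          fun p => ((U : Mat r ℂ) * Y p.1 * (U : Mat r ℂ).adjugate) p.2.1 p.2.2 := by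
      funext o
      cases o with
      | none => simpa using hdet
      | some p =>
        simp only [Option.elim_some]
        have h3 : (Z p.1).map ev =
            (U : Mat r ℂ) * Y p.1 * (U : Mat r ℂ).adjugate := by
          simp only [Z]
          rw [Matrix.map_mul, Matrix.map_mul, h1, hY, hadj]
        rw [← h3]
        rfl
    have h4 := hH (U : Mat r ℂ).det hd0
      (fun p => ((U : Mat r ℂ) * Y p.1 * (U : Mat r ℂ).adjugate) p.2.1 p.2.2)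
    rw [← MvPolynomial.coe_aeval_eq_eval] at h4
    rw [h2]
    refine h4.trans ?_
    congr 1
    rw [evalG_eq_evK, ← MvPolynomial.coe_aeval_eq_eval]
    unfold evK
    have h5 : (fun p : GenU g n × Fin r × Fin r => (U : Mat r ℂ).det⁻¹ *
        ((U : Mat r ℂ) * Y p.1 * (U : Mat r ℂ).adjugate) p.2.1 p.2.2) =
        fun p => ((conjH U y (FreeGroup.of p.1) : (Mat r ℂ)ˣ) : Mat r ℂ) p.2.1 p.2.2 := by
      funext p
      have h6 : ((U⁻¹ : (Mat r ℂ)ˣ) : Mat r ℂ) =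
          (U : Mat r ℂ).det⁻¹ • (U : Mat r ℂ).adjugate := by
        rw [Matrix.coe_units_inv, Matrix.inv_def, Ring.inverse_eq_inv']
      rw [conjH_apply, Units.val_mul, Units.val_mul, h6, Matrix.mul_smul, Matrix.smul_apply,
        smul_eq_mul]
    rw [h5]
    rfl
  have hG : G = 0 := by
    apply P002.scaledSL_dense
    intro c X
    let U : (Mat r ℂ)ˣ := scalarU c * slU (Int.castRingHom ℂ) X
    have hU : (fun p : Fin r × Fin r => (c : ℂ) * ((X.1 p.1 p.2 : ℤ) : ℂ)) =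
        fun p => (U : Mat r ℂ) p.1 p.2 := by
      funext p
      simp only [U]
      rw [scalarU_mul_coe, Matrix.smul_apply, smul_eq_mul]
      simp [slU]
    rw [hU, key]
    have hc : conjH U y = conjH (slU (Int.castRingHom ℂ) X) y := by
      ext1 w
      rw [conjH_apply, conjH_apply]
      have : U * y (FreeGroup.of w) * U⁻¹ = scalarU c * (slU (Int.castRingHom ℂ) X *
          y (FreeGroup.of w) * (slU (Int.castRingHom ℂ) X)⁻¹) * (scalarU c)⁻¹ := by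
        simp only [U]
        group
      rw [this, scalarU_comm]
      group
    rw [hc, hf _ (conjH_mem_DU φ hy X), mul_zero]
  have h := key U
  rw [hG, map_zero] at h
  have hd0 : (U : Mat r ℂ).det ≠ 0 := by
    have := (Matrix.isUnit_iff_isUnit_det _).mp U.isUnit
    exact this.ne_zero
  rcases mul_eq_zero.mp h.symm with h | h
  · exact absurd h (pow_ne_zero _ hd0)
  · exact h

end Conj

section Blocks

variable {r r₁ r₂ : ℕ} {G : Type*} [Group G]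

/-- block sum of units -/
noncomputable def blkU (D : P002.Dec r r₁ r₂) : (Mat r₁ ℂ)ˣ × (Mat r₂ ℂ)ˣ →* (Mat r ℂ)ˣ where
  toFun p :=
    { val := D.blk (p.1 : Mat r₁ ℂ) (p.2 : Mat r₂ ℂ)
      inv := D.blk ((p.1⁻¹ : (Mat r₁ ℂ)ˣ) : Mat r₁ ℂ) ((p.2⁻¹ : (Mat r₂ ℂ)ˣ) : Mat r₂ ℂ)
      val_inv := by
        rw [D.blk_mul, ← Units.val_mul, ← Units.val_mul, mul_inv_cancel, mul_inv_cancel,
          Units.val_one, Units.val_one, D.blk_one]
      inv_val := by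
        rw [D.blk_mul, ← Units.val_mul, ← Units.val_mul, inv_mul_cancel, inv_mul_cancel,
          Units.val_one, Units.val_one, D.blk_one] }
  map_one' := by
    apply Units.ext
    exact D.blk_one
  map_mul' p q := by
    apply Units.ext
    exact (D.blk_mul _ _ _ _).symm

theorem blkU_coe (D : P002.Dec r r₁ r₂) (A : (Mat r₁ ℂ)ˣ) (B : (Mat r₂ ℂ)ˣ) :
    (blkU D (A, B) : Mat r ℂ) = D.blk (A : Mat r₁ ℂ) (B : Mat r₂ ℂ) := rfl

theorem blkU_conj (D D' : P002.Dec r r₁ r₂) {A A' : (Mat r₁ ℂ)ˣ} {B B' : (Mat r₂ ℂ)ˣ}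
    (hA : IsConj A A') (hB : IsConj B B') : IsConj (blkU D (A, B)) (blkU D' (A', B')) := by
  have h1 : IsConj (blkU D (A, B)) (blkU D' (A, B)) := by
    rw [isConj_iff]
    refine ⟨D'.change D, ?_⟩
    apply Units.ext
    rw [Units.val_mul, Units.val_mul, blkU_coe, blkU_coe]
    exact P002.Dec.change_conj D' D _ _
  refine h1.trans ?_
  obtain ⟨X, rfl⟩ := isConj_iff.mp hA
  obtain ⟨Y, rfl⟩ := isConj_iff.mp hB
  rw [isConj_iff]
  refine ⟨blkU D' (X, Y), ?_⟩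
  rw [← map_inv, ← map_mul, ← map_mul]
  rfl

/-- twist of a representation by a character -/
noncomputable def tw (χ : G →* ℂˣ) (y : G →* (Mat r ℂ)ˣ) : G →* (Mat r ℂ)ˣ where
  toFun w := scalarU (χ w) * y w
  map_one' := by simp
  map_mul' a b := by
    rw [map_mul, map_mul, map_mul, mul_assoc, mul_assoc, ← mul_assoc (y a), ← scalarU_comm,
      mul_assoc]

theorem tw_apply (χ : G →* ℂˣ) (y : G →* (Mat r ℂ)ˣ) (w : G) :
    tw χ y w = scalarU (χ w) * y w := rfl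

/-- block sum of representations -/
noncomputable def bs (D : P002.Dec r r₁ r₂) (y₁ : G →* (Mat r₁ ℂ)ˣ) (y₂ : G →* (Mat r₂ ℂ)ˣ) :
    G →* (Mat r ℂ)ˣ :=
  (blkU D).comp (y₁.prod y₂)

theorem bs_apply (D : P002.Dec r r₁ r₂) (y₁ : G →* (Mat r₁ ℂ)ˣ) (y₂ : G →* (Mat r₂ ℂ)ˣ) (w : G) :
    bs D y₁ y₂ w = blkU D (y₁ w, y₂ w) := rfl

theorem bs_ss (D : P002.Dec r r₁ r₂) (y₁ : G →* (Mat r₁ ℂ)ˣ) (y₂ : G →* (Mat r₂ ℂ)ˣ)
    (χ₁ χ₂ : G →* ℂˣ) (h₁ : SS y₁) (h₂ : SS y₂) : SS (bs D (tw χ₁ y₁) (tw χ₂ y₂)) := by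
  refine P002.Dec.ss D _ y₁ y₂ (fun w => (χ₁ w : ℂ)) (fun w => (χ₂ w : ℂ)) (fun w => (χ₁ w).ne_zero)
    (fun w => (χ₂ w).ne_zero) ?_ h₁ h₂
  intro w
  rw [bs_apply, blkU_coe, tw_apply, tw_apply, scalarU_mul_coe, scalarU_mul_coe]

end Blocks

section TwoBlock

variable {g n r r₁ r₂ : ℕ} {R : Type*} [CommRing R]

theorem char_relatorU_red {A : Type*} [CommGroup A] (χ : FU g n →* A)
    (h : ∀ j, χ (FreeGroup.of (Sum.inr j)) = 1) : χ (relatorU g n) = 1 := by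
  unfold relatorU
  rw [map_mul, map_list_prod, map_list_prod, List.map_ofFn, List.map_ofFn]
  have h1 : (List.ofFn (⇑χ ∘ fun j : Fin n => (FreeGroup.of (Sum.inr j) : FU g n))).prod = 1 := by
    apply List.prod_eq_one
    intro a ha
    rw [List.mem_ofFn] at ha
    obtain ⟨j, rfl⟩ := ha
    exact h j
  have h2 : (List.ofFn (⇑χ ∘ fun i : Fin g => (FreeGroup.of (Sum.inl (i, false)) *
      FreeGroup.of (Sum.inl (i, true)) * (FreeGroup.of (Sum.inl (i, false)))⁻¹ *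
      (FreeGroup.of (Sum.inl (i, true)))⁻¹ : FU g n))).prod = 1 := by
    apply List.prod_eq_one
    intro a ha
    rw [List.mem_ofFn] at ha
    obtain ⟨i, rfl⟩ := ha
    simp only [Function.comp_apply, map_mul, map_inv]
    rw [mul_right_comm (χ (FreeGroup.of (Sum.inl (i, false)))), mul_inv_cancel, one_mul,
      mul_inv_cancel]
  rw [h1, h2, one_mul]

/-- a twisted block sum of points is a point -/
theorem bs_mem_YU {C : Fin n → (Mat r ℂ)ˣ} {C₁ : Fin n → (Mat r₁ ℂ)ˣ} {C₂ : Fin n → (Mat r₂ ℂ)ˣ}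
    (D₀ : P002.Dec r r₁ r₂) (hC : ∀ j, IsConj (C j) (blkU D₀ (C₁ j, C₂ j)))
    {y₁ : FU g n →* (Mat r₁ ℂ)ˣ} {y₂ : FU g n →* (Mat r₂ ℂ)ˣ} (h₁ : y₁ ∈ YU g C₁)
    (h₂ : y₂ ∈ YU g C₂) (χ₁ χ₂ : FU g n →* ℂˣ) (hχ₁ : ∀ j, χ₁ (FreeGroup.of (Sum.inr j)) = 1)
    (hχ₂ : ∀ j, χ₂ (FreeGroup.of (Sum.inr j)) = 1) (D : P002.Dec r r₁ r₂) :
    bs D (tw χ₁ y₁) (tw χ₂ y₂) ∈ YU g C := by
  refine ⟨?_, ?_, ?_⟩
  · rw [bs_apply, tw_apply, tw_apply, h₁.1, h₂.1, char_relatorU_red χ₁ hχ₁, char_relatorU_red χ₂ hχ₂,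
      map_one, map_one, one_mul, one_mul]
    exact map_one (blkU D)
  · intro j
    refine (hC j).trans ?_
    rw [bs_apply, tw_apply, tw_apply, hχ₁, hχ₂, map_one, map_one, one_mul, one_mul]
    exact blkU_conj D₀ D (h₁.2.1 j) (h₂.2.1 j)
  · exact bs_ss D y₁ y₂ χ₁ χ₂ h₁.2.2 h₂.2.2

theorem slU_slBlk (φ : R →+* ℂ) (e : Fin r₁ ⊕ Fin r₂ ≃ Fin r) (u : Rˣ) (m : Multiplicative ℤ)
    (A : SpecialLinearGroup (Fin r₁) R) (B : SpecialLinearGroup (Fin r₂) R) :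
    (slU φ (P002.slBlk e u m A B) : Mat r ℂ) = (P002.stdDec e).blk
      (φ (u ^ (m.toAdd * (r₂ : ℤ)) : Rˣ) • (slU φ A : Mat r₁ ℂ))
      (φ (u ^ (-(m.toAdd * (r₁ : ℤ))) : Rˣ) • (slU φ B : Mat r₂ ℂ)) :=
  P002.slU_slBlk φ e u m A B

/-- determinant of a matrix whose `N`-th power is unipotent -/
theorem det_pow_eq_one (X : Mat r ℂ) (N : ℕ) (h : IsNilpotent (X ^ N - 1)) : X.det ^ N = 1 := by
  have h1 : ∀ M : Mat r ℂ, IsNilpotent M → (1 + M).det = 1 := by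
    intro M hM
    have h2 := Matrix.isNilpotent_charpoly_sub_pow_of_isNilpotent hM
    have h3 : M.charpoly = Polynomial.X ^ r := by
      have := h2.eq_zero
      rw [Fintype.card_fin, sub_eq_zero] at this
      exact this
    have h4 := congrArg (Polynomial.eval (-1)) h3
    rw [Matrix.eval_charpoly, Polynomial.eval_pow, Polynomial.eval_X] at h4
    have h5 : Matrix.scalar (Fin r) (-1 : ℂ) - M = -(1 + M) := by
      rw [map_neg, map_one]
      abel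
    rw [h5, Matrix.det_neg, Fintype.card_fin] at h4
    have h6 : ((-1 : ℂ)) ^ r ≠ 0 := pow_ne_zero _ (by norm_num)
    exact mul_left_cancel₀ h6 (by rw [h4, mul_one])
  rw [← Matrix.det_pow]
  have := h1 _ h
  rwa [add_sub_cancel] at this

theorem nilp_conj {X Y : (Mat r ℂ)ˣ} (h : IsConj X Y) (N : ℕ)
    (hX : IsNilpotent ((X : Mat r ℂ) ^ N - 1)) : IsNilpotent ((Y : Mat r ℂ) ^ N - 1) := by
  obtain ⟨U, rfl⟩ := isConj_iff.mp h
  obtain ⟨k, hk⟩ := hX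
  refine ⟨k, ?_⟩
  have hpow : ∀ (M : Mat r ℂ) (k : ℕ), ((U : Mat r ℂ) * M * ((U⁻¹ : (Mat r ℂ)ˣ) : Mat r ℂ)) ^ k =
      (U : Mat r ℂ) * M ^ k * ((U⁻¹ : (Mat r ℂ)ˣ) : Mat r ℂ) := by
    intro M k
    exact Units.conj_pow U M k
  have h1 : ((U * X * U⁻¹ : (Mat r ℂ)ˣ) : Mat r ℂ) ^ N - 1 =
      (U : Mat r ℂ) * ((X : Mat r ℂ) ^ N - 1) * ((U⁻¹ : (Mat r ℂ)ˣ) : Mat r ℂ) := by
    rw [Units.val_mul, Units.val_mul, hpow, mul_sub, sub_mul, mul_one, ← Units.val_mul,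
      mul_inv_cancel, Units.val_one]
  rw [h1, hpow, hk, mul_zero, zero_mul]

/-- the block sum of the boundary matrices of two integral representations is integral -/
theorem blk_mem_GR (φ : R →+* ℂ) (hφ : Function.Injective φ) (N : ℕ) (hN : 0 < N)
    (hr1 : 0 < r₁) (hr2 : 0 < r₂) (hr : r₁ + r₂ = r)
    (hμ : ∀ k : ℕ, 0 < k → k ≤ r → ∀ z : ℂ, z ^ (N * k) = 1 → z ∈ Set.range φ)
    (e : Fin r₁ ⊕ Fin r₂ ≃ Fin r) {A : (Mat r₁ ℂ)ˣ} {B : (Mat r₂ ℂ)ˣ}
    (hA : A ∈ GR r₁ φ) (hB : B ∈ GR r₂ φ) (nA : IsNilpotent ((A : Mat r₁ ℂ) ^ N - 1))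
    (nB : IsNilpotent ((B : Mat r₂ ℂ) ^ N - 1)) : blkU (P002.stdDec e) (A, B) ∈ GR r φ := by
  have hlift : ∀ (k : ℕ) (_ : 0 < k) (_ : k ≤ r) (A : (Mat k ℂ)ˣ) (_ : A ∈ GR k φ)
      (_ : IsNilpotent ((A : Mat k ℂ) ^ N - 1)), ∃ Y : Mat k R, (A : Mat k ℂ) = Y.map φ ∧
        Y.det ^ N = 1 := by
    intro k hk hkr A hA nA
    obtain ⟨c, z, rfl⟩ := hA
    have hdet := det_pow_eq_one _ N nA
    rw [scalarU_mul_coe] at hdet nA ⊢
    have hz : (slU φ z : Mat k ℂ).det = 1 := by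
      rw [slU_coe, ← RingHom.mapMatrix_apply, ← RingHom.map_det, z.det_coe, map_one]
    rw [Matrix.det_smul, Fintype.card_fin, hz, mul_one, ← pow_mul, mul_comm] at hdet
    obtain ⟨γ, hγ⟩ := hμ k hk hkr _ hdet
    refine ⟨γ • (z : Mat k R), ?_, ?_⟩
    · rw [slU_coe]
      ext i j
      simp [hγ]
    · rw [Matrix.det_smul, Fintype.card_fin, z.det_coe, mul_one, ← pow_mul, mul_comm]
      apply hφ
      rw [map_pow, hγ, hdet, map_one]
  obtain ⟨Y, hY, hYd⟩ := hlift r₁ hr1 (by omega) A hA nA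
  obtain ⟨Z, hZ, hZd⟩ := hlift r₂ hr2 (by omega) B hB nB
  obtain ⟨c, hc⟩ := exists_root (r := r) φ hφ (by omega) N hN (hμ r (by omega) le_rfl)
    (Y.det * Z.det) (by rw [mul_pow, hYd, hZd, one_mul])
  refine mem_GR_of φ _ (Matrix.reindex e e (fromBlocks Y 0 0 Z)) ?_ c ?_
  · rw [blkU_coe, P002.stdDec_blk, hY, hZ]
    ext i j
    obtain ⟨i, rfl⟩ := e.surjective i
    obtain ⟨j, rfl⟩ := e.surjective j
    rcases i with i | i <;> rcases j with j | j <;> simp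
  · rw [Matrix.det_reindex_self, Matrix.det_fromBlocks_zero₂₁, hc]

/-- the tuple of block matrices with parameters -/
noncomputable def tup {S : Type*} [CommRing S] [Algebra ℂ S] (D : P002.Dec r r₁ r₂)
    (Z₁ : Fin g × Bool → Mat r₁ ℂ) (Z₂ : Fin g × Bool → Mat r₂ ℂ) (W₁ : Fin n → Mat r₁ ℂ)
    (W₂ : Fin n → Mat r₂ ℂ) (s t : Fin g × Bool → S) : GenU g n → Mat r S :=
  Sum.elim (fun k => D.blk (s k • (Z₁ k).map (algebraMap ℂ S)) (t k • (Z₂ k).map (algebraMap ℂ S)))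
    fun j => D.blk ((W₁ j).map (algebraMap ℂ S)) ((W₂ j).map (algebraMap ℂ S))

theorem tup_map {S T : Type*} [CommRing S] [Algebra ℂ S] [CommRing T] [Algebra ℂ T]
    (θ : S →ₐ[ℂ] T) (D : P002.Dec r r₁ r₂)
    (Z₁ : Fin g × Bool → Mat r₁ ℂ) (Z₂ : Fin g × Bool → Mat r₂ ℂ) (W₁ : Fin n → Mat r₁ ℂ)
    (W₂ : Fin n → Mat r₂ ℂ) (s t : Fin g × Bool → S) (k : GenU g n) :
    (tup D Z₁ Z₂ W₁ W₂ s t k).map θ =
      tup D Z₁ Z₂ W₁ W₂ (fun k => θ (s k)) (fun k => θ (t k)) k := by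
  rcases k with k | j
  · simp only [tup, Sum.elim_inl]
    rw [P002.Dec.blk_map]
    congr 1
    · ext i j
      simp
    · ext i j
      simp
  · simp only [tup, Sum.elim_inr]
    rw [P002.Dec.blk_map]
    congr 1
    · ext i j
      simp
    · ext i j
      simp

theorem tup_complex (D : P002.Dec r r₁ r₂)
    (Z₁ : Fin g × Bool → Mat r₁ ℂ) (Z₂ : Fin g × Bool → Mat r₂ ℂ) (W₁ : Fin n → Mat r₁ ℂ)
    (W₂ : Fin n → Mat r₂ ℂ) (s t : Fin g × Bool → ℂ) : tup D Z₁ Z₂ W₁ W₂ s t =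
      Sum.elim (fun k => D.blk (s k • Z₁ k) (t k • Z₂ k)) (fun j => D.blk (W₁ j) (W₂ j)) := by
  have h : ∀ {a b : ℕ} (M : Matrix (Fin a) (Fin b) ℂ), M.map (algebraMap ℂ ℂ) = M := by
    intro a b M
    ext i j
    simp
  unfold tup
  simp only [h]

/-- data of two integral pieces -/
structure TwoData (φ : R →+* ℂ) (g n r r₁ r₂ : ℕ) (C : Fin n → (Mat r ℂ)ˣ) where
  N : ℕ
  hN : 0 < N
  hr1 : 0 < r₁
  hr2 : 0 < r₂
  hr : r₁ + r₂ = r
  hμ : ∀ k : ℕ, 0 < k → k ≤ r → ∀ z : ℂ, z ^ (N * k) = 1 → z ∈ Set.range φ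
  C₁ : Fin n → (Mat r₁ ℂ)ˣ
  C₂ : Fin n → (Mat r₂ ℂ)ˣ
  D₀ : P002.Dec r r₁ r₂
  hC : ∀ j, IsConj (C j) (blkU D₀ (C₁ j, C₂ j))
  nC₁ : ∀ j, IsNilpotent ((C₁ j : Mat r₁ ℂ) ^ N - 1)
  nC₂ : ∀ j, IsNilpotent ((C₂ j : Mat r₂ ℂ) ^ N - 1)
  y₁ : FU g n →* (Mat r₁ ℂ)ˣ
  y₂ : FU g n →* (Mat r₂ ℂ)ˣ
  h₁ : y₁ ∈ DU g φ C₁
  h₂ : y₂ ∈ DU g φ C₂

theorem two_block_special (φ : R →+* ℂ) (hφ : Function.Injective φ) (u : Rˣ)
    {C : Fin n → (Mat r ℂ)ˣ} (d : TwoData φ g n r r₁ r₂ C) (D : P002.Dec r r₁ r₂)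
    (f : MvPolynomial (GenU g n × Fin r × Fin r) ℂ)
    (hf : ∀ y ∈ DU g φ C, evalG y f = 0)
    (c₁ c₂ : Fin g × Bool → ℂˣ) (z₁ : Fin g × Bool → SpecialLinearGroup (Fin r₁) R)
    (z₂ : Fin g × Bool → SpecialLinearGroup (Fin r₂) R)
    (hz₁ : ∀ k, d.y₁ (FreeGroup.of (Sum.inl k)) = scalarU (c₁ k) * slU φ (z₁ k))
    (hz₂ : ∀ k, d.y₂ (FreeGroup.of (Sum.inl k)) = scalarU (c₂ k) * slU φ (z₂ k))
    (m : Fin g × Bool → ℤ) (c : Fin g × Bool → ℂˣ) :
    evK (tup D (fun k => (slU φ (z₁ k) : Mat r₁ ℂ)) (fun k => (slU φ (z₂ k) : Mat r₂ ℂ))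
      (fun j => (d.y₁ (FreeGroup.of (Sum.inr j)) : Mat r₁ ℂ))
      (fun j => (d.y₂ (FreeGroup.of (Sum.inr j)) : Mat r₂ ℂ))
      (fun k => (c k : ℂ) * φ (u ^ (m k * (r₂ : ℤ)) : Rˣ))
      (fun k => (c k : ℂ) * φ (u ^ (-(m k * (r₁ : ℤ))) : Rˣ))) f = 0 := by
  let e : Fin r₁ ⊕ Fin r₂ ≃ Fin r := finSumFinEquiv.trans (finCongr d.hr)
  let v : ℂˣ := Units.map (φ : R →* ℂ) u
  have hv : ∀ a : ℤ, ((v ^ a : ℂˣ) : ℂ) = φ ((u ^ a : Rˣ) : R) := by
    intro a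
    simp only [v]
    rw [← map_zpow]
    rfl
  let χ₁ : FU g n →* ℂˣ := FreeGroup.lift
    (Sum.elim (fun k => c k * v ^ (m k * (r₂ : ℤ)) * (c₁ k)⁻¹) fun _ => 1)
  let χ₂ : FU g n →* ℂˣ := FreeGroup.lift
    (Sum.elim (fun k => c k * v ^ (-(m k * (r₁ : ℤ))) * (c₂ k)⁻¹) fun _ => 1)
  have hχ₁ : ∀ j, χ₁ (FreeGroup.of (Sum.inr j)) = 1 := fun j => by simp [χ₁]
  have hχ₂ : ∀ j, χ₂ (FreeGroup.of (Sum.inr j)) = 1 := fun j => by simp [χ₂]
  have hχ₁' : ∀ k, χ₁ (FreeGroup.of (Sum.inl k)) = c k * v ^ (m k * (r₂ : ℤ)) * (c₁ k)⁻¹ :=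
    fun k => by simp [χ₁]
  have hχ₂' : ∀ k, χ₂ (FreeGroup.of (Sum.inl k)) = c k * v ^ (-(m k * (r₁ : ℤ))) * (c₂ k)⁻¹ :=
    fun k => by simp [χ₂]
  set y : FU g n →* (Mat r ℂ)ˣ := bs (P002.stdDec e) (tw χ₁ d.y₁) (tw χ₂ d.y₂) with hy
  have hyl : ∀ k, (y (FreeGroup.of (Sum.inl k)) : Mat r ℂ) = (P002.stdDec e).blk
      (((c k : ℂ) * φ (u ^ (m k * (r₂ : ℤ)) : Rˣ)) • (slU φ (z₁ k) : Mat r₁ ℂ))
      (((c k : ℂ) * φ (u ^ (-(m k * (r₁ : ℤ))) : Rˣ)) • (slU φ (z₂ k) : Mat r₂ ℂ)) := by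
    intro k
    rw [hy, bs_apply, blkU_coe, tw_apply, tw_apply, hz₁, hz₂, ← mul_assoc, ← mul_assoc,
      ← map_mul, ← map_mul, hχ₁', hχ₂', inv_mul_cancel_right, inv_mul_cancel_right,
      scalarU_mul_coe, scalarU_mul_coe, Units.val_mul, Units.val_mul, hv, hv]
  have hyr : ∀ j, y (FreeGroup.of (Sum.inr j)) = blkU (P002.stdDec e)
      (d.y₁ (FreeGroup.of (Sum.inr j)), d.y₂ (FreeGroup.of (Sum.inr j))) := by
    intro j
    rw [hy, bs_apply, tw_apply, tw_apply, hχ₁, hχ₂, map_one, map_one, one_mul, one_mul]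
  have hyD : y ∈ DU g φ C := by
    refine ⟨bs_mem_YU d.D₀ d.hC d.h₁.1 d.h₂.1 χ₁ χ₂ hχ₁ hχ₂ _, ?_⟩
    rintro (k | j)
    · refine ⟨c k, P002.slBlk e u (Multiplicative.ofAdd (m k)) (z₁ k) (z₂ k), ?_⟩
      apply Units.ext
      rw [hyl, scalarU_mul_coe, slU_slBlk, P002.Dec.blk_complex, P002.Dec.blk_complex, smul_add]
      simp only [Matrix.mul_smul, Matrix.smul_mul, smul_smul, toAdd_ofAdd]
    · rw [hyr]
      exact blk_mem_GR φ hφ d.N d.hN d.hr1 d.hr2 d.hr d.hμ e (d.h₁.2 _) (d.h₂.2 _)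
        (nilp_conj (d.h₁.1.2.1 j) d.N (d.nC₁ j)) (nilp_conj (d.h₂.1.2.1 j) d.N (d.nC₂ j))
  have h := conj_vanish φ f hf y hyD (D.change (P002.stdDec e))
  rw [evalG_eq_evK] at h
  refine Eq.trans (congrArg (fun X => evK X f) (funext fun k => ?_)) h
  rw [tup_complex, conjH_apply, Units.val_mul, Units.val_mul]
  rcases k with k | j
  · rw [hyl, P002.Dec.change_conj]
    rfl
  · rw [hyr, blkU_coe, P002.Dec.change_conj]
    rfl

theorem two_block_all (φ : R →+* ℂ) (hφ : Function.Injective φ) (u : Rˣ)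
    (hu : ∀ k : ℕ, 0 < k → φ (u : R) ^ k ≠ 1)
    {C : Fin n → (Mat r ℂ)ˣ} (d : TwoData φ g n r r₁ r₂ C) (D : P002.Dec r r₁ r₂)
    (f : MvPolynomial (GenU g n × Fin r × Fin r) ℂ)
    (hf : ∀ y ∈ DU g φ C, evalG y f = 0)
    (c₁ c₂ : Fin g × Bool → ℂˣ) (z₁ : Fin g × Bool → SpecialLinearGroup (Fin r₁) R)
    (z₂ : Fin g × Bool → SpecialLinearGroup (Fin r₂) R)
    (hz₁ : ∀ k, d.y₁ (FreeGroup.of (Sum.inl k)) = scalarU (c₁ k) * slU φ (z₁ k))
    (hz₂ : ∀ k, d.y₂ (FreeGroup.of (Sum.inl k)) = scalarU (c₂ k) * slU φ (z₂ k))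
    (s t : Fin g × Bool → ℂˣ) :
    evK (tup D (fun k => (slU φ (z₁ k) : Mat r₁ ℂ)) (fun k => (slU φ (z₂ k) : Mat r₂ ℂ))
      (fun j => (d.y₁ (FreeGroup.of (Sum.inr j)) : Mat r₁ ℂ))
      (fun j => (d.y₂ (FreeGroup.of (Sum.inr j)) : Mat r₂ ℂ))
      (fun k => (s k : ℂ)) (fun k => (t k : ℂ))) f = 0 := by
  have hr0 : 0 < r := by have := d.hr1; have := d.hr; omega
  have hr := d.hr
  let L := MvPolynomial (Fin g × Bool) ℂ
  let G : L := evK (tup D (fun k => (slU φ (z₁ k) : Mat r₁ ℂ)) (fun k => (slU φ (z₂ k) : Mat r₂ ℂ))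
      (fun j => (d.y₁ (FreeGroup.of (Sum.inr j)) : Mat r₁ ℂ))
      (fun j => (d.y₂ (FreeGroup.of (Sum.inr j)) : Mat r₂ ℂ))
      (fun k => (MvPolynomial.X k * MvPolynomial.C (t k : ℂ) : L))
      (fun k => (MvPolynomial.C (t k : ℂ) : L))) f
  have hG : ∀ ρ : Fin g × Bool → ℂ, MvPolynomial.eval ρ G =
      evK (tup D (fun k => (slU φ (z₁ k) : Mat r₁ ℂ)) (fun k => (slU φ (z₂ k) : Mat r₂ ℂ))
      (fun j => (d.y₁ (FreeGroup.of (Sum.inr j)) : Mat r₁ ℂ))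
      (fun j => (d.y₂ (FreeGroup.of (Sum.inr j)) : Mat r₂ ℂ))
      (fun k => ρ k * (t k : ℂ)) (fun k => (t k : ℂ))) f := by
    intro ρ
    have h0 : MvPolynomial.eval ρ G = (MvPolynomial.aeval ρ : L →ₐ[ℂ] ℂ) G := by
      rw [← MvPolynomial.coe_aeval_eq_eval]
      rfl
    rw [h0]
    simp only [G]
    rw [evK_map]
    refine congrArg (fun X => evK X f) (funext fun k => ?_)
    rw [tup_map]
    congr 1
    · funext k
      simp
    · funext k
      simp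
  have hφu : φ (u : R) ≠ 0 := (u.isUnit.map φ).ne_zero
  let Λ : Set ℂ := Set.range fun m : ℕ => φ (u : R) ^ (r * m)
  have hΛ : Λ.Infinite := by
    apply Set.infinite_range_of_injective
    intro a b h
    have := phi_pow_inj φ u hu h
    exact Nat.eq_of_mul_eq_mul_left hr0 this
  have hG0 : G = 0 := by
    refine MvPolynomial.funext_set (fun _ => Λ) (fun _ => hΛ) ?_
    intro ρ hρ
    rw [map_zero, hG]
    choose m hm using fun k => hρ k (Set.mem_univ k)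
    let c : Fin g × Bool → ℂˣ := fun k =>
      t k * (Units.map (φ : R →* ℂ) u) ^ ((m k : ℤ) * (r₁ : ℤ))
    have h := two_block_special φ hφ u d D f hf c₁ c₂ z₁ z₂ hz₁ hz₂ (fun k => (m k : ℤ)) c
    have hpow : ∀ a : ℤ, φ ((u ^ a : Rˣ) : R) = (((Units.map (φ : R →* ℂ) u) ^ a : ℂˣ) : ℂ) := by
      intro a
      rw [← map_zpow]
      rfl
    have e1 : (fun k => ρ k * (t k : ℂ)) =
        fun k => (c k : ℂ) * φ ((u ^ ((m k : ℤ) * (r₂ : ℤ)) : Rˣ) : R) := by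
      funext k
      rw [hpow]
      simp only [c]
      rw [← Units.val_mul, mul_assoc, ← _root_.zpow_add]
      have : (m k : ℤ) * (r₁ : ℤ) + (m k : ℤ) * (r₂ : ℤ) = ((r * m k : ℕ) : ℤ) := by
        push_cast [← hr]
        ring
      have hmk : ρ k = φ (u : R) ^ (r * m k) := (hm k).symm
      rw [this, zpow_natCast, hmk, Units.val_mul, Units.val_pow_eq_pow_val, mul_comm]
      rfl
    have e2 : (fun k => (t k : ℂ)) =
        fun k => (c k : ℂ) * φ ((u ^ (-((m k : ℤ) * (r₁ : ℤ))) : Rˣ) : R) := by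
      funext k
      rw [hpow]
      simp only [c]
      rw [← Units.val_mul, mul_assoc, ← _root_.zpow_add, add_neg_cancel, zpow_zero, mul_one]
    rw [e1, e2]
    exact h
  have h := hG fun k => (s k : ℂ) * ((t k)⁻¹ : ℂˣ)
  rw [hG0, map_zero] at h
  have e3 : (fun k => (s k : ℂ) * (((t k)⁻¹ : ℂˣ) : ℂ) * (t k : ℂ)) = fun k => (s k : ℂ) := by
    funext k
    rw [mul_assoc, ← Units.val_mul, inv_mul_cancel, Units.val_one, mul_one]
  rw [e3] at h
  exact h.symm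

theorem two_block_DU (φ : R →+* ℂ) (hφ : Function.Injective φ) (u : Rˣ)
    (hu : ∀ k : ℕ, 0 < k → φ (u : R) ^ k ≠ 1)
    {C : Fin n → (Mat r ℂ)ˣ} (d : TwoData φ g n r r₁ r₂ C) (D : P002.Dec r r₁ r₂)
    (f : MvPolynomial (GenU g n × Fin r × Fin r) ℂ)
    (hf : ∀ y ∈ DU g φ C, evalG y f = 0) :
    evK (fun k => D.blk (d.y₁ (FreeGroup.of k) : Mat r₁ ℂ) (d.y₂ (FreeGroup.of k) : Mat r₂ ℂ)) f
      = 0 := by
  choose c₁ z₁ hz₁ using fun k : Fin g × Bool => d.h₁.2 (Sum.inl k)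
  choose c₂ z₂ hz₂ using fun k : Fin g × Bool => d.h₂.2 (Sum.inl k)
  have h := two_block_all φ hφ u hu d D f hf c₁ c₂ z₁ z₂ hz₁ hz₂ c₁ c₂
  refine Eq.trans (congrArg (fun X => evK X f) (funext fun k => ?_)) h
  rw [tup_complex]
  rcases k with k | j
  · rw [Sum.elim_inl, hz₁, hz₂, scalarU_mul_coe, scalarU_mul_coe]
  · rfl

/-- the polynomial in the first block -/
theorem exists_poly₁ {κ : Type*} (D : P002.Dec r r₁ r₂) (f : MvPolynomial (κ × Fin r × Fin r) ℂ)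
    (Y₂ : κ → Mat r₂ ℂ) :
    ∃ f₁ : MvPolynomial (κ × Fin r₁ × Fin r₁) ℂ, ∀ y₁ : FreeGroup κ →* (Mat r₁ ℂ)ˣ,
      evalG y₁ f₁ = evK (fun k => D.blk (y₁ (FreeGroup.of k) : Mat r₁ ℂ) (Y₂ k)) f := by
  let L := MvPolynomial (κ × Fin r₁ × Fin r₁) ℂ
  refine ⟨evK (fun k => D.blk (Matrix.of fun i j => (MvPolynomial.X (k, i, j) : L))
    ((Y₂ k).map MvPolynomial.C)) f, ?_⟩
  intro y₁
  unfold evalG
  rw [evK_map]
  refine congrArg (fun X => evK X f) (funext fun k => ?_)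
  rw [P002.Dec.blk_map]
  congr 1
  · ext i j
    simp
  · ext i j
    simp

theorem exists_poly₂ {κ : Type*} (D : P002.Dec r r₁ r₂) (f : MvPolynomial (κ × Fin r × Fin r) ℂ)
    (Y₁ : κ → Mat r₁ ℂ) :
    ∃ f₂ : MvPolynomial (κ × Fin r₂ × Fin r₂) ℂ, ∀ y₂ : FreeGroup κ →* (Mat r₂ ℂ)ˣ,
      evalG y₂ f₂ = evK (fun k => D.blk (Y₁ k) (y₂ (FreeGroup.of k) : Mat r₂ ℂ)) f := by
  let L := MvPolynomial (κ × Fin r₂ × Fin r₂) ℂ
  refine ⟨evK (fun k => D.blk ((Y₁ k).map MvPolynomial.C)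
    (Matrix.of fun i j => (MvPolynomial.X (k, i, j) : L))) f, ?_⟩
  intro y₂
  unfold evalG
  rw [evK_map]
  refine congrArg (fun X => evK X f) (funext fun k => ?_)
  rw [P002.Dec.blk_map]
  congr 1
  · ext i j
    simp
  · ext i j
    simp

end TwoBlock

section Main

variable {g n : ℕ} {R : Type*} [CommRing R]

/-- TASK L (file RReducible.lean) -/
theorem partIV (φ : R →+* ℂ) (hφ : Function.Injective φ) (u : Rˣ)
    (hu : ∀ k : ℕ, 0 < k → φ (u : R) ^ k ≠ 1) (N : ℕ) (hN : 0 < N) (r : ℕ)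
    (hμ : ∀ k : ℕ, 0 < k → k ≤ r → ∀ z : ℂ, z ^ (N * k) = 1 → z ∈ Set.range φ)
    (hirr : ∀ r' ≤ r, 0 < r' → ∀ C : Fin n → (Mat r' ℂ)ˣ,
      (∀ j, IsNilpotent ((C j : Mat r' ℂ) ^ N - 1)) → ∀ x ∈ YU g C,
      (∀ M : Mat r' ℂ, (∀ w, Commute M (x w : Mat r' ℂ)) → ∃ c : ℂ, M = c • (1 : Mat r' ℂ)) →
      ∀ f : MvPolynomial (GenU g n × Fin r' × Fin r') ℂ,
        (∀ y ∈ DU g φ C, evalG y f = 0) → evalG x f = 0)
    (C : Fin n → (Mat r ℂ)ˣ) (hC : ∀ j, IsNilpotent ((C j : Mat r ℂ) ^ N - 1))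
    (x : FU g n →* (Mat r ℂ)ˣ) (hx : x ∈ YU g C)
    (f : MvPolynomial (GenU g n × Fin r × Fin r) ℂ)
    (hf : ∀ y ∈ DU g φ C, evalG y f = 0) : evalG x f = 0 := by
  induction r using Nat.strong_induction_on with
  | _ r ih =>
  rcases Nat.eq_zero_or_pos r with rfl | hr0
  · refine hf x ⟨hx, fun k => ?_⟩
    have h1 : x (FreeGroup.of k) = 1 := by
      apply Units.ext
      exact Subsingleton.elim _ _
    rw [h1]
    exact (GR 0 φ).one_mem
  by_cases hc : ∀ M : Mat r ℂ, (∀ w, Commute M (x w : Mat r ℂ)) → ∃ c : ℂ, M = c • (1 : Mat r ℂ)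
  · exact hirr r le_rfl hr0 C hC x hx hc f hf
  push Not at hc
  obtain ⟨M, hM, hMs⟩ := hc
  obtain ⟨hrel, hconj, hss⟩ := hx
  have : Nonempty (Fin r) := ⟨⟨0, hr0⟩⟩
  obtain ⟨μ, hμM⟩ := Module.End.exists_eigenvalue (Matrix.mulVecLin M)
  let E₁ : Submodule ℂ (Fin r → ℂ) := Module.End.eigenspace (Matrix.mulVecLin M) μ
  have hE1 : E₁ ≠ ⊥ := hμM
  have hE1' : E₁ ≠ ⊤ := by
    intro htop
    apply hMs μ
    ext i j
    have hm : (Pi.single j 1 : Fin r → ℂ) ∈ E₁ := by rw [htop]; trivial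
    rw [Module.End.mem_eigenspace_iff, Matrix.mulVecLin_apply] at hm
    have := congrFun hm i
    simpa [Matrix.one_apply, Pi.single_apply, eq_comm] using this
  have hinv1 : P002.InvS x E₁ := by
    intro w v hv
    rw [Module.End.mem_eigenspace_iff, Matrix.mulVecLin_apply] at hv ⊢
    rw [mulVec_mulVec, (hM w).eq, ← mulVec_mulVec, hv, mulVec_smul]
  obtain ⟨E₂, hinv2, hcompl⟩ := hss E₁ hinv1
  obtain ⟨D, hD1, hD2⟩ := P002.exists_dec E₁ E₂ hcompl
  have hsum : Module.finrank ℂ E₁ + Module.finrank ℂ E₂ = r := by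
    rw [Submodule.finrank_add_eq_of_isCompl hcompl]
    simp
  have hlt1 : Module.finrank ℂ E₁ < r := by
    have := Submodule.finrank_lt hE1'
    simpa using this
  have hpos1 : 0 < Module.finrank ℂ E₁ := by
    rw [Module.finrank_pos_iff]
    exact Submodule.nontrivial_iff_ne_bot.mpr hE1
  have hlt2 : Module.finrank ℂ E₂ < r := by omega
  have hpos2 : 0 < Module.finrank ℂ E₂ := by omega
  have hm1 : ∀ w, (x w : Mat r ℂ) * D.P₁ = D.P₁ * (D.Q₁ * (x w : Mat r ℂ) * D.P₁) := by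
    intro w
    apply D.mul_P₁
    rw [hD1]
    exact hinv1 w
  have hm2 : ∀ w, (x w : Mat r ℂ) * D.P₂ = D.P₂ * (D.Q₂ * (x w : Mat r ℂ) * D.P₂) := by
    intro w
    apply D.mul_P₂
    rw [hD2]
    exact hinv2 w
  set x₁ := P002.compr x D.P₁ D.Q₁ D.h11 hm1 with hx1
  set x₂ := P002.compr x D.P₂ D.Q₂ D.h22 hm2 with hx2
  have hs1 : SS x₁ := P002.compr_ss x hss _ _ _ _
  have hs2 : SS x₂ := P002.compr_ss x hss _ _ _ _
  have hrel1 : x₁ (relatorU g n) = 1 := by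
    apply Units.ext
    rw [hx1, P002.compr_apply, hrel]
    simp [D.h11]
  have hrel2 : x₂ (relatorU g n) = 1 := by
    apply Units.ext
    rw [hx2, P002.compr_apply, hrel]
    simp [D.h22]
  have hblk : ∀ w, (x w : Mat r ℂ) = D.blk (x₁ w : Mat _ ℂ) (x₂ w : Mat _ ℂ) := by
    intro w
    rw [P002.Dec.blk_complex, hx1, hx2, P002.compr_apply, P002.compr_apply, ← hm1, ← hm2,
      Matrix.mul_assoc, Matrix.mul_assoc, ← Matrix.mul_add, D.hs, Matrix.mul_one]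
  -- the boundary classes of the pieces
  let C₁ : Fin n → (Mat (Module.finrank ℂ E₁) ℂ)ˣ := fun j => x₁ (FreeGroup.of (Sum.inr j))
  let C₂ : Fin n → (Mat (Module.finrank ℂ E₂) ℂ)ˣ := fun j => x₂ (FreeGroup.of (Sum.inr j))
  have hCblk : ∀ j, IsConj (C j) (blkU D (C₁ j, C₂ j)) := by
    intro j
    have : blkU D (C₁ j, C₂ j) = x (FreeGroup.of (Sum.inr j)) := by
      apply Units.ext
      rw [blkU_coe, hblk]
    rw [this]
    exact hconj j
  have hnil : ∀ j, IsNilpotent ((C₁ j : Mat (Module.finrank ℂ E₁) ℂ) ^ N - 1) ∧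
      IsNilpotent ((C₂ j : Mat (Module.finrank ℂ E₂) ℂ) ^ N - 1) := by
    intro j
    obtain ⟨k, hk⟩ := nilp_conj (hCblk j) N (hC j)
    rw [blkU_coe] at hk
    have hpow : ∀ (A : Mat (Module.finrank ℂ E₁) ℂ) (B : Mat (Module.finrank ℂ E₂) ℂ) (k : ℕ),
        (D.blk A B) ^ k = D.blk (A ^ k) (B ^ k) := by
      intro A B k
      induction k with
      | zero => rw [pow_zero, pow_zero, pow_zero, P002.Dec.blk_one]
      | succ k ih => rw [pow_succ, ih, P002.Dec.blk_mul, pow_succ, pow_succ]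
    have hsub : ∀ (A : Mat (Module.finrank ℂ E₁) ℂ) (B : Mat (Module.finrank ℂ E₂) ℂ),
        D.blk A B - 1 = D.blk (A - 1) (B - 1) := by
      intro A B
      rw [← P002.Dec.blk_one D]
      simp only [P002.Dec.blk_complex, Matrix.mul_sub, Matrix.sub_mul]
      abel
    rw [hpow, hsub, hpow] at hk
    have hQ1 : ∀ (A : Mat (Module.finrank ℂ E₁) ℂ) (B : Mat (Module.finrank ℂ E₂) ℂ),
        D.Q₁ * D.blk A B * D.P₁ = A := by
      intro A B
      rw [P002.Dec.blk_complex, Matrix.mul_add, Matrix.add_mul]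
      have e1 : D.Q₁ * (D.P₁ * A * D.Q₁) * D.P₁ = (D.Q₁ * D.P₁) * A * (D.Q₁ * D.P₁) := by
        simp only [Matrix.mul_assoc]
      have e2 : D.Q₁ * (D.P₂ * B * D.Q₂) * D.P₁ = (D.Q₁ * D.P₂) * B * (D.Q₂ * D.P₁) := by
        simp only [Matrix.mul_assoc]
      rw [e1, e2, D.h11, D.h12]
      simp
    have hQ2 : ∀ (A : Mat (Module.finrank ℂ E₁) ℂ) (B : Mat (Module.finrank ℂ E₂) ℂ),
        D.Q₂ * D.blk A B * D.P₂ = B := by
      intro A B
      rw [P002.Dec.blk_complex, Matrix.mul_add, Matrix.add_mul]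
      have e1 : D.Q₂ * (D.P₁ * A * D.Q₁) * D.P₂ = (D.Q₂ * D.P₁) * A * (D.Q₁ * D.P₂) := by
        simp only [Matrix.mul_assoc]
      have e2 : D.Q₂ * (D.P₂ * B * D.Q₂) * D.P₂ = (D.Q₂ * D.P₂) * B * (D.Q₂ * D.P₂) := by
        simp only [Matrix.mul_assoc]
      rw [e1, e2, D.h21, D.h22]
      simp
    refine ⟨⟨k, ?_⟩, ⟨k, ?_⟩⟩
    · have := hQ1 (((C₁ j : Mat (Module.finrank ℂ E₁) ℂ) ^ N - 1) ^ k)
        (((C₂ j : Mat (Module.finrank ℂ E₂) ℂ) ^ N - 1) ^ k)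
      rw [hk, Matrix.mul_zero, Matrix.zero_mul] at this
      exact this.symm
    · have := hQ2 (((C₁ j : Mat (Module.finrank ℂ E₁) ℂ) ^ N - 1) ^ k)
        (((C₂ j : Mat (Module.finrank ℂ E₂) ℂ) ^ N - 1) ^ k)
      rw [hk, Matrix.mul_zero, Matrix.zero_mul] at this
      exact this.symm
  have hY1 : x₁ ∈ YU g C₁ := ⟨hrel1, fun j => IsConj.refl _, hs1⟩
  have hY2 : x₂ ∈ YU g C₂ := ⟨hrel2, fun j => IsConj.refl _, hs2⟩
  have step1 : ∀ y₂ ∈ DU g φ C₂,
      evK (fun k => D.blk (x₁ (FreeGroup.of k) : Mat _ ℂ) (y₂ (FreeGroup.of k) : Mat _ ℂ)) f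
        = 0 := by
    intro y₂ hy₂
    obtain ⟨f₁, hf₁⟩ := exists_poly₁ D f (fun k => (y₂ (FreeGroup.of k) : Mat _ ℂ))
    rw [← hf₁]
    refine ih _ hlt1 (fun k hk hk' => hμ k hk (hk'.trans hlt1.le))
      (fun r' hr' => hirr r' (hr'.trans hlt1.le)) C₁ (fun j => (hnil j).1) x₁ hY1 f₁ ?_
    intro y₁ hy₁
    rw [hf₁]
    exact two_block_DU φ hφ u hu
      { N := N, hN := hN, hr1 := hpos1, hr2 := hpos2, hr := hsum, hμ := hμ, C₁ := C₁, C₂ := C₂,
        D₀ := D, hC := hCblk, nC₁ := fun j => (hnil j).1, nC₂ := fun j => (hnil j).2, y₁ := y₁,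
        y₂ := y₂, h₁ := hy₁, h₂ := hy₂ } D f hf
  have step2 : evK (fun k => D.blk (x₁ (FreeGroup.of k) : Mat _ ℂ)
      (x₂ (FreeGroup.of k) : Mat _ ℂ)) f = 0 := by
    obtain ⟨f₂, hf₂⟩ := exists_poly₂ D f (fun k => (x₁ (FreeGroup.of k) : Mat _ ℂ))
    rw [← hf₂]
    refine ih _ hlt2 (fun k hk hk' => hμ k hk (hk'.trans hlt2.le))
      (fun r' hr' => hirr r' (hr'.trans hlt2.le)) C₂ (fun j => (hnil j).2) x₂ hY2 f₂ ?_
    intro y₂ hy₂
    rw [hf₂]
    exact step1 y₂ hy₂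
  rw [evalG_eq_evK]
  refine Eq.trans (congrArg (fun X => evK X f) (funext fun k => ?_)) step2
  exact hblk _

end Main

end Vale.Agent.P002R
end

section

/-! TASK G1: reducible case, general groups and coefficients. -/

namespace Vale.Agent.P002R

open Matrix

section ConjG

variable {r : ℕ}

theorem conj_vanish_gen {K : Type} (D : Set (FreeGroup K →* (Mat r ℂ)ˣ))
    (hD : ∀ y ∈ D, ∀ X : SpecialLinearGroup (Fin r) ℤ,
      conjH (slU (Int.castRingHom ℂ) X) y ∈ D)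
    (f : MvPolynomial (K × Fin r × Fin r) ℂ) (hf : ∀ y ∈ D, evalG y f = 0)
    (y : FreeGroup K →* (Mat r ℂ)ˣ) (hy : y ∈ D) (U : (Mat r ℂ)ˣ) :
    evalG (conjH U y) f = 0 := by
  classical
  obtain ⟨N, H, hH⟩ := P002.exists_homog f
  let XX : Mat r (MvPolynomial (Fin r × Fin r) ℂ) := Matrix.of fun i j => MvPolynomial.X (i, j)
  let Y : K → Mat r ℂ := fun k => (y (FreeGroup.of k) : Mat r ℂ)
  let Z : K → Mat r (MvPolynomial (Fin r × Fin r) ℂ) := fun k =>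
    XX * (Y k).map MvPolynomial.C * XX.adjugate
  let G : MvPolynomial (Fin r × Fin r) ℂ :=
    MvPolynomial.aeval (fun o : Option (K × Fin r × Fin r) =>
      o.elim XX.det fun p => Z p.1 p.2.1 p.2.2) H
  have key : ∀ U : (Mat r ℂ)ˣ, MvPolynomial.eval (fun p => (U : Mat r ℂ) p.1 p.2) G =
      (U : Mat r ℂ).det ^ N * evalG (conjH U y) f := by
    intro U
    let ev : MvPolynomial (Fin r × Fin r) ℂ →ₐ[ℂ] ℂ :=
      MvPolynomial.aeval fun p => (U : Mat r ℂ) p.1 p.2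
    have hev : ∀ q, MvPolynomial.eval (fun p => (U : Mat r ℂ) p.1 p.2) q = ev q := by
      intro q
      rw [← MvPolynomial.coe_aeval_eq_eval]
      rfl
    have h1 : XX.map ev = (U : Mat r ℂ) := by
      ext i j
      simp [XX, ev]
    have hdet : ev XX.det = (U : Mat r ℂ).det := by
      rw [← h1]
      exact AlgHom.map_det ev XX
    have hadj : XX.adjugate.map ev = (U : Mat r ℂ).adjugate := by
      rw [← h1]
      exact AlgHom.map_adjugate ev XX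
    have hY : ∀ k, ((Y k).map MvPolynomial.C).map ev = Y k := by
      intro k
      ext i j
      simp [ev]
    have hd0 : (U : Mat r ℂ).det ≠ 0 := by
      have := (Matrix.isUnit_iff_isUnit_det _).mp U.isUnit
      exact this.ne_zero
    rw [hev]
    simp only [G]
    rw [← AlgHom.comp_apply, MvPolynomial.comp_aeval]
    have h2 : (fun o : Option (K × Fin r × Fin r) =>
        ev (o.elim XX.det fun p => Z p.1 p.2.1 p.2.2)) =
        fun o => o.elim (U : Mat r ℂ).det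
          fun p => ((U : Mat r ℂ) * Y p.1 * (U : Mat r ℂ).adjugate) p.2.1 p.2.2 := by
      funext o
      cases o with
      | none => simpa using hdet
      | some p =>
        simp only [Option.elim_some]
        have h3 : (Z p.1).map ev =
            (U : Mat r ℂ) * Y p.1 * (U : Mat r ℂ).adjugate := by
          simp only [Z]
          rw [Matrix.map_mul, Matrix.map_mul, h1, hY, hadj]
        rw [← h3]
        rfl
    have h4 := hH (U : Mat r ℂ).det hd0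
      (fun p => ((U : Mat r ℂ) * Y p.1 * (U : Mat r ℂ).adjugate) p.2.1 p.2.2)
    rw [← MvPolynomial.coe_aeval_eq_eval] at h4
    rw [h2]
    refine h4.trans ?_
    congr 1
    rw [evalG_eqn, ← MvPolynomial.coe_aeval_eq_eval]
    have h5 : (fun p : K × Fin r × Fin r => (U : Mat r ℂ).det⁻¹ *
        ((U : Mat r ℂ) * Y p.1 * (U : Mat r ℂ).adjugate) p.2.1 p.2.2) =
        fun p => ((conjH U y (FreeGroup.of p.1) : (Mat r ℂ)ˣ) : Mat r ℂ) p.2.1 p.2.2 := by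
      funext p
      have h6 : ((U⁻¹ : (Mat r ℂ)ˣ) : Mat r ℂ) =
          (U : Mat r ℂ).det⁻¹ • (U : Mat r ℂ).adjugate := by
        rw [Matrix.coe_units_inv, Matrix.inv_def, Ring.inverse_eq_inv']
      rw [conjH_apply, Units.val_mul, Units.val_mul, h6, Matrix.mul_smul, Matrix.smul_apply,
        smul_eq_mul]
    rw [h5]
    rfl
  have hG : G = 0 := by
    apply P002.scaledSL_dense
    intro c X
    let U : (Mat r ℂ)ˣ := scalarU c * slU (Int.castRingHom ℂ) X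
    have hU : (fun p : Fin r × Fin r => (c : ℂ) * ((X.1 p.1 p.2 : ℤ) : ℂ)) =
        fun p => (U : Mat r ℂ) p.1 p.2 := by
      funext p
      simp only [U]
      rw [scalarU_mul_coe, Matrix.smul_apply, smul_eq_mul, slU_coe]
      simp
    rw [hU, key]
    have hc : conjH U y = conjH (slU (Int.castRingHom ℂ) X) y := by
      ext1 w
      rw [conjH_apply, conjH_apply]
      have : U * y (FreeGroup.of w) * U⁻¹ = scalarU c * (slU (Int.castRingHom ℂ) X *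
          y (FreeGroup.of w) * (slU (Int.castRingHom ℂ) X)⁻¹) * (scalarU c)⁻¹ := by
        simp only [U]
        group
      rw [this, scalarU_comm]
      group
    rw [hc, hf _ (hD y hy X), mul_zero]
  have h := key U
  rw [hG, map_zero] at h
  have hd0 : (U : Mat r ℂ).det ≠ 0 := by
    have := (Matrix.isUnit_iff_isUnit_det _).mp U.isUnit
    exact this.ne_zero
  rcases mul_eq_zero.mp h.symm with h | h
  · exact absurd h (pow_ne_zero _ hd0)
  · exact h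

variable {κ ι : Type} {Rel : Set (FreeGroup (κ ⊕ ι))}

theorem conjH_mem_YG {C : ι → (Mat r ℂ)ˣ} {y : FreeGroup (κ ⊕ ι) →* (Mat r ℂ)ˣ}
    (hy : y ∈ YG Rel C) (U : (Mat r ℂ)ˣ) : conjH U y ∈ YG Rel C := by
  obtain ⟨h1, h2, h3⟩ := hy
  refine ⟨?_, ?_, ?_⟩
  · intro w hw
    rw [conjH_apply, h1 w hw, mul_one, mul_inv_cancel]
  · intro j
    refine (h2 j).trans ?_
    rw [isConj_iff]
    exact ⟨U, (conjH_apply _ _ _).symm⟩
  · exact P002.SS.conj U (fun w => conjH_apply _ _ w) h3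

theorem conjH_mem_DG {R : Type*} [CommRing R] (φ : R →+* ℂ) {C : ι → (Mat r ℂ)ˣ}
    {y : FreeGroup (κ ⊕ ι) →* (Mat r ℂ)ˣ} (hy : y ∈ DG Rel φ C)
    (X : SpecialLinearGroup (Fin r) ℤ) :
    conjH (slU (Int.castRingHom ℂ) X) y ∈ DG Rel φ C := by
  refine ⟨conjH_mem_YG hy.1 _, fun k => ?_⟩
  rw [conjH_apply]
  exact (GR r φ).mul_mem ((GR r φ).mul_mem (slU_int_mem_GR φ X) (hy.2 k))
    ((GR r φ).inv_mem (slU_int_mem_GR φ X))

end ConjG

section EigE

variable {r r₁ r₂ : ℕ} {E : Subgroup ℂˣ}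

/-- Conditions on the coefficient ring, without `-1 ∈ E`. -/
structure CoefOK' {R : Type*} [CommRing R] (φ : R →+* ℂ) (E : Subgroup ℂˣ) (r : ℕ) : Prop where
  inj : Function.Injective φ
  root : ∀ k : ℕ, 0 < k → k ≤ r → ∀ z : ℂˣ, z ^ k ∈ E → (z : ℂ) ∈ Set.range φ
  unit : ∃ u : Rˣ, ∀ k : ℕ, 0 < k → Units.map (φ : R →* ℂ) u ^ k ∉ E

theorem CoefOK.weak {R : Type*} [CommRing R] {φ : R →+* ℂ} (hc : CoefOK φ E r) :
    CoefOK' φ E r where
  inj := hc.inj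
  root := hc.root
  unit := hc.unit

theorem CoefOK'.mono {R : Type*} [CommRing R] {φ : R →+* ℂ} {r' : ℕ} (hc : CoefOK' φ E r)
    (h : r' ≤ r) : CoefOK' φ E r' where
  inj := hc.inj
  root := fun k hk hk' z hz => hc.root k hk (hk'.trans h) z hz
  unit := hc.unit

theorem EigIn.det {M : Mat r ℂ} (h : EigIn E M) : ∃ e ∈ E, (e : ℂ) = M.det := by
  rw [Matrix.det_eq_prod_roots_charpoly]
  have key : ∀ s : Multiset ℂ, (∀ z ∈ s, ∃ e ∈ E, (e : ℂ) = z) → ∃ e ∈ E, (e : ℂ) = s.prod := by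
    intro s
    induction s using Multiset.induction_on with
    | empty => exact fun _ => ⟨1, E.one_mem, by simp⟩
    | cons a s ih =>
      intro hs
      obtain ⟨e, he, he'⟩ := hs a (Multiset.mem_cons_self a s)
      obtain ⟨e₁, he₁, he₁'⟩ := ih fun z hz => hs z (Multiset.mem_cons_of_mem hz)
      exact ⟨e * e₁, E.mul_mem he he₁, by rw [Units.val_mul, he', he₁', Multiset.prod_cons]⟩
  apply key
  intro z hz
  exact h z (Polynomial.isRoot_of_mem_roots hz)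

theorem EigIn.conj {X Y : (Mat r ℂ)ˣ} (h : IsConj X Y) (hX : EigIn E (X : Mat r ℂ)) :
    EigIn E (Y : Mat r ℂ) := by
  obtain ⟨U, rfl⟩ := isConj_iff.mp h
  intro z hz
  apply hX z
  rwa [Units.val_mul, Units.val_mul, Matrix.coe_units_inv, Matrix.charpoly_units_conj] at hz

theorem isRoot_charpoly_of_mulVec {M : Mat r ℂ} {z : ℂ} {v : Fin r → ℂ} (hv : v ≠ 0)
    (h : M *ᵥ v = z • v) : M.charpoly.IsRoot z := by
  rw [Polynomial.IsRoot.def, Matrix.eval_charpoly, ← Matrix.exists_mulVec_eq_zero_iff]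
  refine ⟨v, hv, ?_⟩
  rw [Matrix.sub_mulVec, h, Matrix.scalar_apply, Matrix.diagonal_const_mulVec]
  simp

theorem exists_mulVec_of_isRoot {M : Mat r ℂ} {z : ℂ} (h : M.charpoly.IsRoot z) :
    ∃ v : Fin r → ℂ, v ≠ 0 ∧ M *ᵥ v = z • v := by
  rw [Polynomial.IsRoot.def, Matrix.eval_charpoly, ← Matrix.exists_mulVec_eq_zero_iff] at h
  obtain ⟨v, hv, hv'⟩ := h
  refine ⟨v, hv, ?_⟩
  rw [Matrix.sub_mulVec, Matrix.scalar_apply, Matrix.diagonal_const_mulVec, sub_eq_zero] at hv'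
  exact hv'.symm

theorem EigIn.blk {D : P002.Dec r r₁ r₂} {A : (Mat r₁ ℂ)ˣ} {B : (Mat r₂ ℂ)ˣ}
    (h : EigIn E (blkU D (A, B) : Mat r ℂ)) :
    EigIn E (A : Mat r₁ ℂ) ∧ EigIn E (B : Mat r₂ ℂ) := by
  rw [blkU_coe] at h
  constructor
  · intro z hz
    obtain ⟨v, hv, hv'⟩ := exists_mulVec_of_isRoot hz
    refine h z (isRoot_charpoly_of_mulVec (v := D.P₁ *ᵥ v) ?_ ?_)
    · intro h0
      apply hv
      apply D.inj₁
      rw [Matrix.mulVecLin_apply, h0, map_zero]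
    · rw [P002.Dec.blk_mulVec₁, hv', Matrix.mulVec_smul]
  · intro z hz
    obtain ⟨v, hv, hv'⟩ := exists_mulVec_of_isRoot hz
    refine h z (isRoot_charpoly_of_mulVec (v := D.P₂ *ᵥ v) ?_ ?_)
    · intro h0
      apply hv
      apply D.inj₂
      rw [Matrix.mulVecLin_apply, h0, map_zero]
    · rw [P002.Dec.blk_mulVec₂, hv', Matrix.mulVec_smul]

variable {R : Type*} [CommRing R]

/-- Elements of the ring which lie in `E` have `r`-th roots which are units. -/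
theorem exists_rootE (φ : R →+* ℂ) (hc : CoefOK' φ E r) (hr : 0 < r) (z : R)
    (hz : ∃ ε ∈ E, (ε : ℂ) = φ z) : ∃ c : Rˣ, z = (c : R) ^ r := by
  obtain ⟨ε, hε, hε'⟩ := hz
  obtain ⟨w, hw⟩ := IsAlgClosed.exists_pow_nat_eq (φ z) hr
  have hw0 : w ≠ 0 := by
    rintro rfl
    rw [zero_pow hr.ne', ← hε'] at hw
    exact ε.ne_zero hw.symm
  have h1 : (Units.mk0 w hw0) ^ r = ε := by
    apply Units.ext
    rw [Units.val_pow_eq_pow_val, Units.val_mk0, hw, hε']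
  obtain ⟨γ, hγ⟩ := hc.root r hr le_rfl (Units.mk0 w hw0) (by rw [h1]; exact hε)
  obtain ⟨γ', hγ'⟩ := hc.root r hr le_rfl (Units.mk0 w hw0)⁻¹
    (by rw [inv_pow, h1]; exact E.inv_mem hε)
  have h2 : γ * γ' = 1 := by
    apply hc.inj
    rw [map_mul, hγ, hγ', map_one, ← Units.val_mul, mul_inv_cancel, Units.val_one]
  refine ⟨⟨γ, γ', h2, by rw [mul_comm]; exact h2⟩, ?_⟩
  apply hc.inj
  rw [map_pow]
  change φ z = φ γ ^ r
  rw [hγ, Units.val_mk0, hw]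

/-- A matrix of `GR` with eigenvalues in `E` has entries in the ring. -/
theorem exists_liftE (φ : R →+* ℂ) (hc : CoefOK' φ E r) {k : ℕ} (hk : 0 < k) (hkr : k ≤ r)
    (A : (Mat k ℂ)ˣ) (hA : A ∈ GR k φ) (nA : EigIn E (A : Mat k ℂ)) :
    ∃ Y : Mat k R, (A : Mat k ℂ) = Y.map φ ∧ ∃ ε ∈ E, (ε : ℂ) = φ Y.det := by
  obtain ⟨c, z, rfl⟩ := hA
  obtain ⟨ε, hε, hε'⟩ := nA.det
  have hz : (slU φ z : Mat k ℂ).det = 1 := by
    rw [slU_coe, ← RingHom.mapMatrix_apply, ← RingHom.map_det, z.det_coe, map_one]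
  rw [scalarU_mul_coe, Matrix.det_smul, Fintype.card_fin, hz, mul_one] at hε'
  have hck : c ^ k = ε := by
    apply Units.ext
    rw [Units.val_pow_eq_pow_val, hε']
  obtain ⟨γ, hγ⟩ := hc.root k hk hkr c (by rw [hck]; exact hε)
  refine ⟨γ • (z : Mat k R), ?_, ε, hε, ?_⟩
  · rw [scalarU_mul_coe, slU_coe]
    ext i j
    simp [hγ]
  · rw [Matrix.det_smul, Fintype.card_fin, z.det_coe, mul_one, map_pow, hγ, hε']

/-- the block sum of the boundary matrices of two integral representations is integral -/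
theorem blk_mem_GR_E (φ : R →+* ℂ) (hc : CoefOK' φ E r)
    (hr1 : 0 < r₁) (hr2 : 0 < r₂) (hr : r₁ + r₂ = r)
    (e : Fin r₁ ⊕ Fin r₂ ≃ Fin r) {A : (Mat r₁ ℂ)ˣ} {B : (Mat r₂ ℂ)ˣ}
    (hA : A ∈ GR r₁ φ) (hB : B ∈ GR r₂ φ) (nA : EigIn E (A : Mat r₁ ℂ))
    (nB : EigIn E (B : Mat r₂ ℂ)) : blkU (P002.stdDec e) (A, B) ∈ GR r φ := by
  obtain ⟨Y, hY, ε₁, hε₁, hYd⟩ := exists_liftE φ hc hr1 (by omega) A hA nA
  obtain ⟨Z, hZ, ε₂, hε₂, hZd⟩ := exists_liftE φ hc hr2 (by omega) B hB nB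
  obtain ⟨c, hc⟩ := exists_rootE φ hc (by omega) (Y.det * Z.det)
    ⟨ε₁ * ε₂, E.mul_mem hε₁ hε₂, by rw [map_mul, ← hYd, ← hZd, Units.val_mul]⟩
  refine mem_GR_of φ _ (Matrix.reindex e e (fromBlocks Y 0 0 Z)) ?_ c ?_
  · rw [blkU_coe, P002.stdDec_blk, hY, hZ]
    ext i j
    obtain ⟨i, rfl⟩ := e.surjective i
    obtain ⟨j, rfl⟩ := e.surjective j
    rcases i with i | i <;> rcases j with j | j <;> simp
  · rw [Matrix.det_reindex_self, Matrix.det_fromBlocks_zero₂₁, hc]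

end EigE

section TwoBlockG

variable {κ ι : Type} {r r₁ r₂ : ℕ} {R : Type*} [CommRing R] {Rel : Set (FreeGroup (κ ⊕ ι))}
  {E : Subgroup ℂˣ}

/-- a twisted block sum of points is a point -/
theorem bs_mem_YG (hchar : CharOK Rel) {C : ι → (Mat r ℂ)ˣ} {C₁ : ι → (Mat r₁ ℂ)ˣ}
    {C₂ : ι → (Mat r₂ ℂ)ˣ}
    (D₀ : P002.Dec r r₁ r₂) (hC : ∀ j, IsConj (C j) (blkU D₀ (C₁ j, C₂ j)))
    {y₁ : FreeGroup (κ ⊕ ι) →* (Mat r₁ ℂ)ˣ} {y₂ : FreeGroup (κ ⊕ ι) →* (Mat r₂ ℂ)ˣ}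
    (h₁ : y₁ ∈ YG Rel C₁) (h₂ : y₂ ∈ YG Rel C₂) (χ₁ χ₂ : FreeGroup (κ ⊕ ι) →* ℂˣ)
    (hχ₁ : ∀ j, χ₁ (FreeGroup.of (Sum.inr j)) = 1)
    (hχ₂ : ∀ j, χ₂ (FreeGroup.of (Sum.inr j)) = 1) (D : P002.Dec r r₁ r₂) :
    bs D (tw χ₁ y₁) (tw χ₂ y₂) ∈ YG Rel C := by
  refine ⟨?_, ?_, ?_⟩
  · intro w hw
    rw [bs_apply, tw_apply, tw_apply, h₁.1 w hw, h₂.1 w hw, hchar w hw ℂˣ χ₁ hχ₁,
      hchar w hw ℂˣ χ₂ hχ₂, map_one, map_one, one_mul, one_mul]
    exact map_one (blkU D)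
  · intro j
    refine (hC j).trans ?_
    rw [bs_apply, tw_apply, tw_apply, hχ₁, hχ₂, map_one, map_one, one_mul, one_mul]
    exact blkU_conj D₀ D (h₁.2.1 j) (h₂.2.1 j)
  · exact bs_ss D y₁ y₂ χ₁ χ₂ h₁.2.2 h₂.2.2

/-- the tuple of block matrices with parameters -/
noncomputable def tupG {S : Type*} [CommRing S] [Algebra ℂ S] (D : P002.Dec r r₁ r₂)
    (Z₁ : κ → Mat r₁ ℂ) (Z₂ : κ → Mat r₂ ℂ) (W₁ : ι → Mat r₁ ℂ)
    (W₂ : ι → Mat r₂ ℂ) (s t : κ → S) : κ ⊕ ι → Mat r S :=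
  Sum.elim (fun k => D.blk (s k • (Z₁ k).map (algebraMap ℂ S)) (t k • (Z₂ k).map (algebraMap ℂ S)))
    fun j => D.blk ((W₁ j).map (algebraMap ℂ S)) ((W₂ j).map (algebraMap ℂ S))

theorem tupG_map {S T : Type*} [CommRing S] [Algebra ℂ S] [CommRing T] [Algebra ℂ T]
    (θ : S →ₐ[ℂ] T) (D : P002.Dec r r₁ r₂)
    (Z₁ : κ → Mat r₁ ℂ) (Z₂ : κ → Mat r₂ ℂ) (W₁ : ι → Mat r₁ ℂ)
    (W₂ : ι → Mat r₂ ℂ) (s t : κ → S) (k : κ ⊕ ι) :
    (tupG D Z₁ Z₂ W₁ W₂ s t k).map θ =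
      tupG D Z₁ Z₂ W₁ W₂ (fun k => θ (s k)) (fun k => θ (t k)) k := by
  rcases k with k | j
  · simp only [tupG, Sum.elim_inl]
    rw [P002.Dec.blk_map]
    congr 1
    · ext i j
      simp
    · ext i j
      simp
  · simp only [tupG, Sum.elim_inr]
    rw [P002.Dec.blk_map]
    congr 1
    · ext i j
      simp
    · ext i j
      simp

theorem tupG_complex (D : P002.Dec r r₁ r₂)
    (Z₁ : κ → Mat r₁ ℂ) (Z₂ : κ → Mat r₂ ℂ) (W₁ : ι → Mat r₁ ℂ)
    (W₂ : ι → Mat r₂ ℂ) (s t : κ → ℂ) : tupG D Z₁ Z₂ W₁ W₂ s t =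
      Sum.elim (fun k => D.blk (s k • Z₁ k) (t k • Z₂ k)) (fun j => D.blk (W₁ j) (W₂ j)) := by
  have h : ∀ {a b : ℕ} (M : Matrix (Fin a) (Fin b) ℂ), M.map (algebraMap ℂ ℂ) = M := by
    intro a b M
    ext i j
    simp
  unfold tupG
  simp only [h]

/-- data of two integral pieces -/
structure TwoDataG (φ : R →+* ℂ) (E : Subgroup ℂˣ) (Rel : Set (FreeGroup (κ ⊕ ι)))
    (r r₁ r₂ : ℕ) (C : ι → (Mat r ℂ)ˣ) where
  hc : CoefOK' φ E r
  hchar : CharOK Rel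
  hr1 : 0 < r₁
  hr2 : 0 < r₂
  hr : r₁ + r₂ = r
  C₁ : ι → (Mat r₁ ℂ)ˣ
  C₂ : ι → (Mat r₂ ℂ)ˣ
  D₀ : P002.Dec r r₁ r₂
  hC : ∀ j, IsConj (C j) (blkU D₀ (C₁ j, C₂ j))
  nC₁ : ∀ j, EigIn E (C₁ j : Mat r₁ ℂ)
  nC₂ : ∀ j, EigIn E (C₂ j : Mat r₂ ℂ)
  y₁ : FreeGroup (κ ⊕ ι) →* (Mat r₁ ℂ)ˣ
  y₂ : FreeGroup (κ ⊕ ι) →* (Mat r₂ ℂ)ˣ
  h₁ : y₁ ∈ DG Rel φ C₁
  h₂ : y₂ ∈ DG Rel φ C₂

theorem two_block_specialG (φ : R →+* ℂ) (u : Rˣ)
    {C : ι → (Mat r ℂ)ˣ} (d : TwoDataG φ E Rel r r₁ r₂ C) (D : P002.Dec r r₁ r₂)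
    (f : MvPolynomial ((κ ⊕ ι) × Fin r × Fin r) ℂ)
    (hf : ∀ y ∈ DG Rel φ C, evalG y f = 0)
    (c₁ c₂ : κ → ℂˣ) (z₁ : κ → SpecialLinearGroup (Fin r₁) R)
    (z₂ : κ → SpecialLinearGroup (Fin r₂) R)
    (hz₁ : ∀ k, d.y₁ (FreeGroup.of (Sum.inl k)) = scalarU (c₁ k) * slU φ (z₁ k))
    (hz₂ : ∀ k, d.y₂ (FreeGroup.of (Sum.inl k)) = scalarU (c₂ k) * slU φ (z₂ k))
    (m : κ → ℤ) (c : κ → ℂˣ) :
    evK (tupG D (fun k => (slU φ (z₁ k) : Mat r₁ ℂ)) (fun k => (slU φ (z₂ k) : Mat r₂ ℂ))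
      (fun j => (d.y₁ (FreeGroup.of (Sum.inr j)) : Mat r₁ ℂ))
      (fun j => (d.y₂ (FreeGroup.of (Sum.inr j)) : Mat r₂ ℂ))
      (fun k => (c k : ℂ) * φ (u ^ (m k * (r₂ : ℤ)) : Rˣ))
      (fun k => (c k : ℂ) * φ (u ^ (-(m k * (r₁ : ℤ))) : Rˣ))) f = 0 := by
  let e : Fin r₁ ⊕ Fin r₂ ≃ Fin r := finSumFinEquiv.trans (finCongr d.hr)
  let v : ℂˣ := Units.map (φ : R →* ℂ) u
  have hv : ∀ a : ℤ, ((v ^ a : ℂˣ) : ℂ) = φ ((u ^ a : Rˣ) : R) := by
    intro a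
    simp only [v]
    rw [← map_zpow]
    rfl
  let χ₁ : FreeGroup (κ ⊕ ι) →* ℂˣ := FreeGroup.lift
    (Sum.elim (fun k => c k * v ^ (m k * (r₂ : ℤ)) * (c₁ k)⁻¹) fun _ => 1)
  let χ₂ : FreeGroup (κ ⊕ ι) →* ℂˣ := FreeGroup.lift
    (Sum.elim (fun k => c k * v ^ (-(m k * (r₁ : ℤ))) * (c₂ k)⁻¹) fun _ => 1)
  have hχ₁ : ∀ j, χ₁ (FreeGroup.of (Sum.inr j)) = 1 := fun j => by simp [χ₁]
  have hχ₂ : ∀ j, χ₂ (FreeGroup.of (Sum.inr j)) = 1 := fun j => by simp [χ₂]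
  have hχ₁' : ∀ k, χ₁ (FreeGroup.of (Sum.inl k)) = c k * v ^ (m k * (r₂ : ℤ)) * (c₁ k)⁻¹ :=
    fun k => by simp [χ₁]
  have hχ₂' : ∀ k, χ₂ (FreeGroup.of (Sum.inl k)) = c k * v ^ (-(m k * (r₁ : ℤ))) * (c₂ k)⁻¹ :=
    fun k => by simp [χ₂]
  set y : FreeGroup (κ ⊕ ι) →* (Mat r ℂ)ˣ :=
    bs (P002.stdDec e) (tw χ₁ d.y₁) (tw χ₂ d.y₂) with hy
  have hyl : ∀ k, (y (FreeGroup.of (Sum.inl k)) : Mat r ℂ) = (P002.stdDec e).blk
      (((c k : ℂ) * φ (u ^ (m k * (r₂ : ℤ)) : Rˣ)) • (slU φ (z₁ k) : Mat r₁ ℂ))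
      (((c k : ℂ) * φ (u ^ (-(m k * (r₁ : ℤ))) : Rˣ)) • (slU φ (z₂ k) : Mat r₂ ℂ)) := by
    intro k
    rw [hy, bs_apply, blkU_coe, tw_apply, tw_apply, hz₁, hz₂, ← mul_assoc, ← mul_assoc,
      ← map_mul, ← map_mul, hχ₁', hχ₂', inv_mul_cancel_right, inv_mul_cancel_right,
      scalarU_mul_coe, scalarU_mul_coe, Units.val_mul, Units.val_mul, hv, hv]
  have hyr : ∀ j, y (FreeGroup.of (Sum.inr j)) = blkU (P002.stdDec e)
      (d.y₁ (FreeGroup.of (Sum.inr j)), d.y₂ (FreeGroup.of (Sum.inr j))) := by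
    intro j
    rw [hy, bs_apply, tw_apply, tw_apply, hχ₁, hχ₂, map_one, map_one, one_mul, one_mul]
  have hyD : y ∈ DG Rel φ C := by
    refine ⟨bs_mem_YG d.hchar d.D₀ d.hC d.h₁.1 d.h₂.1 χ₁ χ₂ hχ₁ hχ₂ _, ?_⟩
    rintro (k | j)
    · refine ⟨c k, P002.slBlk e u (Multiplicative.ofAdd (m k)) (z₁ k) (z₂ k), ?_⟩
      apply Units.ext
      rw [hyl, scalarU_mul_coe, slU_slBlk, P002.Dec.blk_complex, P002.Dec.blk_complex, smul_add]
      simp only [Matrix.mul_smul, Matrix.smul_mul, smul_smul, toAdd_ofAdd]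
    · rw [hyr]
      exact blk_mem_GR_E φ d.hc d.hr1 d.hr2 d.hr e (d.h₁.2 _) (d.h₂.2 _)
        ((d.nC₁ j).conj (d.h₁.1.2.1 j)) ((d.nC₂ j).conj (d.h₂.1.2.1 j))
  have h := conj_vanish_gen (DG Rel φ C) (fun y hy X => conjH_mem_DG φ hy X) f hf y hyD
    (D.change (P002.stdDec e))
  rw [evalG_eq_evK] at h
  refine Eq.trans (congrArg (fun X => evK X f) (funext fun k => ?_)) h
  rw [tupG_complex, conjH_apply, Units.val_mul, Units.val_mul]
  rcases k with k | j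
  · rw [hyl, P002.Dec.change_conj]
    rfl
  · rw [hyr, blkU_coe, P002.Dec.change_conj]
    rfl

theorem two_block_allG [Finite κ] (φ : R →+* ℂ) (u : Rˣ)
    (hu : ∀ k : ℕ, 0 < k → φ (u : R) ^ k ≠ 1)
    {C : ι → (Mat r ℂ)ˣ} (d : TwoDataG φ E Rel r r₁ r₂ C) (D : P002.Dec r r₁ r₂)
    (f : MvPolynomial ((κ ⊕ ι) × Fin r × Fin r) ℂ)
    (hf : ∀ y ∈ DG Rel φ C, evalG y f = 0)
    (c₁ c₂ : κ → ℂˣ) (z₁ : κ → SpecialLinearGroup (Fin r₁) R)
    (z₂ : κ → SpecialLinearGroup (Fin r₂) R)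
    (hz₁ : ∀ k, d.y₁ (FreeGroup.of (Sum.inl k)) = scalarU (c₁ k) * slU φ (z₁ k))
    (hz₂ : ∀ k, d.y₂ (FreeGroup.of (Sum.inl k)) = scalarU (c₂ k) * slU φ (z₂ k))
    (s t : κ → ℂˣ) :
    evK (tupG D (fun k => (slU φ (z₁ k) : Mat r₁ ℂ)) (fun k => (slU φ (z₂ k) : Mat r₂ ℂ))
      (fun j => (d.y₁ (FreeGroup.of (Sum.inr j)) : Mat r₁ ℂ))
      (fun j => (d.y₂ (FreeGroup.of (Sum.inr j)) : Mat r₂ ℂ))
      (fun k => (s k : ℂ)) (fun k => (t k : ℂ))) f = 0 := by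
  have hr0 : 0 < r := by have := d.hr1; have := d.hr; omega
  have hr := d.hr
  let L := MvPolynomial κ ℂ
  let G : L := evK (tupG D (fun k => (slU φ (z₁ k) : Mat r₁ ℂ)) (fun k => (slU φ (z₂ k) : Mat r₂ ℂ))
      (fun j => (d.y₁ (FreeGroup.of (Sum.inr j)) : Mat r₁ ℂ))
      (fun j => (d.y₂ (FreeGroup.of (Sum.inr j)) : Mat r₂ ℂ))
      (fun k => (MvPolynomial.X k * MvPolynomial.C (t k : ℂ) : L))
      (fun k => (MvPolynomial.C (t k : ℂ) : L))) f
  have hG : ∀ ρ : κ → ℂ, MvPolynomial.eval ρ G =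
      evK (tupG D (fun k => (slU φ (z₁ k) : Mat r₁ ℂ)) (fun k => (slU φ (z₂ k) : Mat r₂ ℂ))
      (fun j => (d.y₁ (FreeGroup.of (Sum.inr j)) : Mat r₁ ℂ))
      (fun j => (d.y₂ (FreeGroup.of (Sum.inr j)) : Mat r₂ ℂ))
      (fun k => ρ k * (t k : ℂ)) (fun k => (t k : ℂ))) f := by
    intro ρ
    have h0 : MvPolynomial.eval ρ G = (MvPolynomial.aeval ρ : L →ₐ[ℂ] ℂ) G := by
      rw [← MvPolynomial.coe_aeval_eq_eval]
      rfl
    rw [h0]
    simp only [G]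
    rw [evK_map]
    refine congrArg (fun X => evK X f) (funext fun k => ?_)
    rw [tupG_map]
    congr 1
    · funext k
      simp
    · funext k
      simp
  have hφu : φ (u : R) ≠ 0 := (u.isUnit.map φ).ne_zero
  let Λ : Set ℂ := Set.range fun m : ℕ => φ (u : R) ^ (r * m)
  have hΛ : Λ.Infinite := by
    apply Set.infinite_range_of_injective
    intro a b h
    have := phi_pow_inj φ u hu h
    exact Nat.eq_of_mul_eq_mul_left hr0 this
  have hG0 : G = 0 := by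
    refine MvPolynomial.funext_set (fun _ => Λ) (fun _ => hΛ) ?_
    intro ρ hρ
    rw [map_zero, hG]
    choose m hm using fun k => hρ k (Set.mem_univ k)
    let c : κ → ℂˣ := fun k =>
      t k * (Units.map (φ : R →* ℂ) u) ^ ((m k : ℤ) * (r₁ : ℤ))
    have h := two_block_specialG φ u d D f hf c₁ c₂ z₁ z₂ hz₁ hz₂ (fun k => (m k : ℤ)) c
    have hpow : ∀ a : ℤ, φ ((u ^ a : Rˣ) : R) = (((Units.map (φ : R →* ℂ) u) ^ a : ℂˣ) : ℂ) := by
      intro a
      rw [← map_zpow]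
      rfl
    have e1 : (fun k => ρ k * (t k : ℂ)) =
        fun k => (c k : ℂ) * φ ((u ^ ((m k : ℤ) * (r₂ : ℤ)) : Rˣ) : R) := by
      funext k
      rw [hpow]
      simp only [c]
      rw [← Units.val_mul, mul_assoc, ← _root_.zpow_add]
      have : (m k : ℤ) * (r₁ : ℤ) + (m k : ℤ) * (r₂ : ℤ) = ((r * m k : ℕ) : ℤ) := by
        push_cast [← hr]
        ring
      have hmk : ρ k = φ (u : R) ^ (r * m k) := (hm k).symm
      rw [this, zpow_natCast, hmk, Units.val_mul, Units.val_pow_eq_pow_val, mul_comm]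
      rfl
    have e2 : (fun k => (t k : ℂ)) =
        fun k => (c k : ℂ) * φ ((u ^ (-((m k : ℤ) * (r₁ : ℤ))) : Rˣ) : R) := by
      funext k
      rw [hpow]
      simp only [c]
      rw [← Units.val_mul, mul_assoc, ← _root_.zpow_add, add_neg_cancel, zpow_zero, mul_one]
    rw [e1, e2]
    exact h
  have h := hG fun k => (s k : ℂ) * ((t k)⁻¹ : ℂˣ)
  rw [hG0, map_zero] at h
  have e3 : (fun k => (s k : ℂ) * (((t k)⁻¹ : ℂˣ) : ℂ) * (t k : ℂ)) = fun k => (s k : ℂ) := by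
    funext k
    rw [mul_assoc, ← Units.val_mul, inv_mul_cancel, Units.val_one, mul_one]
  rw [e3] at h
  exact h.symm

theorem two_block_DG [Finite κ] (φ : R →+* ℂ) (u : Rˣ)
    (hu : ∀ k : ℕ, 0 < k → φ (u : R) ^ k ≠ 1)
    {C : ι → (Mat r ℂ)ˣ} (d : TwoDataG φ E Rel r r₁ r₂ C) (D : P002.Dec r r₁ r₂)
    (f : MvPolynomial ((κ ⊕ ι) × Fin r × Fin r) ℂ)
    (hf : ∀ y ∈ DG Rel φ C, evalG y f = 0) :
    evK (fun k => D.blk (d.y₁ (FreeGroup.of k) : Mat r₁ ℂ) (d.y₂ (FreeGroup.of k) : Mat r₂ ℂ)) f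
      = 0 := by
  choose c₁ z₁ hz₁ using fun k : κ => d.h₁.2 (Sum.inl k)
  choose c₂ z₂ hz₂ using fun k : κ => d.h₂.2 (Sum.inl k)
  have h := two_block_allG φ u hu d D f hf c₁ c₂ z₁ z₂ hz₁ hz₂ c₁ c₂
  refine Eq.trans (congrArg (fun X => evK X f) (funext fun k => ?_)) h
  rw [tupG_complex]
  rcases k with k | j
  · rw [Sum.elim_inl, hz₁, hz₂, scalarU_mul_coe, scalarU_mul_coe]
  · rfl

end TwoBlockG

section MainG

variable {κ ι : Type} {r : ℕ}

/-- Reducible representations, without `-1 ∈ E`. -/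
theorem partIVG' [Finite κ] [Finite ι] {R : Type*} [CommRing R] (φ : R →+* ℂ) (E : Subgroup ℂˣ)
    (hc : CoefOK' φ E r) (Rel : Set (FreeGroup (κ ⊕ ι))) (hchar : CharOK Rel)
    (hirr : ∀ r' ≤ r, 0 < r' → IrrDense Rel φ E r')
    (C : ι → (Mat r ℂ)ˣ) (hC : ∀ j, EigIn E (C j : Mat r ℂ))
    (x : FreeGroup (κ ⊕ ι) →* (Mat r ℂ)ˣ) (hx : x ∈ YG Rel C)
    (f : MvPolynomial ((κ ⊕ ι) × Fin r × Fin r) ℂ)
    (hf : ∀ y ∈ DG Rel φ C, evalG y f = 0) : evalG x f = 0 := by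
  induction r using Nat.strong_induction_on with
  | _ r ih =>
  rcases Nat.eq_zero_or_pos r with rfl | hr0
  · refine hf x ⟨hx, fun k => ?_⟩
    have h1 : x (FreeGroup.of k) = 1 := by
      apply Units.ext
      exact Subsingleton.elim _ _
    rw [h1]
    exact (GR 0 φ).one_mem
  by_cases hcen : ∀ M : Mat r ℂ, (∀ w, Commute M (x w : Mat r ℂ)) →
      ∃ c : ℂ, M = c • (1 : Mat r ℂ)
  · exact hirr r le_rfl hr0 C hC x hx hcen f fun y hy => hf y hy.1
  push Not at hcen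
  obtain ⟨M, hM, hMs⟩ := hcen
  obtain ⟨hrel, hconj, hss⟩ := hx
  obtain ⟨u, hu⟩ := hc.unit
  have hu' : ∀ k : ℕ, 0 < k → φ (u : R) ^ k ≠ 1 := by
    intro k hk h1
    apply hu k hk
    have h2 : Units.map (φ : R →* ℂ) u ^ k = 1 := by
      apply Units.ext
      rw [Units.val_pow_eq_pow_val, Units.val_one]
      exact h1
    rw [h2]
    exact E.one_mem
  have : Nonempty (Fin r) := ⟨⟨0, hr0⟩⟩
  obtain ⟨μ, hμM⟩ := Module.End.exists_eigenvalue (Matrix.mulVecLin M)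
  let E₁ : Submodule ℂ (Fin r → ℂ) := Module.End.eigenspace (Matrix.mulVecLin M) μ
  have hE1 : E₁ ≠ ⊥ := hμM
  have hE1' : E₁ ≠ ⊤ := by
    intro htop
    apply hMs μ
    ext i j
    have hm : (Pi.single j 1 : Fin r → ℂ) ∈ E₁ := by rw [htop]; trivial
    rw [Module.End.mem_eigenspace_iff, Matrix.mulVecLin_apply] at hm
    have := congrFun hm i
    simpa [Matrix.one_apply, Pi.single_apply, eq_comm] using this
  have hinv1 : P002.InvS x E₁ := by
    intro w v hv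
    rw [Module.End.mem_eigenspace_iff, Matrix.mulVecLin_apply] at hv ⊢
    rw [mulVec_mulVec, (hM w).eq, ← mulVec_mulVec, hv, mulVec_smul]
  obtain ⟨E₂, hinv2, hcompl⟩ := hss E₁ hinv1
  obtain ⟨D, hD1, hD2⟩ := P002.exists_dec E₁ E₂ hcompl
  have hsum : Module.finrank ℂ E₁ + Module.finrank ℂ E₂ = r := by
    rw [Submodule.finrank_add_eq_of_isCompl hcompl]
    simp
  have hlt1 : Module.finrank ℂ E₁ < r := by
    have := Submodule.finrank_lt hE1'
    simpa using this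
  have hpos1 : 0 < Module.finrank ℂ E₁ := by
    rw [Module.finrank_pos_iff]
    exact Submodule.nontrivial_iff_ne_bot.mpr hE1
  have hlt2 : Module.finrank ℂ E₂ < r := by omega
  have hpos2 : 0 < Module.finrank ℂ E₂ := by omega
  have hm1 : ∀ w, (x w : Mat r ℂ) * D.P₁ = D.P₁ * (D.Q₁ * (x w : Mat r ℂ) * D.P₁) := by
    intro w
    apply D.mul_P₁
    rw [hD1]
    exact hinv1 w
  have hm2 : ∀ w, (x w : Mat r ℂ) * D.P₂ = D.P₂ * (D.Q₂ * (x w : Mat r ℂ) * D.P₂) := by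
    intro w
    apply D.mul_P₂
    rw [hD2]
    exact hinv2 w
  set x₁ := P002.compr x D.P₁ D.Q₁ D.h11 hm1 with hx1
  set x₂ := P002.compr x D.P₂ D.Q₂ D.h22 hm2 with hx2
  have hs1 : SS x₁ := P002.compr_ss x hss _ _ _ _
  have hs2 : SS x₂ := P002.compr_ss x hss _ _ _ _
  have hrel1 : ∀ w ∈ Rel, x₁ w = 1 := by
    intro w hw
    apply Units.ext
    rw [hx1, P002.compr_apply, hrel w hw]
    simp [D.h11]
  have hrel2 : ∀ w ∈ Rel, x₂ w = 1 := by
    intro w hw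
    apply Units.ext
    rw [hx2, P002.compr_apply, hrel w hw]
    simp [D.h22]
  have hblk : ∀ w, (x w : Mat r ℂ) = D.blk (x₁ w : Mat _ ℂ) (x₂ w : Mat _ ℂ) := by
    intro w
    rw [P002.Dec.blk_complex, hx1, hx2, P002.compr_apply, P002.compr_apply, ← hm1, ← hm2,
      Matrix.mul_assoc, Matrix.mul_assoc, ← Matrix.mul_add, D.hs, Matrix.mul_one]
  -- the boundary classes of the pieces
  let C₁ : ι → (Mat (Module.finrank ℂ E₁) ℂ)ˣ := fun j => x₁ (FreeGroup.of (Sum.inr j))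
  let C₂ : ι → (Mat (Module.finrank ℂ E₂) ℂ)ˣ := fun j => x₂ (FreeGroup.of (Sum.inr j))
  have hCblk : ∀ j, IsConj (C j) (blkU D (C₁ j, C₂ j)) := by
    intro j
    have : blkU D (C₁ j, C₂ j) = x (FreeGroup.of (Sum.inr j)) := by
      apply Units.ext
      rw [blkU_coe, hblk]
    rw [this]
    exact hconj j
  have heig : ∀ j, EigIn E (C₁ j : Mat (Module.finrank ℂ E₁) ℂ) ∧
      EigIn E (C₂ j : Mat (Module.finrank ℂ E₂) ℂ) := fun j =>
    ((hC j).conj (hCblk j)).blk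
  have hY1 : x₁ ∈ YG Rel C₁ := ⟨hrel1, fun j => IsConj.refl _, hs1⟩
  have hY2 : x₂ ∈ YG Rel C₂ := ⟨hrel2, fun j => IsConj.refl _, hs2⟩
  have step1 : ∀ y₂ ∈ DG Rel φ C₂,
      evK (fun k => D.blk (x₁ (FreeGroup.of k) : Mat _ ℂ) (y₂ (FreeGroup.of k) : Mat _ ℂ)) f
        = 0 := by
    intro y₂ hy₂
    obtain ⟨f₁, hf₁⟩ := exists_poly₁ D f (fun k => (y₂ (FreeGroup.of k) : Mat _ ℂ))
    rw [← hf₁]
    refine ih _ hlt1 (hc.mono hlt1.le)
      (fun r' hr' => hirr r' (hr'.trans hlt1.le)) C₁ (fun j => (heig j).1) x₁ hY1 f₁ ?_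
    intro y₁ hy₁
    rw [hf₁]
    exact two_block_DG φ u hu'
      { hc := hc, hchar := hchar, hr1 := hpos1, hr2 := hpos2, hr := hsum, C₁ := C₁, C₂ := C₂,
        D₀ := D, hC := hCblk, nC₁ := fun j => (heig j).1, nC₂ := fun j => (heig j).2, y₁ := y₁,
        y₂ := y₂, h₁ := hy₁, h₂ := hy₂ } D f hf
  have step2 : evK (fun k => D.blk (x₁ (FreeGroup.of k) : Mat _ ℂ)
      (x₂ (FreeGroup.of k) : Mat _ ℂ)) f = 0 := by
    obtain ⟨f₂, hf₂⟩ := exists_poly₂ D f (fun k => (x₁ (FreeGroup.of k) : Mat _ ℂ))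
    rw [← hf₂]
    refine ih _ hlt2 (hc.mono hlt2.le)
      (fun r' hr' => hirr r' (hr'.trans hlt2.le)) C₂ (fun j => (heig j).2) x₂ hY2 f₂ ?_
    intro y₂ hy₂
    rw [hf₂]
    exact step1 y₂ hy₂
  rw [evalG_eq_evK]
  refine Eq.trans (congrArg (fun X => evK X f) (funext fun k => ?_)) step2
  exact hblk _

/-- TASK G1 -/
theorem partIVG [Finite κ] [Finite ι] {R : Type*} [CommRing R] (φ : R →+* ℂ) (E : Subgroup ℂˣ)
    (hc : CoefOK φ E r) (Rel : Set (FreeGroup (κ ⊕ ι))) (hchar : CharOK Rel)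
    (hirr : ∀ r' ≤ r, 0 < r' → IrrDense Rel φ E r')
    (C : ι → (Mat r ℂ)ˣ) (hC : ∀ j, EigIn E (C j : Mat r ℂ))
    (x : FreeGroup (κ ⊕ ι) →* (Mat r ℂ)ˣ) (hx : x ∈ YG Rel C)
    (f : MvPolynomial ((κ ⊕ ι) × Fin r × Fin r) ℂ)
    (hf : ∀ y ∈ DG Rel φ C, evalG y f = 0) : evalG x f = 0 :=
  partIVG' φ E hc.weak Rel hchar hirr C hC x hx f hf

end MainG

end Vale.Agent.P002R
end
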