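import Mathlib
import Vale.Agent.P002.Bdl.B6
import Vale.Agent.P002.Bdl.B8
import Vale.Agent.P002.Bdl.B3
import Vale.Agent.P002.Bdl.B2

set_option linter.all false

section

/-!
# P002, genus 0: regular classes, integrality
-/

namespace Vale.Agent.P002R

open Matrix

variable {r : ℕ}

/-- Invertible matrices with cyclic vectors and the same characteristic polynomial are conjugate. -/
theorem isConj_of_cyc (A B : (Mat r ℂ)ˣ) (hc : (A : Mat r ℂ).charpoly = (B : Mat r ℂ).charpoly)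
    {v w : Fin r → ℂ} (hv : P002G.Cyc (A : Mat r ℂ) v) (hw : P002G.Cyc (B : Mat r ℂ) w) :
    IsConj A B := by
  rw [P002G.cyc_iff] at hv hw
  obtain ⟨kA, hkA⟩ := hv
  obtain ⟨kB, hkB⟩ := hw
  have h1 : ((kB * kA⁻¹ : (Mat r ℂ)ˣ) : Mat r ℂ) * P002.kry (A : Mat r ℂ) v =
      P002.kry (B : Mat r ℂ) w := by
    rw [← hkA, ← hkB, ← Units.val_mul, mul_assoc, inv_mul_cancel, mul_one]
  have h2 := P002.krylov_comm (A : Mat r ℂ) (B : Mat r ℂ) v w hc _ h1 (by rw [← hkA]; exact kA.isUnit)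
  rw [isConj_iff]
  refine ⟨kB * kA⁻¹, ?_⟩
  rw [mul_inv_eq_iff_eq_mul]
  apply Units.ext
  rw [Units.val_mul, Units.val_mul]
  exact h2

/-- Cyclic vectors under conjugation. -/
theorem cyc_of_isConj {A B : (Mat r ℂ)ˣ} (h : IsConj A B) {v : Fin r → ℂ}
    (hv : P002G.Cyc (A : Mat r ℂ) v) : ∃ w, P002G.Cyc (B : Mat r ℂ) w := by
  obtain ⟨P, rfl⟩ := isConj_iff.1 h
  refine ⟨(P : Mat r ℂ) *ᵥ v, ?_⟩
  rw [Units.val_mul, Units.val_mul]
  exact P002G.cyc_conj P hv

theorem charpoly_of_isConj {A B : (Mat r ℂ)ˣ} (h : IsConj A B) :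
    (B : Mat r ℂ).charpoly = (A : Mat r ℂ).charpoly := by
  obtain ⟨P, rfl⟩ := isConj_iff.1 h
  rw [Units.val_mul, Units.val_mul, Matrix.coe_units_inv, Matrix.charpoly_units_conj]

section ring

variable {R : Type*} [CommRing R] {E : Subgroup ℂˣ}

theorem mem_GR_of_det (φ : R →+* ℂ) (hc : CoefOK φ E r) (hr : 0 < r) (U : (Mat r ℂ)ˣ) (A : Mat r R)
    (hU : (U : Mat r ℂ) = A.map φ) (hdet : ∃ e ∈ E, (e : ℂ) = (U : Mat r ℂ).det) :
    U ∈ GR r φ := by
  obtain ⟨c, hc'⟩ := exists_rootE φ hc.weak hr A.det (by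
    obtain ⟨e, he, he'⟩ := hdet
    refine ⟨e, he, ?_⟩
    rw [he', hU, RingHom.map_det]
    rfl)
  exact mem_GR_of φ U A hU c hc'

/-- Elements of `E` are units of the ring. -/
theorem exists_unit_of_mem (φ : R →+* ℂ) (hc : CoefOK φ E r) (hr : 0 < r) (z : ℂ)
    (hz : ∃ e ∈ E, (e : ℂ) = z) : ∃ u : Rˣ, φ (u : R) = z := by
  obtain ⟨e, he, rfl⟩ := hz
  obtain ⟨a, ha⟩ := hc.root 1 one_pos hr e (by rw [pow_one]; exact he)
  obtain ⟨b, hb⟩ := hc.root 1 one_pos hr e⁻¹ (by rw [pow_one]; exact E.inv_mem he)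
  have h1 : a * b = 1 := by
    apply hc.inj
    rw [map_mul, ha, hb, map_one, ← Units.val_mul, mul_inv_cancel, Units.val_one]
  exact ⟨⟨a, b, h1, by rw [mul_comm]; exact h1⟩, ha⟩

/-- Characteristic polynomials with roots in `E` have coefficients in the ring. -/
theorem exists_charpoly_lift (φ : R →+* ℂ) (hc : CoefOK φ E r) (hr : 0 < r) (M : Mat r ℂ)
    (hM : EigIn E M) : ∃ χ : Polynomial R, χ.Monic ∧ χ.natDegree = r ∧ χ.map φ = M.charpoly := by
  have key : ∀ s : Multiset ℂ, (∀ z ∈ s, ∃ e ∈ E, (e : ℂ) = z) → ∃ χ : Polynomial R, χ.Monic ∧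
      χ.map φ = (s.map fun z => Polynomial.X - Polynomial.C z).prod := by
    intro s
    induction s using Multiset.induction_on with
    | empty => exact fun _ => ⟨1, Polynomial.monic_one, by simp⟩
    | cons a s ih =>
      intro hs
      obtain ⟨χ, h1, h2⟩ := ih fun z hz => hs z (Multiset.mem_cons_of_mem hz)
      obtain ⟨u, hu⟩ := exists_unit_of_mem φ hc hr a (hs a (Multiset.mem_cons_self a s))
      refine ⟨(Polynomial.X - Polynomial.C (u : R)) * χ, (Polynomial.monic_X_sub_C _).mul h1, ?_⟩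
      rw [Polynomial.map_mul, h2, Multiset.map_cons, Multiset.prod_cons, Polynomial.map_sub,
        Polynomial.map_X, Polynomial.map_C, hu]
  obtain ⟨χ, h1, h2⟩ := key M.charpoly.roots fun z hz => hM z (Polynomial.isRoot_of_mem_roots hz)
  have h3 : (M.charpoly.roots.map fun z => Polynomial.X - Polynomial.C z).prod = M.charpoly :=
    ((IsAlgClosed.splits M.charpoly).eq_prod_roots_of_monic M.charpoly_monic).symm
  rw [h3] at h2
  refine ⟨χ, h1, ?_, h2⟩
  rw [← Polynomial.natDegree_map_eq_of_injective hc.inj, h2, Matrix.charpoly_natDegree_eq_dim,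
    Fintype.card_fin]

end ring

end Vale.Agent.P002R
end

section

/-!
# P002, genus 0: rational functions which are regular at a point
-/

namespace Vale.Agent.P002R

open MvPolynomial

variable {σ : Type*}

/-- Functions on `σ → ℂ` which are rational and regular at `x₀`, as functions on the complement of
the zero set of some polynomial `d` with `d x₀ ≠ 0`. -/
def ratAt (x₀ : σ → ℂ) : Subalgebra ℂ ((σ → ℂ) → ℂ) where
  carrier := {g | ∃ d P : MvPolynomial σ ℂ, eval x₀ d ≠ 0 ∧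
    ∀ x, eval x d ≠ 0 → g x * eval x d = eval x P}
  mul_mem' := by
    rintro g g' ⟨d, P, h1, h2⟩ ⟨d', P', h1', h2'⟩
    refine ⟨d * d', P * P', by rw [map_mul]; exact mul_ne_zero h1 h1', fun x hx => ?_⟩
    rw [map_mul] at hx ⊢
    have h3 := h2 x (left_ne_zero_of_mul hx)
    have h4 := h2' x (right_ne_zero_of_mul hx)
    rw [map_mul, ← h3, ← h4, Pi.mul_apply]
    ring
  add_mem' := by
    rintro g g' ⟨d, P, h1, h2⟩ ⟨d', P', h1', h2'⟩
    refine ⟨d * d', P * d' + P' * d, by rw [map_mul]; exact mul_ne_zero h1 h1', fun x hx => ?_⟩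
    rw [map_mul] at hx ⊢
    have h3 := h2 x (left_ne_zero_of_mul hx)
    have h4 := h2' x (right_ne_zero_of_mul hx)
    rw [map_add, map_mul, map_mul, ← h3, ← h4, Pi.add_apply]
    ring
  algebraMap_mem' := fun c => ⟨1, C c, by simp, fun x _ => by simp⟩

theorem mem_ratAt {x₀ : σ → ℂ} {g : (σ → ℂ) → ℂ} : g ∈ ratAt x₀ ↔ ∃ d P : MvPolynomial σ ℂ,
    eval x₀ d ≠ 0 ∧ ∀ x, eval x d ≠ 0 → g x * eval x d = eval x P := Iff.rfl

/-- Evaluation. -/
def rev (x₀ x : σ → ℂ) : ratAt x₀ →ₐ[ℂ] ℂ := (Pi.evalAlgHom ℂ (fun _ : σ → ℂ => ℂ) x).comp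
  (ratAt x₀).val

theorem rev_apply (x₀ x : σ → ℂ) (g : ratAt x₀) : rev x₀ x g = g.1 x := rfl

/-- The coordinate functions. -/
def rX (x₀ : σ → ℂ) (i : σ) : ratAt x₀ :=
  ⟨fun x => x i, 1, X i, by simp, fun x _ => by simp⟩

theorem rev_rX (x₀ x : σ → ℂ) (i : σ) : rev x₀ x (rX x₀ i) = x i := rfl

theorem ratAt_ne {x₀ : σ → ℂ} (g : ratAt x₀) (hg : rev x₀ x₀ g ≠ 0) :
    ∃ d : MvPolynomial σ ℂ, eval x₀ d ≠ 0 ∧ ∀ x, eval x d ≠ 0 → rev x₀ x g ≠ 0 := by
  obtain ⟨g, d, P, h1, h2⟩ := g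
  rw [rev_apply] at hg
  simp only at hg
  refine ⟨P * d, ?_, fun x hx => ?_⟩
  · rw [map_mul, ← h2 x₀ h1]
    exact mul_ne_zero (mul_ne_zero hg h1) h1
  · rw [map_mul] at hx
    have h3 := left_ne_zero_of_mul hx
    rw [← h2 x (right_ne_zero_of_mul hx)] at h3
    exact left_ne_zero_of_mul h3

/-- Pointwise inverse. -/
theorem exists_rinv {x₀ : σ → ℂ} (g : ratAt x₀) (hg : rev x₀ x₀ g ≠ 0) :
    ∃ h : ratAt x₀, ∀ x, rev x₀ x h = (rev x₀ x g)⁻¹ := by
  obtain ⟨g, d, P, h1, h2⟩ := g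
  rw [rev_apply] at hg
  simp only at hg
  refine ⟨⟨fun x => (g x)⁻¹, P * d, d * d, ?_, fun x hx => ?_⟩, fun x => rfl⟩
  · rw [map_mul, ← h2 x₀ h1]
    exact mul_ne_zero (mul_ne_zero hg h1) h1
  · rw [map_mul] at hx
    have h3 := left_ne_zero_of_mul hx
    have h4 := h2 x (right_ne_zero_of_mul hx)
    rw [← h4] at h3
    rw [map_mul, map_mul, ← h4]
    have h5 := left_ne_zero_of_mul h3
    field_simp

/-- Density for rational functions: if `g` vanishes at the points of a product of infinite sets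
where `κ` does not vanish, and `κ x₀ ≠ 0`, then `g x₀ = 0`. -/
theorem ratAt_dense {x₀ : σ → ℂ} (s : σ → Set ℂ) (hs : ∀ i, (s i).Infinite) (g κ : ratAt x₀)
    (hκ : rev x₀ x₀ κ ≠ 0)
    (h : ∀ x : σ → ℂ, (∀ i, x i ∈ s i) → rev x₀ x κ ≠ 0 → rev x₀ x g = 0) :
    rev x₀ x₀ g = 0 := by
  obtain ⟨d₀, hd₀, hd₀'⟩ := ratAt_ne κ hκ
  obtain ⟨g, d, P, h1, h2⟩ := g
  have h3 : P * d * d₀ = 0 := by
    refine funext_set s hs fun x hx => ?_
    rw [map_zero, map_mul, map_mul]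
    by_cases h4 : eval x d₀ = 0
    · rw [h4, mul_zero]
    by_cases h5 : eval x d = 0
    · rw [h5, mul_zero, zero_mul]
    have h6 := h x (fun i => hx i (Set.mem_univ i)) (hd₀' x h4)
    rw [rev_apply] at h6
    simp only at h6
    rw [← h2 x h5, h6]
    ring
  have h4 : P = 0 := by
    have hd : d ≠ 0 := fun h => h1 (by rw [h, map_zero])
    have hd0 : d₀ ≠ 0 := fun h => hd₀ (by rw [h, map_zero])
    rcases mul_eq_zero.1 h3 with h | h
    · exact (mul_eq_zero.1 h).resolve_right hd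
    · exact absurd h hd0
  have h5 := h2 x₀ h1
  rw [h4, map_zero] at h5
  rw [rev_apply]
  exact (mul_eq_zero.1 h5).resolve_right h1

/-- Vanishing on a product of sets. -/
theorem dense_pi {m : ℕ} {τ : Type*} (S T : Fin m → Set (τ → ℂ))
    (h : ∀ k (f : MvPolynomial τ ℂ), (∀ x ∈ S k, eval x f = 0) → ∀ x ∈ T k, eval x f = 0)
    (F : MvPolynomial (Fin m × τ) ℂ)
    (hF : ∀ x : Fin m → τ → ℂ, (∀ k, x k ∈ S k) → eval (fun p => x p.1 p.2) F = 0)
    (x : Fin m → τ → ℂ) (hx : ∀ k, x k ∈ T k) : eval (fun p => x p.1 p.2) F = 0 := by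
  classical
  have key : ∀ s : Finset (Fin m), ∀ x : Fin m → τ → ℂ, (∀ k ∈ s, x k ∈ T k) →
      (∀ k, k ∉ s → x k ∈ S k) → eval (fun p => x p.1 p.2) F = 0 := by
    intro s
    induction s using Finset.induction_on with
    | empty => exact fun x _ h2 => hF x fun k => h2 k (Finset.notMem_empty k)
    | insert a s ha ih =>
      intro x h1 h2
      obtain ⟨f, hf⟩ : ∃ f : MvPolynomial τ ℂ, ∀ v : τ → ℂ, eval v f =
          eval (fun p : Fin m × τ => (Function.update x a v) p.1 p.2) F := by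
        refine ⟨MvPolynomial.aeval (fun p : Fin m × τ => if p.1 = a then
          (MvPolynomial.X p.2 : MvPolynomial τ ℂ) else MvPolynomial.C (x p.1 p.2)) F, fun v => ?_⟩
        have e1 : ∀ G : MvPolynomial (Fin m × τ) ℂ, eval v (MvPolynomial.aeval
            (fun p : Fin m × τ => if p.1 = a then (MvPolynomial.X p.2 : MvPolynomial τ ℂ)
              else MvPolynomial.C (x p.1 p.2)) G) =
            eval (fun p : Fin m × τ => (Function.update x a v) p.1 p.2) G := by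
          intro G
          induction G using MvPolynomial.induction_on with
          | C c => simp
          | add p q hp hq => rw [map_add, map_add, map_add, hp, hq]
          | mul_X p i hp =>
            rw [map_mul, map_mul, map_mul, hp]
            congr 1
            rw [MvPolynomial.aeval_X, MvPolynomial.eval_X]
            by_cases hi : i.1 = a
            · rw [if_pos hi, MvPolynomial.eval_X, ← hi, Function.update_self]
            · rw [if_neg hi, MvPolynomial.eval_C, Function.update_of_ne hi]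
        exact e1 F
      have h3 := h a f (fun v hv => by
        rw [hf]
        refine ih _ (fun k hk => ?_) (fun k hk => ?_)
        · have hka : k ≠ a := by
            rintro rfl
            exact ha hk
          rw [Function.update_of_ne hka]
          exact h1 k (Finset.mem_insert_of_mem hk)
        · by_cases hka : k = a
          · rw [hka, Function.update_self]; exact hv
          · rw [Function.update_of_ne hka]
            refine h2 k fun h => ?_
            rcases Finset.mem_insert.1 h with h | h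
            · exact hka h
            · exact hk h) (x a) (h1 a (Finset.mem_insert_self a s))
      rw [hf, Function.update_eq_self] at h3
      exact h3
  exact key Finset.univ x (fun k _ => hx k) fun k hk => absurd (Finset.mem_univ k) hk

end Vale.Agent.P002R
end

section

/-!
# P002, genus 0: integral points of the chart
-/

namespace Vale.Agent.P002R

open Matrix

/-- Two matrices are conjugate by an invertible matrix. -/
def CjM {r : ℕ} (J Z : Mat r ℂ) : Prop :=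
  ∃ g : (Mat r ℂ)ˣ, Z = (g : Mat r ℂ) * J * ((g⁻¹ : (Mat r ℂ)ˣ) : Mat r ℂ)

theorem CjM.trans {r : ℕ} {A B C : Mat r ℂ} (h : CjM A B) (h' : CjM B C) : CjM A C := by
  obtain ⟨g, rfl⟩ := h
  obtain ⟨g', rfl⟩ := h'
  refine ⟨g' * g, ?_⟩
  rw [_root_.mul_inv_rev, Units.val_mul, Units.val_mul]
  simp only [mul_assoc]

theorem CjM.symm {r : ℕ} {A B : Mat r ℂ} (h : CjM A B) : CjM B A := by
  obtain ⟨g, rfl⟩ := h
  refine ⟨g⁻¹, ?_⟩
  rw [inv_inv, mul_assoc, mul_assoc, mul_assoc, Units.inv_mul, mul_one, ← mul_assoc,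
    Units.inv_mul, one_mul]

theorem CjM.det {r : ℕ} {A B : Mat r ℂ} (h : CjM A B) : B.det = A.det := by
  obtain ⟨g, rfl⟩ := h
  rw [Matrix.det_units_conj]

theorem CjM.charpoly {r : ℕ} {A B : Mat r ℂ} (h : CjM A B) : B.charpoly = A.charpoly := by
  obtain ⟨g, rfl⟩ := h
  rw [Matrix.coe_units_inv, Matrix.charpoly_units_conj]

theorem CjM.cyc {r : ℕ} {A B : Mat r ℂ} (h : CjM A B) (hA : ∃ v, P002G.Cyc A v) :
    ∃ v, P002G.Cyc B v := by
  obtain ⟨g, rfl⟩ := h
  obtain ⟨v, hv⟩ := hA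
  exact ⟨_, P002G.cyc_conj g hv⟩

theorem cjM_of_isConj {r : ℕ} {A B : (Mat r ℂ)ˣ} (h : IsConj A B) :
    CjM (A : Mat r ℂ) (B : Mat r ℂ) := by
  obtain ⟨g, rfl⟩ := isConj_iff.1 h
  exact ⟨g, by rw [Units.val_mul, Units.val_mul]⟩

theorem isConj_of_cjM {r : ℕ} {A B : (Mat r ℂ)ˣ} (h : CjM (A : Mat r ℂ) (B : Mat r ℂ)) :
    IsConj A B := by
  obtain ⟨g, hg⟩ := h
  rw [isConj_iff]
  refine ⟨g, ?_⟩
  apply Units.ext
  rw [hg, Units.val_mul, Units.val_mul]

/-! ### The members of the tuple over a field -/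

section field

variable {r : ℕ}

theorem adj_Uc (Y : ℕ → Mat r ℂ) (k : ℕ) : (Uc Y k).adjugate = (Uc Y k)⁻¹ := by
  rw [Matrix.inv_def, det_Uc, Ring.inverse_one, one_smul]

theorem adj_Lc (Y : ℕ → Mat r ℂ) (k : ℕ) (κ : ℂ) (hκ : κ * (Lc Y k).det = 1) :
    κ • (Lc Y k).adjugate = (Lc Y k)⁻¹ := by
  rw [Matrix.inv_def, Ring.inverse_eq_inv', eq_inv_of_mul_eq_one_left hκ]

theorem Lc_diag_ne (Y : ℕ → Mat r ℂ) (k : ℕ) (κ : ℂ) (hκ : κ * (Lc Y k).det = 1) (i : Fin r) :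
    Lc Y k i i ≠ 0 := by
  have h1 : (Lc Y k).det ≠ 0 := right_ne_zero_of_mul (by rw [hκ]; exact one_ne_zero)
  rw [(loT_Lc Y k).det, Finset.prod_ne_zero_iff] at h1
  exact h1 i (Finset.mem_univ i)

theorem ctup_zero_upT (m : ℕ) (t t' : Fin r → ℂ) (κ : ℕ → ℂ) (Y : ℕ → Mat r ℂ) :
    UpT (ctup m t t' κ Y 0) ∧ ∀ i, ctup m t t' κ Y 0 i i = t' i := by
  have h1 : ∀ i, Uc Y m i i ≠ 0 := fun i => by rw [Uc_diag]; exact one_ne_zero
  have h2 : UpT (Uc Y m)⁻¹ := (upT_Uc Y m).inv h1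
  rw [ctup_zero, adj_Uc]
  refine ⟨(upT_diagonal t').mul h2, fun i => ?_⟩
  rw [(upT_diagonal t').mul_diag h2, Matrix.diagonal_apply_eq, inv_diag (upT_Uc Y m) h1, Uc_diag,
    inv_one, mul_one]

theorem ctup_last_loT (m : ℕ) (t t' : Fin r → ℂ) (κ : ℕ → ℂ) (Y : ℕ → Mat r ℂ)
    (hκ : κ m * (Lc Y m).det = 1) :
    LoT (ctup m t t' κ Y (m + 1)) ∧ ∀ i, ctup m t t' κ Y (m + 1) i i * Lc Y m i i = t i := by
  have h1 : ∀ i, Lc Y m i i ≠ 0 := Lc_diag_ne Y m _ hκ
  have h2 : LoT (Lc Y m)⁻¹ := (loT_Lc Y m).inv h1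
  rw [ctup_last, ← smul_mul_assoc, adj_Lc Y m _ hκ]
  refine ⟨h2.mul (loT_diagonal t), fun i => ?_⟩
  rw [h2.mul_diag (loT_diagonal t), Matrix.diagonal_apply_eq, (loT_Lc Y m).inv_diag h1,
    mul_assoc, mul_comm (t i), ← mul_assoc, inv_mul_cancel₀ (h1 i), one_mul]

theorem ctup_mid_cjM (m : ℕ) (t t' : Fin r → ℂ) (κ : ℕ → ℂ) (Y : ℕ → Mat r ℂ) (k : ℕ) (hk : k < m)
    (hκ : κ k * (Lc Y k).det = 1) : ∃ L : (Mat r ℂ)ˣ, (L : Mat r ℂ) = Lc Y k ∧
      zZ (Y k) = (L : Mat r ℂ) * ctup m t t' κ Y (k + 1) * ((L⁻¹ : (Mat r ℂ)ˣ) : Mat r ℂ) := by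
  have hd : IsUnit (Lc Y k).det :=
    isUnit_iff_ne_zero.2 (right_ne_zero_of_mul (by rw [hκ]; exact one_ne_zero))
  obtain ⟨L, hL⟩ := (Matrix.isUnit_iff_isUnit_det _).2 hd
  refine ⟨L, hL, ?_⟩
  rw [ctup_mid m t t' κ Y k hk, ← smul_mul_assoc, ← smul_mul_assoc, adj_Lc Y k _ hκ, ← hL,
    Matrix.coe_units_inv]
  have hd' : IsUnit (L : Mat r ℂ).det := by rw [hL]; exact hd
  rw [← mul_assoc, ← mul_assoc, Matrix.mul_nonsing_inv _ hd', one_mul, mul_assoc,
    Matrix.mul_nonsing_inv _ hd', mul_one]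

theorem charpoly_upT {A : Mat r ℂ} (hA : UpT A) :
    A.charpoly = ∏ i, (Polynomial.X - Polynomial.C (A i i)) :=
  Matrix.charpoly_of_isUpperTriangular A fun i j h => hA i j h

theorem charpoly_loT {A : Mat r ℂ} (hA : LoT A) :
    A.charpoly = ∏ i, (Polynomial.X - Polynomial.C (A i i)) := by
  rw [← Matrix.charpoly_transpose, charpoly_upT hA.transpose]
  rfl

theorem isUnit_of_prod (N : ℕ) (c : Fin N → Mat r ℂ) (h : (List.ofFn c).prod = 1) (j : Fin N) :
    IsUnit (c j) := by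
  rw [Matrix.isUnit_iff_isUnit_det]
  have h1 : ((List.ofFn c).map Matrix.det).prod = 1 := by
    have := congrArg Matrix.det h
    rwa [Matrix.det_one, ← Matrix.coe_detMonoidHom, map_list_prod] at this
  apply isUnit_of_dvd_one
  rw [← h1]
  apply List.dvd_prod
  rw [List.mem_map]
  exact ⟨c j, List.mem_ofFn.2 ⟨j, rfl⟩, rfl⟩

theorem exists_hom (N : ℕ) (c : Fin N → Mat r ℂ) (h : (List.ofFn c).prod = 1) :
    ∃ y : FU 0 N →* (Mat r ℂ)ˣ, y (relatorU 0 N) = 1 ∧
      ∀ j, (y (FreeGroup.of (Sum.inr j)) : Mat r ℂ) = c j := by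
  have hu : ∀ j, ∃ u : (Mat r ℂ)ˣ, (u : Mat r ℂ) = c j := fun j => isUnit_of_prod N c h j
  choose u hu using hu
  refine ⟨FreeGroup.lift (Sum.elim (fun _ => 1) u), ?_, fun j => ?_⟩
  · rw [relatorU_eqn]
    simp only [List.ofFn_zero, List.prod_nil, mul_one]
    apply Units.ext
    rw [map_list_prod, List.map_ofFn, Units.val_one, ← h]
    have h2 : ((List.ofFn u).prod : (Mat r ℂ)ˣ) =
        (List.ofFn ((FreeGroup.lift (Sum.elim (fun _ => 1) u)) ∘ fun j : Fin N =>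
          (FreeGroup.of (Sum.inr j) : FU 0 N))).prod := by
      congr 2
      funext j
      simp
    rw [← h2, ← Units.coeHom_apply, map_list_prod, List.map_ofFn]
    congr 2
    funext j
    exact hu j
  · rw [FreeGroup.lift_apply_of]
    exact hu j

end field

/-! ### Integral points -/

section integral

variable {R : Type*} [CommRing R] {E : Subgroup ℂˣ} {r m : ℕ}

/-- The inverse of the determinant of `Lc Y k`. -/
def kap' (δ : ℕ → Rˣ) (k : ℕ) : R := ((∏ l ∈ Finset.range k, δ l)⁻¹ : Rˣ)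

theorem kap'_mul (δ : ℕ → Rˣ) (φ : R →+* ℂ) (Y : ℕ → Mat r ℂ) (k : ℕ)
    (h : ∀ l < k, (zZ (Y l)).det = φ (δ l)) : φ (kap' δ k) * (Lc Y k).det = 1 := by
  have h1 : (Lc Y k).det = φ ((∏ l ∈ Finset.range k, δ l : Rˣ) : R) := by
    rw [det_Lc, Finset.prod_comm, Units.coe_prod, map_prod]
    refine Finset.prod_congr rfl fun l hl => ?_
    rw [← h l (Finset.mem_range.1 hl), det_zZ]
  rw [h1, kap', ← map_mul, Units.inv_mul, map_one]

theorem chart_integral (φ : R →+* ℂ) (hc : CoefOK φ E r) (hr : 0 < r)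
    (C : Fin (m + 3) → (Mat r ℂ)ˣ) (hE : ∀ j, EigIn E (C j : Mat r ℂ))
    (h0 : ∃ v, P002G.Cyc (C 0 : Mat r ℂ) v)
    (hm : ∃ v, P002G.Cyc (C ⟨m + 1, by omega⟩ : Mat r ℂ) v)
    (hl : ∃ v, P002G.Cyc (C (Fin.last (m + 2)) : Mat r ℂ) v)
    (δ : ℕ → Rˣ) (ξ ξ' : Fin r → Rˣ)
    (hδ : ∀ l (hl : l < m + 1), φ (δ l) = (C ⟨l + 1, by omega⟩ : Mat r ℂ).det)
    (hξ : (C 0 : Mat r ℂ).charpoly = ∏ i, (Polynomial.X - Polynomial.C (φ (ξ i))))
    (hξ' : (C (Fin.last (m + 2)) : Mat r ℂ).charpoly =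
      ∏ i, (Polynomial.X - Polynomial.C (φ (ξ' i))))
    (Y : ℕ → Mat r R)
    (hY : ∀ k (hk : k < m), CjM (C ⟨k + 1, by omega⟩ : Mat r ℂ) (zZ ((Y k).map φ)))
    (hYm : (zZ ((Y m).map φ)).charpoly = (C ⟨m + 1, by omega⟩ : Mat r ℂ).charpoly)
    (hYm' : ∃ v, P002G.Cyc (zZ ((Y m).map φ)) v)
    (hprod : ∀ i, (∏ l ∈ Finset.range (m + 1), φ (Y l i i)) * φ (ξ i) * φ (ξ' i) = 1) :
    (∀ k ≤ m + 1, φ (kap' δ k) * (Lc (fun k => (Y k).map φ) k).det = 1) ∧
    ∃ y : FU 0 (m + 3) →* (Mat r ℂ)ˣ, y (relatorU 0 (m + 3)) = 1 ∧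
      (∀ j : Fin (m + 3), (y (FreeGroup.of (Sum.inr j)) : Mat r ℂ) =
        ctup (m + 1) (fun i => φ ((ξ i)⁻¹ : Rˣ)) (fun i => φ (ξ i)) (fun k => φ (kap' δ k))
          (fun k => (Y k).map φ) j) ∧
      ((∃ v, P002G.Cyc (ctup (m + 1) (fun i => φ ((ξ i)⁻¹ : Rˣ)) (fun i => φ (ξ i))
          (fun k => φ (kap' δ k)) (fun k => (Y k).map φ) 0) v) →
        (∃ v, P002G.Cyc (ctup (m + 1) (fun i => φ ((ξ i)⁻¹ : Rˣ)) (fun i => φ (ξ i))
          (fun k => φ (kap' δ k)) (fun k => (Y k).map φ) (m + 2)) v) →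
        (∀ j, IsConj (C j) (y (FreeGroup.of (Sum.inr j)))) ∧
          ∀ k, y (FreeGroup.of k) ∈ GR r φ) := by
  obtain ⟨Y', hY'⟩ : ∃ Y' : ℕ → Mat r ℂ, Y' = fun k => (Y k).map φ := ⟨_, rfl⟩
  have hdet : ∀ l < m + 1, (zZ (Y' l)).det = φ (δ l) := by
    intro l hlm
    rw [hδ l hlm, hY']
    rcases Nat.lt_succ_iff_lt_or_eq.1 hlm with h | rfl
    · exact (hY l h).det
    · rw [Matrix.det_eq_sign_charpoly_coeff, Matrix.det_eq_sign_charpoly_coeff, hYm]
  have hκ : ∀ k ≤ m + 1, φ (kap' δ k) * (Lc Y' k).det = 1 := fun k hk =>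
    kap'_mul δ φ Y' k fun l hl => hdet l (lt_of_lt_of_le hl hk)
  rw [← hY']
  refine ⟨hκ, ?_⟩
  obtain ⟨t, ht⟩ : ∃ t : Fin r → ℂ, t = fun i => φ ((ξ i)⁻¹ : Rˣ) := ⟨_, rfl⟩
  obtain ⟨t', ht'⟩ : ∃ t' : Fin r → ℂ, t' = fun i => φ (ξ i) := ⟨_, rfl⟩
  obtain ⟨κ, hκdef⟩ : ∃ κ : ℕ → ℂ, κ = fun k => φ (kap' δ k) := ⟨_, rfl⟩
  have hκ' : ∀ k ≤ m + 1, κ k * (Lc Y' k).det = 1 := by rw [hκdef]; exact hκ
  have hint : ∀ j, ctup (m + 1) t t' κ Y' j =
      (ctup (m + 1) (fun i => (((ξ i)⁻¹ : Rˣ) : R)) (fun i => (ξ i : R)) (kap' δ) Y j).map φ := by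
    intro j
    rw [ctup_map, ht, ht', hκdef, hY']
  rw [← ht, ← ht', ← hκdef]
  have htt : ∀ i, t' i * t i = 1 := by
    intro i
    rw [ht, ht']
    simp only
    rw [← map_mul, Units.mul_inv, map_one]
  obtain ⟨y, hy1, hy2⟩ := exists_hom (m + 3) (fun j => ctup (m + 1) t t' κ Y' j)
    (ctup_prod (m + 1) t t' κ Y' hκ' htt)
  refine ⟨y, hy1, hy2, fun hc0 hcl => ?_⟩
  have hconj : ∀ j, IsConj (C j) (y (FreeGroup.of (Sum.inr j))) := by
    intro j
    rcases Nat.eq_zero_or_pos (j : ℕ) with h | h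
    · have hj : j = 0 := Fin.ext h
      subst hj
      obtain ⟨v, hv⟩ := h0
      obtain ⟨w, hw⟩ := hc0
      obtain ⟨h1, h2⟩ := ctup_zero_upT (m + 1) t t' κ Y'
      have h3 : (y (FreeGroup.of (Sum.inr 0)) : Mat r ℂ) = ctup (m + 1) t t' κ Y' 0 := hy2 0
      refine isConj_of_cyc (v := v) (w := w) _ _ ?_ hv (by rw [h3]; exact hw)
      rw [h3, charpoly_upT h1, hξ]
      refine Finset.prod_congr rfl fun i _ => ?_
      rw [h2, ht']
    obtain ⟨k, hk⟩ : ∃ k, (j : ℕ) = k + 1 := ⟨(j : ℕ) - 1, by omega⟩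
    have hkN : k + 1 < m + 3 := by have := j.2; omega
    have hj : j = ⟨k + 1, hkN⟩ := Fin.ext hk
    clear hk h
    subst hj
    rcases Nat.lt_or_ge k (m + 1) with hkm | hkm
    · have h3 : (y (FreeGroup.of (Sum.inr ⟨k + 1, by omega⟩)) : Mat r ℂ) =
        ctup (m + 1) t t' κ Y' (k + 1) := hy2 _
      obtain ⟨L, hL, hL'⟩ := ctup_mid_cjM (m + 1) t t' κ Y' k hkm (hκ' k hkm.le)
      have h4 : CjM (y (FreeGroup.of (Sum.inr ⟨k + 1, by omega⟩)) : Mat r ℂ) (zZ (Y' k)) := by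
        rw [h3]
        exact ⟨L, hL'⟩
      rcases Nat.lt_succ_iff_lt_or_eq.1 hkm with h | rfl
      · have h5 := hY k h
        apply isConj_of_cjM
        refine CjM.trans ?_ h4.symm
        rw [hY']
        exact h5
      · obtain ⟨v, hv⟩ := hm
        obtain ⟨w, hw⟩ : ∃ w, P002G.Cyc (y (FreeGroup.of (Sum.inr ⟨k + 1, by omega⟩)) : Mat r ℂ) w :=
          h4.symm.cyc (by rw [hY']; exact hYm')
        refine isConj_of_cyc _ _ ?_ hv hw
        rw [← h4.charpoly, hY', hYm]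
    · have hkm' : k = m + 1 := by omega
      subst hkm'
      obtain ⟨v, hv⟩ := hl
      obtain ⟨w, hw⟩ := hcl
      obtain ⟨h1, h2⟩ := ctup_last_loT (m + 1) t t' κ Y' (hκ' _ le_rfl)
      have h3 : (y (FreeGroup.of (Sum.inr ⟨m + 1 + 1, by omega⟩)) : Mat r ℂ) =
        ctup (m + 1) t t' κ Y' (m + 1 + 1) := hy2 _
      refine isConj_of_cyc (v := v) (w := w) _ _ ?_ hv (by rw [h3]; exact hw)
      rw [h3, charpoly_loT h1]
      refine hξ'.trans ?_
      refine Finset.prod_congr rfl fun i _ => ?_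
      have h5 := h2 i
      have h6 := hprod i
      have h7 : Lc Y' (m + 1) i i = ∏ l ∈ Finset.range (m + 1), φ (Y l i i) := by
        rw [Lc_diag, hY']
        rfl
      rw [← h7] at h6
      have h8 := htt i
      have h9 : φ (ξ' i) = ctup (m + 1) t t' κ Y' (m + 1 + 1) i i := by
        have h10 : φ (ξ i) = t' i := by rw [ht']
        rw [h10] at h6
        calc φ (ξ' i) = φ (ξ' i) * (t' i * t i) := by rw [h8, mul_one]
          _ = φ (ξ' i) * (t' i * (ctup (m + 1) t t' κ Y' (m + 1 + 1) i i * Lc Y' (m + 1) i i)) := by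
            rw [h5]
          _ = ctup (m + 1) t t' κ Y' (m + 1 + 1) i i * (Lc Y' (m + 1) i i * t' i * φ (ξ' i)) := by
            ring
          _ = _ := by rw [h6, mul_one]
      rw [h9]
  refine ⟨hconj, fun k => ?_⟩
  rcases k with k | j
  · exact k.1.elim0
  · refine mem_GR_of_det φ hc hr _ _ ((hy2 j).trans (hint j)) ?_
    rw [(cjM_of_isConj (hconj j)).det]
    exact (hE j).det

end integral

end Vale.Agent.P002R
end

section

/-!
# P002, genus 0: density of the integral points in the space of parameters of the chart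
-/

namespace Vale.Agent.P002R

open Matrix

/-- Density for rational functions, with respect to a general dense set. -/
theorem ratAt_dense' {σ : Type*} {x₀ : σ → ℂ} (A : Set (σ → ℂ))
    (hA : ∀ P : MvPolynomial σ ℂ, (∀ x ∈ A, MvPolynomial.eval x P = 0) →
      MvPolynomial.eval x₀ P = 0) (g κ : ratAt x₀) (hκ : rev x₀ x₀ κ ≠ 0)
    (h : ∀ x ∈ A, rev x₀ x κ ≠ 0 → rev x₀ x g = 0) : rev x₀ x₀ g = 0 := by
  obtain ⟨d₀, hd₀, hd₀'⟩ := ratAt_ne κ hκ
  obtain ⟨g, d, P, h1, h2⟩ := g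
  have h3 : MvPolynomial.eval x₀ (P * d * d₀) = 0 := by
    refine hA _ fun x hx => ?_
    rw [map_mul, map_mul]
    by_cases h4 : MvPolynomial.eval x d₀ = 0
    · rw [h4, mul_zero]
    by_cases h5 : MvPolynomial.eval x d = 0
    · rw [h5, mul_zero, zero_mul]
    have h6 := h x hx (hd₀' x h4)
    rw [rev_apply] at h6
    simp only at h6
    rw [← h2 x h5, h6]
    ring
  rw [map_mul, map_mul] at h3
  have h4 : MvPolynomial.eval x₀ P = 0 := by
    rcases mul_eq_zero.1 h3 with h | h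
    · exact (mul_eq_zero.1 h).resolve_right h1
    · exact absurd h hd₀
  have h5 := h2 x₀ h1
  rw [h4] at h5
  rw [rev_apply]
  exact (mul_eq_zero.1 h5).resolve_right h1

/-- Total density of the integral points of the cell in the conjugacy class of `J`. -/
def TotD {r : ℕ} {R : Type*} [CommRing R] (φ : R →+* ℂ) (J : Mat r ℂ) : Prop :=
  ∀ F : MvPolynomial (Fin r × Fin r) ℂ,
    (∀ X : Mat r R, (∀ i, IsUnit (X i i)) → CjM J (zZ (X.map φ)) →
      MvPolynomial.eval (fun p => φ (X p.1 p.2)) F = 0) →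
    ∀ X : Mat r ℂ, (∀ i, X i i ≠ 0) → CjM J (zZ X) → MvPolynomial.eval (fun p => X p.1 p.2) F = 0

/-- Fibrewise density (Lemma B). -/
def FibD {R : Type*} [CommRing R] (φ : R →+* ℂ) (n : ℕ) : Prop :=
  ∀ (q : Fin (n + 1) → Rˣ) (χ : Polynomial R), χ.Monic → χ.natDegree = n + 1 →
  ∀ F : MvPolynomial (Fin (n + 1) × Fin (n + 1)) ℂ,
    (∀ X : Mat (n + 1) R, (∀ i, X i i = q i) → (zZ X).charpoly = χ →
      P002G.Cyc (zZ X) (P002G.e0 n R) → MvPolynomial.eval (fun p => φ (X p.1 p.2)) F = 0) →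
    ∀ X : Mat (n + 1) ℂ, (∀ i, X i i = φ (q i)) → (zZ X).charpoly = χ.map φ →
      P002G.Cyc (zZ X) (P002G.e0 n ℂ) → MvPolynomial.eval (fun p => X p.1 p.2) F = 0

theorem bcons_map {n : ℕ} {S T : Type*} [CommRing S] [CommRing T] (ψ : S →+* T) (q : S)
    (u l : Fin n → S) (X : Mat n S) :
    (P002G.bcons q u l X).map ψ = P002G.bcons (ψ q) (fun j => ψ (u j)) (fun i => ψ (l i))
      (X.map ψ) := by
  ext i j
  refine Fin.cases ?_ (fun i => ?_) i <;> refine Fin.cases ?_ (fun j => ?_) j <;> rfl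

theorem core_density {R : Type*} [CommRing R] (φ : R →+* ℂ) {n m : ℕ} (hB : FibD φ n)
    (J : Fin m → Mat (n + 1) ℂ) (hT : ∀ k, TotD φ (J k))
    (χ : Polynomial R) (hχ : χ.Monic) (hχd : χ.natDegree = n + 1) (θ : Fin (n + 1) → Rˣ)
    (F : MvPolynomial (Fin (m + 1) × Fin (n + 1) × Fin (n + 1)) ℂ)
    (hF : ∀ Y : Fin (m + 1) → Mat (n + 1) R, (∀ k i, IsUnit (Y k i i)) →
      (∀ k : Fin m, CjM (J k) (zZ ((Y k.castSucc).map φ))) →
      (zZ (Y (Fin.last m))).charpoly = χ → P002G.Cyc (zZ (Y (Fin.last m))) (P002G.e0 n R) →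
      (∀ i, ∏ l, Y l i i = θ i) →
      MvPolynomial.aeval (fun p => φ (Y p.1 p.2.1 p.2.2)) F = (0 : ℂ))
    (Y : Fin (m + 1) → Mat (n + 1) ℂ) (hY0 : ∀ k i, Y k i i ≠ 0)
    (hY1 : ∀ k : Fin m, CjM (J k) (zZ (Y k.castSucc)))
    (hY2 : (zZ (Y (Fin.last m))).charpoly = χ.map φ)
    (hY3 : P002G.Cyc (zZ (Y (Fin.last m))) (P002G.e0 n ℂ))
    (hY4 : ∀ i, ∏ l, Y l i i = φ (θ i)) :
    MvPolynomial.aeval (fun p => Y p.1 p.2.1 p.2.2) F = (0 : ℂ) := by
  -- (A) integral first elements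
  have hA : ∀ Yi : Fin m → Mat (n + 1) R, (∀ k i, IsUnit (Yi k i i)) →
      (∀ k : Fin m, CjM (J k) (zZ ((Yi k).map φ))) →
      ∀ X : Mat (n + 1) ℂ, (∀ i, (∏ l, φ (Yi l i i)) * X i i = φ (θ i)) →
      (zZ X).charpoly = χ.map φ → P002G.Cyc (zZ X) (P002G.e0 n ℂ) →
      MvPolynomial.aeval (fun p => (Fin.snoc (α := fun _ => Mat (n + 1) ℂ)
        (fun k => (Yi k).map φ) X : Fin (m + 1) → Mat (n + 1) ℂ) p.1 p.2.1 p.2.2) F = (0 : ℂ) := by
    intro Yi hYi hYJ X hX1 hX2 hX3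
    have hu : ∀ i, IsUnit (∏ l, Yi l i i) := fun i => by
      rw [IsUnit.prod_univ_iff]
      exact fun l => hYi l i
    choose w hw using hu
    obtain ⟨G, hG⟩ : ∃ G : MvPolynomial (Fin (n + 1) × Fin (n + 1)) ℂ, ∀ Z : Mat (n + 1) ℂ,
        MvPolynomial.eval (fun p => Z p.1 p.2) G =
        MvPolynomial.aeval (fun p => (Fin.snoc (α := fun _ => Mat (n + 1) ℂ)
          (fun k => (Yi k).map φ) Z : Fin (m + 1) → Mat (n + 1) ℂ) p.1 p.2.1 p.2.2) F := by
      obtain ⟨Zg, hZg⟩ : ∃ Zg : Mat (n + 1) (MvPolynomial (Fin (n + 1) × Fin (n + 1)) ℂ),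
        Zg = Matrix.of fun i j => MvPolynomial.X (i, j) := ⟨_, rfl⟩
      refine ⟨MvPolynomial.aeval (fun p => (Fin.snoc (α := fun _ => Mat (n + 1)
        (MvPolynomial (Fin (n + 1) × Fin (n + 1)) ℂ))
        (fun k => ((Yi k).map φ).map MvPolynomial.C) Zg : Fin (m + 1) → _) p.1 p.2.1 p.2.2) F,
        fun Z => ?_⟩
      rw [← MvPolynomial.coe_aeval_eq_eval]
      change (MvPolynomial.aeval (fun p : Fin (n + 1) × Fin (n + 1) => Z p.1 p.2))
        ((MvPolynomial.aeval _) F) = _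
      rw [← AlgHom.comp_apply, MvPolynomial.comp_aeval]
      congr 2
      funext p
      obtain ⟨k, i, j⟩ := p
      refine Fin.lastCases ?_ (fun k => ?_) k
      · simp only [Fin.snoc_last]
        rw [hZg, Matrix.of_apply, MvPolynomial.aeval_X]
      · simp only [Fin.snoc_castSucc]
        rw [Matrix.map_apply, Matrix.map_apply]
        simp
    rw [← hG]
    refine hB (fun i => θ i * (w i)⁻¹) χ hχ hχd G (fun X' hX1' hX2' hX3' => ?_) X (fun i => ?_) hX2 hX3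
    · have h1 := hG (X'.map φ)
      simp only [Matrix.map_apply] at h1
      rw [h1]
      have h2 := hF (Fin.snoc (α := fun _ => Mat (n + 1) R) Yi X') (fun k i => by
        refine Fin.lastCases ?_ (fun k => ?_) k
        · rw [Fin.snoc_last, hX1']; exact (θ i * (w i)⁻¹).isUnit
        · rw [Fin.snoc_castSucc]; exact hYi k i) (fun k => by
          rw [Fin.snoc_castSucc]; exact hYJ k) (by rw [Fin.snoc_last]; exact hX2')
        (by rw [Fin.snoc_last]; exact hX3') (fun i => by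
          rw [Fin.prod_univ_castSucc]
          simp only [Fin.snoc_last, Fin.snoc_castSucc]
          rw [hX1', ← hw i, ← Units.val_mul, mul_comm (w i), mul_assoc, inv_mul_cancel, mul_one])
      rw [← h2]
      congr 2
      funext p
      obtain ⟨k, i, j⟩ := p
      refine Fin.lastCases ?_ (fun k => ?_) k
      · simp only [Fin.snoc_last]
        rfl
      · simp only [Fin.snoc_castSucc]
        rfl
    · have h3 := hX1 i
      have h4 : (∏ l, φ (Yi l i i)) = φ (w i) := by rw [hw, map_prod]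
      rw [h4] at h3
      have h5 : φ ((w i)⁻¹ : Rˣ) * φ (w i) = 1 := by rw [← map_mul, Units.inv_mul, map_one]
      rw [Units.val_mul, map_mul, ← h3, mul_comm (φ (w i)), mul_assoc, mul_comm (φ (w i)), h5,
        mul_one]
  -- (B) rational dependence on the first elements
  obtain ⟨x₀, hx₀⟩ : ∃ x₀ : Fin m × (Fin (n + 1) × Fin (n + 1)) → ℂ,
    x₀ = fun p => Y p.1.castSucc p.2.1 p.2.2 := ⟨_, rfl⟩
  obtain ⟨YS, hYS⟩ : ∃ YS : Fin m → Mat (n + 1) (ratAt x₀),
    YS = fun k => Matrix.of fun i j => rX x₀ (k, (i, j)) := ⟨_, rfl⟩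
  have hYSr : ∀ x k i j, rev x₀ x (YS k i j) = x (k, (i, j)) := by
    intro x k i j
    rw [hYS]
    exact rev_rX x₀ x (k, (i, j))
  have hden : ∀ i, rev x₀ x₀ (∏ k, YS k i i) ≠ 0 := by
    intro i
    rw [map_prod, Finset.prod_ne_zero_iff]
    intro k _
    rw [hYSr, hx₀]
    exact hY0 _ i
  have hinv := fun i => exists_rinv (∏ k, YS k i i) (hden i)
  choose inv hinv using hinv
  obtain ⟨q, hq⟩ : ∃ q : Fin (n + 1) → ratAt x₀, q = fun i => algebraMap ℂ _ (φ (θ i)) * inv i :=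
    ⟨_, rfl⟩
  have hqr : ∀ x i, rev x₀ x (q i) = φ (θ i) * (∏ k, x (k, (i, i)))⁻¹ := by
    intro x i
    rw [hq]
    simp only
    rw [map_mul, hinv, map_prod, AlgHom.commutes]
    simp only [hYSr]
    rfl
  obtain ⟨XN, hXN⟩ : ∃ XN : Mat n (ratAt x₀), XN = Matrix.of fun i j => if i = j then q i.succ
    else algebraMap ℂ _ (Y (Fin.last m) i.succ j.succ) := ⟨_, rfl⟩
  obtain ⟨l, hl⟩ : ∃ l : Fin n → ratAt x₀, l = fun i => algebraMap ℂ _ (Y (Fin.last m) i.succ 0) :=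
    ⟨_, rfl⟩
  obtain ⟨N, hN⟩ : ∃ N : Mat n (ratAt x₀), N = P002G.zZ XN := ⟨_, rfl⟩
  obtain ⟨b, hb⟩ : ∃ b : Fin n → ratAt x₀, b = P002G.uU XN *ᵥ l := ⟨_, rfl⟩
  -- the evaluations
  obtain ⟨rv, hrv⟩ : ∃ rv : (Fin m × (Fin (n + 1) × Fin (n + 1)) → ℂ) → ratAt x₀ →+* ℂ,
    rv = fun x => (rev x₀ x).toRingHom := ⟨_, rfl⟩
  have hrv' : ∀ x s, rv x s = rev x₀ x s := by
    intro x s
    rw [hrv]
    rfl
  have hlr : ∀ x i, rv x (l i) = Y (Fin.last m) i.succ 0 := by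
    intro x i
    rw [hrv', hl]
    exact AlgHom.commutes _ _
  have hNr : ∀ x, N.map (rv x) = P002G.zZ (XN.map (rv x)) := fun x => by
    rw [hN, P002G.zZ_map]
  have hbr : ∀ x, (fun i => rv x (b i)) = P002G.uU (XN.map (rv x)) *ᵥ fun i => rv x (l i) := by
    intro x
    funext i
    rw [hb, RingHom.map_mulVec, ← P002G.uU_map]
    rfl
  have hWr : ∀ x, (P002G.WW N b).map (rv x) = P002G.WW (N.map (rv x)) fun i => rv x (b i) :=
    fun x => P002G.WW_map (rv x) N b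
  have hXNr : ∀ x i j, (XN.map (rv x)) i j = if i = j then rv x (q i.succ) else
      Y (Fin.last m) i.succ j.succ := by
    intro x i j
    rw [hXN, Matrix.map_apply, Matrix.of_apply]
    split_ifs
    · rfl
    · rw [hrv']
      exact AlgHom.commutes _ _
  -- the base point
  have hq0 : ∀ i, rv x₀ (q i) = Y (Fin.last m) i i := by
    intro i
    rw [hrv', hqr, ← hY4 i, Fin.prod_univ_castSucc, hx₀]
    simp only
    rw [mul_comm (∏ l : Fin m, Y l.castSucc i i), mul_assoc, mul_inv_cancel₀, mul_one]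
    rw [Finset.prod_ne_zero_iff]
    exact fun k _ => hY0 _ i
  obtain ⟨ψ, hψ⟩ : ∃ ψ : Polynomial ℂ, ψ = χ.map φ := ⟨_, rfl⟩
  have hψ1 : ψ.Monic := by rw [hψ]; exact hχ.map φ
  have hψ2 : ψ.natDegree = n + 1 := by rw [hψ, hχ.natDegree_map, hχd]
  have hXN0 : XN.map (rv x₀) = Matrix.of fun i j => Y (Fin.last m) i.succ j.succ := by
    ext i j
    rw [hXNr, Matrix.of_apply]
    split_ifs with h
    · rw [h, hq0]
    · rfl
  have hYm : P002G.bcons (Y (Fin.last m) 0 0) (fun j => Y (Fin.last m) 0 j.succ)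
      (fun i => rv x₀ (l i)) (XN.map (rv x₀)) = Y (Fin.last m) := by
    rw [hXN0]
    have h1 : (fun i => rv x₀ (l i)) = fun i : Fin n => Y (Fin.last m) i.succ 0 :=
      funext fun i => hlr x₀ i
    rw [h1]
    exact P002G.bcons_eta _
  obtain ⟨a0, ha0⟩ : ∃ a0 : Fin n → ℂ, a0 ᵥ* P002G.uU (XN.map (rv x₀)) =
      fun j => Y (Fin.last m) 0 j.succ := ⟨_, P002G.exists_vecMul_uU _ _⟩
  have hbrd0 : P002G.zZ (Y (Fin.last m)) = P002G.brd (Y (Fin.last m) 0 0) (N.map (rv x₀))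
      (fun i => rv x₀ (b i)) a0 := by
    rw [hNr, hbr, ← P002G.zZ_bcons, ha0, hYm]
  have hcyc0 : P002G.Cyc (N.map (rv x₀)) fun i => rv x₀ (b i) := by
    have h1 : P002G.Cyc (P002G.zZ (Y (Fin.last m))) (P002G.e0 n ℂ) := hY3
    rw [hbrd0, P002G.cyc_brd] at h1
    exact h1
  have hdW : rev x₀ x₀ (P002G.WW N b).det ≠ 0 := by
    rw [← hrv', RingHom.map_det]
    change ((P002G.WW N b).map (rv x₀)).det ≠ 0
    rw [hWr, ← isUnit_iff_ne_zero, ← Matrix.isUnit_iff_isUnit_det, P002G.isUnit_WW]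
    exact hcyc0
  obtain ⟨winv, hwinv⟩ := exists_rinv (P002G.WW N b).det hdW
  obtain ⟨a, ha⟩ : ∃ a : Fin n → ratAt x₀, a = winv • ((P002G.WW N b).adjugate *ᵥ fun j : Fin n =>
    (N.charpoly * (Polynomial.X - Polynomial.C (q 0)) -
      ψ.map (algebraMap ℂ (ratAt x₀))).coeff ((j : ℕ) + 1)) := ⟨_, rfl⟩
  have har : ∀ x, (fun i => rv x (a i)) = P002G.aOf ψ (rv x (q 0)) (N.map (rv x))
      fun i => rv x (b i) := by
    intro x
    funext i
    rw [ha, P002G.aOf, ← hWr, Matrix.inv_def, Ring.inverse_eq_inv', Matrix.smul_mulVec,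
      Pi.smul_apply, Pi.smul_apply, smul_eq_mul, smul_eq_mul, map_mul, hrv' x winv, hwinv x,
      ← hrv' x, RingHom.map_det, RingHom.map_mulVec]
    congr 1
    have h1 : ((P002G.WW N b).adjugate.map (rv x)) = ((P002G.WW N b).map (rv x)).adjugate :=
      RingHom.map_adjugate (rv x) _
    rw [h1]
    refine congrArg (fun v => (((P002G.WW N b).map (rv x)).adjugate *ᵥ v) i) ?_
    funext j
    have h2 : (N.map (rv x)).charpoly = N.charpoly.map (rv x) := Matrix.charpoly_map N (rv x)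
    have h3 : (ψ.map (algebraMap ℂ (ratAt x₀))).map (rv x) = ψ := by
      rw [Polynomial.map_map]
      have h4 : (rv x).comp (algebraMap ℂ (ratAt x₀)) = RingHom.id ℂ := by
        ext1 z
        rw [RingHom.comp_apply, hrv', AlgHom.commutes]
        rfl
      rw [h4, Polynomial.map_id]
    rw [Function.comp_apply, ← Polynomial.coeff_map, Polynomial.map_sub, Polynomial.map_mul,
      Polynomial.map_sub, Polynomial.map_X, Polynomial.map_C, h2, h3]
  obtain ⟨Yt, hYt⟩ : ∃ Yt : Mat (n + 1) (ratAt x₀),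
    Yt = P002G.bcons (q 0) (a ᵥ* P002G.uU XN) l XN := ⟨_, rfl⟩
  have hYtr : ∀ x, Yt.map (rv x) = P002G.bcons (rv x (q 0))
      ((fun i => rv x (a i)) ᵥ* P002G.uU (XN.map (rv x))) (fun i => rv x (l i))
      (XN.map (rv x)) := by
    intro x
    rw [hYt, bcons_map]
    congr 1
    funext j
    rw [← P002G.uU_map, RingHom.map_vecMul]
    rfl
  have hzZt : ∀ x, P002G.zZ (Yt.map (rv x)) = P002G.brd (rv x (q 0)) (N.map (rv x))
      (fun i => rv x (b i)) (fun i => rv x (a i)) := by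
    intro x
    rw [hYtr, P002G.zZ_bcons, ← hNr, ← hbr]
  -- the constant coefficient
  have hdetx : ∀ x, (∏ i, ∏ k, x (k, (i, i))) = ∏ k, (J k).det →
      ψ.coeff 0 = -(rv x (q 0) * (N.map (rv x)).charpoly.coeff 0) := by
    intro x hx
    have h1 : ∏ i, rv x (q i) = ∏ i, Y (Fin.last m) i i := by
      have h2 : ∀ x, (∏ i, ∏ k, x (k, (i, i))) = ∏ k, (J k).det →
          ∏ i, rv x (q i) = (∏ i, φ (θ i)) * (∏ k, (J k).det)⁻¹ := by
        intro x hx
        simp only [hrv', hqr]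
        rw [Finset.prod_mul_distrib, Finset.prod_inv_distrib, hx]
      rw [h2 x hx, ← h2 x₀ ?_]
      · exact Finset.prod_congr rfl fun i _ => hq0 i
      · rw [Finset.prod_comm]
        refine Finset.prod_congr rfl fun k _ => ?_
        rw [← (hY1 k).det, det_zZ, hx₀]
    have h3 : ψ.coeff 0 = (-1) ^ (n + 1) * ∏ i, Y (Fin.last m) i i := by
      have h4 : ψ = (P002G.zZ (Y (Fin.last m))).charpoly := by
        rw [hψ]
        exact hY2.symm
      rw [h4, P002G.charpoly_zZ_coeff_zero]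
    rw [h3, ← h1, hNr, P002G.charpoly_zZ_coeff_zero, Fin.prod_univ_succ]
    have h5 : ∏ i, (XN.map (rv x)) i i = ∏ i : Fin n, rv x (q i.succ) :=
      Finset.prod_congr rfl fun i _ => by rw [hXNr, if_pos rfl]
    rw [h5]
    ring
  have hx₀det : (∏ i, ∏ k, x₀ (k, (i, i))) = ∏ k, (J k).det := by
    rw [Finset.prod_comm]
    refine Finset.prod_congr rfl fun k _ => ?_
    rw [← (hY1 k).det, det_zZ, hx₀]
  -- the value at the base point
  have hYt0 : Yt.map (rv x₀) = Y (Fin.last m) := by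
    have h1 : a0 = fun i => rv x₀ (a i) := by
      rw [har]
      have h2 := P002G.charpoly_brd_iff hψ1 hψ2 hcyc0 (hdetx x₀ hx₀det) a0
      apply h2.1
      rw [hq0, ← hbrd0, hψ]
      exact hY2
    rw [hYtr, ← h1, ha0, hq0, hYm]
  -- the function
  obtain ⟨g, hg⟩ : ∃ g : ratAt x₀, g = MvPolynomial.aeval (fun p => (Fin.snoc
    (α := fun _ => Mat (n + 1) (ratAt x₀)) YS Yt : Fin (m + 1) → _) p.1 p.2.1 p.2.2) F := ⟨_, rfl⟩
  have hgr : ∀ x, rev x₀ x g = MvPolynomial.aeval (fun p => (Fin.snoc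
      (α := fun _ => Mat (n + 1) ℂ) (fun k => (YS k).map (rv x)) (Yt.map (rv x)) :
        Fin (m + 1) → Mat (n + 1) ℂ) p.1 p.2.1 p.2.2) F := by
    intro x
    rw [hg, ← AlgHom.comp_apply, MvPolynomial.comp_aeval]
    congr 2
    funext p
    obtain ⟨k, i, j⟩ := p
    refine Fin.lastCases ?_ (fun k => ?_) k
    · simp only [Fin.snoc_last]
      rw [Matrix.map_apply, hrv']
    · simp only [Fin.snoc_castSucc]
      rw [Matrix.map_apply, hrv']
  obtain ⟨A, hAdef⟩ : ∃ A : Set (Fin m × (Fin (n + 1) × Fin (n + 1)) → ℂ), A =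
    {x | ∃ Yi : Fin m → Mat (n + 1) R, (∀ k i, IsUnit (Yi k i i)) ∧
      (∀ k, CjM (J k) (zZ ((Yi k).map φ))) ∧ x = fun p => φ (Yi p.1 p.2.1 p.2.2)} := ⟨_, rfl⟩
  have hdense : ∀ P : MvPolynomial (Fin m × (Fin (n + 1) × Fin (n + 1))) ℂ,
      (∀ x ∈ A, MvPolynomial.eval x P = 0) → MvPolynomial.eval x₀ P = 0 := by
    intro P hP
    have h1 := dense_pi
      (fun k => {v | ∃ X : Mat (n + 1) R, (∀ i, IsUnit (X i i)) ∧ CjM (J k) (zZ (X.map φ)) ∧
        v = fun p => φ (X p.1 p.2)})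
      (fun k => {v | ∃ X : Mat (n + 1) ℂ, (∀ i, X i i ≠ 0) ∧ CjM (J k) (zZ X) ∧
        v = fun p => X p.1 p.2})
      (fun k F hF v hv => by
        obtain ⟨X, hX1, hX2, rfl⟩ := hv
        exact hT k F (fun X' h1 h2 => hF _ ⟨X', h1, h2, rfl⟩) X hX1 hX2) P
      (fun v hv => by
        choose Yi h1 h2 h3 using hv
        apply hP
        rw [hAdef]
        refine ⟨Yi, h1, h2, ?_⟩
        funext p
        rw [h3 p.1])
      (fun k p => Y k.castSucc p.1 p.2)
      (fun k => ⟨Y k.castSucc, hY0 _, hY1 k, rfl⟩)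
    rw [hx₀]
    exact h1
  have hfin := ratAt_dense' A hdense g (P002G.WW N b).det hdW (fun x hx hκ => by
    rw [hAdef] at hx
    obtain ⟨Yi, h1, h2, h3⟩ := hx
    rw [hgr]
    have h4 : (fun k => (YS k).map (rv x)) = fun k => (Yi k).map φ := by
      funext k
      ext i j
      rw [Matrix.map_apply, Matrix.map_apply, hrv', hYSr, h3]
    rw [h4]
    have h5 : (∏ i, ∏ k, x (k, (i, i))) = ∏ k, (J k).det := by
      rw [Finset.prod_comm]
      refine Finset.prod_congr rfl fun k _ => ?_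
      rw [← (h2 k).det, det_zZ, h3]
      rfl
    have h6 : P002G.Cyc (N.map (rv x)) fun i => rv x (b i) := by
      rw [← P002G.isUnit_WW, Matrix.isUnit_iff_isUnit_det, isUnit_iff_ne_zero, ← hWr]
      have h7 := RingHom.map_det (rv x) (P002G.WW N b)
      rw [hrv'] at h7
      rw [h7] at hκ
      exact hκ
    have h8 := (P002G.charpoly_brd_iff hψ1 hψ2 h6 (hdetx x h5) (fun i => rv x (a i))).2 (har x)
    rw [← hzZt, hψ] at h8
    refine hA Yi h1 h2 (Yt.map (rv x)) (fun i => ?_) h8 ?_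
    · have h9 : (Yt.map (rv x)) i i = rv x (q i) := by
        rw [hYtr]
        refine Fin.cases ?_ (fun i => ?_) i
        · rfl
        · rw [P002G.bcons_succ_succ, hXNr, if_pos rfl]
      have h10 : (∏ k, x (k, (i, i))) = ∏ l, φ (Yi l i i) := by rw [h3]
      rw [h9, hrv', hqr, h10, mul_comm (φ (θ i)), ← mul_assoc, mul_inv_cancel₀, one_mul]
      rw [Finset.prod_ne_zero_iff]
      exact fun k _ => ((h1 k i).map φ).ne_zero
    · have h11 : P002G.Cyc (P002G.zZ (Yt.map (rv x))) (P002G.e0 n ℂ) := by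
        rw [hzZt, P002G.cyc_brd]
        exact h6
      exact h11)
  rw [hgr, hYt0] at hfin
  rw [← hfin]
  congr 2
  funext p
  obtain ⟨k, i, j⟩ := p
  refine Fin.lastCases ?_ (fun k => ?_) k
  · simp only [Fin.snoc_last]
  · simp only [Fin.snoc_castSucc]
    rw [Matrix.map_apply, hrv', hYSr, hx₀]

end Vale.Agent.P002R
end

section

/-!
# Rational dependence of characteristic polynomials, Krylov systems and cell coordinates
-/

namespace Vale.Agent.P002G

open Matrix Polynomial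

variable {V W : Type*} [AddCommGroup V] [Module ℂ V] [AddCommGroup W] [Module ℂ W]

theorem IsRat.isPoly_of_one {f : V → ℂ} (h : IsRat (fun _ => 1) f) : IsPoly f := by
  obtain ⟨M, g, hg, hgx⟩ := h
  refine hg.congr fun x => ?_
  rw [hgx x one_ne_zero]
  simp

theorem RatMap.polyMap_of_one {ψ : V → W} (h : RatMap (fun _ => 1) ψ) : PolyMap ψ :=
  fun l => (h l).isPoly_of_one

theorem IsRat.neg {d f : V → ℂ} (hf : IsRat d f) : IsRat d fun x => -f x := by
  refine ((isPoly_const (-1)).isRat.mul hf).congr fun x _ => ?_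
  ring

theorem IsRat.sub {d f g : V → ℂ} (hd : IsPoly d) (hf : IsRat d f) (hg : IsRat d g) :
    IsRat d fun x => f x - g x := by
  refine (hf.add hd hg.neg).congr fun x _ => ?_
  ring

theorem ratMap_const {d : V → ℂ} (w : W) : RatMap d fun _ : V => w :=
  (polyMap_const w).ratMap

section mats

variable {n : Type*} [Fintype n] {d : V → ℂ}

theorem ratMap_mulVec (hd : IsPoly d) {m : Type*} [Finite m] {A : V → Matrix m n ℂ}
    {v : V → n → ℂ} (hA : RatMap d A) (hv : RatMap d v) : RatMap d fun x => A x *ᵥ v x :=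
  ratMap_pi hd fun i =>
    (IsRat.sum hd _ fun j _ => (hA.entry i j).mul (hv.coord j)).ratMap

theorem ratMap_vecMul (hd : IsPoly d) {m : Type*} [Finite m] {A : V → Matrix n m ℂ}
    {v : V → n → ℂ} (hA : RatMap d A) (hv : RatMap d v) : RatMap d fun x => v x ᵥ* A x :=
  ratMap_pi hd fun i =>
    (IsRat.sum hd _ fun j _ => (hv.coord j).mul (hA.entry j i)).ratMap

theorem ratMap_pow (hd : IsPoly d) [DecidableEq n] {A : V → Matrix n n ℂ} (hA : RatMap d A)
    (k : ℕ) : RatMap d fun x => A x ^ k := by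
  induction k with
  | zero => simpa using ratMap_const (V := V) (d := d) (1 : Matrix n n ℂ)
  | succ k ih =>
    simp only [pow_succ]
    exact IsRat.matrix_mul hd ih hA

end mats

/-- Families of polynomials with rational coefficients. -/
def RatC (d : V → ℂ) (f : V → ℂ[X]) : Prop := ∀ i, IsRat d fun x => (f x).coeff i

section ratC

variable {d : V → ℂ}

theorem RatC.mul (hd : IsPoly d) {f g : V → ℂ[X]} (hf : RatC d f) (hg : RatC d g) :
    RatC d fun x => f x * g x := fun i => by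
  simp only [Polynomial.coeff_mul]
  exact IsRat.sum hd _ fun p _ => (hf p.1).mul (hg p.2)

theorem RatC.sub (hd : IsPoly d) {f g : V → ℂ[X]} (hf : RatC d f) (hg : RatC d g) :
    RatC d fun x => f x - g x := fun i => by
  simp only [Polynomial.coeff_sub]
  exact (hf i).sub hd (hg i)

theorem ratC_const (p : ℂ[X]) : RatC d fun _ => p := fun _ => (isPoly_const _).isRat

theorem ratC_C {f : V → ℂ} (hf : IsRat d f) : RatC d fun x => C (f x) := fun i => by
  by_cases h : i = 0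
  · subst h
    simpa using hf
  · simp only [Polynomial.coeff_C, if_neg h]
    exact (isPoly_const _).isRat

theorem RatC.sum (hd : IsPoly d) {ι : Type*} (s : Finset ι) {f : ι → V → ℂ[X]}
    (hf : ∀ i ∈ s, RatC d (f i)) : RatC d fun x => ∑ i ∈ s, f i x := fun j => by
  simp only [Polynomial.finsetSum_coeff]
  exact IsRat.sum hd _ fun i hi => hf i hi j

theorem RatC.prod (hd : IsPoly d) {ι : Type*} (s : Finset ι) {f : ι → V → ℂ[X]}
    (hf : ∀ i ∈ s, RatC d (f i)) : RatC d fun x => ∏ i ∈ s, f i x := by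
  classical
  induction s using Finset.induction_on with
  | empty => simpa using ratC_const (V := V) (d := d) 1
  | insert i s hi ih =>
    simp only [Finset.prod_insert hi]
    exact RatC.mul hd (hf i (Finset.mem_insert_self i s))
      (ih fun j hj => hf j (Finset.mem_insert_of_mem hj))

theorem ratC_charpoly (hd : IsPoly d) {n : Type*} [Fintype n] [DecidableEq n]
    {A : V → Matrix n n ℂ} (hA : RatMap d A) : RatC d fun x => (A x).charpoly := by
  have h1 : ∀ i j, RatC d fun x => (A x).charmatrix i j := by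
    intro i j
    by_cases h : i = j
    · subst h
      simp only [Matrix.charmatrix_apply_eq]
      exact RatC.sub hd (ratC_const _) (ratC_C (hA.entry i i))
    · simp only [Matrix.charmatrix_apply_ne _ _ _ h]
      intro k
      simp only [Polynomial.coeff_neg]
      exact (ratC_C (hA.entry i j) k).neg
  simp only [Matrix.charpoly, Matrix.det_apply']
  exact RatC.sum hd _ fun σ _ => RatC.mul hd (ratC_const _) (RatC.prod hd _ fun i _ => h1 _ _)

variable {n : ℕ}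

theorem ratMap_WW (hd : IsPoly d) {N : V → Matrix (Fin n) (Fin n) ℂ} {b : V → Fin n → ℂ}
    (hN : RatMap d N) (hb : RatMap d b) : RatMap d fun x => WW (N x) (b x) :=
  ratMap_matrix hd fun j k => by
    simp only [WW, Matrix.of_apply, wp_coeff]
    exact IsRat.sum hd _ fun m _ => (ratC_charpoly hd hN _).mul
      ((ratMap_mulVec hd (ratMap_pow hd hN m) hb).coord k)

theorem ratMap_aOf (hd : IsPoly d) {N : V → Matrix (Fin n) (Fin n) ℂ} {b : V → Fin n → ℂ}
    {q : V → ℂ} {χ : V → ℂ[X]} (hN : RatMap d N) (hb : RatMap d b) (hq : IsRat d q)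
    (hχ : RatC d χ) (hdet : IsRat d fun x => (WW (N x) (b x)).det⁻¹) :
    RatMap d fun x => aOf (χ x) (q x) (N x) (b x) :=
  ratMap_mulVec hd (ratMap_inv' hd (ratMap_WW hd hN hb) hdet) (ratMap_pi hd fun j =>
    (RatC.sub hd (RatC.mul hd (ratC_charpoly hd hN) (RatC.sub hd (ratC_const _) (ratC_C hq))) hχ
      _).ratMap)

theorem ratMap_uU (hd : IsPoly d) {X : V → Matrix (Fin n) (Fin n) ℂ} (hX : RatMap d X) :
    RatMap d fun x => uU (X x) :=
  ratMap_matrix hd fun i j => by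
    simp only [uU, Matrix.of_apply]
    split_ifs
    · exact (isPoly_const _).isRat
    · exact hX.entry i j
    · exact (isPoly_const _).isRat

theorem ratMap_lL (hd : IsPoly d) {X : V → Matrix (Fin n) (Fin n) ℂ} (hX : RatMap d X) :
    RatMap d fun x => lL (X x) :=
  ratMap_matrix hd fun i j => by
    simp only [lL, Matrix.of_apply]
    split_ifs
    · exact hX.entry i j
    · exact (isPoly_const _).isRat

theorem ratMap_zZ (hd : IsPoly d) {X : V → Matrix (Fin n) (Fin n) ℂ} (hX : RatMap d X) :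
    RatMap d fun x => zZ (X x) :=
  IsRat.matrix_mul hd (ratMap_uU hd hX) (ratMap_lL hd hX)

theorem ratMap_bcons (hd : IsPoly d) {X : V → Matrix (Fin n) (Fin n) ℂ} {q : V → ℂ}
    {u l : V → Fin n → ℂ} (hX : RatMap d X) (hq : IsRat d q) (hu : RatMap d u)
    (hl : RatMap d l) : RatMap d fun x => bcons (q x) (u x) (l x) (X x) :=
  ratMap_matrix hd fun i j => by
    refine Fin.cases ?_ (fun i => ?_) i <;> refine Fin.cases ?_ (fun j => ?_) j
    · exact hq
    · exact hu.coord j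
    · exact hl.coord i
    · exact hX.entry i j

end ratC

end Vale.Agent.P002G
end

section

/-!
# Lemma B: density of the integral points of the cells with a unimodular Krylov matrix
-/

namespace Vale.Agent.P002G

open Matrix Polynomial
open Vale.Agent.P002 (kry mul_kry kry_mulVec_single)

variable {n : ℕ} {R : Type*} [CommRing R]

/-- Density of the integral pairs (cell element, cyclic vector). -/
def PP (φ : R →+* ℂ) (n : ℕ) : Prop :=
  ∀ Δ : R, Δ ≠ 0 → ∀ (q : Fin n → Rˣ) (F : Matrix (Fin n) (Fin n) ℂ × (Fin n → ℂ) → ℂ),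
    IsPoly F →
    (∀ (X : Matrix (Fin n) (Fin n) R) (l : Fin n → R), (∀ i, X i i = q i) → Bi Δ X → Be Δ l →
      Cyc (zZ X) (uU X *ᵥ l) → F (X.map φ, fun i => φ (l i)) = 0) →
    ∀ (X : Matrix (Fin n) (Fin n) ℂ) (l : Fin n → ℂ), (∀ i, X i i = φ (q i : R)) → F (X, l) = 0

/-- Density of the integral cell elements with a given characteristic polynomial. -/
def QQ (φ : R →+* ℂ) (n : ℕ) : Prop :=
  ∀ Δ : R, Δ ≠ 0 → ∀ (q : Fin n → Rˣ) (χ : R[X]), χ.Monic → χ.natDegree = n →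
    ∀ F : Matrix (Fin n) (Fin n) ℂ → ℂ, IsPoly F →
    (∀ X : Matrix (Fin n) (Fin n) R, (∀ i, X i i = q i) → Bi Δ X → (zZ X).charpoly = χ →
      Cyc (zZ X) (en n R) → F (X.map φ) = 0) →
    ∀ X : Matrix (Fin n) (Fin n) ℂ, (∀ i, X i i = φ (q i : R)) →
      (zZ X).charpoly = χ.map φ → Cyc (zZ X) (en n ℂ) → F X = 0

/-- The constant coefficient condition. -/
theorem coeff_zero_cond {S : Type*} [CommRing S] {X : Matrix (Fin (n + 1)) (Fin (n + 1)) S}
    {q : S} {u l : Fin n → S} {X' : Matrix (Fin n) (Fin n) S} (hX : X = bcons q u l X') {χ : S[X]}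
    (h : (zZ X).charpoly = χ) : χ.coeff 0 = -(q * (zZ X').charpoly.coeff 0) := by
  rw [← h, charpoly_zZ_coeff_zero, charpoly_zZ_coeff_zero, hX, Fin.prod_univ_succ]
  simp only [bcons_zero_zero, bcons_succ_succ]
  ring

theorem Cyc.det_ne_zero {N : Matrix (Fin n) (Fin n) ℂ} {b : Fin n → ℂ} (h : Cyc N b) :
    (WW N b).det ≠ 0 :=
  ((Matrix.isUnit_iff_isUnit_det _).1 ((isUnit_WW N b).2 h)).ne_zero

theorem cyc_of_det_ne_zero {N : Matrix (Fin n) (Fin n) ℂ} {b : Fin n → ℂ}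
    (h : (WW N b).det ≠ 0) : Cyc N b :=
  (isUnit_WW N b).1 ((Matrix.isUnit_iff_isUnit_det _).2 (isUnit_iff_ne_zero.2 h))

theorem bcons_map {S T : Type*} [CommRing S] [CommRing T] (φ : S →+* T) (q : S) (u l : Fin n → S)
    (X : Matrix (Fin n) (Fin n) S) : (bcons q u l X).map φ =
      bcons (φ q) (fun i => φ (u i)) (fun i => φ (l i)) (X.map φ) := by
  ext i j
  refine Fin.cases ?_ (fun i => ?_) i <;> refine Fin.cases ?_ (fun j => ?_) j <;> rfl

theorem QQ_of_PP (φ : R →+* ℂ) (hφ : Function.Injective φ) (h : PP φ n) : QQ φ (n + 1) := by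
  intro Δ hΔ q χ hχ hχd F hF hint X hq hX hcyc
  -- coordinates
  obtain ⟨x, hx⟩ : ∃ x : Fin n → ℂ, x = fun j => X 0 j.succ := ⟨_, rfl⟩
  obtain ⟨l, hl⟩ : ∃ l : Fin n → ℂ, l = fun i => X i.succ 0 := ⟨_, rfl⟩
  obtain ⟨X', hX'⟩ : ∃ X' : Matrix (Fin n) (Fin n) ℂ, X' = Matrix.of fun i j => X i.succ j.succ :=
    ⟨_, rfl⟩
  obtain ⟨a, ha⟩ : ∃ a, a = x ᵥ* (uU X')⁻¹ := ⟨_, rfl⟩
  have hax : a ᵥ* uU X' = x := by rw [ha]; exact exists_vecMul_uU X' x
  have hXe : X = bcons (φ (q 0 : R)) (a ᵥ* uU X') l X' := by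
    rw [hax, ← hq 0, hx, hl, hX', bcons_eta]
  have hZ : zZ X = brd (φ (q 0 : R)) (zZ X') (uU X' *ᵥ l) a := by
    rw [hXe, zZ_bcons]
  have hcN : Cyc (zZ X') (uU X' *ᵥ l) := by
    rw [hZ, en_eq_e0, cyc_brd] at hcyc
    exact hcyc
  have h0 := coeff_zero_cond hXe hX
  have haO : a = aOf (χ.map φ) (φ (q 0 : R)) (zZ X') (uU X' *ᵥ l) := by
    rw [← charpoly_brd_iff (hχ.map φ) (by rw [hχ.natDegree_map, hχd]) hcN h0, ← hZ]
    exact hX
  have hq' : ∀ i : Fin n, X' i i = φ (q i.succ : R) := fun i => by rw [← hq, hX', Matrix.of_apply]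
  -- the constant coefficient over `R`
  have h0R : χ.coeff 0 = (-1) ^ (n + 1) * ∏ i, (q i : R) := by
    apply hφ
    rw [← coeff_map, ← hX, charpoly_zZ_coeff_zero, map_mul, map_pow, map_neg, map_one, map_prod]
    congr 1
    exact Finset.prod_congr rfl fun i _ => hq i
  -- the rational map
  obtain ⟨d, hd⟩ : ∃ d : Matrix (Fin n) (Fin n) ℂ × (Fin n → ℂ) → ℂ,
      d = fun p => (WW (zZ p.1) (uU p.1 *ᵥ p.2)).det := ⟨_, rfl⟩
  have hfst : PolyMap fun p : Matrix (Fin n) (Fin n) ℂ × (Fin n → ℂ) => p.1 :=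
    polyMap_linear (LinearMap.fst ℂ (Matrix (Fin n) (Fin n) ℂ) (Fin n → ℂ))
  have hsnd : PolyMap fun p : Matrix (Fin n) (Fin n) ℂ × (Fin n → ℂ) => p.2 :=
    polyMap_linear (LinearMap.snd ℂ (Matrix (Fin n) (Fin n) ℂ) (Fin n → ℂ))
  have hb : ∀ d : Matrix (Fin n) (Fin n) ℂ × (Fin n → ℂ) → ℂ, IsPoly d →
      RatMap d fun p => uU p.1 *ᵥ p.2 := fun d hd =>
    ratMap_mulVec hd (ratMap_uU hd hfst.ratMap) hsnd.ratMap
  have hdp : IsPoly d := by
    rw [hd]
    exact isPoly_det (RatMap.polyMap_of_one (ratMap_WW (isPoly_const 1)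
      (ratMap_zZ (isPoly_const 1) hfst.ratMap) (hb _ (isPoly_const 1))))
  obtain ⟨ψ, hψ⟩ : ∃ ψ : Matrix (Fin n) (Fin n) ℂ × (Fin n → ℂ) →
      Matrix (Fin (n + 1)) (Fin (n + 1)) ℂ, ψ = fun p => bcons (φ (q 0 : R))
        (aOf (χ.map φ) (φ (q 0 : R)) (zZ p.1) (uU p.1 *ᵥ p.2) ᵥ* uU p.1) p.2 p.1 := ⟨_, rfl⟩
  have hψr : RatMap d ψ := by
    rw [hψ]
    refine ratMap_bcons hdp hfst.ratMap (isPoly_const _).isRat
      (ratMap_vecMul hdp (ratMap_uU hdp hfst.ratMap) (ratMap_aOf hdp (ratMap_zZ hdp hfst.ratMap)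
        (hb d hdp) (isPoly_const _).isRat (ratC_const _) ?_)) hsnd.ratMap
    rw [hd]
    exact isRat_inv
  have key := vanish_image (S := {p | ∃ (X : Matrix (Fin n) (Fin n) R) (l : Fin n → R),
      (∀ i, X i i = q i.succ) ∧ Bi Δ X ∧ Be Δ l ∧ Cyc (zZ X) (uU X *ᵥ l) ∧
        p = (X.map φ, fun i => φ (l i))}) (T := {p | ∀ i, p.1 i i = φ (q i.succ : R)}) (by
      intro f hf hS p hp
      refine h Δ hΔ (fun i => q i.succ) f hf ?_ p.1 p.2 hp
      intro X l h1 h2 h3 h4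
      exact hS _ ⟨X, l, h1, h2, h3, h4, rfl⟩) hdp hψr hF (by
      rintro p ⟨X, l, -, -, -, h4, rfl⟩
      rw [hd]
      beta_reduce
      rw [← zZ_map, ← uU_map]
      have h5 := h4.map φ
      have h6 : (fun i => φ ((uU X *ᵥ l) i)) = (uU X).map φ *ᵥ fun i => φ (l i) := by
        ext i
        exact RingHom.map_mulVec φ (uU X) l i
      rw [h6] at h5
      exact h5.det_ne_zero) (by
      rintro p ⟨X, l, h1, h2, h3, h4, rfl⟩
      rw [hψ]
      beta_reduce
      have h6 : (fun i => φ ((uU X *ᵥ l) i)) = uU (X.map φ) *ᵥ fun i => φ (l i) := by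
        ext i
        rw [← uU_map]
        exact RingHom.map_mulVec φ (uU X) l i
      have h7 := aOf_map φ h4 χ (q 0 : R)
      rw [h6, zZ_map] at h7
      rw [← h7]
      have h8 : (fun i => φ ((aOf χ (q 0 : R) (zZ X) (uU X *ᵥ l)) i)) ᵥ* uU (X.map φ) =
          fun i => φ ((aOf χ (q 0 : R) (zZ X) (uU X *ᵥ l) ᵥ* uU X) i) := by
        ext i
        rw [← uU_map]
        exact (RingHom.map_vecMul φ (uU X) (aOf χ (q 0 : R) (zZ X) (uU X *ᵥ l)) i).symm
      rw [h8, ← bcons_map]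
      have h9 : χ.coeff 0 = -((q 0 : R) * (zZ X).charpoly.coeff 0) := by
        rw [h0R, charpoly_zZ_coeff_zero, Fin.prod_univ_succ]
        simp only [h1]
        ring
      refine hint _ ?_ ?_ ?_ ?_
      · intro i
        refine Fin.cases ?_ (fun i => ?_) i
        · rfl
        · exact h1 i
      · rw [bi_bcons]
        exact ⟨h3, h2⟩
      · rw [zZ_bcons]
        exact (charpoly_brd_iff hχ hχd h4 h9 _).2 rfl
      · rw [zZ_bcons, en_eq_e0, cyc_brd]
        exact h4)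
  have h1 := key (X', l) hq' (by rw [hd]; exact hcN.det_ne_zero)
  rw [hψ] at h1
  beta_reduce at h1
  rw [← haO, ← hXe] at h1
  exact h1

/-! ### The other direction -/

theorem PP_zero (φ : R →+* ℂ) : PP φ 0 := by
  intro Δ _ q F _ hint X l _
  have h := hint 0 0 (fun i => i.elim0) (fun i => i.elim0) (fun i => i.elim0) (fun M _ _ => by
    rw [eq_top_iff]
    intro x _
    rw [Subsingleton.elim x 0]
    exact M.zero_mem)
  have h1 : ((0 : Matrix (Fin 0) (Fin 0) R).map φ, fun i => φ ((0 : Fin 0 → R) i)) = (X, l) := by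
    ext i
    · exact i.elim0
    · exact i.elim0
  rwa [h1] at h

/-- Existence of a point with a cyclic vector. -/
theorem exists_cyc_point (q : Fin n → ℂ) : ∃ X : Matrix (Fin n) (Fin n) ℂ,
    (∀ i, X i i = q i) ∧ (∀ i j, i < j → X i j = 0) ∧ Cyc (zZ X) (en n ℂ) := by
  induction n with
  | zero =>
    refine ⟨0, fun i => i.elim0, fun i => i.elim0, fun M _ _ => ?_⟩
    rw [eq_top_iff]
    intro x _
    rw [Subsingleton.elim x 0]
    exact M.zero_mem
  | succ n ih =>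
    obtain ⟨X', h1, h2, h3⟩ := ih fun i => q i.succ
    refine ⟨bcons (q 0) 0 (en n ℂ) X', ?_, ?_, ?_⟩
    · intro i
      refine Fin.cases ?_ (fun i => ?_) i
      · rfl
      · exact h1 i
    · intro i j
      refine Fin.cases ?_ (fun i => ?_) i <;> refine Fin.cases ?_ (fun j => ?_) j
      · intro h; exact absurd h (lt_irrefl _)
      · intro _; rfl
      · intro h; exact absurd h (Fin.not_lt_zero _)
      · intro h; exact h2 i j (Fin.succ_lt_succ_iff.1 h)
    · have h4 : (0 : Fin n → ℂ) = (0 : Fin n → ℂ) ᵥ* uU X' := by rw [Matrix.zero_vecMul]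
      have h5 : zZ (bcons (q 0) 0 (en n ℂ) X') = brd (q 0) (zZ X') (uU X' *ᵥ en n ℂ) 0 := by
        conv_lhs => rw [h4]
        rw [zZ_bcons]
      rw [h5, en_eq_e0, cyc_brd, uU_mulVec_en]
      exact h3

/-- Step 5: it suffices to treat the points with a cyclic vector. -/
theorem vanish_of_cyc (q : Fin n → ℂ) {F : Matrix (Fin n) (Fin n) ℂ → ℂ} (hF : IsPoly F)
    (h : ∀ X : Matrix (Fin n) (Fin n) ℂ, (∀ i, X i i = q i) → Cyc (zZ X) (en n ℂ) → F X = 0)
    (X : Matrix (Fin n) (Fin n) ℂ) (hX : ∀ i, X i i = q i) : F X = 0 := by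
  obtain ⟨ω, hω⟩ : ∃ ω : Matrix (Fin n) (Fin n) ℂ → Matrix (Fin n) (Fin n) ℂ,
      ω = fun Y => Matrix.of fun i j => if i = j then q i else Y i j := ⟨_, rfl⟩
  have hωp : PolyMap ω := by
    rw [hω]
    refine polyMap_matrix fun i j => ?_
    simp only [Matrix.of_apply]
    split_ifs
    · exact isPoly_const _
    · exact (polyMap_linear LinearMap.id).entry i j
  have hωd : ∀ Y i, ω Y i i = q i := by
    intro Y i
    rw [hω]
    simp
  have hωX : ∀ Y, (∀ i, Y i i = q i) → ω Y = Y := by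
    intro Y hY
    rw [hω]
    ext i j
    by_cases hij : i = j
    · subst hij
      simp [hY]
    · simp [hij]
  obtain ⟨X₀, h1, -, h3⟩ := exists_cyc_point q
  have hk : IsPoly fun Y => (WW (zZ (ω Y)) (en n ℂ)).det :=
    isPoly_det (RatMap.polyMap_of_one (ratMap_WW (isPoly_const 1)
      (ratMap_zZ (isPoly_const 1) hωp.ratMap) (ratMap_const _)))
  have := (hωp.comp hF).eq_zero_of_mul hk (fun Y => by
    by_cases h0 : (WW (zZ (ω Y)) (en n ℂ)).det = 0
    · rw [h0, mul_zero]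
    · rw [h (ω Y) (hωd Y) (cyc_of_det_ne_zero h0), zero_mul]) X₀ (by
    rw [hωX X₀ h1]
    exact h3.det_ne_zero) X
  rwa [hωX X hX] at this

/-- The eigenvalues as a function on `Fin n`. -/
theorem exists_eigenvalues (Z : Matrix (Fin n) (Fin n) ℂ) :
    ∃ μ : Fin n → ℂ, Z.charpoly = ∏ i, (X - C (μ i)) := by
  have h1 : Z.charpoly.Splits := IsAlgClosed.splits _
  have h2 : Z.charpoly = (Z.charpoly.roots.map fun a => X - C a).prod := by
    have := h1.eq_prod_roots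
    rwa [Z.charpoly_monic.leadingCoeff, C_1, one_mul] at this
  have h3 : Z.charpoly.roots.card = n := by
    rw [← h1.natDegree_eq_card_roots, Matrix.charpoly_natDegree_eq_dim, Fintype.card_fin]
  obtain ⟨L, hL⟩ : ∃ L : List ℂ, (L : Multiset ℂ) = Z.charpoly.roots :=
    ⟨Z.charpoly.roots.toList, Multiset.coe_toList _⟩
  have hLn : L.length = n := by rw [← h3, ← hL, Multiset.coe_card]
  refine ⟨fun i => L.get (i.cast hLn.symm), ?_⟩
  rw [h2, ← hL]
  subst hLn
  rw [Multiset.map_coe, Multiset.prod_coe, Fin.cast_refl]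
  have : (List.map (fun a : ℂ => X - C a) L) = List.ofFn fun i : Fin L.length =>
      (X - C (L.get i) : ℂ[X]) := by
    rw [show (fun i : Fin L.length => (X - C (L.get i) : ℂ[X])) =
      (fun a : ℂ => (X - C a : ℂ[X])) ∘ L.get from rfl, ← List.map_ofFn, List.ofFn_get]
  rw [this, List.prod_ofFn]
  rfl

/-- Units with distinct powers. -/
theorem phi_pow_inj (φ : R →+* ℂ) (u : Rˣ) (hu : ∀ k : ℕ, 0 < k → φ (u : R) ^ k ≠ 1)
    {k l : ℕ} (h : φ (u : R) ^ k = φ (u : R) ^ l) : k = l := by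
  have hu0 : φ (u : R) ≠ 0 := (u.isUnit.map φ).ne_zero
  have key : ∀ k l : ℕ, k < l → φ (u : R) ^ k ≠ φ (u : R) ^ l := by
    intro k l hkl h
    apply hu (l - k) (by omega)
    have h1 : l = k + (l - k) := by omega
    rw [h1, pow_add] at h
    exact (mul_left_cancel₀ (pow_ne_zero k hu0) ((mul_one _).trans h)).symm
  rcases lt_trichotomy k l with h' | h' | h'
  · exact absurd h (key k l h')
  · exact h'
  · exact absurd h.symm (key l k h')

theorem unit_pow_inj (φ : R →+* ℂ) (u : Rˣ) (hu : ∀ k : ℕ, 0 < k → φ (u : R) ^ k ≠ 1)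
    {k l : ℕ} (h : u ^ k = u ^ l) : k = l := by
  apply phi_pow_inj φ u hu
  rw [← map_pow, ← map_pow, ← Units.val_pow_eq_pow_val, ← Units.val_pow_eq_pow_val, h]

theorem infinite_residue (φ : R →+* ℂ) (u : Rˣ) (hu : ∀ k : ℕ, 0 < k → φ (u : R) ^ k ≠ 1)
    (E m i : ℕ) (hi : i < m) :
    {z : ℂ | ∃ k : ℕ, E < k ∧ k % m = i ∧ z = φ (u : R) ^ k}.Infinite := by
  have h1 : (Set.range fun j : ℕ => φ (u : R) ^ (i + m * (E + 1 + j))).Infinite := by
    apply Set.infinite_range_of_injective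
    intro j j' h
    beta_reduce at h
    have h3 := phi_pow_inj φ u hu h
    have h4 : m * (E + 1 + j) = m * (E + 1 + j') := by omega
    have h5 := Nat.eq_of_mul_eq_mul_left (by omega : 0 < m) h4
    omega
  refine h1.mono ?_
  rintro _ ⟨j, rfl⟩
  refine ⟨i + m * (E + 1 + j), ?_, ?_, rfl⟩
  · have : 1 * (E + 1 + j) ≤ m * (E + 1 + j) := Nat.mul_le_mul_right _ (by omega)
    omega
  · rw [Nat.add_mul_mod_self_left]
    exact Nat.mod_eq_of_lt hi

/-- Steps 1-3: the statement for prescribed eigenvalues. -/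
theorem vanish_of_eigenvalues (φ : R →+* ℂ) (hφ : Function.Injective φ) (u : Rˣ)
    (hu : ∀ k : ℕ, 0 < k → φ (u : R) ^ k ≠ 1)
    (hUP : ∀ D : R, D ≠ 0 → ∃ M : ℕ, 0 < M ∧ D ∣ (u : R) ^ M - 1) (hQ : QQ φ n)
    {Δ : R} (hΔ : Δ ≠ 0) (q : Fin n → Rˣ)
    {F : Matrix (Fin n) (Fin n) ℂ × (Fin n → ℂ) → ℂ} (hF : IsPoly F)
    (hint : ∀ (X : Matrix (Fin n) (Fin n) R) (l : Fin n → R), (∀ i, X i i = q i) → Bi Δ X →
      Be Δ l → Cyc (zZ X) (uU X *ᵥ l) → F (X.map φ, fun i => φ (l i)) = 0)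
    {ν : Fin n → R} (hν : Function.Injective ν) (X : Matrix (Fin n) (Fin n) ℂ)
    (hX : ∀ i, X i i = φ (q i : R))
    (hXc : (zZ X).charpoly = (∏ i, (Polynomial.X - C (ν i))).map φ) (hcyc : Cyc (zZ X) (en n ℂ))
    (l : Fin n → ℂ) : F (X, l) = 0 := by
  have hdom : IsDomain R := hφ.isDomain φ
  have h1 : PolyMap fun Y : Matrix (Fin n) (Fin n) ℂ => (Y, l) :=
    (polyMap_linear LinearMap.id).prodMk (polyMap_const l)
  refine hQ Δ hΔ q (∏ i, (Polynomial.X - C (ν i))) (monic_prod_of_monic _ _ fun i _ =>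
    monic_X_sub_C _) ?_ (fun Y => F (Y, l)) (h1.comp hF) ?_ X hX hXc hcyc
  · rw [natDegree_prod_of_monic _ _ fun i _ => monic_X_sub_C _]
    simp
  · intro Y hY hYb hYc hYcyc
    have h2 : PolyMap fun l : Fin n → ℂ => (Y.map φ, l) :=
      (polyMap_const (Y.map φ)).prodMk (polyMap_linear LinearMap.id)
    exact lagrange_density φ hφ u hu hUP hΔ Y hν hYc hYcyc (h2.comp hF)
      (fun l' hl' hcl' => hint Y l' hY hYb hl' hcl') l

/-- The characteristic polynomials of the family. -/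
noncomputable def chiF (Q : ℂ) (y : Fin n → ℂ) : ℂ[X] :=
  (∏ i, (X - C (y i))) * (X - C (Q / ∏ i, y i))

theorem chiF_monic (Q : ℂ) (y : Fin n → ℂ) : (chiF Q y).Monic :=
  (monic_prod_of_monic _ _ fun i _ => monic_X_sub_C _).mul (monic_X_sub_C _)

theorem chiF_natDegree (Q : ℂ) (y : Fin n → ℂ) : (chiF Q y).natDegree = n + 1 := by
  rw [chiF, (monic_prod_of_monic _ _ fun i _ => monic_X_sub_C _).natDegree_mul (monic_X_sub_C _),
    natDegree_prod_of_monic _ _ fun i _ => monic_X_sub_C _]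
  simp

theorem coeff_zero_prod (y : Fin n → ℂ) :
    (∏ i, (X - C (y i))).coeff 0 = (-1) ^ n * ∏ i, y i := by
  rw [coeff_zero_eq_eval_zero, Polynomial.eval_prod]
  simp [Finset.prod_neg]

theorem chiF_coeff_zero (Q : ℂ) (y : Fin n → ℂ) (hy : ∏ i, y i ≠ 0) :
    (chiF Q y).coeff 0 = (-1) ^ (n + 1) * Q := by
  rw [chiF, mul_coeff_zero, coeff_zero_prod, coeff_sub, coeff_X_zero, coeff_C_zero]
  field_simp
  ring

theorem ratC_chiF (Q : ℂ) : RatC (fun y : Fin n → ℂ => ∏ i, y i) (chiF Q) := by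
  have hd : IsPoly (fun y : Fin n → ℂ => ∏ i, y i) := IsPoly.prod _ fun i _ => isPoly_coord i
  unfold chiF
  refine RatC.mul hd (RatC.prod hd _ fun i _ => RatC.sub hd (ratC_const _)
    (ratC_C (isPoly_coord i).isRat)) (RatC.sub hd (ratC_const _) (ratC_C ?_))
  refine ((isPoly_const Q).isRat.mul isRat_inv).congr fun y _ => ?_
  rw [div_eq_mul_inv]

theorem PP_of_QQ (φ : R →+* ℂ) (hφ : Function.Injective φ) (u : Rˣ)
    (hu : ∀ k : ℕ, 0 < k → φ (u : R) ^ k ≠ 1)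
    (hUP : ∀ D : R, D ≠ 0 → ∃ M : ℕ, 0 < M ∧ D ∣ (u : R) ^ M - 1) (hQ : QQ φ (n + 1)) :
    PP φ (n + 1) := by
  intro Δ hΔ q F hF hint X l hX
  have hp : PolyMap fun Y : Matrix (Fin (n + 1)) (Fin (n + 1)) ℂ => (Y, l) :=
    (polyMap_linear LinearMap.id).prodMk (polyMap_const l)
  refine vanish_of_cyc (fun i => φ (q i : R)) (F := fun Y => F (Y, l)) (hp.comp hF) ?_ X hX
  clear X hX
  intro X hX hcyc
  -- coordinates
  obtain ⟨x, hx⟩ : ∃ x : Fin n → ℂ, x = fun j => X 0 j.succ := ⟨_, rfl⟩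
  obtain ⟨l', hl'⟩ : ∃ l : Fin n → ℂ, l = fun i => X i.succ 0 := ⟨_, rfl⟩
  obtain ⟨X', hX'⟩ : ∃ X' : Matrix (Fin n) (Fin n) ℂ, X' = Matrix.of fun i j => X i.succ j.succ :=
    ⟨_, rfl⟩
  obtain ⟨a, ha⟩ : ∃ a, a = x ᵥ* (uU X')⁻¹ := ⟨_, rfl⟩
  have hax : a ᵥ* uU X' = x := by rw [ha]; exact exists_vecMul_uU X' x
  have hXe : X = bcons (φ (q 0 : R)) (a ᵥ* uU X') l' X' := by
    rw [hax, ← hX 0, hx, hl', hX', bcons_eta]
  have hZ : zZ X = brd (φ (q 0 : R)) (zZ X') (uU X' *ᵥ l') a := by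
    rw [hXe, zZ_bcons]
  have hcN : Cyc (zZ X') (uU X' *ᵥ l') := by
    rw [hZ, en_eq_e0, cyc_brd] at hcyc
    exact hcyc
  have hq' : ∀ i : Fin n, X' i i = φ (q i.succ : R) := fun i => by rw [← hX, hX', Matrix.of_apply]
  obtain ⟨Q, hQd⟩ : ∃ Q : ℂ, Q = ∏ i, φ (q i : R) := ⟨_, rfl⟩
  have hQ0 : Q ≠ 0 := by
    rw [hQd, Finset.prod_ne_zero_iff]
    exact fun i _ => ((q i).isUnit.map φ).ne_zero
  have hχ0 : ∀ y : Fin n → ℂ, ∏ i, y i ≠ 0 →
      (chiF Q y).coeff 0 = -(φ (q 0 : R) * (zZ X').charpoly.coeff 0) := by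
    intro y hy
    rw [chiF_coeff_zero Q y hy, charpoly_zZ_coeff_zero, hQd, Fin.prod_univ_succ]
    simp only [hq']
    ring
  -- the family
  obtain ⟨ψ, hψ⟩ : ∃ ψ : (Fin n → ℂ) → Matrix (Fin (n + 1)) (Fin (n + 1)) ℂ,
      ψ = fun y => bcons (φ (q 0 : R))
        (aOf (chiF Q y) (φ (q 0 : R)) (zZ X') (uU X' *ᵥ l') ᵥ* uU X') l' X' := ⟨_, rfl⟩
  have hd : IsPoly (fun y : Fin n → ℂ => ∏ i, y i) := IsPoly.prod _ fun i _ => isPoly_coord i
  have hψr : RatMap (fun y : Fin n → ℂ => ∏ i, y i) ψ := by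
    rw [hψ]
    exact ratMap_bcons hd (ratMap_const _) (isPoly_const _).isRat
      (ratMap_vecMul hd (ratMap_const _) (ratMap_aOf hd (ratMap_const _) (ratMap_const _)
        (isPoly_const _).isRat (ratC_chiF Q) (isPoly_const _).isRat)) (ratMap_const _)
  have hψd : ∀ y i, ψ y i i = φ (q i : R) := by
    intro y i
    rw [hψ]
    refine Fin.cases ?_ (fun i => ?_) i
    · rfl
    · exact hq' i
  have hψc : ∀ y : Fin n → ℂ, ∏ i, y i ≠ 0 → (zZ (ψ y)).charpoly = chiF Q y := by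
    intro y hy
    rw [hψ, zZ_bcons]
    exact (charpoly_brd_iff (chiF_monic Q y) (chiF_natDegree Q y) hcN (hχ0 y hy) _).2 rfl
  have hψcyc : ∀ y, Cyc (zZ (ψ y)) (en (n + 1) ℂ) := by
    intro y
    rw [hψ, zZ_bcons, en_eq_e0, cyc_brd]
    exact hcN
  -- the exponents
  obtain ⟨E, hE⟩ : ∃ E : ℕ, ∀ e : ℕ, E < e → u ^ e ≠ ∏ i, q i := by
    by_cases h : ∃ e, u ^ e = ∏ i, q i
    · obtain ⟨e, he⟩ := h
      exact ⟨e, fun e' h' h'' => h'.ne (unit_pow_inj φ u hu (he.trans h''.symm))⟩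
    · exact ⟨0, fun e _ h' => h ⟨e, h'⟩⟩
  have key : ∀ y : Fin n → ℂ, ∏ i, y i ≠ 0 → F (ψ y, l) = 0 := by
    intro y hy
    refine vanish_family (F := fun Y => F (Y, l)) hd hψr (hp.comp hF) (fun _ => 1) (isPoly_const 1)
      0 one_ne_zero (fun i : Fin n => {z : ℂ | ∃ k : ℕ, E < k ∧ k % n = i ∧ z = φ (u : R) ^ k})
      (fun i => infinite_residue φ u hu E n i i.2) ?_ y hy
    intro y hyS hy0 _
    choose k hk1 hk2 hk3 using hyS
    obtain ⟨w, hw⟩ : ∃ w : Rˣ, w = (∏ i, q i) * (∏ i, u ^ k i)⁻¹ := ⟨_, rfl⟩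
    obtain ⟨ν, hν⟩ : ∃ ν : Fin (n + 1) → Rˣ, ν = Fin.snoc (α := fun _ => Rˣ)
      (fun i => u ^ k i) w := ⟨_, rfl⟩
    have hν1 : ∀ i : Fin n, ν i.castSucc = u ^ k i := fun i => by rw [hν, Fin.snoc_castSucc]
    have hν2 : ν (Fin.last n) = w := by rw [hν, Fin.snoc_last]
    have hne : ∀ i : Fin n, u ^ k i ≠ w := by
      intro i h
      refine hE (k i + ∑ j, k j) (by have := hk1 i; omega) ?_
      rw [pow_add, h, hw, ← Finset.prod_pow_eq_pow_sum, inv_mul_cancel_right]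
    have hinj : Function.Injective ν := by
      intro i j
      refine Fin.lastCases ?_ (fun i => ?_) i <;> refine Fin.lastCases ?_ (fun j => ?_) j
      · intro _; rfl
      · intro h
        rw [hν1, hν2] at h
        exact absurd h.symm (hne j)
      · intro h
        rw [hν1, hν2] at h
        exact absurd h (hne i)
      · intro h
        rw [hν1, hν1] at h
        have h1 := unit_pow_inj φ u hu h
        congr 1
        apply Fin.ext
        rw [← hk2 i, ← hk2 j, h1]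
    refine vanish_of_eigenvalues φ hφ u hu hUP hQ hΔ q hF hint
      (ν := fun i => (ν i : R)) (fun i j h => hinj (Units.ext h)) (ψ y) (hψd y) ?_ (hψcyc y) l
    have hwφ : φ (w : R) = Q / ∏ i, y i := by
      rw [eq_div_iff hy0]
      have h1 : w * ∏ i, u ^ k i = ∏ i, q i := by rw [hw, inv_mul_cancel_right]
      have h2 := congrArg (fun w : Rˣ => φ (w : R)) h1
      beta_reduce at h2
      rw [Units.val_mul, map_mul, Units.coe_prod, Units.coe_prod, map_prod, map_prod] at h2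
      rw [hQd, ← h2]
      congr 1
      exact Finset.prod_congr rfl fun i _ => by rw [hk3, Units.val_pow_eq_pow_val, map_pow]
    rw [hψc y hy0, Polynomial.map_prod, Fin.prod_univ_castSucc, chiF, hν2]
    simp only [Polynomial.map_sub, map_X, map_C, hwφ]
    congr 1
    exact Finset.prod_congr rfl fun i _ => by
      rw [hk3, hν1, Units.val_pow_eq_pow_val, map_pow φ]
  -- the eigenvalues of `X`
  obtain ⟨μ, hμ⟩ := exists_eigenvalues (zZ X)
  have hμ1 : ∏ i, μ i = Q := by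
    have h1 := charpoly_zZ_coeff_zero X
    rw [hμ, coeff_zero_prod] at h1
    have h2 := mul_left_cancel₀ (pow_ne_zero _ (neg_ne_zero.2 one_ne_zero)) h1
    rw [h2, hQd]
    exact Finset.prod_congr rfl fun i _ => hX i
  have hμ2 : ∏ i : Fin n, μ i.castSucc ≠ 0 := by
    intro h
    rw [Fin.prod_univ_castSucc, h, zero_mul] at hμ1
    exact hQ0 hμ1.symm
  have hμ3 : (zZ X).charpoly = chiF Q fun i : Fin n => μ i.castSucc := by
    rw [hμ, chiF, Fin.prod_univ_castSucc]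
    congr 3
    rw [eq_div_iff hμ2, ← hμ1, Fin.prod_univ_castSucc, mul_comm]
  have h1 := key _ hμ2
  have h2 : ψ (fun i : Fin n => μ i.castSucc) = X := by
    have h3 : a = aOf (chiF Q fun i : Fin n => μ i.castSucc) (φ (q 0 : R)) (zZ X')
        (uU X' *ᵥ l') := by
      rw [← charpoly_brd_iff (chiF_monic Q _) (chiF_natDegree Q _) hcN (hχ0 _ hμ2), ← hZ, hμ3]
    rw [hψ]
    beta_reduce
    rw [← h3, ← hXe]
  rw [h2] at h1
  exact h1

/-- LEMMA B. -/
theorem PP_all (φ : R →+* ℂ) (hφ : Function.Injective φ) (u : Rˣ)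
    (hu : ∀ k : ℕ, 0 < k → φ (u : R) ^ k ≠ 1)
    (hUP : ∀ D : R, D ≠ 0 → ∃ M : ℕ, 0 < M ∧ D ∣ (u : R) ^ M - 1) (n : ℕ) : PP φ n := by
  induction n with
  | zero => exact PP_zero φ
  | succ n ih => exact PP_of_QQ φ hφ u hu hUP (QQ_of_PP φ hφ ih)

/-- LEMMA B. -/
theorem QQ_all (φ : R →+* ℂ) (hφ : Function.Injective φ) (u : Rˣ)
    (hu : ∀ k : ℕ, 0 < k → φ (u : R) ^ k ≠ 1)
    (hUP : ∀ D : R, D ≠ 0 → ∃ M : ℕ, 0 < M ∧ D ∣ (u : R) ^ M - 1) (n : ℕ) : QQ φ (n + 1) :=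
  QQ_of_PP φ hφ (PP_all φ hφ u hu hUP n)

end Vale.Agent.P002G
end

section

/-!
# P002: duality, irreducibility of the dual tuple
-/

namespace Vale.Agent.P002R

open Matrix

variable {n r : ℕ}

/-- The reflections of the dual tuple. -/
def dR {S : Type*} [CommRing S] (Ξ : Matrix (Fin n) (Fin r) S) (Υ : Matrix (Fin r) (Fin n) S)
    (i : Fin r) : Mat n S :=
  1 + vecMulVec (fun a => Ξ a i) (Υ i)

theorem dR_mulVec {S : Type*} [CommRing S] (Ξ : Matrix (Fin n) (Fin r) S)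
    (Υ : Matrix (Fin r) (Fin n) S) (i : Fin r) (x : Fin n → S) :
    dR Ξ Υ i *ᵥ x = x + (Υ i ⬝ᵥ x) • fun a => Ξ a i := by
  rw [dR, Matrix.add_mulVec, Matrix.one_mulVec, Matrix.vecMulVec_mulVec]
  congr 1
  funext a
  rw [Pi.smul_apply, MulOpposite.smul_eq_mul_unop, MulOpposite.unop_op, Pi.smul_apply,
    smul_eq_mul, mul_comm]

theorem dV_eq {S : Type*} [CommRing S] (Ξ : Matrix (Fin n) (Fin r) S)
    (Υ : Matrix (Fin r) (Fin n) S) :
    dU (Υ * Ξ) * Υ = Υ + upS (Υ * Ξ) * (dU (Υ * Ξ) * Υ) := by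
  have h1 := mul_dU (Υ * Ξ)
  have h2 : dU (Υ * Ξ) = 1 + upS (Υ * Ξ) * dU (Υ * Ξ) := by
    rw [Matrix.sub_mul, Matrix.one_mul] at h1
    rw [← h1]
    abel
  calc dU (Υ * Ξ) * Υ = (1 + upS (Υ * Ξ) * dU (Υ * Ξ)) * Υ := by rw [← h2]
    _ = _ := by rw [Matrix.add_mul, Matrix.one_mul, Matrix.mul_assoc]

/-- If no coordinate subspace is stable under `zZ (dX ζ (Υ * Ξ))` then the dual tuple is
irreducible. -/
theorem dual_irred (ζ : ℂ) (Ξ : Matrix (Fin n) (Fin r) ℂ) (Υ : Matrix (Fin r) (Fin n) ℂ)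
    (hΥ : ∀ v, Υ *ᵥ v = 0 → v = 0) (hΞ : ∀ w, w ᵥ* Ξ = 0 → w = 0)
    (hI : ∀ I : Finset (Fin r), I.Nonempty → I ≠ Finset.univ →
      ∃ i, i ∉ I ∧ ∃ j ∈ I, zZ (dX ζ (Υ * Ξ)) i j ≠ 0)
    (H : Submodule ℂ (Fin n → ℂ)) (hH : ∀ i, ∀ x ∈ H, dR Ξ Υ i *ᵥ x ∈ H) : H = ⊥ ∨ H = ⊤ := by
  classical
  obtain ⟨V, hV⟩ : ∃ V, V = dU (Υ * Ξ) * Υ := ⟨_, rfl⟩
  have hVe : V = Υ + upS (Υ * Ξ) * V := by rw [hV]; exact dV_eq Ξ Υ
  obtain ⟨y, hy⟩ : ∃ y : (Fin n → ℂ) → ℕ → Fin n → ℂ, y = fun x k => x + ∑ j : Fin r,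
    if k ≤ (j : ℕ) then (V j ⬝ᵥ x) • (fun a => Ξ a j) else 0 := ⟨_, rfl⟩
  have hyr : ∀ x, y x r = x := by
    intro x
    rw [hy]
    simp only
    rw [Finset.sum_eq_zero, add_zero]
    intro j _
    rw [if_neg (by have := j.2; omega)]
  have hys : ∀ x (k : Fin r), y x k = y x (k + 1) + (V k ⬝ᵥ x) • fun a => Ξ a k := by
    intro x k
    rw [hy]
    simp only
    rw [add_assoc]
    congr 1
    rw [← Finset.add_sum_erase _ _ (Finset.mem_univ k), if_pos le_rfl, add_comm]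
    congr 1
    rw [← Finset.add_sum_erase _ (fun j : Fin r => if (k : ℕ) + 1 ≤ (j : ℕ) then
      (V j ⬝ᵥ x) • (fun a => Ξ a j) else 0) (Finset.mem_univ k)]
    rw [if_neg (by omega), zero_add]
    refine Finset.sum_congr rfl fun j hj => ?_
    have h1 : (j : ℕ) ≠ k := fun h => Finset.ne_of_mem_erase hj (Fin.ext h)
    by_cases h2 : (k : ℕ) ≤ j
    · rw [if_pos h2, if_pos (by omega)]
    · rw [if_neg h2, if_neg (by omega)]
  have hVy : ∀ x (k : Fin r), V k ⬝ᵥ x = Υ k ⬝ᵥ y x (k + 1) := by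
    intro x k
    have h1 : V k ⬝ᵥ x = Υ k ⬝ᵥ x + ∑ j, upS (Υ * Ξ) k j * (V j ⬝ᵥ x) := by
      have h2 : V k = Υ k + upS (Υ * Ξ) k ᵥ* V := by
        have := congrFun hVe k
        exact this
      conv_lhs => rw [h2]
      rw [add_dotProduct]
      congr 1
      rw [← Matrix.dotProduct_mulVec]
      rfl
    rw [h1, hy]
    simp only
    rw [dotProduct_add, dotProduct_sum]
    congr 1
    refine Finset.sum_congr rfl fun j _ => ?_
    rw [upS_apply]
    by_cases h2 : k < j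
    · rw [if_pos h2, if_pos (by exact h2), dotProduct_smul, smul_eq_mul, mul_comm]
      rfl
    · rw [if_neg h2, if_neg (by intro h; exact h2 h), zero_mul, dotProduct_zero]
  have hyH : ∀ x ∈ H, ∀ d k : ℕ, k + d = r → y x k ∈ H := by
    intro x hx d
    induction d with
    | zero =>
      intro k hk
      rw [show k = r by omega, hyr]
      exact hx
    | succ d ih =>
      intro k hk
      have h1 := ih (k + 1) (by omega)
      have h2 := hys x ⟨k, by omega⟩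
      rw [hVy x ⟨k, by omega⟩, ← dR_mulVec] at h2
      rw [h2]
      exact hH _ _ h1
  obtain ⟨I, hId⟩ : ∃ I : Finset (Fin r), I = Finset.univ.filter fun i => (fun a => Ξ a i) ∈ H :=
    ⟨_, rfl⟩
  have hImem : ∀ i, i ∈ I ↔ (fun a => Ξ a i) ∈ H := by
    intro i
    rw [hId, Finset.mem_filter]
    exact ⟨fun h => h.2, fun h => ⟨Finset.mem_univ i, h⟩⟩
  have hout : ∀ i, i ∉ I → ∀ x ∈ H, Υ i ⬝ᵥ x = 0 := by
    intro i hi x hx
    by_contra hne
    have h1 := hH i x hx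
    rw [dR_mulVec] at h1
    have h2 : (Υ i ⬝ᵥ x) • (fun a => Ξ a i) ∈ H := by
      have h3 := H.sub_mem h1 hx
      rwa [add_sub_cancel_left] at h3
    exact hi ((hImem i).2 ((H.smul_mem_iff hne).1 h2))
  have hVout : ∀ i, i ∉ I → ∀ x ∈ H, V i ⬝ᵥ x = 0 := by
    intro i hi x hx
    rw [hVy]
    exact hout i hi _ (hyH x hx (r - (i + 1)) (i + 1) (by have := i.2; omega))
  have hZ : ∀ i j, i ≠ j → zZ (dX ζ (Υ * Ξ)) i j = ζ * (V i ⬝ᵥ fun a => Ξ a j) := by
    intro i j hij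
    rw [zZ_dX, Matrix.smul_apply, Matrix.add_apply, Matrix.one_apply_ne hij, zero_add,
      ← Matrix.mul_assoc, ← hV, smul_eq_mul]
    rfl
  by_cases h1 : I.Nonempty
  · by_cases h2 : I = Finset.univ
    · right
      rw [eq_top_iff]
      intro x _
      by_contra hx
      obtain ⟨f, hf1, hf2⟩ := Submodule.exists_le_ker_of_notMem hx
      obtain ⟨w, hw⟩ : ∃ w : Fin n → ℂ, ∀ v, f v = w ⬝ᵥ v := by
        refine ⟨fun a => f (Pi.single a 1), fun v => ?_⟩
        conv_lhs => rw [← Finset.univ_sum_single v]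
        rw [map_sum, dotProduct]
        refine Finset.sum_congr rfl fun a _ => ?_
        have h3 : Pi.single a (v a) = v a • (Pi.single a 1 : Fin n → ℂ) := by
          rw [← Pi.single_smul, smul_eq_mul, mul_one]
        rw [h3, map_smul, smul_eq_mul, mul_comm]
      have h3 : w ᵥ* Ξ = 0 := by
        funext j
        have h4 : (fun a => Ξ a j) ∈ H := (hImem j).1 (by rw [h2]; exact Finset.mem_univ j)
        have h5 := hf2 h4
        rw [LinearMap.mem_ker, hw] at h5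
        exact h5
      apply hf1
      rw [hw, hΞ w h3, zero_dotProduct]
    · exfalso
      obtain ⟨i, hi, j, hj, hne⟩ := hI I h1 h2
      apply hne
      rw [hZ i j (fun h => hi (h ▸ hj)), hVout i hi _ ((hImem j).1 hj), mul_zero]
  · left
    rw [Finset.not_nonempty_iff_eq_empty] at h1
    rw [eq_bot_iff]
    intro x hx
    rw [Submodule.mem_bot]
    apply hΥ
    have h2 : V *ᵥ x = 0 := by
      funext i
      exact hVout i (by rw [h1]; exact Finset.notMem_empty i) x hx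
    have h3 : (1 - upS (Υ * Ξ)) *ᵥ (V *ᵥ x) = 0 := by rw [h2, Matrix.mulVec_zero]
    rw [hV, Matrix.mulVec_mulVec, ← Matrix.mul_assoc, mul_dU, Matrix.one_mul] at h3
    exact h3

theorem dual_ne (ζ : ℂ) (Ξ : Matrix (Fin n) (Fin r) ℂ) (Υ : Matrix (Fin r) (Fin n) ℂ)
    (hr : 2 ≤ r) (hI : ∀ I : Finset (Fin r), I.Nonempty → I ≠ Finset.univ →
      ∃ i, i ∉ I ∧ ∃ j ∈ I, zZ (dX ζ (Υ * Ξ)) i j ≠ 0) (k : Fin r) :
    (fun a => Ξ a k) ≠ 0 ∧ Υ k ≠ 0 := by
  classical
  have hex : ∃ l : Fin r, l ≠ k := by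
    by_cases h : k = ⟨0, by omega⟩
    · exact ⟨⟨1, by omega⟩, fun h' => by rw [h] at h'; exact absurd (congrArg Fin.val h') (by simp)⟩
    · exact ⟨⟨0, by omega⟩, fun h' => h h'.symm⟩
  obtain ⟨l, hl⟩ := hex
  obtain ⟨V, hV⟩ : ∃ V, V = dU (Υ * Ξ) * Υ := ⟨_, rfl⟩
  have hVe : V = Υ + upS (Υ * Ξ) * V := by rw [hV]; exact dV_eq Ξ Υ
  have hZ : ∀ i j, i ≠ j → zZ (dX ζ (Υ * Ξ)) i j = ζ * (V i ⬝ᵥ fun a => Ξ a j) := by
    intro i j hij
    rw [zZ_dX, Matrix.smul_apply, Matrix.add_apply, Matrix.one_apply_ne hij, zero_add,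
      ← Matrix.mul_assoc, ← hV, smul_eq_mul]
    rfl
  constructor
  · intro h
    obtain ⟨i, hi, j, hj, hne⟩ := hI {k} (Finset.singleton_nonempty k) (by
      intro h'
      have : l ∈ ({k} : Finset (Fin r)) := by rw [h']; exact Finset.mem_univ l
      exact hl (Finset.mem_singleton.1 this))
    apply hne
    rw [Finset.mem_singleton] at hi hj
    rw [hZ i j (by rw [hj]; exact hi), hj, h, dotProduct_zero, mul_zero]
  · intro h
    have hVk : V k = 0 := by
      have h2 : V k = Υ k + upS (Υ * Ξ) k ᵥ* V := by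
        have := congrFun hVe k
        exact this
      rw [h2, h, zero_add]
      have h3 : upS (Υ * Ξ) k = 0 := by
        funext j
        rw [upS_apply, Matrix.mul_apply]
        have h4 : ∀ a, Υ k a = 0 := fun a => congrFun h a
        simp only [h4, zero_mul, Finset.sum_const_zero, ite_self]
        rfl
      rw [h3, Matrix.zero_vecMul]
    obtain ⟨i, hi, j, hj, hne⟩ := hI (Finset.univ.erase k) ⟨l, Finset.mem_erase.2
      ⟨hl, Finset.mem_univ l⟩⟩ (fun h' => by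
        have : k ∈ Finset.univ.erase k := by rw [h']; exact Finset.mem_univ k
        exact (Finset.mem_erase.1 this).1 rfl)
    apply hne
    have hik : i = k := by
      by_contra hne'
      exact hi (Finset.mem_erase.2 ⟨hne', Finset.mem_univ i⟩)
    rw [hZ i j (fun h' => (Finset.mem_erase.1 hj).1 (h' ▸ hik)), hik, hVk, zero_dotProduct,
      mul_zero]

end Vale.Agent.P002R
end

section

/-!
# P002: rational families in the cell with prescribed diagonal and characteristic polynomial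
-/

namespace Vale.Agent.P002R

open Matrix

/-- Every element of the cell with a cyclic first basis vector is a member of a rational family of
such elements with prescribed diagonal and prescribed characteristic polynomial. -/
theorem exists_family {σ : Type*} {x₀ : σ → ℂ} {n : ℕ} (q : Fin (n + 1) → ratAt x₀)
    (χ : Polynomial (ratAt x₀)) (hχ : χ.Monic) (hχd : χ.natDegree = n + 1)
    (Yl : Mat (n + 1) ℂ) (hdiag : ∀ i, rev x₀ x₀ (q i) = Yl i i)
    (hchar : (zZ Yl).charpoly = χ.map ((rev x₀ x₀ : ratAt x₀ →ₐ[ℂ] ℂ) : ratAt x₀ →+* ℂ))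
    (hcyc : P002G.Cyc (zZ Yl) (P002G.e0 n ℂ)) :
    ∃ (Yt : Mat (n + 1) (ratAt x₀)) (κ : ratAt x₀), rev x₀ x₀ κ ≠ 0 ∧
      (∀ i j, rev x₀ x₀ (Yt i j) = Yl i j) ∧
      ∀ x, rev x₀ x κ ≠ 0 →
        (χ.map ((rev x₀ x : ratAt x₀ →ₐ[ℂ] ℂ) : ratAt x₀ →+* ℂ)).coeff 0 =
          (-1) ^ (n + 1) * ∏ i, rev x₀ x (q i) →
        (∀ i, rev x₀ x (Yt i i) = rev x₀ x (q i)) ∧
        (zZ (Yt.map (rev x₀ x))).charpoly =
          χ.map ((rev x₀ x : ratAt x₀ →ₐ[ℂ] ℂ) : ratAt x₀ →+* ℂ) ∧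
        P002G.Cyc (zZ (Yt.map (rev x₀ x))) (P002G.e0 n ℂ) := by
  obtain ⟨XN, hXN⟩ : ∃ XN : Mat n (ratAt x₀), XN = Matrix.of fun i j => if i = j then q i.succ
    else algebraMap ℂ _ (Yl i.succ j.succ) := ⟨_, rfl⟩
  obtain ⟨l, hl⟩ : ∃ l : Fin n → ratAt x₀, l = fun i => algebraMap ℂ _ (Yl i.succ 0) :=
    ⟨_, rfl⟩
  obtain ⟨N, hN⟩ : ∃ N : Mat n (ratAt x₀), N = P002G.zZ XN := ⟨_, rfl⟩
  obtain ⟨b, hb⟩ : ∃ b : Fin n → ratAt x₀, b = P002G.uU XN *ᵥ l := ⟨_, rfl⟩
  -- the evaluations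
  obtain ⟨rv, hrv⟩ : ∃ rv : (σ → ℂ) → ratAt x₀ →+* ℂ,
    rv = fun x => ((rev x₀ x : ratAt x₀ →ₐ[ℂ] ℂ) : ratAt x₀ →+* ℂ) := ⟨_, rfl⟩
  have hrv' : ∀ x s, rv x s = rev x₀ x s := by
    intro x s
    rw [hrv]
    rfl
  have hlr : ∀ x i, rv x (l i) = Yl i.succ 0 := by
    intro x i
    rw [hrv', hl]
    exact AlgHom.commutes _ _
  have hNr : ∀ x, N.map (rv x) = P002G.zZ (XN.map (rv x)) := fun x => by
    rw [hN, P002G.zZ_map]
  have hbr : ∀ x, (fun i => rv x (b i)) = P002G.uU (XN.map (rv x)) *ᵥ fun i => rv x (l i) := by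
    intro x
    funext i
    rw [hb, RingHom.map_mulVec, ← P002G.uU_map]
    rfl
  have hWr : ∀ x, (P002G.WW N b).map (rv x) = P002G.WW (N.map (rv x)) fun i => rv x (b i) :=
    fun x => P002G.WW_map (rv x) N b
  have hXNr : ∀ x i j, (XN.map (rv x)) i j = if i = j then rv x (q i.succ) else
      Yl i.succ j.succ := by
    intro x i j
    rw [hXN, Matrix.map_apply, Matrix.of_apply]
    split_ifs
    · rfl
    · rw [hrv']
      exact AlgHom.commutes _ _
  -- the base point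
  have hq0 : ∀ i, rv x₀ (q i) = Yl i i := by
    intro i
    rw [hrv', hdiag]
  obtain ⟨ψ, hψ⟩ : ∃ ψ : (σ → ℂ) → Polynomial ℂ, ψ = fun x => χ.map (rv x) := ⟨_, rfl⟩
  have hψ1 : ∀ x, (ψ x).Monic := by intro x; rw [hψ]; exact hχ.map (rv x)
  have hψ2 : ∀ x, (ψ x).natDegree = n + 1 := by intro x; rw [hψ]; exact (hχ.natDegree_map _).trans hχd
  have hψr : ∀ x, ψ x = χ.map ((rev x₀ x : ratAt x₀ →ₐ[ℂ] ℂ) : ratAt x₀ →+* ℂ) := by
    intro x
    rw [hψ, hrv]
  have hXN0 : XN.map (rv x₀) = Matrix.of fun i j => Yl i.succ j.succ := by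
    ext i j
    rw [hXNr, Matrix.of_apply]
    split_ifs with h
    · rw [h, hq0]
    · rfl
  have hYm : P002G.bcons (Yl 0 0) (fun j => Yl 0 j.succ)
      (fun i => rv x₀ (l i)) (XN.map (rv x₀)) = Yl := by
    rw [hXN0]
    have h1 : (fun i => rv x₀ (l i)) = fun i : Fin n => Yl i.succ 0 :=
      funext fun i => hlr x₀ i
    rw [h1]
    exact P002G.bcons_eta _
  obtain ⟨a0, ha0⟩ : ∃ a0 : Fin n → ℂ, a0 ᵥ* P002G.uU (XN.map (rv x₀)) =
      fun j => Yl 0 j.succ := ⟨_, P002G.exists_vecMul_uU _ _⟩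
  have hbrd0 : P002G.zZ Yl = P002G.brd (Yl 0 0) (N.map (rv x₀))
      (fun i => rv x₀ (b i)) a0 := by
    rw [hNr, hbr, ← P002G.zZ_bcons, ha0, hYm]
  have hcyc0 : P002G.Cyc (N.map (rv x₀)) fun i => rv x₀ (b i) := by
    have h1 : P002G.Cyc (P002G.zZ Yl) (P002G.e0 n ℂ) := hcyc
    rw [hbrd0, P002G.cyc_brd] at h1
    exact h1
  have hdW : rev x₀ x₀ (P002G.WW N b).det ≠ 0 := by
    rw [← hrv', RingHom.map_det]
    change ((P002G.WW N b).map (rv x₀)).det ≠ 0
    rw [hWr, ← isUnit_iff_ne_zero, ← Matrix.isUnit_iff_isUnit_det, P002G.isUnit_WW]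
    exact hcyc0
  obtain ⟨winv, hwinv⟩ := exists_rinv (P002G.WW N b).det hdW
  obtain ⟨a, ha⟩ : ∃ a : Fin n → ratAt x₀, a = winv • ((P002G.WW N b).adjugate *ᵥ fun j : Fin n =>
    (N.charpoly * (Polynomial.X - Polynomial.C (q 0)) - χ).coeff ((j : ℕ) + 1)) := ⟨_, rfl⟩
  have har : ∀ x, (fun i => rv x (a i)) = P002G.aOf (ψ x) (rv x (q 0)) (N.map (rv x))
      fun i => rv x (b i) := by
    intro x
    funext i
    rw [ha, P002G.aOf, ← hWr, Matrix.inv_def, Ring.inverse_eq_inv', Matrix.smul_mulVec,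
      Pi.smul_apply, Pi.smul_apply, smul_eq_mul, smul_eq_mul, map_mul, hrv' x winv, hwinv x,
      ← hrv' x, RingHom.map_det, RingHom.map_mulVec]
    congr 1
    have h1 : ((P002G.WW N b).adjugate.map (rv x)) = ((P002G.WW N b).map (rv x)).adjugate :=
      RingHom.map_adjugate (rv x) _
    rw [h1]
    refine congrArg (fun v => (((P002G.WW N b).map (rv x)).adjugate *ᵥ v) i) ?_
    funext j
    have h2 : (N.map (rv x)).charpoly = N.charpoly.map (rv x) := Matrix.charpoly_map N (rv x)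
    have h3 : χ.map (rv x) = ψ x := by rw [hψ]
    rw [Function.comp_apply, ← Polynomial.coeff_map, Polynomial.map_sub, Polynomial.map_mul,
      Polynomial.map_sub, Polynomial.map_X, Polynomial.map_C, h2, h3]
  obtain ⟨Yt, hYt⟩ : ∃ Yt : Mat (n + 1) (ratAt x₀),
    Yt = P002G.bcons (q 0) (a ᵥ* P002G.uU XN) l XN := ⟨_, rfl⟩
  have hYtr : ∀ x, Yt.map (rv x) = P002G.bcons (rv x (q 0))
      ((fun i => rv x (a i)) ᵥ* P002G.uU (XN.map (rv x))) (fun i => rv x (l i))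
      (XN.map (rv x)) := by
    intro x
    rw [hYt, bcons_map]
    congr 1
    funext j
    rw [← P002G.uU_map, RingHom.map_vecMul]
    rfl
  have hzZt : ∀ x, P002G.zZ (Yt.map (rv x)) = P002G.brd (rv x (q 0)) (N.map (rv x))
      (fun i => rv x (b i)) (fun i => rv x (a i)) := by
    intro x
    rw [hYtr, P002G.zZ_bcons, ← hNr, ← hbr]
  -- the constant coefficient
  have hconst : ∀ x, (ψ x).coeff 0 = (-1) ^ (n + 1) * ∏ i, rv x (q i) →
      (ψ x).coeff 0 = -(rv x (q 0) * (N.map (rv x)).charpoly.coeff 0) := by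
    intro x hx
    rw [hx, hNr, P002G.charpoly_zZ_coeff_zero, Fin.prod_univ_succ]
    have h5 : ∏ i, (XN.map (rv x)) i i = ∏ i : Fin n, rv x (q i.succ) :=
      Finset.prod_congr rfl fun i _ => by rw [hXNr, if_pos rfl]
    rw [h5]
    ring
  have hconst0 : (ψ x₀).coeff 0 = (-1) ^ (n + 1) * ∏ i, rv x₀ (q i) := by
    have h4 : ψ x₀ = (P002G.zZ Yl).charpoly := by
      rw [hψr]
      exact hchar.symm
    rw [h4, P002G.charpoly_zZ_coeff_zero]
    congr 1
    exact Finset.prod_congr rfl fun i _ => (hq0 i).symm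
  -- the value at the base point
  have hYt0 : Yt.map (rv x₀) = Yl := by
    have h1 : a0 = fun i => rv x₀ (a i) := by
      rw [har]
      have h2 := P002G.charpoly_brd_iff (hψ1 x₀) (hψ2 x₀) hcyc0 (hconst x₀ hconst0) a0
      apply h2.1
      rw [hq0, ← hbrd0, hψr]
      exact hchar
    rw [hYtr, ← h1, ha0, hq0, hYm]
  refine ⟨Yt, (P002G.WW N b).det, hdW, fun i j => ?_, fun x hκ hx => ?_⟩
  · rw [← hrv']
    exact congrFun (congrFun hYt0 i) j
  have h6 : P002G.Cyc (N.map (rv x)) fun i => rv x (b i) := by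
    rw [← P002G.isUnit_WW, Matrix.isUnit_iff_isUnit_det, isUnit_iff_ne_zero, ← hWr]
    have h7 := RingHom.map_det (rv x) (P002G.WW N b)
    rw [hrv'] at h7
    rw [h7] at hκ
    exact hκ
  have hxc : (ψ x).coeff 0 = (-1) ^ (n + 1) * ∏ i, rv x (q i) := by
    rw [hψr, hx]
    simp only [hrv']
  have h8 := (P002G.charpoly_brd_iff (hψ1 x) (hψ2 x) h6 (hconst x hxc)
    (fun i => rv x (a i))).2 (har x)
  rw [← hzZt] at h8
  have hYr : Yt.map (rev x₀ x) = Yt.map (rv x) := by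
    ext i j
    rw [Matrix.map_apply, Matrix.map_apply, hrv']
  refine ⟨fun i => ?_, ?_, ?_⟩
  · have h9 : (Yt.map (rv x)) i i = rv x (q i) := by
      rw [hYtr]
      refine Fin.cases ?_ (fun i => ?_) i
      · rfl
      · rw [P002G.bcons_succ_succ, hXNr, if_pos rfl]
    rw [← hrv', ← hrv']
    exact h9
  · rw [hYr, ← hψr]
    exact h8
  · rw [hYr]
    have h11 : P002G.Cyc (P002G.zZ (Yt.map (rv x))) (P002G.e0 n ℂ) := by
      rw [hzZt, P002G.cyc_brd]
      exact h6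
    exact h11

end Vale.Agent.P002R
end

section

/-!
# P002, genus 0: the fibrewise density (from Lemma B)
-/

namespace Vale.Agent.P002R

open Matrix

theorem isPoly_entries {m n : ℕ} (F : MvPolynomial (Fin m × Fin n) ℂ) :
    P002G.IsPoly fun X : Matrix (Fin m) (Fin n) ℂ => MvPolynomial.eval (fun p => X p.1 p.2) F := by
  have h1 : P002G.PolyMap fun X : Matrix (Fin m) (Fin n) ℂ => fun p : Fin m × Fin n => X p.1 p.2 :=
    P002G.polyMap_pi fun p => ((P002G.polyMap_linear LinearMap.id).entry p.1 p.2).polyMap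
  exact h1.comp (P002G.isPoly_mvPoly F)

theorem fibD_of_QQ {R : Type*} [CommRing R] (φ : R →+* ℂ) (n : ℕ) (h : P002G.QQ φ (n + 1)) :
    FibD φ n := by
  intro q χ hχ hχd F hF X hX1 hX2 hX3
  obtain ⟨F', hF'⟩ : ∃ F' : Matrix (Fin (n + 1)) (Fin (n + 1)) ℂ → ℂ, ∀ X, F' X =
    MvPolynomial.eval (fun p => X p.1 p.2) F := ⟨_, fun _ => rfl⟩
  have hP : P002G.IsPoly F' := (isPoly_entries F).congr fun X => (hF' X).symm
  have h10 : (1 : R) ≠ 0 := by
    intro h0
    have := congrArg φ h0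
    rw [map_one, map_zero] at this
    exact one_ne_zero this
  have hint : ∀ X : Mat (n + 1) R, (∀ i, X i i = q i) → P002G.Bi 1 X →
      (P002G.zZ X).charpoly = χ → P002G.Cyc (P002G.zZ X) (P002G.en (n + 1) R) →
      F' (X.map φ) = 0 := by
    intro X' h1 _ h3 h4
    rw [hF']
    rw [P002G.en_eq_e0] at h4
    exact hF X' h1 h3 h4
  rw [← P002G.en_eq_e0] at hX3
  rw [← hF']
  exact h 1 h10 q χ hχ hχd F' hP hint X hX1 hX2 hX3

/-- Lemma B. -/
theorem fibD {R : Type*} [CommRing R] (φ : R →+* ℂ) (E : Subgroup ℂˣ) {r : ℕ} (hc : CoefOK φ E r)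
    (hUP : ∀ (u : Rˣ) (D : R), D ≠ 0 → ∃ M : ℕ, 0 < M ∧ D ∣ (u : R) ^ M - 1) (n : ℕ) :
    FibD φ n := by
  obtain ⟨u, hu⟩ := hc.unit
  refine fibD_of_QQ φ n (P002G.QQ_all φ hc.inj u (fun k hk h => hu k hk ?_) (hUP u) n)
  have h1 : Units.map (φ : R →* ℂ) u ^ k = 1 := by
    apply Units.ext
    rw [Units.val_pow_eq_pow_val, Units.val_one, Units.coe_map]
    exact h
  rw [h1]
  exact E.one_mem

end Vale.Agent.P002R
end

section

/-!
# P002, genus 0, two regular classes: coordinate subspaces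
-/

namespace Vale.Agent.P002R

open Matrix

variable {r : ℕ}

/-- The projector on a coordinate subspace. -/
def pI (I : Finset (Fin r)) : Mat r ℂ := diagonal fun i => if i ∈ I then 1 else 0

theorem pI_mul (I : Finset (Fin r)) (M : Mat r ℂ) (i j : Fin r) :
    (pI I * M) i j = if i ∈ I then M i j else 0 := by
  rw [pI, Matrix.diagonal_mul]
  split_ifs
  · rw [one_mul]
  · rw [zero_mul]

theorem mul_pI (I : Finset (Fin r)) (M : Mat r ℂ) (i j : Fin r) :
    (M * pI I) i j = if j ∈ I then M i j else 0 := by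
  rw [pI, Matrix.mul_diagonal]
  split_ifs
  · rw [mul_one]
  · rw [mul_zero]

theorem pI_sq (I : Finset (Fin r)) : pI I * pI I = pI I := by
  ext i j
  rw [pI_mul]
  split_ifs with h
  · rfl
  · rw [pI]
    by_cases hij : i = j
    · rw [hij, Matrix.diagonal_apply_eq, if_neg (hij ▸ h)]
    · rw [Matrix.diagonal_apply_ne _ hij]

theorem upT_pI (I : Finset (Fin r)) : UpT (pI I) := upT_diagonal _

theorem loT_pI (I : Finset (Fin r)) : LoT (pI I) := loT_diagonal _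

theorem UpT.add {A B : Mat r ℂ} (hA : UpT A) (hB : UpT B) : UpT (A + B) := fun i j h => by
  rw [Matrix.add_apply, hA i j h, hB i j h, add_zero]

theorem LoT.add {A B : Mat r ℂ} (hA : LoT A) (hB : LoT B) : LoT (A + B) := fun i j h => by
  rw [Matrix.add_apply, hA i j h, hB i j h, add_zero]

theorem UpT.sub {A B : Mat r ℂ} (hA : UpT A) (hB : UpT B) : UpT (A - B) := fun i j h => by
  rw [Matrix.sub_apply, hA i j h, hB i j h, sub_zero]

theorem LoT.sub {A B : Mat r ℂ} (hA : LoT A) (hB : LoT B) : LoT (A - B) := fun i j h => by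
  rw [Matrix.sub_apply, hA i j h, hB i j h, sub_zero]

/-- If a coordinate subspace is stable under a product of an upper and a lower triangular matrix,
then it is stable under both. -/
theorem stab_UL {U L : Mat r ℂ} (hU : UpT U) (hU0 : ∀ i, U i i ≠ 0) (hL : LoT L)
    (hL0 : ∀ i, L i i ≠ 0) (I : Finset (Fin r)) (h : ∀ i, i ∉ I → ∀ j ∈ I, (U * L) i j = 0) :
    (∀ i, i ∉ I → ∀ j ∈ I, U i j = 0) ∧ ∀ i, i ∉ I → ∀ j ∈ I, L i j = 0 := by
  obtain ⟨e, he⟩ : ∃ e : Mat r ℂ, e = pI I := ⟨_, rfl⟩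
  obtain ⟨f, hf⟩ : ∃ f : Mat r ℂ, f = 1 - pI I := ⟨_, rfl⟩
  have hee : e * e = e := by rw [he, pI_sq]
  have hfe : f * e = 0 := by rw [hf, ← he, Matrix.sub_mul, Matrix.one_mul, hee, sub_self]
  have hef : e * f = 0 := by rw [hf, ← he, Matrix.mul_sub, Matrix.mul_one, hee, sub_self]
  have hff : f * f = f := by
    have h1 : f * f = f - f * e := by
      conv_lhs => rw [hf, ← he, Matrix.mul_sub, Matrix.mul_one, Matrix.sub_mul, Matrix.one_mul, hee]
      rw [hfe, hf, ← he]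
      abel
    rw [h1, hfe, sub_zero]
  have hef1 : e + f = 1 := by rw [hf, ← he]; abel
  have hUd : IsUnit U.det := by
    rw [hU.det, isUnit_iff_ne_zero, Finset.prod_ne_zero_iff]
    exact fun i _ => hU0 i
  have hLd : IsUnit L.det := by
    rw [hL.det, isUnit_iff_ne_zero, Finset.prod_ne_zero_iff]
    exact fun i _ => hL0 i
  obtain ⟨V, hV⟩ : ∃ V : Mat r ℂ, V = U⁻¹ := ⟨_, rfl⟩
  have hVU : V * U = 1 := by rw [hV]; exact Matrix.nonsing_inv_mul _ hUd
  have hVt : UpT V := by rw [hV]; exact hU.inv hU0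
  have hV0 : ∀ i, V i i ≠ 0 := fun i => by
    rw [hV, inv_diag hU hU0]
    exact inv_ne_zero (hU0 i)
  have hZ : f * (U * L * e) = 0 := by
    ext i j
    rw [hf, Matrix.sub_mul, Matrix.one_mul, Matrix.sub_apply, pI_mul, he, mul_pI,
      Matrix.zero_apply]
    by_cases hi : i ∈ I
    · rw [if_pos hi, sub_self]
    · rw [if_neg hi, sub_zero]
      split_ifs with hj
      · exact h i hi j hj
      · rfl
  have hZ' : e * (U * L * e) = U * L * e := by
    have h1 : (e + f) * (U * L * e) = U * L * e := by rw [hef1, Matrix.one_mul]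
    rwa [Matrix.add_mul, hZ, add_zero] at h1
  have hLe : L * e = V * (e * (U * L * e)) := by
    rw [hZ', ← Matrix.mul_assoc, ← Matrix.mul_assoc, hVU, Matrix.one_mul]
  -- block matrices
  obtain ⟨L', hL'⟩ : ∃ L' : Mat r ℂ, L' = e * L * e + f := ⟨_, rfl⟩
  obtain ⟨V', hV'⟩ : ∃ V' : Mat r ℂ, V' = e * V * e + f := ⟨_, rfl⟩
  have hft : LoT f := by rw [hf]; exact loT_one.sub (loT_pI I)
  have hfu : UpT f := by rw [hf]; exact upT_one.sub (upT_pI I)
  have hdiag : ∀ (M : Mat r ℂ) i, (e * M * e + f) i i = if i ∈ I then M i i else 1 := by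
    intro M i
    rw [Matrix.add_apply, he, mul_pI, pI_mul, hf, Matrix.sub_apply, Matrix.one_apply_eq, pI,
      Matrix.diagonal_apply_eq]
    split_ifs
    · rw [sub_self, add_zero]
    · rw [sub_zero, zero_add]
  have hL't : LoT L' := by
    rw [hL']
    exact (((he ▸ loT_pI I).mul hL).mul (he ▸ loT_pI I)).add hft
  have hV't : UpT V' := by
    rw [hV']
    exact (((he ▸ upT_pI I).mul hVt).mul (he ▸ upT_pI I)).add hfu
  have hL'0 : ∀ i, L' i i ≠ 0 := fun i => by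
    rw [hL', hdiag]
    split_ifs
    · exact hL0 i
    · exact one_ne_zero
  have hV'0 : ∀ i, V' i i ≠ 0 := fun i => by
    rw [hV', hdiag]
    split_ifs
    · exact hV0 i
    · exact one_ne_zero
  have hL'd : IsUnit L'.det := by
    rw [hL't.det, isUnit_iff_ne_zero, Finset.prod_ne_zero_iff]
    exact fun i _ => hL'0 i
  have hV'd : IsUnit V'.det := by
    rw [hV't.det, isUnit_iff_ne_zero, Finset.prod_ne_zero_iff]
    exact fun i _ => hV'0 i
  -- the key identity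
  obtain ⟨M, hM⟩ : ∃ M : Mat r ℂ, M = e * (U * L * e) := ⟨_, rfl⟩
  rw [← hM] at hLe
  have heM : e * M = M := by rw [hM, ← Matrix.mul_assoc, hee]
  have hMe : M * e = M := by
    rw [hM]
    simp only [Matrix.mul_assoc]
    rw [hee]
  have hL'V' : L' = V' * (M + f) := by
    have hfM : f * M = 0 := by rw [← heM, ← Matrix.mul_assoc, hfe, Matrix.zero_mul]
    rw [hL', hV', Matrix.add_mul, Matrix.mul_add, Matrix.mul_add, hff, hfM, zero_add,
      Matrix.mul_assoc (e * V) e f, hef, Matrix.mul_zero, add_zero, Matrix.mul_assoc (e * V) e M,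
      heM, Matrix.mul_assoc e L e, hLe, Matrix.mul_assoc]
  have hT : f * L * e * L'⁻¹ = f * V * e * V'⁻¹ := by
    have h1 : f * L * e = f * V * e * V'⁻¹ * L' := by
      rw [hL'V', ← Matrix.mul_assoc, Matrix.mul_assoc (f * V * e) V'⁻¹ V',
        Matrix.nonsing_inv_mul _ hV'd, Matrix.mul_one, Matrix.mul_add, Matrix.mul_assoc (f * V) e M,
        heM, Matrix.mul_assoc (f * V) e f, hef, Matrix.mul_zero, add_zero, Matrix.mul_assoc f L e,
        hLe, Matrix.mul_assoc]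
    rw [h1, Matrix.mul_assoc, Matrix.mul_nonsing_inv _ hL'd, Matrix.mul_one]
  have hTl : LoT (f * L * e * L'⁻¹) :=
    (((hft.mul hL).mul (he ▸ loT_pI I)).mul (hL't.inv hL'0))
  have hTu : UpT (f * L * e * L'⁻¹) := by
    rw [hT]
    exact (((hfu.mul hVt).mul (he ▸ upT_pI I)).mul (hV't.inv hV'0))
  have hT0 : f * L * e * L'⁻¹ = 0 := by
    ext i j
    rcases lt_trichotomy i j with hij | rfl | hij
    · exact hTl i j hij
    · rw [LoT.mul_diag ((hft.mul hL).mul (he ▸ loT_pI I)) (hL't.inv hL'0),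
        LoT.mul_diag (hft.mul hL) (he ▸ loT_pI I), LoT.mul_diag hft hL, hf, he, Matrix.sub_apply,
        Matrix.one_apply_eq, pI, Matrix.diagonal_apply_eq, Matrix.zero_apply]
      split_ifs
      · ring
      · ring
    · exact hTu i j hij
  have hfLe : f * L * e = 0 := by
    have h1 : f * L * e * L'⁻¹ * L' = 0 := by rw [hT0, Matrix.zero_mul]
    rwa [Matrix.mul_assoc, Matrix.nonsing_inv_mul _ hL'd, Matrix.mul_one] at h1
  have hfVe : f * V * e = 0 := by
    have h1 : f * V * e * V'⁻¹ * V' = 0 := by rw [← hT, hT0, Matrix.zero_mul]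
    rwa [Matrix.mul_assoc, Matrix.nonsing_inv_mul _ hV'd, Matrix.mul_one] at h1
  have heVe : e * V * e = V * e := by
    have h1 : (e + f) * (V * e) = V * e := by rw [hef1, Matrix.one_mul]
    rwa [Matrix.add_mul, ← Matrix.mul_assoc, ← Matrix.mul_assoc f, hfVe, add_zero] at h1
  have hUV : U * V = 1 := by rw [hV]; exact Matrix.mul_nonsing_inv _ hUd
  have hfUe : f * U * e = 0 := by
    have h1 : f * U * e * V' = 0 := by
      rw [hV', Matrix.mul_add, Matrix.mul_assoc (f * U) e f, hef, Matrix.mul_zero, add_zero, heVe,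
        Matrix.mul_assoc (f * U) e, ← Matrix.mul_assoc e V e, heVe, Matrix.mul_assoc f U,
        ← Matrix.mul_assoc U V e, hUV, Matrix.one_mul, hfe]
    have h2 : f * U * e * V' * V'⁻¹ = 0 := by rw [h1, Matrix.zero_mul]
    rwa [Matrix.mul_assoc, Matrix.mul_nonsing_inv _ hV'd, Matrix.mul_one] at h2
  have hconv : ∀ M : Mat r ℂ, f * M * e = 0 → ∀ i, i ∉ I → ∀ j ∈ I, M i j = 0 := by
    intro M hM i hi j hj
    have h1 := congrFun (congrFun hM i) j
    rwa [he, mul_pI, if_pos hj, hf, Matrix.sub_mul, Matrix.one_mul, Matrix.sub_apply, pI_mul,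
      if_neg hi, sub_zero] at h1
  exact ⟨hconv U hfUe, hconv L hfLe⟩

end Vale.Agent.P002R
end
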