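import Mathlib
import Vale.Agent.P002.Bdl.B2
import Vale.Agent.P002.Bdl.B1

set_option linter.all false

section

/-!
# Endomorphisms with equal ranks of partial products are conjugate
-/

namespace Vale.Agent.P002L

open Module

section lin

variable {K : Type} [Field K]

/-- Relative complements of subspaces. -/
theorem exists_relCompl {V : Type} [AddCommGroup V] [Module K V] (a b : Submodule K V)
    (h : a ≤ b) : ∃ c : Submodule K V, c ≤ b ∧ a ⊓ c = ⊥ ∧ a ⊔ c = b := by
  obtain ⟨q, hq⟩ := Submodule.exists_isCompl a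
  refine ⟨q ⊓ b, inf_le_right, ?_, ?_⟩
  · rw [← inf_assoc, hq.inf_eq_bot, bot_inf_eq]
  · rw [← sup_inf_assoc_of_le q h, hq.sup_eq_top, top_inf_eq]

theorem finrank_ker_inf_le {V W : Type} [AddCommGroup V] [Module K V] [FiniteDimensional K V]
    [AddCommGroup W] [Module K W] [FiniteDimensional K W] (N : End K V) (N' : End K W)
    (T : LinearMap.range N ≃ₗ[K] LinearMap.range N')
    (hT : ∀ v : LinearMap.range N, (T ⟨N v, LinearMap.mem_range_self N v⟩ : W) = N' (T v)) :
    finrank K ↥(LinearMap.ker N ⊓ LinearMap.range N) ≤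
      finrank K ↥(LinearMap.ker N' ⊓ LinearMap.range N') := by
  have hmem : ∀ v : ↥(LinearMap.ker N ⊓ LinearMap.range N),
      ((T.toLinearMap.comp (Submodule.inclusion inf_le_right)) v : W) ∈
        LinearMap.ker N' ⊓ LinearMap.range N' := by
    intro v
    refine ⟨LinearMap.mem_ker.2 ?_, Subtype.property _⟩
    have h1 := hT (Submodule.inclusion inf_le_right v)
    have h2 : N ((Submodule.inclusion (inf_le_right : LinearMap.ker N ⊓ LinearMap.range N ≤
        LinearMap.range N) v : LinearMap.range N) : V) = 0 := LinearMap.mem_ker.1 v.2.1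
    have h3 : (⟨N ((Submodule.inclusion (inf_le_right : LinearMap.ker N ⊓ LinearMap.range N ≤
        LinearMap.range N) v : LinearMap.range N) : V), LinearMap.mem_range_self N _⟩ :
        LinearMap.range N) = 0 := Subtype.ext h2
    rw [h3, map_zero] at h1
    exact h1.symm
  refine LinearMap.finrank_le_finrank_of_injective
    (f := LinearMap.codRestrict (LinearMap.ker N' ⊓ LinearMap.range N')
      ((LinearMap.range N').subtype.comp
        (T.toLinearMap.comp (Submodule.inclusion inf_le_right))) hmem) ?_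
  intro a b hab
  have h1 := congrArg Subtype.val hab
  have h2 : T (Submodule.inclusion inf_le_right a) = T (Submodule.inclusion inf_le_right b) :=
    Subtype.ext h1
  exact Submodule.inclusion_injective _ (T.injective h2)

/-- Extension of an isomorphism from the image. -/
theorem extend_equiv {V W : Type} [AddCommGroup V] [Module K V] [FiniteDimensional K V]
    [AddCommGroup W] [Module K W] [FiniteDimensional K W] (N : End K V) (N' : End K W)
    (hd : finrank K V = finrank K W) (T : LinearMap.range N ≃ₗ[K] LinearMap.range N')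
    (hT : ∀ v : LinearMap.range N, (T ⟨N v, LinearMap.mem_range_self N v⟩ : W) = N' (T v)) :
    ∃ F : V ≃ₗ[K] W, ∀ v, F (N v) = N' (F v) := by
  obtain ⟨C, hC1, hC2, hC3⟩ := exists_relCompl (LinearMap.ker N ⊓ LinearMap.range N)
    (LinearMap.ker N) inf_le_left
  obtain ⟨C', hC1', hC2', hC3'⟩ := exists_relCompl (LinearMap.ker N' ⊓ LinearMap.range N')
    (LinearMap.ker N') inf_le_left
  have hrange : finrank K (LinearMap.range N) = finrank K (LinearMap.range N') := T.finrank_eq
  have hker : finrank K (LinearMap.ker N) = finrank K (LinearMap.ker N') := by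
    have h1 := LinearMap.finrank_range_add_finrank_ker N
    have h2 := LinearMap.finrank_range_add_finrank_ker N'
    omega
  have hTs : ∀ w : LinearMap.range N',
      (T.symm ⟨N' w, LinearMap.mem_range_self N' w⟩ : V) = N (T.symm w) := by
    intro w
    have h1 := hT (T.symm w)
    rw [T.apply_symm_apply] at h1
    have h2 : T ⟨N (T.symm w), LinearMap.mem_range_self N _⟩ =
        ⟨N' w, LinearMap.mem_range_self N' w⟩ := Subtype.ext h1
    rw [← h2, T.symm_apply_apply]
  have hinf : finrank K ↥(LinearMap.ker N ⊓ LinearMap.range N) =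
      finrank K ↥(LinearMap.ker N' ⊓ LinearMap.range N') :=
    le_antisymm (finrank_ker_inf_le N N' T hT) (finrank_ker_inf_le N' N T.symm hTs)
  have hCC : finrank K C = finrank K C' := by
    have h1 := Submodule.finrank_sup_add_finrank_inf_eq (LinearMap.ker N ⊓ LinearMap.range N) C
    have h2 := Submodule.finrank_sup_add_finrank_inf_eq (LinearMap.ker N' ⊓ LinearMap.range N') C'
    rw [hC3, hC2, finrank_bot] at h1
    rw [hC3', hC2', finrank_bot] at h2
    omega
  obtain ⟨e⟩ := FiniteDimensional.nonempty_linearEquiv_of_finrank_eq hCC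
  -- sections
  obtain ⟨S, hS⟩ := LinearMap.exists_rightInverse_of_surjective N'.rangeRestrict
    N'.range_rangeRestrict
  have hS' : ∀ w : LinearMap.range N', N' (S w) = w := by
    intro w
    have h1 := LinearMap.congr_fun hS w
    exact congrArg Subtype.val h1
  -- the part with values in the kernel
  obtain ⟨κR, hκR⟩ : ∃ κR : V →ₗ[K] LinearMap.ker N', ∀ v : LinearMap.range N,
      (κR v : W) = T v - S (T ⟨N v, LinearMap.mem_range_self N v⟩) := by
    obtain ⟨g, hg⟩ : ∃ g : LinearMap.range N →ₗ[K] LinearMap.ker N', ∀ v : LinearMap.range N,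
        (g v : W) = T v - S (T ⟨N v, LinearMap.mem_range_self N v⟩) := by
      refine ⟨LinearMap.codRestrict (LinearMap.ker N')
        ((LinearMap.range N').subtype.comp T.toLinearMap - S.comp (T.toLinearMap.comp
          (N.rangeRestrict.comp (LinearMap.range N).subtype))) fun v => ?_, fun v => rfl⟩
      rw [LinearMap.mem_ker]
      change N' ((T v : W) - S (T ⟨N v, LinearMap.mem_range_self N v⟩)) = 0
      rw [map_sub, hS', hT, sub_self]
    obtain ⟨g', hg'⟩ := g.exists_extend
    refine ⟨g', fun v => ?_⟩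
    rw [← hg, ← hg']
    rfl
  have hCR : C ⊓ LinearMap.range N = ⊥ := by
    rw [eq_bot_iff]
    rintro v ⟨h1, h2⟩
    have h3 : v ∈ (LinearMap.ker N ⊓ LinearMap.range N) ⊓ C := ⟨⟨hC1 h1, h2⟩, h1⟩
    rwa [hC2] at h3
  have hCR' : C' ⊓ LinearMap.range N' = ⊥ := by
    rw [eq_bot_iff]
    rintro v ⟨h1, h2⟩
    have h3 : v ∈ (LinearMap.ker N' ⊓ LinearMap.range N') ⊓ C' := ⟨⟨hC1' h1, h2⟩, h1⟩
    rwa [hC2'] at h3
  obtain ⟨π, hπ⟩ := LinearMap.exists_leftInverse_of_injective
    ((LinearMap.range N).mkQ.comp C.subtype) (by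
      rw [LinearMap.ker_eq_bot']
      intro c hc
      rw [LinearMap.comp_apply, Submodule.mkQ_apply, Submodule.Quotient.mk_eq_zero] at hc
      have h1 : (c : V) ∈ C ⊓ LinearMap.range N := ⟨c.2, hc⟩
      rw [hCR, Submodule.mem_bot] at h1
      exact Subtype.ext h1)
  obtain ⟨eK, heK⟩ : ∃ eK : C →ₗ[K] LinearMap.ker N', ∀ c, (eK c : W) = e c :=
    ⟨(Submodule.inclusion hC1').comp e.toLinearMap, fun c => rfl⟩
  obtain ⟨κ, hκ⟩ : ∃ κ : V →ₗ[K] LinearMap.ker N', κ =
    κR + (eK - κR.comp C.subtype).comp (π.comp (LinearMap.range N).mkQ) := ⟨_, rfl⟩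
  have hκ1 : ∀ v : LinearMap.range N,
      (κ v : W) = T v - S (T ⟨N v, LinearMap.mem_range_self N v⟩) := by
    intro v
    rw [hκ, LinearMap.add_apply, LinearMap.comp_apply, LinearMap.comp_apply, Submodule.mkQ_apply,
      (Submodule.Quotient.mk_eq_zero _).2 v.2, map_zero, map_zero, add_zero, hκR]
  have hκ2 : ∀ c : C, (κ c : W) = e c := by
    intro c
    have h1 : π ((LinearMap.range N).mkQ c) = c := LinearMap.congr_fun hπ c
    rw [hκ, LinearMap.add_apply, LinearMap.comp_apply, LinearMap.comp_apply, h1,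
      LinearMap.sub_apply, LinearMap.comp_apply, Submodule.subtype_apply, add_sub_cancel, heK]
  obtain ⟨F, hF⟩ : ∃ F : V →ₗ[K] W, F = S.comp (T.toLinearMap.comp N.rangeRestrict) +
    (LinearMap.ker N').subtype.comp κ := ⟨_, rfl⟩
  have hFv : ∀ v, F v = S (T ⟨N v, LinearMap.mem_range_self N v⟩) + κ v := fun v => by
    rw [hF]
    rfl
  have hFR : ∀ v : LinearMap.range N, F v = T v := by
    intro v
    rw [hFv, hκ1]
    abel
  have hNF : ∀ v, N' (F v) = T ⟨N v, LinearMap.mem_range_self N v⟩ := by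
    intro v
    rw [hFv, map_add, hS', LinearMap.mem_ker.1 (κ v).2, add_zero]
  have hFN : ∀ v, F (N v) = N' (F v) := by
    intro v
    rw [hNF, ← hFR]
  have hinj : Function.Injective F := by
    rw [← LinearMap.ker_eq_bot, LinearMap.ker_eq_bot']
    intro v hv
    have h1 : N v = 0 := by
      have h2 := hNF v
      rw [hv, map_zero] at h2
      have h3 : T ⟨N v, LinearMap.mem_range_self N v⟩ = 0 := Subtype.ext h2.symm
      have h4 := T.injective (h3.trans (map_zero T).symm)
      exact congrArg Subtype.val h4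
    have h5 : v ∈ (LinearMap.ker N ⊓ LinearMap.range N) ⊔ C := by
      rw [hC3]
      exact LinearMap.mem_ker.2 h1
    obtain ⟨a, ha, c, hc, rfl⟩ := Submodule.mem_sup.1 h5
    have hTa : F a = T ⟨a, ha.2⟩ := hFR ⟨a, ha.2⟩
    have hTc : F c = e ⟨c, hc⟩ := by
      rw [hFv, hκ2 ⟨c, hc⟩]
      have h6 : (⟨N c, LinearMap.mem_range_self N c⟩ : LinearMap.range N) = 0 :=
        Subtype.ext (LinearMap.mem_ker.1 (hC1 hc))
      rw [h6, map_zero, map_zero, zero_add]
    have h7 : (e ⟨c, hc⟩ : W) ∈ C' ⊓ LinearMap.range N' := by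
      refine ⟨(e ⟨c, hc⟩).2, ?_⟩
      have h8 : (e ⟨c, hc⟩ : W) = -(T ⟨a, ha.2⟩ : W) := by
        rw [← hTa, ← hTc, eq_neg_iff_add_eq_zero, add_comm, ← map_add, hv]
      rw [h8]
      exact Submodule.neg_mem _ (T ⟨a, ha.2⟩).2
    rw [hCR', Submodule.mem_bot] at h7
    have h9 : (⟨c, hc⟩ : C) = 0 := e.injective (by rw [map_zero]; exact Subtype.ext h7)
    have hc0 : c = 0 := congrArg Subtype.val h9
    rw [hc0, add_zero] at hv ⊢
    rw [hTa] at hv
    have h10 : (⟨a, ha.2⟩ : LinearMap.range N) = 0 :=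
      T.injective (by rw [map_zero]; exact Subtype.ext hv)
    exact congrArg Subtype.val h10
  refine ⟨LinearMap.linearEquivOfInjective F hinj hd, fun v => ?_⟩
  exact hFN v

/-- The partial products. -/
noncomputable def pp {V : Type} [AddCommGroup V] [Module K V] (a : End K V) (ξ : ℕ → K) (j : ℕ) :
    End K V := ((List.range j).map fun i => a - ξ i • (1 : End K V)).prod

theorem pp_zero {V : Type} [AddCommGroup V] [Module K V] (a : End K V) (ξ : ℕ → K) :
    pp a ξ 0 = 1 := rfl

theorem pp_succ {V : Type} [AddCommGroup V] [Module K V] (a : End K V) (ξ : ℕ → K) (j : ℕ) :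
    pp a ξ (j + 1) = pp a ξ j * (a - ξ j • (1 : End K V)) := by
  rw [pp, List.range_succ, List.map_append, List.prod_append, List.map_singleton,
    List.prod_singleton, pp]

theorem pp_succ' {V : Type} [AddCommGroup V] [Module K V] (a : End K V) (ξ : ℕ → K) (j : ℕ) :
    pp a ξ (j + 1) = (a - ξ 0 • (1 : End K V)) * pp a (fun i => ξ (i + 1)) j := by
  rw [pp, List.range_succ_eq_map, List.map_cons, List.prod_cons, List.map_map, pp]
  rfl

theorem commute_pp {V : Type} [AddCommGroup V] [Module K V] (a : End K V) (ξ : ℕ → K) (c : K)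
    (j : ℕ) : Commute (a - c • (1 : End K V)) (pp a ξ j) := by
  induction j with
  | zero => exact Commute.one_right _
  | succ j ih =>
    rw [pp_succ]
    refine ih.mul_right ?_
    have h1 : Commute a (a - ξ j • (1 : End K V)) :=
      (Commute.refl a).sub_right ((Commute.one_right a).smul_right _)
    exact h1.sub_left ((Commute.one_left _).smul_left _)

theorem exists_equiv_of_rank : ∀ (s : ℕ) (ξ : ℕ → K) (V W : Type) [AddCommGroup V] [Module K V]
    [FiniteDimensional K V] [AddCommGroup W] [Module K W] [FiniteDimensional K W]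
    (a : End K V) (b : End K W), pp a ξ s = 0 → pp b ξ s = 0 →
    (∀ j ≤ s, finrank K (LinearMap.range (pp a ξ j)) = finrank K (LinearMap.range (pp b ξ j))) →
    ∃ T : V ≃ₗ[K] W, ∀ v, T (a v) = b (T v) := by
  intro s
  induction s with
  | zero =>
    intro ξ V W _ _ _ _ _ _ a b ha hb _
    rw [pp_zero] at ha hb
    have hV : ∀ v : V, v = 0 := fun v => by
      have := LinearMap.congr_fun ha v
      exact this
    have hW : ∀ v : W, v = 0 := fun v => by
      have := LinearMap.congr_fun hb v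
      exact this
    refine ⟨{ toFun := fun _ => 0, map_add' := fun _ _ => (add_zero _).symm,
              map_smul' := fun c _ => (smul_zero _).symm, invFun := fun _ => 0,
              left_inv := fun v => (hV v).symm, right_inv := fun v => (hW v).symm }, fun v => ?_⟩
    exact (hW _).symm
  | succ s ih =>
    intro ξ V W _ _ _ _ _ _ a b ha hb hr
    obtain ⟨N, hN⟩ : ∃ N, N = a - ξ 0 • (1 : End K V) := ⟨_, rfl⟩
    obtain ⟨N', hN'⟩ : ∃ N', N' = b - ξ 0 • (1 : End K W) := ⟨_, rfl⟩
    have key : ∀ {V : Type} [AddCommGroup V] [Module K V] [FiniteDimensional K V] (a N : End K V)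
        (_ : N = a - ξ 0 • (1 : End K V)), ∃ a' : End K (LinearMap.range N),
        (∀ v, (a' v : V) = a v) ∧ (pp a ξ (s + 1) = 0 → pp a' (fun i => ξ (i + 1)) s = 0) ∧
        ∀ j, finrank K (LinearMap.range (pp a' (fun i => ξ (i + 1)) j)) =
          finrank K (LinearMap.range (pp a ξ (j + 1))) := by
      intro V _ _ _ a N hN
      have hNa : ∀ v, N (a v) = a (N v) := by
        intro v
        rw [hN]
        simp only [LinearMap.sub_apply, LinearMap.smul_apply, Module.End.one_apply, map_sub,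
          map_smul]
      have hst : ∀ v ∈ LinearMap.range N, a v ∈ LinearMap.range N := by
        rintro _ ⟨v, rfl⟩
        exact ⟨a v, hNa v⟩
      obtain ⟨a', ha'⟩ : ∃ a' : End K (LinearMap.range N), ∀ v, (a' v : V) = a v :=
        ⟨a.restrict hst, fun v => rfl⟩
      have hpp : ∀ (j : ℕ) (v : LinearMap.range N), (pp a' (fun i => ξ (i + 1)) j v : V) =
          pp a (fun i => ξ (i + 1)) j v := by
        intro j
        induction j with
        | zero => intro v; rfl
        | succ j ihj =>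
          intro v
          rw [pp_succ, pp_succ, Module.End.mul_apply, Module.End.mul_apply, ihj]
          congr 1
          simp only [LinearMap.sub_apply, LinearMap.smul_apply, Module.End.one_apply,
            Submodule.coe_sub, Submodule.coe_smul, ha']
      have hpp' : ∀ (j : ℕ) (v : V), pp a (fun i => ξ (i + 1)) j (N v) = pp a ξ (j + 1) v := by
        intro j v
        rw [pp_succ', ← hN, Module.End.mul_apply]
        have h1 := (commute_pp a (fun i => ξ (i + 1)) (ξ 0) j).eq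
        rw [← hN] at h1
        exact (LinearMap.congr_fun h1 v).symm
      refine ⟨a', ha', fun h0 => ?_, fun j => ?_⟩
      · ext ⟨_, v, rfl⟩
        rw [hpp]
        simp only
        rw [hpp', h0]
        rfl
      · have h1 : (LinearMap.range (pp a' (fun i => ξ (i + 1)) j)).map
            (LinearMap.range N).subtype = LinearMap.range (pp a ξ (j + 1)) := by
          ext w
          constructor
          · rintro ⟨_, ⟨⟨_, v, rfl⟩, rfl⟩, rfl⟩
            refine ⟨v, ?_⟩
            rw [Submodule.subtype_apply, hpp, ← hpp']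
          · rintro ⟨v, rfl⟩
            refine ⟨_, ⟨⟨N v, v, rfl⟩, rfl⟩, ?_⟩
            rw [Submodule.subtype_apply, hpp, ← hpp']
        rw [← h1, Submodule.finrank_map_subtype_eq]
    obtain ⟨a', ha1, ha2, ha3⟩ := key a N hN
    obtain ⟨b', hb1, hb2, hb3⟩ := key b N' hN'
    obtain ⟨T, hT⟩ := ih (fun i => ξ (i + 1)) _ _ a' b' (ha2 ha) (hb2 hb) (fun j hj => by
      rw [ha3, hb3]
      exact hr (j + 1) (Nat.succ_le_succ hj))
    have hd : finrank K V = finrank K W := by
      have h1 := hr 0 (Nat.zero_le _)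
      rw [pp_zero, pp_zero] at h1
      have h2 : ∀ {V : Type} [AddCommGroup V] [Module K V] [FiniteDimensional K V],
          finrank K (LinearMap.range (1 : End K V)) = finrank K V := by
        intro V _ _ _
        have h3 : LinearMap.range (1 : End K V) = ⊤ := LinearMap.range_id
        rw [h3, finrank_top]
      rwa [h2, h2] at h1
    have hNv : ∀ v, N v = a v - ξ 0 • v := fun v => by rw [hN]; rfl
    have hNv' : ∀ v, N' v = b v - ξ 0 • v := fun v => by rw [hN']; rfl
    obtain ⟨F, hF⟩ := extend_equiv N N' hd T (fun v => by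
      have h1 : (⟨N v, LinearMap.mem_range_self N v⟩ : LinearMap.range N) = a' v - ξ 0 • v := by
        apply Subtype.ext
        rw [Submodule.coe_sub, Submodule.coe_smul, ha1]
        exact hNv v
      rw [h1, map_sub, map_smul, hT, Submodule.coe_sub, Submodule.coe_smul, hb1, hNv'])
    refine ⟨F, fun v => ?_⟩
    have h1 := hF v
    rw [hNv, hNv', map_sub, map_smul] at h1
    exact sub_left_injective h1

end lin

open Matrix Vale.Agent.P002R

theorem pp_toLin {r : ℕ} (a : Mat r ℂ) (ξ : ℕ → ℂ) (j : ℕ) :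
    pp (Matrix.toLin' a) ξ j =
      Matrix.toLin' ((List.range j).map fun i => a - ξ i • (1 : Mat r ℂ)).prod := by
  induction j with
  | zero => rw [pp_zero, List.range_zero, List.map_nil, List.prod_nil, Matrix.toLin'_one]; rfl
  | succ j ih =>
    rw [pp_succ, ih, List.range_succ, List.map_append, List.prod_append, List.map_singleton,
      List.prod_singleton, Matrix.toLin'_mul, map_sub, map_smul, Matrix.toLin'_one]
    rfl

/-- Matrices with equal ranks of the partial products are conjugate. -/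
theorem conj_of_rank {r : ℕ} (a b : (Mat r ℂ)ˣ) (ξ : ℕ → ℂ) (s : ℕ)
    (ha : ((List.range s).map fun i => (a : Mat r ℂ) - ξ i • (1 : Mat r ℂ)).prod = 0)
    (hb : ((List.range s).map fun i => (b : Mat r ℂ) - ξ i • (1 : Mat r ℂ)).prod = 0)
    (h : ∀ j ≤ s, ((List.range j).map fun i => (a : Mat r ℂ) - ξ i • (1 : Mat r ℂ)).prod.rank =
      ((List.range j).map fun i => (b : Mat r ℂ) - ξ i • (1 : Mat r ℂ)).prod.rank) :
    IsConj a b := by
  obtain ⟨T, hT⟩ := exists_equiv_of_rank s ξ (Fin r → ℂ) (Fin r → ℂ)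
    (Matrix.toLin' (a : Mat r ℂ)) (Matrix.toLin' (b : Mat r ℂ))
    (by rw [pp_toLin, ha, map_zero]) (by rw [pp_toLin, hb, map_zero]) (fun j hj => by
      rw [pp_toLin, pp_toLin]
      exact h j hj)
  obtain ⟨P, hP⟩ : ∃ P : Mat r ℂ, P = LinearMap.toMatrix' T.toLinearMap := ⟨_, rfl⟩
  obtain ⟨Q, hQ⟩ : ∃ Q : Mat r ℂ, Q = LinearMap.toMatrix' T.symm.toLinearMap := ⟨_, rfl⟩
  have h1 : P * Q = 1 := by
    rw [hP, hQ, ← LinearMap.toMatrix'_comp]
    have h2 : T.toLinearMap.comp T.symm.toLinearMap = LinearMap.id := by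
      ext1 v
      simp
    rw [h2, LinearMap.toMatrix'_id]
  have h2 : Q * P = 1 := mul_eq_one_comm.1 h1
  have h3 : P * (a : Mat r ℂ) = (b : Mat r ℂ) * P := by
    apply Matrix.toLin'.injective
    rw [Matrix.toLin'_mul, Matrix.toLin'_mul, hP, Matrix.toLin'_toMatrix']
    exact LinearMap.ext fun v => hT v
  rw [isConj_iff]
  refine ⟨⟨P, Q, h1, h2⟩, ?_⟩
  apply Units.ext
  rw [Units.val_mul, Units.val_mul]
  change P * (a : Mat r ℂ) * Q = b
  rw [h3, mul_assoc, h1, mul_one]

end Vale.Agent.P002L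
end

section

/-!
# Statement of the density theorem without boundary conditions: definition
-/

namespace Vale.Agent.P002R.Statement

open Matrix

/-- The points of `M_r(X)(ℂ)`, represented by the semisimple representations (no boundary
conditions). -/
def YNone (g n r : ℕ) : Set (Gens g n → SpecialLinearGroup (Fin r) ℂ) :=
  {X | IsRep X ∧ ∀ W, IsInvSubspace X W → ∃ W', IsInvSubspace X W' ∧ IsCompl W W'}

end Vale.Agent.P002R.Statement
end

section

/-!
# Density of integral representations without boundary conditions (free fundamental group)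

If the curve has at least one puncture, its fundamental group is free, and the semisimple
representations into `SL_r(ℤ)` are Zariski dense in the representation variety.
-/

namespace Vale.Agent.P002R.Statement

open Matrix NumberField

variable {g n m r : ℕ}

/-- Specialization of a family of matrices over `ℤ[T]`. -/
noncomputable def spec {T A : Type} [CommRing A] (t : T → A) :
    SpecialLinearGroup (Fin r) (MvPolynomial T ℤ) →* SpecialLinearGroup (Fin r) A :=
  SpecialLinearGroup.map (MvPolynomial.eval₂Hom (Int.castRingHom A) t)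

/-- Renaming the parameters of a family. -/
noncomputable def renameSL {T T' : Type} (f : T → T') :
    SpecialLinearGroup (Fin r) (MvPolynomial T ℤ) →*
      SpecialLinearGroup (Fin r) (MvPolynomial T' ℤ) :=
  SpecialLinearGroup.map (MvPolynomial.rename f : MvPolynomial T ℤ →ₐ[ℤ] _).toRingHom

theorem spec_rename {T T' A : Type} [CommRing A] (f : T → T') (t : T' → A)
    (Φ : SpecialLinearGroup (Fin r) (MvPolynomial T ℤ)) :
    spec t (renameSL f Φ) = spec (t ∘ f) Φ := by
  apply Subtype.ext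
  ext i j
  change MvPolynomial.eval₂ (Int.castRingHom A) t (MvPolynomial.rename f (Φ.1 i j)) =
    MvPolynomial.eval₂ (Int.castRingHom A) (t ∘ f) (Φ.1 i j)
  rw [MvPolynomial.eval₂_rename]

/-- The matrix `A` is a value of a family over `ℤ[T]` that is `1` at the origin. -/
def Reach (A : SpecialLinearGroup (Fin r) ℂ) : Prop :=
  ∃ (T : Type) (Φ : SpecialLinearGroup (Fin r) (MvPolynomial T ℤ)) (t : T → ℂ),
    spec t Φ = A ∧ spec (0 : T → ℂ) Φ = 1

theorem Reach.mul {A B : SpecialLinearGroup (Fin r) ℂ} (hA : Reach A) (hB : Reach B) :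
    Reach (A * B) := by
  obtain ⟨T, Φ, t, h1, h2⟩ := hA
  obtain ⟨T', Φ', t', h1', h2'⟩ := hB
  refine ⟨T ⊕ T', renameSL Sum.inl Φ * renameSL Sum.inr Φ', Sum.elim t t', ?_, ?_⟩
  · rw [map_mul, spec_rename, spec_rename, Sum.elim_comp_inl, Sum.elim_comp_inr, h1, h1']
  · rw [map_mul, spec_rename, spec_rename]
    have e1 : (0 : T ⊕ T' → ℂ) ∘ Sum.inl = 0 := rfl
    have e2 : (0 : T ⊕ T' → ℂ) ∘ Sum.inr = 0 := rfl
    rw [e1, e2, h2, h2', one_mul]

theorem Reach.transvection {i j : Fin r} (hij : i ≠ j) (c : ℂ) :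
    Reach (SpecialLinearGroup.transvection hij c) := by
  refine ⟨Unit, SpecialLinearGroup.transvection hij (MvPolynomial.X ()), fun _ => c, ?_, ?_⟩
  · apply Subtype.ext
    ext a b
    change MvPolynomial.eval₂ (Int.castRingHom ℂ) (fun _ => c)
      (Matrix.transvection i j (MvPolynomial.X () : MvPolynomial Unit ℤ) a b) =
      Matrix.transvection i j c a b
    simp only [Matrix.transvection, Matrix.add_apply, Matrix.one_apply, Matrix.single_apply]
    split_ifs <;> simp
  · apply Subtype.ext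
    ext a b
    change MvPolynomial.eval₂ (Int.castRingHom ℂ) (0 : Unit → ℂ)
      (Matrix.transvection i j (MvPolynomial.X () : MvPolynomial Unit ℤ) a b) =
      (1 : Matrix (Fin r) (Fin r) ℂ) a b
    simp only [Matrix.transvection, Matrix.add_apply, Matrix.one_apply, Matrix.single_apply]
    split_ifs <;> simp

theorem Reach.one : Reach (1 : SpecialLinearGroup (Fin r) ℂ) :=
  ⟨Empty, 1, 0, map_one _, map_one _⟩

theorem Reach.diag2n {i j : Fin r} (hij : i ≠ j) {c : ℂ} (hc : c ≠ 0) :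
    Reach (SpecialLinearGroup.diag2n hij c hc) := by
  have h : SpecialLinearGroup.diag2n hij c hc =
      SpecialLinearGroup.transvection hij (c - 1) * (SpecialLinearGroup.transvection hij.symm 1 *
        (SpecialLinearGroup.transvection hij (c⁻¹ - 1) *
          SpecialLinearGroup.transvection hij.symm (-c))) := by
    apply Subtype.ext
    have := Vale.Agent.P002.whitehead hij c hc (1 : Matrix (Fin r) (Fin r) ℂ)
    rw [Matrix.mul_one, Matrix.mul_one] at this
    exact this
  rw [h]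
  exact (transvection hij _).mul ((transvection hij.symm _).mul ((transvection hij _).mul
    (transvection hij.symm _)))

theorem reach_all (A : SpecialLinearGroup (Fin r) ℂ) : Reach A := by
  by_cases hr : 2 ≤ r
  · have : Nontrivial (Fin r) := Fin.nontrivial_iff_two_le.2 hr
    exact SpecialLinearGroup.diagonal_transvection_induction' Reach A
      (fun i j hij c hc => Reach.diag2n hij hc) (fun i j hij a => Reach.transvection hij a)
      (fun _ _ => Reach.mul)
  · have h1 : A = 1 := by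
      have hr' : r = 0 ∨ r = 1 := by omega
      rcases hr' with rfl | rfl
      · exact Subsingleton.elim _ _
      · apply Subtype.ext
        ext i j
        have h2 := A.2
        rw [Matrix.det_fin_one] at h2
        rw [Subsingleton.elim i 0, Subsingleton.elim j 0]
        exact h2
    rw [h1]
    exact Reach.one

/-- Any two tuples are members of a common family with integer coefficients. -/
theorem exists_family {ι : Type} (X X₀ : ι → SpecialLinearGroup (Fin r) ℂ) :
    ∃ (T : Type) (Φ : ι → SpecialLinearGroup (Fin r) (MvPolynomial T ℤ)) (t t₀ : T → ℂ),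
      (∀ k, spec t (Φ k) = X k) ∧ ∀ k, spec t₀ (Φ k) = X₀ k := by
  choose T Φ t h1 h2 using fun k => reach_all (X k)
  choose T' Φ' t' h1' h2' using fun k => reach_all (X₀ k)
  refine ⟨(Σ k, T k) ⊕ (Σ k, T' k), fun k => renameSL (fun x => Sum.inl ⟨k, x⟩) (Φ k) *
    renameSL (fun x => Sum.inr ⟨k, x⟩) (Φ' k), Sum.elim (fun x => t x.1 x.2) 0,
    Sum.elim 0 (fun x => t' x.1 x.2), fun k => ?_, fun k => ?_⟩
  · rw [map_mul, spec_rename, spec_rename]
    exact (congrArg₂ (· * ·) (h1 k) (h2' k)).trans (mul_one _)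
  · rw [map_mul, spec_rename, spec_rename]
    exact (congrArg₂ (· * ·) (h2 k) (h1' k)).trans (one_mul _)

/-- A polynomial which vanishes at all integer points is zero. -/
theorem eq_zero_of_int {T : Type} (P : MvPolynomial T ℂ)
    (h : ∀ t : T → ℤ, MvPolynomial.eval (fun i => (t i : ℂ)) P = 0) : P = 0 := by
  refine MvPolynomial.funext_set (fun _ => Set.range ((↑) : ℤ → ℂ))
    (fun _ => Set.infinite_range_of_injective Int.cast_injective) ?_
  intro x hx
  have h1 : ∀ i, ∃ a : ℤ, (a : ℂ) = x i := fun i => hx i (Set.mem_univ i)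
  choose a ha using h1
  have h2 : (fun i => (a i : ℂ)) = x := funext ha
  rw [map_zero, ← h2]
  exact h a

/-! ### The last boundary loop is a word in the other generators -/

/-- The representation with given values at all generators but the last one. -/
noncomputable def extLast {A : Type} [CommRing A] (Y : Gens g m → SpecialLinearGroup (Fin r) A) :
    Gens g (m + 1) → SpecialLinearGroup (Fin r) A :=
  Sum.elim (fun x => Y (Sum.inl x)) (Fin.lastCases
    (((List.ofFn fun i : Fin g => Y (Sum.inl (i, false)) * Y (Sum.inl (i, true)) *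
      (Y (Sum.inl (i, false)))⁻¹ * (Y (Sum.inl (i, true)))⁻¹).prod *
      (List.ofFn fun j : Fin m => Y (Sum.inr j)).prod)⁻¹) (fun j => Y (Sum.inr j)))

/-- Restriction to all generators but the last one. -/
def restLast {A : Type} [CommRing A] (X : Gens g (m + 1) → SpecialLinearGroup (Fin r) A) :
    Gens g m → SpecialLinearGroup (Fin r) A :=
  Sum.elim (fun x => X (Sum.inl x)) (fun j => X (Sum.inr (Fin.castSucc j)))

section

variable {A B : Type} [CommRing A] [CommRing B]

theorem extLast_inl (Y : Gens g m → SpecialLinearGroup (Fin r) A) (x : Fin g × Bool) :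
    extLast Y (Sum.inl x) = Y (Sum.inl x) := rfl

theorem extLast_castSucc (Y : Gens g m → SpecialLinearGroup (Fin r) A) (j : Fin m) :
    extLast Y (Sum.inr (Fin.castSucc j)) = Y (Sum.inr j) := by
  simp only [extLast, Sum.elim_inr, Fin.lastCases_castSucc]

theorem extLast_last (Y : Gens g m → SpecialLinearGroup (Fin r) A) :
    extLast Y (Sum.inr (Fin.last m)) =
      ((List.ofFn fun i : Fin g => Y (Sum.inl (i, false)) * Y (Sum.inl (i, true)) *
      (Y (Sum.inl (i, false)))⁻¹ * (Y (Sum.inl (i, true)))⁻¹).prod *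
      (List.ofFn fun j : Fin m => Y (Sum.inr j)).prod)⁻¹ := by
  simp only [extLast, Sum.elim_inr, Fin.lastCases_last]

theorem isRep_extLast (Y : Gens g m → SpecialLinearGroup (Fin r) A) : IsRep (extLast Y) := by
  unfold IsRep
  rw [List.ofFn_succ' (f := fun j : Fin (m + 1) => extLast Y (Sum.inr j))]
  rw [List.concat_eq_append, List.prod_append, List.prod_singleton, extLast_last]
  simp only [extLast_inl, extLast_castSucc]
  rw [← mul_assoc, mul_inv_cancel]

theorem eq_extLast (X : Gens g (m + 1) → SpecialLinearGroup (Fin r) A) (h : IsRep X) :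
    extLast (restLast X) = X := by
  funext k
  rcases k with x | j
  · rfl
  · induction j using Fin.lastCases with
    | last =>
      rw [extLast_last]
      unfold IsRep at h
      rw [List.ofFn_succ' (f := fun j : Fin (m + 1) => X (Sum.inr j)), List.concat_eq_append,
        List.prod_append, List.prod_singleton, ← mul_assoc] at h
      exact (eq_inv_of_mul_eq_one_right h).symm
    | cast j =>
      rw [extLast_castSucc]
      rfl

theorem extLast_map (f : SpecialLinearGroup (Fin r) A →* SpecialLinearGroup (Fin r) B)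
    (Y : Gens g m → SpecialLinearGroup (Fin r) A) (k : Gens g (m + 1)) :
    extLast (fun k => f (Y k)) k = f (extLast Y k) := by
  rcases k with x | j
  · rfl
  · induction j using Fin.lastCases with
    | last =>
      rw [extLast_last, extLast_last, map_inv, map_mul, map_list_prod, map_list_prod,
        List.map_ofFn, List.map_ofFn]
      congr 3
      congr 1
      funext i
      simp only [Function.comp_apply, map_mul, map_inv]
    | cast j =>
      rw [extLast_castSucc, extLast_castSucc]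

end

/-- The density argument: integral tuples at which `D` does not vanish are dense if `D` does not
vanish identically. -/
theorem density_of_poly (D : MvPolynomial (Gens g m × Fin r × Fin r) ℂ)
    (F : MvPolynomial (Gens g (m + 1) × Fin r × Fin r) ℂ)
    (X₀ : Gens g m → SpecialLinearGroup (Fin r) ℂ) (h₀ : value D X₀ ≠ 0)
    (hF : ∀ Z : Gens g m → SpecialLinearGroup (Fin r) ℤ,
      value D (fun k => SpecialLinearGroup.map (Int.castRingHom ℂ) (Z k)) ≠ 0 →
      value F (extLast fun k => SpecialLinearGroup.map (Int.castRingHom ℂ) (Z k)) = 0)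
    (X : Gens g m → SpecialLinearGroup (Fin r) ℂ) : value F (extLast X) = 0 := by
  obtain ⟨T, Φ, t, t₀, ht, ht₀⟩ := exists_family X X₀
  -- the family over `ℂ[T]`
  obtain ⟨Ψ, hΨ⟩ : ∃ Ψ : Gens g m → SpecialLinearGroup (Fin r) (MvPolynomial T ℂ), Ψ = fun k =>
      SpecialLinearGroup.map (MvPolynomial.map (Int.castRingHom ℂ)) (Φ k) := ⟨_, rfl⟩
  have hspec : ∀ (s : T → ℂ) (k : Gens g m),
      SpecialLinearGroup.map (MvPolynomial.eval s) (Ψ k) = spec s (Φ k) := by
    intro s k
    rw [hΨ]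
    apply Subtype.ext
    ext i j
    change MvPolynomial.eval s (MvPolynomial.map (Int.castRingHom ℂ) ((Φ k).1 i j)) =
      MvPolynomial.eval₂ (Int.castRingHom ℂ) s ((Φ k).1 i j)
    rw [MvPolynomial.eval_map]
  have hval : ∀ {κ : Type} (G : MvPolynomial (κ × Fin r × Fin r) ℂ)
      (V : κ → SpecialLinearGroup (Fin r) (MvPolynomial T ℂ)) (s : T → ℂ),
      MvPolynomial.eval s (MvPolynomial.eval₂ (algebraMap ℂ (MvPolynomial T ℂ))
        (fun p => (V p.1).1 p.2.1 p.2.2) G) =
      MvPolynomial.eval₂ (algebraMap ℂ ℂ) (fun p =>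
        (SpecialLinearGroup.map (MvPolynomial.eval s) (V p.1)).1 p.2.1 p.2.2) G := by
    intro κ G V s
    rw [MvPolynomial.hom_eval₂]
    congr 1
    ext x
    simp
  obtain ⟨PD, hPD⟩ : ∃ PD : MvPolynomial T ℂ, PD = value D Ψ := ⟨_, rfl⟩
  obtain ⟨PF, hPF⟩ : ∃ PF : MvPolynomial T ℂ, PF = value F (extLast Ψ) := ⟨_, rfl⟩
  have eD : ∀ s : T → ℂ, MvPolynomial.eval s PD = value D (fun k => spec s (Φ k)) := by
    intro s
    rw [hPD]
    unfold value
    rw [hval]
    simp only [hspec]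
  have eF : ∀ s : T → ℂ, MvPolynomial.eval s PF = value F (extLast fun k => spec s (Φ k)) := by
    intro s
    rw [hPF]
    unfold value
    rw [hval]
    simp only [← extLast_map, hspec]
  have hprod : PD * PF = 0 := by
    apply eq_zero_of_int
    intro s
    rw [map_mul, mul_eq_zero, or_iff_not_imp_left]
    intro h1
    rw [eD] at h1
    rw [eF]
    have h2 : (fun k => spec (fun i => (s i : ℂ)) (Φ k)) =
        fun k => SpecialLinearGroup.map (Int.castRingHom ℂ) (spec s (Φ k)) := by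
      funext k
      apply Subtype.ext
      ext i j
      change MvPolynomial.eval₂ (Int.castRingHom ℂ) (fun i => (s i : ℂ)) ((Φ k).1 i j) =
        Int.castRingHom ℂ (MvPolynomial.eval₂ (Int.castRingHom ℤ) s ((Φ k).1 i j))
      rw [MvPolynomial.hom_eval₂]
      congr 1
    rw [h2] at h1 ⊢
    exact hF _ h1
  have hPD0 : PD ≠ 0 := by
    intro h
    apply h₀
    have := eD t₀
    rw [h, map_zero] at this
    rw [this]
    congr 1
    funext k
    exact (ht₀ k).symm
  have hPF0 : PF = 0 := (mul_eq_zero.1 hprod).resolve_left hPD0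
  have := eF t
  rw [hPF0, map_zero] at this
  rw [this]
  congr 2
  funext k
  exact (ht k).symm

/-! ### Two or more free generators: irreducibility -/

/-- A polynomial condition that implies generation of the full matrix algebra, and which holds
at a given generating tuple. -/
theorem exists_generating_poly_at {ι : Type} (B : ι → Matrix (Fin r) (Fin r) ℂ)
    (hB : Algebra.adjoin ℂ (Set.range B) = ⊤) :
    ∃ h : MvPolynomial (ι × Fin r × Fin r) ℂ,
      MvPolynomial.eval (fun p => B p.1 p.2.1 p.2.2) h ≠ 0 ∧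
      ∀ A : ι → Matrix (Fin r) (Fin r) ℂ,
      MvPolynomial.eval (fun p => A p.1 p.2.1 p.2.2) h ≠ 0 →
        Algebra.adjoin ℂ (Set.range A) = ⊤ := by
  have hspan : Submodule.span ℂ (Set.range (FreeMonoid.lift B)) = ⊤ := by
    have h1 : Submodule.span ℂ (Submonoid.closure (Set.range B) :
        Set (Matrix (Fin r) (Fin r) ℂ)) = ⊤ := by
      rw [← Algebra.adjoin_eq_span, hB, Algebra.top_toSubmodule]
    rw [← h1]
    congr 1
    rw [← FreeMonoid.mrange_lift]
    rfl
  obtain ⟨κ, a, _, hsp, hli⟩ := exists_linearIndependent' ℂ (FreeMonoid.lift B)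
  rw [hspan] at hsp
  let b : Module.Basis κ ℂ (Matrix (Fin r) (Fin r) ℂ) := Module.Basis.mk hli hsp.ge
  let e : κ ≃ Fin r × Fin r := b.indexEquiv (Matrix.stdBasis ℂ (Fin r) (Fin r))
  let w : Fin r × Fin r → FreeMonoid ι := a ∘ e.symm
  have hw : LinearIndependent ℂ (fun k => FreeMonoid.lift B (w k)) :=
    hli.comp e.symm e.symm.injective
  let G : ι → Matrix (Fin r) (Fin r) (MvPolynomial (ι × Fin r × Fin r) ℂ) :=
    fun i => Matrix.of fun a b => MvPolynomial.X (i, a, b)
  let Mk : Matrix (Fin r × Fin r) (Fin r × Fin r) (MvPolynomial (ι × Fin r × Fin r) ℂ) :=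
    Matrix.of fun k p => (FreeMonoid.lift G (w k)) p.1 p.2
  have hev : ∀ A : ι → Matrix (Fin r) (Fin r) ℂ,
      MvPolynomial.eval (fun p => A p.1 p.2.1 p.2.2) Mk.det =
        (Matrix.of fun k p : Fin r × Fin r => (FreeMonoid.lift A (w k)) p.1 p.2).det := by
    intro A
    rw [RingHom.map_det]
    congr 1
    ext k p
    have h1 : ∀ u : FreeMonoid ι,
        (MvPolynomial.eval (fun p : ι × Fin r × Fin r => A p.1 p.2.1 p.2.2)).mapMatrix
          (FreeMonoid.lift G u) = FreeMonoid.lift A u := by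
      intro u
      induction u using FreeMonoid.inductionOn' with
      | one => simp
      | of_mul x xs ih =>
        rw [map_mul, map_mul, map_mul, ih]
        congr 1
        rw [FreeMonoid.lift_eval_of, FreeMonoid.lift_eval_of]
        ext i j
        simp [G]
    have h2 := congrFun (congrFun (h1 (w k)) p.1) p.2
    exact h2
  refine ⟨Mk.det, ?_, ?_⟩
  · intro h0
    have h1 := hev B
    rw [h0] at h1
    obtain ⟨v, hv, hv'⟩ := Matrix.exists_vecMul_eq_zero_iff.mpr h1.symm
    apply hv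
    have h2 : ∑ k, v k • FreeMonoid.lift B (w k) = 0 := by
      ext i j
      have h3 := congrFun hv' (i, j)
      rw [Matrix.sum_apply]
      simpa [Matrix.vecMul, dotProduct] using h3
    have h3 := (Fintype.linearIndependent_iff.mp hw) v h2
    ext k
    exact h3 k
  · intro A hA
    rw [hev A] at hA
    have hli' : LinearIndependent ℂ (fun k => FreeMonoid.lift A (w k)) := by
      rw [Fintype.linearIndependent_iff]
      intro v hv k
      by_contra hk
      apply hA
      apply Matrix.exists_vecMul_eq_zero_iff.mp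
      refine ⟨v, fun h => hk (congrFun h k), ?_⟩
      ext p
      have h3 := congrFun (congrFun hv p.1) p.2
      rw [Matrix.sum_apply] at h3
      simpa [Matrix.vecMul, dotProduct] using h3
    have hsp' : Submodule.span ℂ (Set.range fun k => FreeMonoid.lift A (w k)) = ⊤ := by
      apply hli'.span_eq_top_of_card_eq_finrank'
      rw [Module.finrank_matrix]
      simp
    have h4 : Submodule.span ℂ (Set.range fun k => FreeMonoid.lift A (w k)) ≤
        Subalgebra.toSubmodule (Algebra.adjoin ℂ (Set.range A)) := by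
      rw [Submodule.span_le]
      rintro _ ⟨k, rfl⟩
      have h5 : FreeMonoid.lift A (w k) ∈ Submonoid.closure (Set.range A) := by
        rw [← FreeMonoid.mrange_lift]
        exact ⟨w k, rfl⟩
      change FreeMonoid.lift A (w k) ∈ Algebra.adjoin ℂ (Set.range A)
      exact (Submonoid.closure_le
        (S := (Algebra.adjoin ℂ (Set.range A)).toSubsemiring.toSubmonoid)).mpr
        Algebra.subset_adjoin h5
    rw [hsp'] at h4
    rw [eq_top_iff]
    intro M _
    exact h4 (Submodule.mem_top (x := M))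

/-- Every invertible matrix is a scalar multiple of a matrix of determinant `1`. -/
theorem exists_scale (hr : 0 < r) (M : Matrix (Fin r) (Fin r) ℂ) (hM : M.det ≠ 0) :
    ∃ (c : ℂ) (Q : SpecialLinearGroup (Fin r) ℂ), c ≠ 0 ∧
      (Q : Matrix (Fin r) (Fin r) ℂ) = c • M := by
  obtain ⟨c, hc⟩ := IsAlgClosed.exists_pow_nat_eq (M.det⁻¹) hr
  have hQ : (c • M).det = 1 := by
    rw [Matrix.det_smul, Fintype.card_fin, hc, inv_mul_cancel₀ hM]
  refine ⟨c, ⟨_, hQ⟩, ?_, rfl⟩
  rintro rfl
  rw [zero_pow hr.ne', eq_comm, inv_eq_zero] at hc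
  exact hM hc

theorem det_diag_ne_zero : (diagonal fun k : Fin r => ((k : ℕ) : ℂ) + 1).det ≠ 0 := by
  rw [det_diagonal, Finset.prod_ne_zero_iff]
  intro k _
  exact Nat.cast_add_one_ne_zero _

theorem det_one_add_ne_zero :
    (1 + Matrix.of fun _ _ => 1 : Matrix (Fin r) (Fin r) ℂ).det ≠ 0 := by
  have h1 : (Matrix.of fun _ _ => 1 : Matrix (Fin r) (Fin r) ℂ) =
      (Matrix.of fun (_ : Fin r) (_ : Unit) => (1 : ℂ)) * (Matrix.of fun (_ : Unit) (_ : Fin r) => (1 : ℂ)) := by
    ext i j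
    simp [Matrix.mul_apply]
  rw [h1, Matrix.det_one_add_mul_comm, Matrix.det_unique]
  simp only [Matrix.add_apply, Matrix.one_apply_eq, Matrix.mul_apply, Matrix.of_apply, mul_one,
    Finset.sum_const, Finset.card_univ, Fintype.card_fin, nsmul_eq_mul]
  rw [add_comm]
  exact Nat.cast_add_one_ne_zero _

/-- Two matrices of determinant `1` which generate the full matrix algebra. -/
theorem exists_generating_pair (hr : 0 < r) : ∃ P Q : SpecialLinearGroup (Fin r) ℂ,
    ∀ S : Subalgebra ℂ (Matrix (Fin r) (Fin r) ℂ),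
      (P : Matrix (Fin r) (Fin r) ℂ) ∈ S → (Q : Matrix (Fin r) (Fin r) ℂ) ∈ S → S = ⊤ := by
  obtain ⟨c, P, hc, hP⟩ := exists_scale hr _ (det_diag_ne_zero (r := r))
  obtain ⟨d, Q, hd, hQ⟩ := exists_scale hr _ (det_one_add_ne_zero (r := r))
  refine ⟨P, Q, fun S h1 h2 => ?_⟩
  have h3 : (diagonal fun k : Fin r => ((k : ℕ) : ℂ) + 1) ∈ S := by
    have := S.smul_mem h1 c⁻¹
    rwa [hP, smul_smul, inv_mul_cancel₀ hc, one_smul] at this
  have h3' : (diagonal fun k : Fin r => ((k : ℕ) : ℂ)) ∈ S := by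
    have := S.sub_mem h3 S.one_mem
    convert this using 1
    rw [← diagonal_one, diagonal_sub]
    congr 1
    funext k
    simp
  have h4 : (Matrix.of fun _ _ => 1 : Matrix (Fin r) (Fin r) ℂ) ∈ S := by
    have := S.smul_mem h2 d⁻¹
    rw [hQ, smul_smul, inv_mul_cancel₀ hd, one_smul] at this
    have := S.sub_mem this S.one_mem
    rwa [add_sub_cancel_left] at this
  have h5 := Vale.Agent.P002.adjoin_pair (g := 2) (r := r)
    ![(diagonal fun k : Fin r => ((k : ℕ) : ℂ)), Matrix.of fun _ _ => 1] 0 1 rfl rfl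
  rw [eq_top_iff, ← h5, Algebra.adjoin_le_iff]
  rintro _ ⟨i, rfl⟩
  fin_cases i
  · exact h3'
  · exact h4

/-- A tuple that generates the full matrix algebra is irreducible. -/
theorem semisimple_of_adjoin {ι : Type} (A : ι → Matrix (Fin r) (Fin r) ℂ)
    (hA : Algebra.adjoin ℂ (Set.range A) = ⊤) (W : Submodule ℂ (Fin r → ℂ))
    (hW : ∀ k, ∀ v ∈ W, A k *ᵥ v ∈ W) : W = ⊥ ∨ W = ⊤ := by
  obtain ⟨S, hS⟩ : ∃ S : Subalgebra ℂ (Matrix (Fin r) (Fin r) ℂ), ∀ M, M ∈ S ↔
      ∀ v ∈ W, M *ᵥ v ∈ W :=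
    ⟨{ carrier := {M | ∀ v ∈ W, M *ᵥ v ∈ W}
       mul_mem' := fun {a b} ha hb v hv => by
        rw [← Matrix.mulVec_mulVec]
        exact ha _ (hb v hv)
       add_mem' := fun {a b} ha hb v hv => by
        rw [Matrix.add_mulVec]
        exact W.add_mem (ha v hv) (hb v hv)
       algebraMap_mem' := fun c v hv => by
        rw [Algebra.algebraMap_eq_smul_one, Matrix.smul_mulVec, Matrix.one_mulVec]
        exact W.smul_mem c hv }, fun M => Iff.rfl⟩
  have h1 : S = ⊤ := by
    rw [eq_top_iff, ← hA, Algebra.adjoin_le_iff]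
    rintro _ ⟨k, rfl⟩
    exact (hS _).2 (hW k)
  have h2 : ∀ (M : Matrix (Fin r) (Fin r) ℂ), ∀ v ∈ W, M *ᵥ v ∈ W := fun M =>
    (hS M).1 (h1 ▸ Algebra.mem_top)
  rw [or_iff_not_imp_left]
  intro h3
  obtain ⟨v, hv, hv0⟩ := (Submodule.ne_bot_iff W).1 h3
  obtain ⟨i, hi⟩ := Function.ne_iff.1 hv0
  rw [eq_top_iff]
  intro u _
  have h4 := h2 (Matrix.of fun a b => if b = i then u a * (v i)⁻¹ else 0) v hv
  convert h4 using 1
  ext a
  simp only [Matrix.mulVec, dotProduct, Matrix.of_apply, ite_mul, zero_mul, Finset.sum_ite_eq',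
    Finset.mem_univ, if_true]
  rw [mul_assoc, inv_mul_cancel₀ hi, mul_one]

/-- The stabilizer of a subspace. -/
theorem exists_stab (W : Submodule ℂ (Fin r → ℂ)) :
    ∃ H : Subgroup (SpecialLinearGroup (Fin r) ℂ), ∀ M, M ∈ H ↔
      ∀ v ∈ W, M.1 *ᵥ v ∈ W := by
  refine ⟨{ carrier := {M | ∀ v ∈ W, M.1 *ᵥ v ∈ W}
            mul_mem' := fun {a b} ha hb v hv => ?_
            one_mem' := fun v hv => ?_
            inv_mem' := fun {a} ha => ?_ }, fun M => Iff.rfl⟩
  · have e : (a * b).1 *ᵥ v = a.1 *ᵥ (b.1 *ᵥ v) := (Matrix.mulVec_mulVec v a.1 b.1).symm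
    exact (congrArg (· ∈ W) e).mpr (ha _ (hb v hv))
  · have e : (1 : SpecialLinearGroup (Fin r) ℂ).1 *ᵥ v = v := Matrix.one_mulVec v
    exact (congrArg (· ∈ W) e).mpr hv
  · intro v hv
    obtain ⟨T, hT⟩ : ∃ T : W →ₗ[ℂ] W, ∀ v, ((T v : W) : Fin r → ℂ) = a.1 *ᵥ v :=
      ⟨(Matrix.mulVecLin a.1).restrict ha, fun v => rfl⟩
    have hMi : (a⁻¹).1 * a.1 = 1 := congrArg Subtype.val (inv_mul_cancel a)
    have hinj : Function.Injective T := by
      intro x y hxy
      have h1 : a.1 *ᵥ (x : Fin r → ℂ) = a.1 *ᵥ (y : Fin r → ℂ) := by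
        rw [← hT, ← hT, hxy]
      apply Subtype.ext
      have h2 := congrArg (fun u => (a⁻¹).1 *ᵥ u) h1
      simpa only [Matrix.mulVec_mulVec, hMi, Matrix.one_mulVec] using h2
    obtain ⟨x, hx⟩ := (LinearMap.injective_iff_surjective.1 hinj) ⟨v, hv⟩
    have h1 : v = a.1 *ᵥ (x : Fin r → ℂ) := by rw [← hT, hx]
    rw [h1, Matrix.mulVec_mulVec, hMi, Matrix.one_mulVec]
    exact x.2

theorem isInvSubspace_extLast (Y : Gens g m → SpecialLinearGroup (Fin r) ℂ)
    (W : Submodule ℂ (Fin r → ℂ)) : IsInvSubspace (extLast Y) W ↔ IsInvSubspace Y W := by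
  constructor
  · intro h k
    rcases k with x | j
    · exact h (Sum.inl x)
    · have := h (Sum.inr (Fin.castSucc j))
      rwa [extLast_castSucc] at this
  · intro h
    obtain ⟨H, hH⟩ := exists_stab W
    have h1 : ∀ k, Y k ∈ H := fun k => (hH _).2 (h k)
    intro k
    rw [← hH]
    rcases k with x | j
    · exact h1 (Sum.inl x)
    · induction j using Fin.lastCases with
      | last =>
        rw [extLast_last]
        refine H.inv_mem (H.mul_mem (H.list_prod_mem ?_) (H.list_prod_mem ?_))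
        · intro x hx
          rw [List.mem_ofFn] at hx
          obtain ⟨i, rfl⟩ := hx
          exact H.mul_mem (H.mul_mem (H.mul_mem (h1 _) (h1 _)) (H.inv_mem (h1 _)))
            (H.inv_mem (h1 _))
        · intro x hx
          rw [List.mem_ofFn] at hx
          obtain ⟨i, rfl⟩ := hx
          exact h1 _
      | cast j =>
        rw [extLast_castSucc]
        exact h1 _

/-! ### One free generator: separable characteristic polynomial -/

theorem semisimple_of_separable (M : Matrix (Fin r) (Fin r) ℂ) (h : M.charpoly.Separable)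
    (W : Submodule ℂ (Fin r → ℂ)) (hW : ∀ v ∈ W, M *ᵥ v ∈ W) :
    ∃ W' : Submodule ℂ (Fin r → ℂ), (∀ v ∈ W', M *ᵥ v ∈ W') ∧ IsCompl W W' := by
  have h1 : Module.End.IsSemisimple (Matrix.mulVecLin M : Module.End ℂ (Fin r → ℂ)) := by
    refine Module.End.isSemisimple_of_squarefree_aeval_eq_zero h.squarefree ?_
    have h2 : Polynomial.aeval (Matrix.toLinAlgEquiv' M) M.charpoly = 0 := by
      rw [← AlgEquiv.coe_toAlgHom, Polynomial.aeval_algHom_apply, Matrix.aeval_self_charpoly, map_zero]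
    exact h2
  obtain ⟨W', hW', hc⟩ := Module.End.isSemisimple_iff.1 h1 W hW
  exact ⟨W', hW', hc⟩

theorem exists_separable_poly {ι : Type} (hr : 0 < r) (k₀ : ι) :
    ∃ h : MvPolynomial (ι × Fin r × Fin r) ℂ, ∀ A : ι → Matrix (Fin r) (Fin r) ℂ,
      MvPolynomial.eval (fun p => A p.1 p.2.1 p.2.2) h ≠ 0 ↔ (A k₀).charpoly.Separable := by
  obtain ⟨G, hG⟩ : ∃ G : Matrix (Fin r) (Fin r) (MvPolynomial (ι × Fin r × Fin r) ℂ),
    G = Matrix.of fun a b => MvPolynomial.X (k₀, a, b) := ⟨_, rfl⟩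
  refine ⟨Polynomial.resultant G.charpoly (Polynomial.derivative G.charpoly) r (r - 1),
    fun A => ?_⟩
  have h1 : G.map (MvPolynomial.eval (fun p : ι × Fin r × Fin r => A p.1 p.2.1 p.2.2)) = A k₀ := by
    rw [hG]
    ext i j
    simp
  rw [← Polynomial.resultant_map_map, ← Polynomial.derivative_map, ← Matrix.charpoly_map]
  rw [h1]
  have h2 : (A k₀).charpoly.natDegree = r := by
    rw [Matrix.charpoly_natDegree_eq_dim, Fintype.card_fin]
  have h3 : (Polynomial.derivative (A k₀).charpoly).natDegree = r - 1 := by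
    refine Polynomial.natDegree_eq_of_degree_eq_some ?_
    rw [Polynomial.degree_derivative (by rw [h2]; exact hr.ne'), h2]
  have h4 : (Polynomial.resultant (A k₀).charpoly (Polynomial.derivative (A k₀).charpoly) r (r - 1)) =
      Polynomial.resultant (A k₀).charpoly (Polynomial.derivative (A k₀).charpoly) := by
    rw [h2, h3]
  rw [h4, ← isUnit_iff_ne_zero, Polynomial.isUnit_resultant_iff_isCoprime
    (Matrix.charpoly_monic _)]
  rfl

/-- The integral semisimple representations. -/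
def ZNone (g n r : ℕ) : Set (Gens g n → SpecialLinearGroup (Fin r) ℂ) :=
  {X ∈ YNone g n r | ∀ k i j, ∃ a : ℤ, (X k).1 i j = a}

theorem value_eq_eval (G : MvPolynomial (Gens g m × Fin r × Fin r) ℂ)
    (X : Gens g m → SpecialLinearGroup (Fin r) ℂ) :
    value G X = MvPolynomial.eval (fun p => (X p.1).1 p.2.1 p.2.2) G := rfl

theorem extLast_int (Z : Gens g m → SpecialLinearGroup (Fin r) ℤ) (k : Gens g (m + 1))
    (i j : Fin r) : ∃ a : ℤ,
      (extLast (fun k => SpecialLinearGroup.map (Int.castRingHom ℂ) (Z k)) k).1 i j = a := by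
  rw [extLast_map]
  exact ⟨(extLast Z k).1 i j, rfl⟩

/-- Density for free fundamental groups. -/
theorem none_density_int (g m r : ℕ) (F : MvPolynomial (Gens g (m + 1) × Fin r × Fin r) ℂ)
    (hF : ∀ X ∈ ZNone g (m + 1) r, value F X = 0)
    (X : Gens g (m + 1) → SpecialLinearGroup (Fin r) ℂ) (hX : IsRep X) : value F X = 0 := by
  rcases Nat.eq_zero_or_pos r with hr | hr
  · subst hr
    apply hF
    refine ⟨⟨hX, fun W _ => ⟨W, ‹_›, ?_⟩⟩, fun k i => i.elim0⟩
    exact ⟨disjoint_iff.2 (Subsingleton.elim _ _), codisjoint_iff.2 (Subsingleton.elim _ _)⟩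
  rw [← eq_extLast X hX]
  rcases isEmpty_or_nonempty (Gens g m) with hE | ⟨⟨k₀⟩⟩
  · -- the trivial group
    apply hF
    have h1 : restLast X = fun k => SpecialLinearGroup.map (Int.castRingHom ℂ)
        ((isEmptyElim k : SpecialLinearGroup (Fin r) ℤ)) := by
      funext k
      exact hE.elim k
    refine ⟨⟨isRep_extLast _, fun W hW => ?_⟩, fun k i j => ?_⟩
    · obtain ⟨W', hW'⟩ := exists_isCompl W
      refine ⟨W', ?_, hW'⟩
      rw [isInvSubspace_extLast]
      intro k
      exact hE.elim k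
    · rw [h1]
      exact extLast_int _ k i j
  by_cases hk : ∃ k₁ : Gens g m, k₁ ≠ k₀
  · -- at least two free generators
    obtain ⟨k₁, hk₁⟩ := hk
    obtain ⟨P, Q, hPQ⟩ := exists_generating_pair hr
    classical
    obtain ⟨X₀, hX₀⟩ : ∃ X₀ : Gens g m → SpecialLinearGroup (Fin r) ℂ,
      X₀ = fun k => if k = k₀ then P else Q := ⟨_, rfl⟩
    obtain ⟨D, hD0, hD⟩ := exists_generating_poly_at (fun k => (X₀ k).1) (by
      apply hPQ
      · apply Algebra.subset_adjoin
        refine ⟨k₀, ?_⟩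
        simp only [hX₀, if_true]
      · apply Algebra.subset_adjoin
        refine ⟨k₁, ?_⟩
        simp only [hX₀, hk₁, if_false])
    refine density_of_poly D F X₀ ?_ ?_ _
    · rw [value_eq_eval]
      exact hD0
    intro Z hZ
    apply hF
    refine ⟨⟨isRep_extLast _, fun W hW => ?_⟩, fun k i j => extLast_int _ k i j⟩
    rw [isInvSubspace_extLast] at hW
    rw [value_eq_eval] at hZ
    have hZ' := hD (fun k => (SpecialLinearGroup.map (Int.castRingHom ℂ) (Z k)).1) hZ
    rcases semisimple_of_adjoin _ hZ' W hW with h | h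
    · refine ⟨⊤, fun k v _ => Submodule.mem_top, ?_⟩
      rw [h]
      exact isCompl_bot_top
    · refine ⟨⊥, fun k v hv => ?_, ?_⟩
      · rw [Submodule.mem_bot] at hv ⊢
        rw [hv, Matrix.mulVec_zero]
      · rw [h]
        exact isCompl_top_bot
  · -- exactly one free generator
    have hk' : ∀ k, k = k₀ := fun k => by_contra fun h => hk ⟨k, h⟩
    obtain ⟨D, hD⟩ := exists_separable_poly (ι := Gens g m) hr k₀
    obtain ⟨c, P, hc, hP⟩ := exists_scale hr _ (det_diag_ne_zero (r := r))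
    refine density_of_poly D F (fun _ => P) ?_ ?_ _
    · rw [value_eq_eval]
      refine (hD (fun _ => P.1)).2 ?_
      · rw [hP]
        have h2 : c • (diagonal fun k : Fin r => ((k : ℕ) : ℂ) + 1) =
            diagonal fun k : Fin r => c * (((k : ℕ) : ℂ) + 1) := by
          rw [← diagonal_smul]
          rfl
        rw [h2, Matrix.charpoly_diagonal, Polynomial.separable_prod_X_sub_C_iff]
        intro a b hab
        have h3 := mul_left_cancel₀ hc hab
        exact Fin.ext (Nat.cast_injective (add_right_cancel h3))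
    · intro Z hZ
      apply hF
      refine ⟨⟨isRep_extLast _, fun W hW => ?_⟩, fun k i j => extLast_int _ k i j⟩
      rw [isInvSubspace_extLast] at hW
      rw [value_eq_eval] at hZ
      have hZ' := (hD (fun k => (SpecialLinearGroup.map (Int.castRingHom ℂ) (Z k)).1)).1 hZ
      obtain ⟨W', h1, h2⟩ := semisimple_of_separable _ hZ' W (hW k₀)
      refine ⟨W', ?_, h2⟩
      rw [isInvSubspace_extLast]
      intro k
      rw [hk' k]
      exact h1

/-- **Density without boundary conditions.** If the curve has a puncture, the semisimple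
representations into `SL_r(ℤ)`, hence those into `SL_r(𝓞 L)` for every number field `L`, are
Zariski dense. -/
theorem none_density (g n r : ℕ) (hn : 0 < n) (L : IntermediateField ℚ ℂ) :
    IsZariskiDenseRep {X ∈ YNone g n r | IsIntegralRep L X} (YNone g n r) := by
  obtain ⟨m, rfl⟩ := Nat.exists_eq_succ_of_ne_zero hn.ne'
  refine ⟨fun _ hX => hX.1, fun F hF X hX => ?_⟩
  refine none_density_int g m r F (fun X' hX' => hF X' ⟨hX'.1, fun k i j => ?_⟩) X hX.1
  obtain ⟨a, ha⟩ := hX'.2 k i j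
  refine ⟨(a : 𝓞 L), ?_⟩
  rw [ha]
  exact (map_intCast ((algebraMap L ℂ).comp (algebraMap (𝓞 L) L)) a).symm

end Vale.Agent.P002R.Statement
end

section

/-!
# Free groups without boundary conditions; Burnside's theorem
-/

namespace Vale.Agent.P002R

open Matrix

/-- Burnside's theorem. -/
theorem burnside_top {r : ℕ} {G : Type*} [Group G] (x : G →* (Mat r ℂ)ˣ) (hss : SS x)
    (hirr : ∀ M : Mat r ℂ, (∀ w, Commute M (x w : Mat r ℂ)) → ∃ c : ℂ, M = c • (1 : Mat r ℂ)) :
    Algebra.adjoin ℂ (Set.range fun w => (x w : Mat r ℂ)) = ⊤ := by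
  obtain ⟨A, hA⟩ : ∃ A, A = Algebra.adjoin ℂ (Set.range fun w => (x w : Mat r ℂ)) := ⟨_, rfl⟩
  rw [← hA]
  let act : A →+* Module.End ℂ (Fin r → ℂ) :=
    ((Matrix.toLinAlgEquiv' (R := ℂ) (n := Fin r)).toAlgHom.toRingHom).comp A.subtype
  let _ : Module A (Fin r → ℂ) := Module.compHom _ act
  have hact : ∀ (a : A) (v : Fin r → ℂ), a • v = (a : Mat r ℂ) *ᵥ v := fun a v => rfl
  have hxA : ∀ w, (x w : Mat r ℂ) ∈ A := fun w => by
    rw [hA]
    exact Algebra.subset_adjoin ⟨w, rfl⟩
  have hsemi : IsSemisimpleModule A (Fin r → ℂ) := by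
    rw [isSemisimpleModule_iff]
    refine ⟨fun N => ?_⟩
    obtain ⟨W, hW⟩ : ∃ W : Submodule ℂ (Fin r → ℂ), ∀ v, v ∈ W ↔ v ∈ N :=
      ⟨{ carrier := {v | v ∈ N}
         add_mem' := fun ha hb => N.add_mem ha hb
         zero_mem' := N.zero_mem
         smul_mem' := fun c v hv => by
          have h1 : ((algebraMap ℂ A c : A) : Mat r ℂ) *ᵥ v ∈ N :=
            N.smul_mem (algebraMap ℂ A c) hv
          have h2 : ((algebraMap ℂ A c : A) : Mat r ℂ) *ᵥ v = c • v := by
            change algebraMap ℂ (Mat r ℂ) c *ᵥ v = _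
            rw [Algebra.algebraMap_eq_smul_one, Matrix.smul_mulVec, Matrix.one_mulVec]
          rw [h2] at h1
          exact h1 }, fun v => Iff.rfl⟩
    obtain ⟨W', h1, h2⟩ := hss W (fun w v hv => by
      rw [hW] at hv ⊢
      exact N.smul_mem (⟨_, hxA w⟩ : A) hv)
    have h3 : ∀ a ∈ A, ∀ v ∈ W', a *ᵥ v ∈ W' := by
      intro a ha
      rw [hA] at ha
      induction ha using Algebra.adjoin_induction with
      | mem y hy =>
        obtain ⟨w, rfl⟩ := hy
        exact h1 w
      | algebraMap c =>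
        intro v hv
        rw [Algebra.algebraMap_eq_smul_one, Matrix.smul_mulVec, Matrix.one_mulVec]
        exact W'.smul_mem c hv
      | add y z _ _ hy hz =>
        intro v hv
        rw [Matrix.add_mulVec]
        exact W'.add_mem (hy v hv) (hz v hv)
      | mul y z _ _ hy hz =>
        intro v hv
        rw [← Matrix.mulVec_mulVec]
        exact hy _ (hz v hv)
    refine ⟨{ carrier := {v | v ∈ W'}
              add_mem' := fun ha hb => W'.add_mem ha hb
              zero_mem' := W'.zero_mem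
              smul_mem' := fun a v hv => ?_ }, ?_⟩
    · exact h3 _ a.2 v hv
    · rw [isCompl_iff, disjoint_iff, codisjoint_iff] at h2 ⊢
      constructor
      · rw [eq_bot_iff]
        intro v hv
        rw [Submodule.mem_inf] at hv
        have : v ∈ W ⊓ W' := ⟨(hW v).2 hv.1, hv.2⟩
        rw [h2.1, Submodule.mem_bot] at this
        rw [Submodule.mem_bot]
        exact this
      · rw [eq_top_iff]
        intro v _
        have : v ∈ W ⊔ W' := by
          rw [h2.2]
          exact Submodule.mem_top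
        obtain ⟨a, ha, b, hb, rfl⟩ := Submodule.mem_sup.1 this
        exact Submodule.add_mem_sup ((hW a).1 ha) hb
  have hend : ∀ f : Module.End A (Fin r → ℂ), ∃ c : ℂ, ∀ v, f v = c • v := by
    intro f
    obtain ⟨f', hf'⟩ : ∃ f' : (Fin r → ℂ) →ₗ[ℂ] (Fin r → ℂ), ∀ v, f' v = f v :=
      ⟨{ toFun := f
         map_add' := f.map_add
         map_smul' := fun c v => by
          have h1 : f (((algebraMap ℂ A c : A) : Mat r ℂ) *ᵥ v) =
              ((algebraMap ℂ A c : A) : Mat r ℂ) *ᵥ f v := f.map_smul (algebraMap ℂ A c) v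
          have h2 : ∀ u : Fin r → ℂ, ((algebraMap ℂ A c : A) : Mat r ℂ) *ᵥ u = c • u := by
            intro u
            change algebraMap ℂ (Mat r ℂ) c *ᵥ u = _
            rw [Algebra.algebraMap_eq_smul_one, Matrix.smul_mulVec, Matrix.one_mulVec]
          rw [h2, h2] at h1
          exact h1 }, fun v => rfl⟩
    obtain ⟨c, hc⟩ := hirr (LinearMap.toMatrix' f') (fun w => by
      have h1 : ∀ v, f' ((x w : Mat r ℂ) *ᵥ v) = (x w : Mat r ℂ) *ᵥ f' v := by
        intro v
        rw [hf', hf']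
        exact f.map_smul (⟨_, hxA w⟩ : A) v
      apply (Matrix.toLin' (R := ℂ)).injective
      rw [Matrix.toLin'_mul, Matrix.toLin'_mul, Matrix.toLin'_toMatrix']
      exact LinearMap.ext fun v => h1 v)
    refine ⟨c, fun v => ?_⟩
    rw [← hf', ← Matrix.toLin'_toMatrix' f', hc, Matrix.toLin'_apply, Matrix.smul_mulVec,
      Matrix.one_mulVec]
  rw [eq_top_iff]
  intro T _
  classical
  obtain ⟨F, hF⟩ : ∃ F : Module.End (Module.End A (Fin r → ℂ)) (Fin r → ℂ),
      ∀ v, F v = T *ᵥ v :=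
    ⟨{ toFun := fun v => T *ᵥ v
       map_add' := fun u v => Matrix.mulVec_add _ _ _
       map_smul' := fun f v => by
        obtain ⟨c, hc⟩ := hend f
        change T *ᵥ (f v) = f (T *ᵥ v)
        rw [hc, hc, Matrix.mulVec_smul] }, fun v => rfl⟩
  obtain ⟨a, ha⟩ := jacobson_density F (Finset.univ.image fun i : Fin r => Pi.single i (1 : ℂ))
  have h1 : T = (a : Mat r ℂ) := by
    ext i j
    have h2 : F (Pi.single j 1) = (a : Mat r ℂ) *ᵥ Pi.single j 1 :=
      ha (Pi.single j 1) (Finset.mem_image_of_mem _ (Finset.mem_univ j))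
    rw [hF, Matrix.mulVec_single_one, Matrix.mulVec_single_one] at h2
    exact congrFun h2 i
  rw [h1]
  exact a.2

theorem evalG_eq_eval {κ : Type*} {r : ℕ} (x : FreeGroup κ →* (Mat r ℂ)ˣ)
    (f : MvPolynomial (κ × Fin r × Fin r) ℂ) :
    evalG x f = MvPolynomial.eval (fun p => (x (FreeGroup.of p.1) : Mat r ℂ) p.2.1 p.2.2) f := by
  rw [evalG_eqn, MvPolynomial.aeval_eq_eval]

/-- The algebra generated by a group of matrices is generated by the generators of the group. -/
theorem adjoin_gen_eq_top {κ : Type*} {r : ℕ} (x : FreeGroup κ →* (Mat r ℂ)ˣ)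
    (h : Algebra.adjoin ℂ (Set.range fun w => (x w : Mat r ℂ)) = ⊤) :
    Algebra.adjoin ℂ (Set.range fun k => (x (FreeGroup.of k) : Mat r ℂ)) = ⊤ := by
  rw [eq_top_iff, ← h, Algebra.adjoin_le_iff]
  rintro _ ⟨w, rfl⟩
  obtain ⟨A, hA⟩ : ∃ A, A = Algebra.adjoin ℂ
    (Set.range fun k => (x (FreeGroup.of k) : Mat r ℂ)) := ⟨_, rfl⟩
  rw [← hA]
  have hinv : ∀ u : (Mat r ℂ)ˣ, (u : Mat r ℂ) ∈ A → ((u⁻¹ : (Mat r ℂ)ˣ) : Mat r ℂ) ∈ A := by
    intro u hu
    obtain ⟨T, hT⟩ : ∃ T : A →ₗ[ℂ] A, ∀ a : A, ((T a : A) : Mat r ℂ) = (u : Mat r ℂ) * a :=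
      ⟨LinearMap.mulLeft ℂ (⟨u, hu⟩ : A), fun a => rfl⟩
    have hinj : Function.Injective T := by
      intro a b hab
      have h1 := congrArg (fun c : A => ((u⁻¹ : (Mat r ℂ)ˣ) : Mat r ℂ) * (c : Mat r ℂ)) hab
      simp only [hT, ← mul_assoc, Units.inv_mul, one_mul] at h1
      exact Subtype.ext h1
    obtain ⟨b, hb⟩ := (LinearMap.injective_iff_surjective.1 hinj) 1
    have h1 : (u : Mat r ℂ) * (b : Mat r ℂ) = 1 := by
      rw [← hT, hb]
      rfl
    have h2 : ((u⁻¹ : (Mat r ℂ)ˣ) : Mat r ℂ) = b := by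
      rw [← mul_one ((u⁻¹ : (Mat r ℂ)ˣ) : Mat r ℂ), ← h1, ← mul_assoc, Units.inv_mul, one_mul]
    rw [h2]
    exact b.2
  change (x w : Mat r ℂ) ∈ A
  induction w using FreeGroup.induction_on with
  | C1 =>
    rw [map_one]
    exact A.one_mem
  | of k =>
    rw [hA]
    exact Algebra.subset_adjoin ⟨k, rfl⟩
  | inv_of k hk =>
    rw [map_inv]
    exact hinv _ hk
  | mul a b ha hb =>
    rw [map_mul]
    exact A.mul_mem ha hb

theorem free_irrDense {N : ℕ} {R : Type*} [CommRing R] (φ : R →+* ℂ) (E : Subgroup ℂˣ)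
    (r : ℕ) (hr : 0 < r) : IrrDense (∅ : Set (FreeGroup (Fin N ⊕ Empty))) φ E r := by
  intro C _ x hx hirr f hf
  have htop := adjoin_gen_eq_top x (burnside_top x hx.2.2 hirr)
  obtain ⟨D, hD0, hD⟩ := Statement.exists_generating_poly_at
    (fun k => (x (FreeGroup.of k) : Mat r ℂ)) htop
  -- the polynomials in the variables of `Fin N`
  obtain ⟨e, he⟩ : ∃ e : (Fin N ⊕ Empty) × Fin r × Fin r ≃ Fin N × Fin r × Fin r,
      ∀ (k : Fin N) (p : Fin r × Fin r), e (Sum.inl k, p) = (k, p) :=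
    ⟨Equiv.prodCongr (Equiv.sumEmpty _ _) (Equiv.refl _), fun k p => rfl⟩
  have hprod : MvPolynomial.rename e (D * f) = 0 := by
    apply Vale.Agent.P002.multi_dense
    intro c Z
    rw [MvPolynomial.eval_rename]
    -- the representation
    obtain ⟨y, hy⟩ : ∃ y : FreeGroup (Fin N ⊕ Empty) →* (Mat r ℂ)ˣ, ∀ k : Fin N,
        y (FreeGroup.of (Sum.inl k)) = scalarU (c k) * slU (Int.castRingHom ℂ) (Z k) :=
      ⟨FreeGroup.lift (Sum.elim (fun k => scalarU (c k) * slU (Int.castRingHom ℂ) (Z k))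
        fun k => k.elim), fun k => FreeGroup.lift_apply_of⟩
    have h1 : ∀ p : (Fin N ⊕ Empty) × Fin r × Fin r,
        ((fun p : Fin N × Fin r × Fin r => (c p.1 : ℂ) * (((Z p.1).1 p.2.1 p.2.2 : ℤ) : ℂ)) ∘ e) p =
        (y (FreeGroup.of p.1) : Mat r ℂ) p.2.1 p.2.2 := by
      rintro ⟨k | k, p⟩
      · change _ = (y (FreeGroup.of (Sum.inl k)) : Mat r ℂ) p.1 p.2
        rw [hy, Function.comp_apply, he]
        change (c k : ℂ) * (((Z k).1 p.1 p.2 : ℤ) : ℂ) =
          (algebraMap ℂ (Mat r ℂ) (c k : ℂ) * ((Z k).1.map (Int.castRingHom ℂ))) p.1 p.2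
        rw [Algebra.algebraMap_eq_smul_one, Matrix.smul_mul, Matrix.one_mul, Matrix.smul_apply,
          smul_eq_mul]
        rfl
      · exact k.elim
    rw [funext h1, map_mul, mul_eq_zero, or_iff_not_imp_left]
    intro h2
    have h3 := hD (fun k => (y (FreeGroup.of k) : Mat r ℂ)) h2
    have h4 : Algebra.adjoin ℂ (Set.range fun w => (y w : Mat r ℂ)) = ⊤ := by
      rw [eq_top_iff, ← h3]
      apply Algebra.adjoin_mono
      rintro _ ⟨k, rfl⟩
      exact ⟨FreeGroup.of k, rfl⟩
    rw [← evalG_eq_eval]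
    refine hf y ⟨⟨⟨fun w hw => absurd hw (Set.notMem_empty w), fun j => j.elim, ?_⟩, ?_⟩, h4⟩
    · intro W hW
      rcases Statement.semisimple_of_adjoin _ h3 W (fun k => hW _) with h | h
      · refine ⟨⊤, fun k v _ => Submodule.mem_top, ?_⟩
        rw [h]
        exact isCompl_bot_top
      · refine ⟨⊥, fun k v hv => ?_, ?_⟩
        · rw [Submodule.mem_bot] at hv ⊢
          rw [hv, Matrix.mulVec_zero]
        · rw [h]
          exact isCompl_top_bot
    · rintro (k | k)
      · refine ⟨c k, SpecialLinearGroup.map (Int.castRingHom R) (Z k), ?_⟩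
        rw [hy]
        congr 1
        apply Units.ext
        change (Z k).1.map (Int.castRingHom ℂ) =
          ((Z k).1.map (Int.castRingHom R)).map φ
        ext i j
        simp
      · exact k.elim
  have hzero : D * f = 0 := by
    have := MvPolynomial.rename_injective (R := ℂ) _ e.injective
    exact this (by rw [hprod, map_zero])
  have hD' : D ≠ 0 := by
    rintro rfl
    rw [map_zero] at hD0
    exact hD0 rfl
  rw [(mul_eq_zero.1 hzero).resolve_left hD', map_zero]

end Vale.Agent.P002R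
end

section

/-!
# Irreducible representations of products are tensor products
-/

namespace Vale.Agent.P002R

open Matrix

variable {r : ℕ}

theorem adjoin_top_of_irr {G : Type*} [Group G] (x : G →* (Mat r ℂ)ˣ) (hss : SS x)
    (hirr : ∀ M : Mat r ℂ, (∀ w, Commute M (x w : Mat r ℂ)) → ∃ c : ℂ, M = c • (1 : Mat r ℂ)) :
    Algebra.adjoin ℂ (Set.range fun w => (x w : Mat r ℂ)) = ⊤ :=
  burnside_top x hss hirr

theorem exists_min_inv {G : Type*} [Group G] (hr : 0 < r) (y : G →* (Mat r ℂ)ˣ) :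
    ∃ W : Submodule ℂ (Fin r → ℂ), W ≠ ⊥ ∧ (∀ a, ∀ v ∈ W, (y a : Mat r ℂ) *ᵥ v ∈ W) ∧
      ∀ W' ≤ W, W' ≠ ⊥ → (∀ a, ∀ v ∈ W', (y a : Mat r ℂ) *ᵥ v ∈ W') → W' = W := by
  obtain ⟨S, hS⟩ : ∃ S : Set (Submodule ℂ (Fin r → ℂ)), S = {W | W ≠ ⊥ ∧
    ∀ a, ∀ v ∈ W, (y a : Mat r ℂ) *ᵥ v ∈ W} := ⟨_, rfl⟩
  have hne : S.Nonempty := by
    refine ⟨⊤, ?_⟩
    rw [hS]
    have : Nonempty (Fin r) := ⟨⟨0, hr⟩⟩
    exact ⟨top_ne_bot, fun _ _ _ => Submodule.mem_top⟩
  obtain ⟨W, hW, hmin⟩ := (wellFounded_lt (α := Submodule ℂ (Fin r → ℂ))).has_min S hne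
  rw [hS] at hW
  refine ⟨W, hW.1, hW.2, fun W' hle h0 hinv => ?_⟩
  rcases eq_or_lt_of_le hle with h | h
  · exact h
  · refine absurd h (hmin W' ?_)
    rw [hS]
    exact ⟨h0, hinv⟩

/-- The matrices of a representation in a basis. -/
theorem rep_matrix {G : Type*} [Group G] {U : Type*} [AddCommGroup U] [Module ℂ U] {n : ℕ}
    (b : Module.Basis (Fin n) ℂ U) (τ : G →* Module.End ℂ U) :
    ∃ z : G →* (Mat n ℂ)ˣ, ∀ a i, τ a (b i) = ∑ l, (z a : Mat n ℂ) l i • b l := by
  refine ⟨((LinearMap.toMatrixAlgEquiv b).toAlgHom.toRingHom.toMonoidHom.comp τ).toHomUnits,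
    fun a i => ?_⟩
  have h1 : (((((LinearMap.toMatrixAlgEquiv b).toAlgHom.toRingHom.toMonoidHom.comp
      τ).toHomUnits a : (Mat n ℂ)ˣ) : Mat n ℂ)) = LinearMap.toMatrix b b (τ a) := rfl
  rw [h1]
  conv_lhs => rw [← b.sum_repr (τ a (b i))]
  refine Finset.sum_congr rfl fun l _ => ?_
  rw [LinearMap.toMatrix_apply]

theorem eq_bot_or_top_of_adjoin {ι : Type*} (A : ι → Mat r ℂ)
    (hA : Algebra.adjoin ℂ (Set.range A) = ⊤) (W : Submodule ℂ (Fin r → ℂ))
    (hW : ∀ k, ∀ v ∈ W, A k *ᵥ v ∈ W) : W = ⊥ ∨ W = ⊤ := by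
  obtain ⟨S, hS⟩ : ∃ S : Subalgebra ℂ (Mat r ℂ), ∀ M, M ∈ S ↔ ∀ v ∈ W, M *ᵥ v ∈ W :=
    ⟨{ carrier := {M | ∀ v ∈ W, M *ᵥ v ∈ W}
       mul_mem' := fun {a b} ha hb v hv => by
        rw [← Matrix.mulVec_mulVec]
        exact ha _ (hb v hv)
       add_mem' := fun {a b} ha hb v hv => by
        rw [Matrix.add_mulVec]
        exact W.add_mem (ha v hv) (hb v hv)
       algebraMap_mem' := fun c v hv => by
        rw [Algebra.algebraMap_eq_smul_one, Matrix.smul_mulVec, Matrix.one_mulVec]
        exact W.smul_mem c hv }, fun M => Iff.rfl⟩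
  have h1 : S = ⊤ := by
    rw [eq_top_iff, ← hA, Algebra.adjoin_le_iff]
    rintro _ ⟨k, rfl⟩
    exact (hS _).2 (hW k)
  have h2 : ∀ (M : Mat r ℂ), ∀ v ∈ W, M *ᵥ v ∈ W := fun M => (hS M).1 (h1 ▸ Algebra.mem_top)
  rw [or_iff_not_imp_left]
  intro h3
  obtain ⟨v, hv, hv0⟩ := (Submodule.ne_bot_iff W).1 h3
  obtain ⟨i, hi⟩ := Function.ne_iff.1 hv0
  rw [eq_top_iff]
  intro u _
  have h4 := h2 (Matrix.of fun a b => if b = i then u a * (v i)⁻¹ else 0) v hv
  convert h4 using 1
  ext a
  simp only [Matrix.mulVec, dotProduct, Matrix.of_apply, ite_mul, zero_mul, Finset.sum_ite_eq',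
    Finset.mem_univ, if_true]
  rw [mul_assoc, inv_mul_cancel₀ hi, mul_one]

/-- Schur's lemma and Burnside's theorem for a representation without invariant subspaces. -/
theorem adjoin_top_of_simple {G : Type*} [Group G] (hr : 0 < r) (z : G →* (Mat r ℂ)ˣ)
    (h : ∀ N : Submodule ℂ (Fin r → ℂ), (∀ a, ∀ v ∈ N, (z a : Mat r ℂ) *ᵥ v ∈ N) →
      N = ⊥ ∨ N = ⊤) :
    Algebra.adjoin ℂ (Set.range fun w => (z w : Mat r ℂ)) = ⊤ := by
  apply burnside_top
  · intro W hW
    rcases h W hW with h1 | h1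
    · refine ⟨⊤, fun k v _ => Submodule.mem_top, ?_⟩
      rw [h1]
      exact isCompl_bot_top
    · refine ⟨⊥, fun k v hv => ?_, ?_⟩
      · rw [Submodule.mem_bot] at hv ⊢
        rw [hv, Matrix.mulVec_zero]
      · rw [h1]
        exact isCompl_top_bot
  · intro M hM
    have : Nonempty (Fin r) := ⟨⟨0, hr⟩⟩
    obtain ⟨c, hc⟩ := Module.End.exists_eigenvalue (Matrix.toLin' M)
    obtain ⟨v, hv⟩ := hc.exists_hasEigenvector
    refine ⟨c, ?_⟩
    have hv1 : M *ᵥ v = c • v := by
      have := hv.apply_eq_smul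
      rwa [Matrix.toLin'_apply] at this
    obtain ⟨N, hN⟩ : ∃ N : Submodule ℂ (Fin r → ℂ), ∀ u, u ∈ N ↔ M *ᵥ u = c • u :=
      ⟨{ carrier := {u | M *ᵥ u = c • u}
         add_mem' := fun {a b} ha hb => by
          have ha' : M *ᵥ a = c • a := ha
          have hb' : M *ᵥ b = c • b := hb
          change M *ᵥ (a + b) = c • (a + b)
          rw [Matrix.mulVec_add, ha', hb', smul_add]
         zero_mem' := by
          change M *ᵥ 0 = c • 0
          rw [Matrix.mulVec_zero, smul_zero]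
         smul_mem' := fun d a ha => by
          have ha' : M *ᵥ a = c • a := ha
          change M *ᵥ (d • a) = c • (d • a)
          rw [Matrix.mulVec_smul, ha', smul_comm] }, fun u => Iff.rfl⟩
    have hinv : ∀ a, ∀ v ∈ N, (z a : Mat r ℂ) *ᵥ v ∈ N := by
      intro a u hu
      rw [hN] at hu ⊢
      rw [Matrix.mulVec_mulVec, (hM a).eq, ← Matrix.mulVec_mulVec, hu, Matrix.mulVec_smul]
    have htop : N = ⊤ := by
      rcases h N hinv with h1 | h1
      · exfalso
        have : v ∈ N := (hN v).2 hv1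
        rw [h1, Submodule.mem_bot] at this
        exact hv.2 this
      · exact h1
    apply (Matrix.toLin' (R := ℂ)).injective
    refine LinearMap.ext fun u => ?_
    have h2 : u ∈ N := by
      rw [htop]
      exact Submodule.mem_top
    rw [hN] at h2
    rw [Matrix.toLin'_apply, Matrix.toLin'_apply, h2, Matrix.smul_mulVec, Matrix.one_mulVec]

/-- An irreducible subrepresentation, in coordinates. -/
theorem exists_simple_sub {G : Type*} [Group G] (hr : 0 < r) (y : G →* (Mat r ℂ)ˣ) :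
    ∃ (n : ℕ) (ρ : G →* (Mat n ℂ)ˣ) (T₀ : Matrix (Fin r) (Fin n) ℂ), 0 < n ∧
      (∀ a, T₀ * (ρ a : Mat n ℂ) = (y a : Mat r ℂ) * T₀) ∧ T₀ ≠ 0 ∧
      Algebra.adjoin ℂ (Set.range fun w => (ρ w : Mat n ℂ)) = ⊤ := by
  obtain ⟨W, hW0, hW, hmin⟩ := exists_min_inv hr y
  obtain ⟨n, hn⟩ : ∃ n, n = Module.finrank ℂ W := ⟨_, rfl⟩
  have hn0 : 0 < n := by
    rw [hn, Nat.pos_iff_ne_zero]
    intro h
    exact hW0 (Submodule.finrank_eq_zero.1 h)
  obtain ⟨b⟩ : Nonempty (Module.Basis (Fin n) ℂ W) := by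
    rw [hn]
    exact ⟨Module.finBasis ℂ W⟩
  obtain ⟨τ, hτ⟩ : ∃ τ : G →* Module.End ℂ W, ∀ a (w : W),
      ((τ a w : W) : Fin r → ℂ) = (y a : Mat r ℂ) *ᵥ (w : Fin r → ℂ) :=
    ⟨{ toFun := fun a => (Matrix.mulVecLin (y a : Mat r ℂ)).restrict (hW a)
       map_one' := by
        refine LinearMap.ext fun w => Subtype.ext ?_
        change (y 1 : Mat r ℂ) *ᵥ (w : Fin r → ℂ) = w
        rw [map_one, Units.val_one, Matrix.one_mulVec]
       map_mul' := fun a a' => by
        refine LinearMap.ext fun w => Subtype.ext ?_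
        change (y (a * a') : Mat r ℂ) *ᵥ (w : Fin r → ℂ) =
          (y a : Mat r ℂ) *ᵥ ((y a' : Mat r ℂ) *ᵥ (w : Fin r → ℂ))
        rw [map_mul, Units.val_mul, Matrix.mulVec_mulVec] }, fun a w => rfl⟩
  obtain ⟨ρ, hρ⟩ := rep_matrix b τ
  obtain ⟨T₀, hT₀⟩ : ∃ T₀ : Matrix (Fin r) (Fin n) ℂ, T₀ = Matrix.of fun x j =>
      (b j : Fin r → ℂ) x := ⟨_, rfl⟩
  have hmv : ∀ c : Fin n → ℂ, T₀ *ᵥ c = ((∑ j, c j • b j : W) : Fin r → ℂ) := by
    intro c
    ext x
    rw [hT₀, Matrix.mulVec, dotProduct]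
    simp only [Matrix.of_apply, Submodule.coe_sum, Submodule.coe_smul, Finset.sum_apply,
      Pi.smul_apply, smul_eq_mul]
    exact Finset.sum_congr rfl fun j _ => mul_comm _ _
  have hinj : ∀ c : Fin n → ℂ, T₀ *ᵥ c = 0 → c = 0 := by
    intro c hc
    rw [hmv] at hc
    have h1 : (∑ j, c j • b j : W) = 0 := Subtype.ext hc
    funext j
    exact (Fintype.linearIndependent_iff.1 b.linearIndependent) c h1 j
  have hcomm : ∀ a, T₀ * (ρ a : Mat n ℂ) = (y a : Mat r ℂ) * T₀ := by
    intro a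
    ext x j
    have h1 := congrArg (fun w : W => (w : Fin r → ℂ) x) (hρ a j)
    simp only [hτ] at h1
    have h2 : ((y a : Mat r ℂ) * T₀) x j = ((y a : Mat r ℂ) *ᵥ (b j : Fin r → ℂ)) x := by
      rw [hT₀, Matrix.mul_apply, Matrix.mulVec, dotProduct]
      rfl
    rw [h2, h1, Matrix.mul_apply, hT₀]
    simp only [Matrix.of_apply, Submodule.coe_sum, Submodule.coe_smul, Finset.sum_apply,
      Pi.smul_apply, smul_eq_mul]
    exact Finset.sum_congr rfl fun j _ => mul_comm _ _
  refine ⟨n, ρ, T₀, hn0, hcomm, ?_, ?_⟩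
  · intro h0
    have h1 := hinj (fun _ => 1) (by rw [h0, Matrix.zero_mulVec])
    exact one_ne_zero (congrFun h1 ⟨0, hn0⟩)
  · apply adjoin_top_of_simple hn0
    intro N hN
    obtain ⟨N', hN'⟩ : ∃ N' : Submodule ℂ (Fin r → ℂ), N' = N.map (Matrix.mulVecLin T₀) :=
      ⟨_, rfl⟩
    have hle : N' ≤ W := by
      rw [hN']
      rintro _ ⟨c, _, rfl⟩
      rw [Matrix.mulVecLin_apply, hmv]
      exact Subtype.mem _
    have hinv' : ∀ a, ∀ v ∈ N', (y a : Mat r ℂ) *ᵥ v ∈ N' := by
      intro a v hv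
      rw [hN'] at hv ⊢
      obtain ⟨c, hc, rfl⟩ := hv
      refine ⟨(ρ a : Mat n ℂ) *ᵥ c, hN a c hc, ?_⟩
      rw [Matrix.mulVecLin_apply, Matrix.mulVecLin_apply, Matrix.mulVec_mulVec,
        Matrix.mulVec_mulVec, hcomm]
    have hinj' : Function.Injective (Matrix.mulVecLin T₀) := by
      rw [injective_iff_map_eq_zero]
      exact hinj
    by_cases h0 : N' = ⊥
    · left
      rw [eq_bot_iff]
      intro c hc
      have h1 : Matrix.mulVecLin T₀ c ∈ N' := by
        rw [hN']
        exact ⟨c, hc, rfl⟩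
      rw [h0, Submodule.mem_bot] at h1
      rw [Submodule.mem_bot]
      exact hinj c h1
    · right
      have h1 := hmin N' hle h0 hinv'
      apply Submodule.eq_top_of_finrank_eq
      rw [Module.finrank_fin_fun]
      refine Eq.trans ?_ hn.symm
      rw [← h1, hN']
      exact (Submodule.equivMapOfInjective _ hinj' N).finrank_eq

/-- An irreducible representation of a product of two groups is a tensor product. -/
theorem tensor_decomp {G₁ G₂ : Type*} [Group G₁] [Group G₂] (hr : 0 < r)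
    (y₁ : G₁ →* (Mat r ℂ)ˣ) (y₂ : G₂ →* (Mat r ℂ)ˣ) (hcomm : ∀ a b, Commute (y₁ a) (y₂ b))
    (htop : Algebra.adjoin ℂ ((Set.range fun w => (y₁ w : Mat r ℂ)) ∪
      Set.range fun w => (y₂ w : Mat r ℂ)) = ⊤) :
    ∃ (r₁ r₂ : ℕ) (e : Fin r₁ × Fin r₂ ≃ Fin r) (P : (Mat r ℂ)ˣ)
      (z₁ : G₁ →* (Mat r₁ ℂ)ˣ) (z₂ : G₂ →* (Mat r₂ ℂ)ˣ), 0 < r₁ ∧ 0 < r₂ ∧
      Algebra.adjoin ℂ (Set.range fun w => (z₁ w : Mat r₁ ℂ)) = ⊤ ∧
      Algebra.adjoin ℂ (Set.range fun w => (z₂ w : Mat r₂ ℂ)) = ⊤ ∧
      (∀ a, (y₁ a : Mat r ℂ) = (P : Mat r ℂ) *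
        Matrix.reindex e e (Matrix.kroneckerMap (· * ·) (z₁ a : Mat r₁ ℂ) (1 : Mat r₂ ℂ)) *
          ((P⁻¹ : (Mat r ℂ)ˣ) : Mat r ℂ)) ∧
      ∀ b, (y₂ b : Mat r ℂ) = (P : Mat r ℂ) *
        Matrix.reindex e e (Matrix.kroneckerMap (· * ·) (1 : Mat r₁ ℂ) (z₂ b : Mat r₂ ℂ)) *
          ((P⁻¹ : (Mat r ℂ)ˣ) : Mat r ℂ) := by
  obtain ⟨r₁, z₁, T₀, hr₁, hT₀, hT₀0, hz₁⟩ := exists_simple_sub hr y₁
  -- the space of intertwiners
  obtain ⟨U, hU⟩ : ∃ U : Submodule ℂ (Matrix (Fin r) (Fin r₁) ℂ), ∀ T, T ∈ U ↔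
      ∀ a, T * (z₁ a : Mat r₁ ℂ) = (y₁ a : Mat r ℂ) * T :=
    ⟨{ carrier := {T | ∀ a, T * (z₁ a : Mat r₁ ℂ) = (y₁ a : Mat r ℂ) * T}
       add_mem' := fun {S T} hS hT a => by
        rw [Matrix.add_mul, Matrix.mul_add, hS a, hT a]
       zero_mem' := fun a => by rw [Matrix.zero_mul, Matrix.mul_zero]
       smul_mem' := fun c T hT a => by
        rw [Matrix.smul_mul, Matrix.mul_smul, hT a] }, fun T => Iff.rfl⟩
  obtain ⟨r₂, hr₂⟩ : ∃ r₂, r₂ = Module.finrank ℂ U := ⟨_, rfl⟩
  have hr₂0 : 0 < r₂ := by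
    rw [hr₂, Nat.pos_iff_ne_zero]
    intro h
    have h1 := Submodule.finrank_eq_zero.1 h
    have h2 : T₀ ∈ U := (hU T₀).2 hT₀
    rw [h1, Submodule.mem_bot] at h2
    exact hT₀0 h2
  obtain ⟨b⟩ : Nonempty (Module.Basis (Fin r₂) ℂ U) := by
    rw [hr₂]
    exact ⟨Module.finBasis ℂ U⟩
  have hbU : ∀ i a, (b i : Matrix (Fin r) (Fin r₁) ℂ) * (z₁ a : Mat r₁ ℂ) =
      (y₁ a : Mat r ℂ) * (b i : Matrix (Fin r) (Fin r₁) ℂ) := fun i => (hU _).1 (b i).2
  -- the action of the second group on the intertwiners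
  have hyU : ∀ c, ∀ T ∈ U, (y₂ c : Mat r ℂ) * T ∈ U := by
    intro c T hT
    rw [hU] at hT ⊢
    intro a
    have h1 : (y₁ a : Mat r ℂ) * (y₂ c : Mat r ℂ) = (y₂ c : Mat r ℂ) * (y₁ a : Mat r ℂ) :=
      congrArg Units.val (hcomm a c).eq
    rw [Matrix.mul_assoc, hT a, ← Matrix.mul_assoc, ← Matrix.mul_assoc, h1]
  obtain ⟨τ, hτ⟩ : ∃ τ : G₂ →* Module.End ℂ U, ∀ c (T : U),
      ((τ c T : U) : Matrix (Fin r) (Fin r₁) ℂ) =
        (y₂ c : Mat r ℂ) * (T : Matrix (Fin r) (Fin r₁) ℂ) :=
    ⟨{ toFun := fun c =>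
        { toFun := fun T => ⟨(y₂ c : Mat r ℂ) * (T : Matrix (Fin r) (Fin r₁) ℂ), hyU c T T.2⟩
          map_add' := fun S T => Subtype.ext (Matrix.mul_add _ _ _)
          map_smul' := fun d T => Subtype.ext (Matrix.mul_smul _ _ _) }
       map_one' := by
        refine LinearMap.ext fun T => Subtype.ext ?_
        change (y₂ 1 : Mat r ℂ) * (T : Matrix (Fin r) (Fin r₁) ℂ) = T
        rw [map_one, Units.val_one, Matrix.one_mul]
       map_mul' := fun c c' => by
        refine LinearMap.ext fun T => Subtype.ext ?_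
        change (y₂ (c * c') : Mat r ℂ) * (T : Matrix (Fin r) (Fin r₁) ℂ) =
          (y₂ c : Mat r ℂ) * ((y₂ c' : Mat r ℂ) * (T : Matrix (Fin r) (Fin r₁) ℂ))
        rw [map_mul, Units.val_mul, Matrix.mul_assoc] }, fun c T => rfl⟩
  obtain ⟨z₂, hz₂⟩ := rep_matrix b τ
  -- the basis
  obtain ⟨v, hv⟩ : ∃ v : Fin r₁ × Fin r₂ → (Fin r → ℂ), ∀ p x, v p x =
      (b p.2 : Matrix (Fin r) (Fin r₁) ℂ) x p.1 := ⟨fun p x => _, fun _ _ => rfl⟩
  have hy₁ : ∀ a p, (y₁ a : Mat r ℂ) *ᵥ v p = ∑ k, (z₁ a : Mat r₁ ℂ) k p.1 • v (k, p.2) := by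
    intro a p
    ext x
    have h1 := congrFun (congrFun (hbU p.2 a) x) p.1
    rw [Matrix.mul_apply, Matrix.mul_apply] at h1
    rw [Matrix.mulVec, dotProduct, Finset.sum_apply]
    simp only [hv, Pi.smul_apply, smul_eq_mul]
    rw [← h1]
    exact Finset.sum_congr rfl fun k _ => mul_comm _ _
  have hy₂ : ∀ c p, (y₂ c : Mat r ℂ) *ᵥ v p = ∑ l, (z₂ c : Mat r₂ ℂ) l p.2 • v (p.1, l) := by
    intro c p
    ext x
    have h1 := congrArg (fun T : U => (T : Matrix (Fin r) (Fin r₁) ℂ) x p.1) (hz₂ c p.2)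
    simp only [hτ] at h1
    rw [Matrix.mulVec, dotProduct, Finset.sum_apply]
    simp only [hv, Pi.smul_apply, smul_eq_mul]
    rw [Matrix.mul_apply] at h1
    rw [h1]
    simp only [Submodule.coe_sum, Submodule.coe_smul, Matrix.sum_apply, Matrix.smul_apply,
      smul_eq_mul]
  have hint : ∀ B : Mat r₁ ℂ, ∃ B' : Mat r ℂ, ∀ i,
      (b i : Matrix (Fin r) (Fin r₁) ℂ) * B = B' * (b i : Matrix (Fin r) (Fin r₁) ℂ) := by
    intro B
    have hB : B ∈ Algebra.adjoin ℂ (Set.range fun w => (z₁ w : Mat r₁ ℂ)) := by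
      rw [hz₁]
      exact Algebra.mem_top
    induction hB using Algebra.adjoin_induction with
    | mem B hB =>
      obtain ⟨a, rfl⟩ := hB
      exact ⟨_, fun i => hbU i a⟩
    | algebraMap c =>
      refine ⟨c • 1, fun i => ?_⟩
      rw [Algebra.algebraMap_eq_smul_one, Matrix.mul_smul, Matrix.mul_one, Matrix.smul_mul,
        Matrix.one_mul]
    | add B C _ _ hB hC =>
      obtain ⟨B', hB'⟩ := hB
      obtain ⟨C', hC'⟩ := hC
      exact ⟨B' + C', fun i => by rw [Matrix.mul_add, Matrix.add_mul, hB', hC']⟩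
    | mul B C _ _ hB hC =>
      obtain ⟨B', hB'⟩ := hB
      obtain ⟨C', hC'⟩ := hC
      exact ⟨B' * C', fun i => by
        rw [← Matrix.mul_assoc, hB', Matrix.mul_assoc, hC', Matrix.mul_assoc]⟩
  have hli : LinearIndependent ℂ v := by
    rw [Fintype.linearIndependent_iff]
    intro c hc
    have h1 : ∑ i, (b i : Matrix (Fin r) (Fin r₁) ℂ) *ᵥ (fun k => c (k, i)) = 0 := by
      rw [← hc, Fintype.sum_prod_type_right]
      refine Finset.sum_congr rfl fun i _ => ?_
      ext x
      rw [Matrix.mulVec, dotProduct, Finset.sum_apply]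
      simp only [hv, Pi.smul_apply, smul_eq_mul]
      exact Finset.sum_congr rfl fun k _ => mul_comm _ _
    have h2 : ∀ (k j : Fin r₁) (x : Fin r),
        ∑ i, c (k, i) * (b i : Matrix (Fin r) (Fin r₁) ℂ) x j = 0 := by
      intro k j x
      obtain ⟨B', hB'⟩ := hint (Matrix.of fun a a' => if a = j ∧ a' = k then 1 else 0)
      have h3 : ∑ i, (b i : Matrix (Fin r) (Fin r₁) ℂ) *ᵥ
          ((Matrix.of fun a a' => if a = j ∧ a' = k then (1 : ℂ) else 0) *ᵥ
            (fun k => c (k, i))) = 0 := by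
        have h4 : B' *ᵥ (∑ i, (b i : Matrix (Fin r) (Fin r₁) ℂ) *ᵥ (fun k => c (k, i))) = 0 := by
          rw [h1, Matrix.mulVec_zero]
        rw [Matrix.mulVec_sum] at h4
        rw [← h4]
        refine Finset.sum_congr rfl fun i _ => ?_
        rw [Matrix.mulVec_mulVec, Matrix.mulVec_mulVec, hB']
      have h5 := congrFun h3 x
      rw [Finset.sum_apply] at h5
      rw [← Pi.zero_apply (M := fun _ : Fin r => ℂ) x, ← h5]
      refine Finset.sum_congr rfl fun i _ => ?_
      rw [Matrix.mulVec, dotProduct, Finset.sum_eq_single j]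
      · rw [mul_comm]
        congr 1
        rw [Matrix.mulVec, dotProduct, Finset.sum_eq_single k]
        · simp
        · intro a _ ha
          simp [ha]
        · simp
      · intro a _ ha
        have : ((Matrix.of fun a a' => if a = j ∧ a' = k then (1 : ℂ) else 0) *ᵥ
            (fun k => c (k, i))) a = 0 := by
          rw [Matrix.mulVec, dotProduct]
          exact Finset.sum_eq_zero fun a' _ => by simp [ha]
        rw [this, mul_zero]
      · simp
    rintro ⟨k, i⟩
    have h3 : ∑ i, c (k, i) • b i = 0 := by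
      apply Subtype.ext
      ext x j
      rw [Submodule.coe_sum, Matrix.sum_apply]
      simp only [Submodule.coe_smul, Matrix.smul_apply, smul_eq_mul]
      exact h2 k j x
    exact (Fintype.linearIndependent_iff.1 b.linearIndependent) (fun i => c (k, i)) h3 i
  have hspan : Submodule.span ℂ (Set.range v) = ⊤ := by
    have hA : Algebra.adjoin ℂ (Set.range (Sum.elim (fun w => (y₁ w : Mat r ℂ))
        fun w => (y₂ w : Mat r ℂ))) = ⊤ := by
      rw [Set.Sum.elim_range]
      exact htop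
    have hinvS : ∀ k : G₁ ⊕ G₂, ∀ u ∈ Submodule.span ℂ (Set.range v),
        (Sum.elim (fun w => (y₁ w : Mat r ℂ)) (fun w => (y₂ w : Mat r ℂ)) k) *ᵥ u ∈
          Submodule.span ℂ (Set.range v) := by
      have key : ∀ M : Mat r ℂ, (∀ p, M *ᵥ v p ∈ Submodule.span ℂ (Set.range v)) →
          ∀ u ∈ Submodule.span ℂ (Set.range v), M *ᵥ u ∈ Submodule.span ℂ (Set.range v) := by
        intro M hM u hu
        induction hu using Submodule.span_induction with
        | mem u hu =>
          obtain ⟨p, rfl⟩ := hu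
          exact hM p
        | zero =>
          rw [Matrix.mulVec_zero]
          exact Submodule.zero_mem _
        | add u w _ _ hu hw =>
          rw [Matrix.mulVec_add]
          exact Submodule.add_mem _ hu hw
        | smul c u _ hu =>
          rw [Matrix.mulVec_smul]
          exact Submodule.smul_mem _ _ hu
      rintro (a | c)
      · apply key
        intro p
        rw [Sum.elim_inl, hy₁]
        exact Submodule.sum_mem _ fun k _ => Submodule.smul_mem _ _
          (Submodule.subset_span ⟨_, rfl⟩)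
      · apply key
        intro p
        rw [Sum.elim_inr, hy₂]
        exact Submodule.sum_mem _ fun k _ => Submodule.smul_mem _ _
          (Submodule.subset_span ⟨_, rfl⟩)
    rcases eq_bot_or_top_of_adjoin _ hA (Submodule.span ℂ (Set.range v)) hinvS with h | h
    · exfalso
      have h1 : v (⟨0, hr₁⟩, ⟨0, hr₂0⟩) ∈ Submodule.span ℂ (Set.range v) :=
        Submodule.subset_span ⟨_, rfl⟩
      rw [h, Submodule.mem_bot] at h1
      exact hli.ne_zero _ h1
    · exact h
  obtain ⟨bV⟩ : Nonempty (Module.Basis (Fin r₁ × Fin r₂) ℂ (Fin r → ℂ)) :=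
    ⟨Module.Basis.mk hli hspan.ge⟩
  obtain ⟨e⟩ : Nonempty (Fin r₁ × Fin r₂ ≃ Fin r) := ⟨bV.indexEquiv (Pi.basisFun ℂ (Fin r))⟩
  obtain ⟨P₀, hP₀⟩ : ∃ P₀ : Mat r ℂ, ∀ x i, P₀ x i = v (e.symm i) x :=
    ⟨Matrix.of fun x i => v (e.symm i) x, fun _ _ => rfl⟩
  have hdet : P₀.det ≠ 0 := by
    intro h
    obtain ⟨w, hw, hw'⟩ := Matrix.exists_mulVec_eq_zero_iff.2 h
    apply hw
    have h1 : ∑ p, w (e p) • v p = 0 := by
      rw [← hw']
      ext x
      rw [Matrix.mulVec, dotProduct, Finset.sum_apply, ← e.sum_comp]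
      refine Finset.sum_congr rfl fun p _ => ?_
      rw [hP₀, e.symm_apply_apply, Pi.smul_apply, smul_eq_mul, mul_comm]
    funext i
    have := (Fintype.linearIndependent_iff.1 hli) (fun p => w (e p)) h1 (e.symm i)
    rwa [e.apply_symm_apply] at this
  obtain ⟨P, hP⟩ : ∃ P : (Mat r ℂ)ˣ, (P : Mat r ℂ) = P₀ :=
    (Matrix.isUnit_iff_isUnit_det P₀).2 (isUnit_iff_ne_zero.2 hdet)
  have h₁ : ∀ a, (y₁ a : Mat r ℂ) * (P : Mat r ℂ) = (P : Mat r ℂ) *
      Matrix.reindex e e (Matrix.kroneckerMap (· * ·) (z₁ a : Mat r₁ ℂ) (1 : Mat r₂ ℂ)) := by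
    intro a
    ext x i
    have e1 : ((y₁ a : Mat r ℂ) * (P : Mat r ℂ)) x i =
        ((y₁ a : Mat r ℂ) *ᵥ v (e.symm i)) x := by
      rw [Matrix.mul_apply, Matrix.mulVec, dotProduct, hP]
      simp only [hP₀]
    rw [e1, hy₁, Matrix.mul_apply, ← e.sum_comp, Fintype.sum_prod_type, Finset.sum_apply]
    refine Finset.sum_congr rfl fun k _ => ?_
    rw [Finset.sum_eq_single (e.symm i).2]
    · rw [hP, hP₀, e.symm_apply_apply, Matrix.reindex_apply, Matrix.submatrix_apply,
        e.symm_apply_apply, Matrix.kroneckerMap_apply, Matrix.one_apply_eq, mul_one,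
        Pi.smul_apply, smul_eq_mul, mul_comm]
    · intro l _ hl
      rw [Matrix.reindex_apply, Matrix.submatrix_apply, e.symm_apply_apply,
        Matrix.kroneckerMap_apply, Matrix.one_apply_ne hl, mul_zero, mul_zero]
    · simp
  have h₂ : ∀ c, (y₂ c : Mat r ℂ) * (P : Mat r ℂ) = (P : Mat r ℂ) *
      Matrix.reindex e e (Matrix.kroneckerMap (· * ·) (1 : Mat r₁ ℂ) (z₂ c : Mat r₂ ℂ)) := by
    intro c
    ext x i
    have e1 : ((y₂ c : Mat r ℂ) * (P : Mat r ℂ)) x i =
        ((y₂ c : Mat r ℂ) *ᵥ v (e.symm i)) x := by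
      rw [Matrix.mul_apply, Matrix.mulVec, dotProduct, hP]
      simp only [hP₀]
    rw [e1, hy₂, Matrix.mul_apply, ← e.sum_comp, Fintype.sum_prod_type_right, Finset.sum_apply]
    refine Finset.sum_congr rfl fun l _ => ?_
    rw [Finset.sum_eq_single (e.symm i).1]
    · rw [hP, hP₀, e.symm_apply_apply, Matrix.reindex_apply, Matrix.submatrix_apply,
        e.symm_apply_apply, Matrix.kroneckerMap_apply, Matrix.one_apply_eq, one_mul,
        Pi.smul_apply, smul_eq_mul, mul_comm]
    · intro k _ hk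
      rw [Matrix.reindex_apply, Matrix.submatrix_apply, e.symm_apply_apply,
        Matrix.kroneckerMap_apply, Matrix.one_apply_ne hk, zero_mul, mul_zero]
    · simp
  have h₁' : ∀ a, (y₁ a : Mat r ℂ) = (P : Mat r ℂ) *
      Matrix.reindex e e (Matrix.kroneckerMap (· * ·) (z₁ a : Mat r₁ ℂ) (1 : Mat r₂ ℂ)) *
        ((P⁻¹ : (Mat r ℂ)ˣ) : Mat r ℂ) := by
    intro a
    rw [← h₁, Matrix.mul_assoc, Units.mul_inv, Matrix.mul_one]
  have h₂' : ∀ c, (y₂ c : Mat r ℂ) = (P : Mat r ℂ) *
      Matrix.reindex e e (Matrix.kroneckerMap (· * ·) (1 : Mat r₁ ℂ) (z₂ c : Mat r₂ ℂ)) *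
        ((P⁻¹ : (Mat r ℂ)ˣ) : Mat r ℂ) := by
    intro a
    rw [← h₂, Matrix.mul_assoc, Units.mul_inv, Matrix.mul_one]
  refine ⟨r₁, r₂, e, P, z₁, z₂, hr₁, hr₂0, hz₁, ?_, h₁', h₂'⟩
  -- the blocks
  obtain ⟨A, hA⟩ : ∃ A, A = Algebra.adjoin ℂ (Set.range fun w => (z₂ w : Mat r₂ ℂ)) := ⟨_, rfl⟩
  rw [← hA]
  obtain ⟨blk, hblk⟩ : ∃ blk : Mat r ℂ → Fin r₁ → Fin r₁ → Mat r₂ ℂ, ∀ X j k l l',
      blk X j k l l' =
        (((P⁻¹ : (Mat r ℂ)ˣ) : Mat r ℂ) * X * (P : Mat r ℂ)) (e (j, l)) (e (k, l')) :=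
    ⟨fun X j k => Matrix.of fun l l' => _, fun _ _ _ _ _ => rfl⟩
  have hmul : ∀ X Y j k, blk (X * Y) j k = ∑ m, blk X j m * blk Y m k := by
    intro X Y j k
    ext l l'
    have e1 : ((P⁻¹ : (Mat r ℂ)ˣ) : Mat r ℂ) * (X * Y) * (P : Mat r ℂ) =
        (((P⁻¹ : (Mat r ℂ)ˣ) : Mat r ℂ) * X * (P : Mat r ℂ)) *
          (((P⁻¹ : (Mat r ℂ)ˣ) : Mat r ℂ) * Y * (P : Mat r ℂ)) := by
      simp only [Matrix.mul_assoc]
      rw [← Matrix.mul_assoc (P : Mat r ℂ) ((P⁻¹ : (Mat r ℂ)ˣ) : Mat r ℂ), Units.mul_inv,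
        Matrix.one_mul]
    rw [hblk, e1, Matrix.mul_apply, ← e.sum_comp, Fintype.sum_prod_type, Matrix.sum_apply]
    refine Finset.sum_congr rfl fun m _ => ?_
    rw [Matrix.mul_apply]
    simp only [hblk]
  obtain ⟨S, hS⟩ : ∃ S : Subalgebra ℂ (Mat r ℂ), ∀ X, X ∈ S ↔ ∀ j k, blk X j k ∈ A :=
    ⟨{ carrier := {X | ∀ j k, blk X j k ∈ A}
       mul_mem' := fun {X Y} hX hY j k => by
        rw [hmul]
        exact A.sum_mem fun m _ => A.mul_mem (hX j m) (hY m k)
       add_mem' := fun {X Y} hX hY j k => by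
        have e1 : blk (X + Y) j k = blk X j k + blk Y j k := by
          ext l l'
          rw [Matrix.add_apply, hblk, hblk, hblk, Matrix.mul_add, Matrix.add_mul,
            Matrix.add_apply]
        rw [e1]
        exact A.add_mem (hX j k) (hY j k)
       algebraMap_mem' := fun c j k => by
        have e1 : blk (algebraMap ℂ (Mat r ℂ) c) j k =
            (if j = k then c else 0) • (1 : Mat r₂ ℂ) := by
          ext l l'
          rw [hblk, Algebra.algebraMap_eq_smul_one, Matrix.mul_smul, Matrix.mul_one,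
            Matrix.smul_mul, Units.inv_mul, Matrix.smul_apply, Matrix.smul_apply,
            Matrix.one_apply, Matrix.one_apply]
          by_cases hjk : j = k
          · by_cases hl : l = l'
            · simp [hjk, hl]
            · simp [hjk, hl]
          · simp [hjk]
        rw [e1]
        exact A.smul_mem A.one_mem _ }, fun X => Iff.rfl⟩
  have hblkK : ∀ (K : Matrix (Fin r₁ × Fin r₂) (Fin r₁ × Fin r₂) ℂ) j k l l',
      blk ((P : Mat r ℂ) * Matrix.reindex e e K * ((P⁻¹ : (Mat r ℂ)ˣ) : Mat r ℂ)) j k l l' =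
        K (j, l) (k, l') := by
    intro K j k l l'
    rw [hblk]
    have e1 : ((P⁻¹ : (Mat r ℂ)ˣ) : Mat r ℂ) * ((P : Mat r ℂ) * Matrix.reindex e e K *
        ((P⁻¹ : (Mat r ℂ)ˣ) : Mat r ℂ)) * (P : Mat r ℂ) = Matrix.reindex e e K := by
      simp only [Matrix.mul_assoc]
      rw [Units.inv_mul, Matrix.mul_one, ← Matrix.mul_assoc, Units.inv_mul, Matrix.one_mul]
    rw [e1, Matrix.reindex_apply, Matrix.submatrix_apply, e.symm_apply_apply,
      e.symm_apply_apply]
  have hStop : S = ⊤ := by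
    rw [eq_top_iff, ← htop, Algebra.adjoin_le_iff]
    rintro _ (⟨a, rfl⟩ | ⟨c, rfl⟩)
    · rw [SetLike.mem_coe, hS]
      intro j k
      have e1 : blk (y₁ a : Mat r ℂ) j k = (z₁ a : Mat r₁ ℂ) j k • (1 : Mat r₂ ℂ) := by
        ext l l'
        rw [h₁', hblkK, Matrix.kroneckerMap_apply, Matrix.smul_apply, smul_eq_mul]
      rw [e1]
      exact A.smul_mem A.one_mem _
    · rw [SetLike.mem_coe, hS]
      intro j k
      have e1 : blk (y₂ c : Mat r ℂ) j k =
          (1 : Mat r₁ ℂ) j k • (z₂ c : Mat r₂ ℂ) := by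
        ext l l'
        rw [h₂', hblkK, Matrix.kroneckerMap_apply, Matrix.smul_apply, smul_eq_mul]
      rw [e1]
      refine A.smul_mem ?_ _
      rw [hA]
      exact Algebra.subset_adjoin ⟨c, rfl⟩
  rw [eq_top_iff]
  intro M _
  have h3 : (P : Mat r ℂ) * Matrix.reindex e e (Matrix.kroneckerMap (· * ·) (1 : Mat r₁ ℂ) M) *
      ((P⁻¹ : (Mat r ℂ)ˣ) : Mat r ℂ) ∈ S := by
    rw [hStop]
    exact Algebra.mem_top
  rw [hS] at h3
  have h4 := h3 ⟨0, hr₁⟩ ⟨0, hr₁⟩
  convert h4 using 1
  ext l l'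
  rw [hblkK, Matrix.kroneckerMap_apply, Matrix.one_apply_eq, one_mul]

end Vale.Agent.P002R
end
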