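import Mathlib
import Vale.Agent.P002.Bdl.B1
import Vale.Agent.P002.Bdl.B2

set_option linter.all false

section

/-!
# P002 TASK D: generic matrices
-/

namespace Vale.Agent.P002

open Matrix

variable {g r : ℕ}

/-- There are countably many algebraically independent complex numbers. -/
theorem exists_algIndep (σ : Type) [Finite σ] : ∃ c : σ → ℂ, AlgebraicIndependent ℤ c := by
  obtain ⟨s, hs⟩ := exists_isTranscendenceBasis ℤ ℂ
  have hR : Cardinal.mk ℤ ≤ Cardinal.aleph0 := le_of_eq Cardinal.mk_int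
  have hK : Cardinal.aleph0 < Cardinal.mk ℂ := by
    rw [Cardinal.mk_complex]; exact Cardinal.aleph0_lt_continuum
  have h1 := IsAlgClosed.cardinal_eq_cardinal_transcendence_basis_of_aleph0_lt' _ hs hR hK
  have h2 : Infinite s := by
    rw [Cardinal.infinite_iff, ← h1]
    exact hK.le
  obtain ⟨n, ⟨e⟩⟩ := Finite.exists_equiv_fin σ
  refine ⟨fun x => ((Infinite.natEmbedding s (e x : ℕ) : s) : ℂ), ?_⟩
  exact hs.1.comp (fun x => Infinite.natEmbedding s (e x : ℕ)) fun x y hxy =>
    e.injective (Fin.ext ((Infinite.natEmbedding s).injective hxy))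

/-- TASK D (1): generic complex matrices exist. -/
theorem exists_generic (r : ℕ) :
    ∃ C : Mat r ℂ, AlgebraicIndependent ℤ fun p : Fin r × Fin r => C p.1 p.2 := by
  obtain ⟨c, hc⟩ := exists_algIndep (Fin r × Fin r)
  exact ⟨Matrix.of fun i j => c (i, j), hc⟩

/-- TASK D (2): generic matrices are invertible. -/
theorem generic_isUnit {C : Mat r ℂ}
    (hC : AlgebraicIndependent ℤ fun p : Fin r × Fin r => C p.1 p.2) : IsUnit C := by
  rw [Matrix.isUnit_iff_isUnit_det, isUnit_iff_ne_zero]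
  intro h
  have h1 : (MvPolynomial.aeval fun p : Fin r × Fin r => C p.1 p.2)
      (det (mvPolynomialX (Fin r) (Fin r) ℤ)) = 0 := by
    rw [AlgHom.map_det, mvPolynomialX_mapMatrix_aeval, h]
  exact det_mvPolynomialX_ne_zero (Fin r) ℤ (hC (h1.trans (map_zero _).symm))

/-- TASK D (3): a generic matrix times an integer matrix of nonzero determinant is generic. -/
theorem generic_mul_int {C : Mat r ℂ}
    (hC : AlgebraicIndependent ℤ fun p : Fin r × Fin r => C p.1 p.2)
    (P : Mat r ℤ) (hP : P.det ≠ 0) :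
    AlgebraicIndependent ℤ fun p : Fin r × Fin r =>
      (C * P.map (Int.castRingHom ℂ)) p.1 p.2 := by
  rw [algebraicIndependent_iff]
  intro f hf
  -- the substituted polynomial
  obtain ⟨G, hG⟩ : ∃ G : MvPolynomial (Fin r × Fin r) ℤ, G =
      MvPolynomial.aeval (fun p : Fin r × Fin r =>
        (mvPolynomialX (Fin r) (Fin r) ℤ *
          P.map (Int.castRingHom (MvPolynomial (Fin r × Fin r) ℤ)) :
            Mat r (MvPolynomial (Fin r × Fin r) ℤ)) p.1 p.2) f := ⟨_, rfl⟩
  have key : ∀ {S : Type} [CommRing S] (M : Mat r S),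
      MvPolynomial.aeval (fun p : Fin r × Fin r => M p.1 p.2) G =
        MvPolynomial.aeval (fun p : Fin r × Fin r => (M * P.map (Int.castRingHom S)) p.1 p.2) f := by
    intro S _ M
    rw [hG]
    rw [← AlgHom.comp_apply, MvPolynomial.comp_aeval]
    congr 2
    funext p
    simp only [Matrix.mul_apply, mvPolynomialX_apply, Matrix.map_apply, map_sum, map_mul,
      MvPolynomial.aeval_X, Int.coe_castRingHom, map_intCast]
  have hG0 : G = 0 := (algebraicIndependent_iff.1 hC) G ((key C).trans hf)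
  -- pass to the rationals
  have hQ : MvPolynomial.map (Int.castRingHom ℚ) f = 0 := by
    refine MvPolynomial.funext fun x => ?_
    obtain ⟨N, hN⟩ : ∃ N : Mat r ℚ, N = Matrix.of fun i j => x (i, j) := ⟨_, rfl⟩
    have hPu : IsUnit (P.map (Int.castRingHom ℚ)).det := by
      rw [isUnit_iff_ne_zero]
      have : (P.map (Int.castRingHom ℚ)).det = ((P.det : ℤ) : ℚ) := by
        exact ((Int.castRingHom ℚ).map_det P).symm
      rw [this]
      exact Int.cast_ne_zero.2 hP
    have h1 := key (N * (P.map (Int.castRingHom ℚ))⁻¹)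
    rw [Matrix.mul_assoc, Matrix.nonsing_inv_mul _ hPu, Matrix.mul_one, hG0, map_zero] at h1
    rw [MvPolynomial.eval_map, map_zero]
    have h2 : (fun p : Fin r × Fin r => N p.1 p.2) = x := by
      funext p; rw [hN]; rfl
    rw [h2] at h1
    exact h1.symm
  have hinj := MvPolynomial.map_injective (σ := Fin r × Fin r) (Int.castRingHom ℚ)
    (RingHom.injective_int _)
  exact hinj (hQ.trans (map_zero _).symm)

/-- TASK D (4): genericity lifts. -/
theorem generic_lift {S T : Type*} [CommRing S] [CommRing T] (θ : S →+* T) (C : Mat r S)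
    (hC : AlgebraicIndependent ℤ fun p : Fin r × Fin r => (C.map θ) p.1 p.2) :
    AlgebraicIndependent ℤ fun p : Fin r × Fin r => C p.1 p.2 :=
  AlgebraicIndependent.of_comp θ.toIntAlgHom hC

end Vale.Agent.P002
end

section

/-!
# P002 PART III': linear algebra for the dimension count
-/

namespace Vale.Agent.P002

open Matrix Module

variable {g r : ℕ}

/-- A subspace on which a family of functionals is separating has coordinates among this
family. -/
theorem exists_coords {ι V : Type*} [DecidableEq ι] [Fintype ι] [AddCommGroup V] [Module ℂ V]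
    (e : ι → V →ₗ[ℂ] ℂ) (Z : Submodule ℂ V) (hsep : ∀ z ∈ Z, (∀ i, e i z = 0) → z = 0) :
    ∃ I : Finset ι, (∀ z ∈ Z, (∀ i ∈ I, e i z = 0) → z = 0) ∧
      ∀ a : ι → ℂ, ∃ z ∈ Z, ∀ i ∈ I, e i z = a i := by
  have key : ∀ n : ℕ, ∀ I : Finset ι, I.card = n → (∀ z ∈ Z, (∀ i ∈ I, e i z = 0) → z = 0) →
      ∃ I : Finset ι, (∀ z ∈ Z, (∀ i ∈ I, e i z = 0) → z = 0) ∧
        ∀ a : ι → ℂ, ∃ z ∈ Z, ∀ i ∈ I, e i z = a i := by
    intro n
    induction n with
    | zero =>
      intro I hI hinj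
      rw [Finset.card_eq_zero] at hI
      subst hI
      exact ⟨∅, hinj, fun a => ⟨0, Z.zero_mem, fun i hi => absurd hi (Finset.notMem_empty i)⟩⟩
    | succ n ih =>
      intro I hI hinj
      by_cases h : ∃ i ∈ I, ∀ z ∈ Z, (∀ j ∈ I.erase i, e j z = 0) → z = 0
      · obtain ⟨i, hi, h1⟩ := h
        exact ih (I.erase i) (by rw [Finset.card_erase_of_mem hi, hI]; rfl) h1
      · push Not at h
        choose! b hbZ hb0 hb1 using h
        refine ⟨I, hinj, fun a => ?_⟩
        have hne : ∀ i ∈ I, e i (b i) ≠ 0 := by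
          intro i hi h0
          refine hb1 i hi (hinj _ (hbZ i hi) fun j hj => ?_)
          by_cases hij : j = i
          · rw [hij]; exact h0
          · exact hb0 i hi j (Finset.mem_erase.2 ⟨hij, hj⟩)
        refine ⟨∑ i ∈ I, (a i / e i (b i)) • b i,
          Z.sum_mem fun i hi => Z.smul_mem _ (hbZ i hi), fun j hj => ?_⟩
        rw [map_sum, Finset.sum_eq_single j]
        · rw [map_smul, smul_eq_mul, div_mul_cancel₀ _ (hne j hj)]
        · intro i hi hij
          rw [map_smul, hb0 i hi j (Finset.mem_erase.2 ⟨hij.symm, hj⟩), smul_zero]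
        · intro h; exact absurd hj h
  exact key _ Finset.univ rfl fun z hz h => hsep z hz fun i => h i (Finset.mem_univ i)

theorem finrank_map_inj {A B : Type*} [AddCommGroup A] [Module ℂ A] [AddCommGroup B]
    [Module ℂ B] (f : A →ₗ[ℂ] B) (hf : Function.Injective f) (p : Submodule ℂ A) :
    finrank ℂ (p.map f) = finrank ℂ p :=
  (LinearEquiv.finrank_eq (Submodule.equivMapOfInjective f hf p)).symm

/-- Rank-nullity for subspaces. -/
theorem finrank_eq_map_add {A B : Type*} [AddCommGroup A] [Module ℂ A] [AddCommGroup B]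
    [Module ℂ B] [FiniteDimensional ℂ A] (H : Submodule ℂ A) (f : A →ₗ[ℂ] B) :
    finrank ℂ H = finrank ℂ (H.map f) + finrank ℂ (H ⊓ LinearMap.ker f : Submodule ℂ A) := by
  have h1 := LinearMap.finrank_range_add_finrank_ker (f.domRestrict H)
  rw [LinearMap.range_domRestrict] at h1
  have h2 : finrank ℂ (LinearMap.ker (f.domRestrict H)) =
      finrank ℂ (H ⊓ LinearMap.ker f : Submodule ℂ A) := by
    have h3 : (LinearMap.ker (f.domRestrict H)).map H.subtype = H ⊓ LinearMap.ker f := by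
      ext x
      rw [Submodule.mem_map]
      constructor
      · rintro ⟨y, hy, rfl⟩
        exact ⟨y.2, hy⟩
      · rintro ⟨hx, hx'⟩
        exact ⟨⟨x, hx⟩, hx', rfl⟩
    rw [← h3, finrank_map_inj _ H.injective_subtype]
  rw [h2] at h1
  exact h1.symm

/-- Dimension of a subspace of a product (first projection). -/
theorem finrank_prod_fst {A B : Type*} [AddCommGroup A] [Module ℂ A] [AddCommGroup B] [Module ℂ B]
    [FiniteDimensional ℂ A] [FiniteDimensional ℂ B] (T : Submodule ℂ (A × B)) :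
    finrank ℂ T = finrank ℂ (T.map (LinearMap.fst ℂ A B)) +
      finrank ℂ (T.comap (LinearMap.inr ℂ A B)) := by
  rw [finrank_eq_map_add T (LinearMap.fst ℂ A B)]
  congr 1
  have h3 : (T.comap (LinearMap.inr ℂ A B)).map (LinearMap.inr ℂ A B) =
      T ⊓ LinearMap.ker (LinearMap.fst ℂ A B) := by
    ext x
    rw [Submodule.mem_map]
    constructor
    · rintro ⟨y, hy, rfl⟩
      exact ⟨hy, rfl⟩
    · rintro ⟨hx, hx'⟩
      have hx'' : x.1 = 0 := hx'
      have : x = LinearMap.inr ℂ A B x.2 := Prod.ext hx'' rfl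
      exact ⟨x.2, by rw [Submodule.mem_comap, ← this]; exact hx, this.symm⟩
  rw [← h3, finrank_map_inj _ LinearMap.inr_injective]

/-- Dimension of a subspace of a product (second projection). -/
theorem finrank_prod_snd {A B : Type*} [AddCommGroup A] [Module ℂ A] [AddCommGroup B] [Module ℂ B]
    [FiniteDimensional ℂ A] [FiniteDimensional ℂ B] (T : Submodule ℂ (A × B)) :
    finrank ℂ T = finrank ℂ (T.map (LinearMap.snd ℂ A B)) +
      finrank ℂ (T.comap (LinearMap.inl ℂ A B)) := by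
  rw [finrank_eq_map_add T (LinearMap.snd ℂ A B)]
  congr 1
  have h3 : (T.comap (LinearMap.inl ℂ A B)).map (LinearMap.inl ℂ A B) =
      T ⊓ LinearMap.ker (LinearMap.snd ℂ A B) := by
    ext x
    rw [Submodule.mem_map]
    constructor
    · rintro ⟨y, hy, rfl⟩
      exact ⟨hy, rfl⟩
    · rintro ⟨hx, hx'⟩
      have hx'' : x.2 = 0 := hx'
      have : x = LinearMap.inl ℂ A B x.1 := Prod.ext rfl hx''
      exact ⟨x.1, by rw [Submodule.mem_comap, ← this]; exact hx, this.symm⟩
  rw [← h3, finrank_map_inj _ LinearMap.inl_injective]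

/-- Intertwiners from `η` to `θ`. -/
def homComm {V W : Type*} [AddCommGroup V] [Module ℂ V] [AddCommGroup W] [Module ℂ W]
    (η : V →ₗ[ℂ] V) (θ : W →ₗ[ℂ] W) : Submodule ℂ (V →ₗ[ℂ] W) where
  carrier := {X | θ.comp X = X.comp η}
  add_mem' := fun {X Y} hX hY => by
    show θ.comp (X + Y) = (X + Y).comp η
    rw [LinearMap.comp_add, LinearMap.add_comp, hX, hY]
  zero_mem' := by
    show θ.comp 0 = (0 : V →ₗ[ℂ] W).comp η
    rw [LinearMap.comp_zero, LinearMap.zero_comp]
  smul_mem' := fun c X hX => by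
    show θ.comp (c • X) = (c • X).comp η
    rw [LinearMap.comp_smul, LinearMap.smul_comp, hX]

theorem mem_homComm {V W : Type*} [AddCommGroup V] [Module ℂ V] [AddCommGroup W] [Module ℂ W]
    {η : V →ₗ[ℂ] V} {θ : W →ₗ[ℂ] W} {X : V →ₗ[ℂ] W} :
    X ∈ homComm η θ ↔ θ.comp X = X.comp η := Iff.rfl

/-- Left eigenvectors. -/
theorem finrank_ker_dualMap {V : Type*} [AddCommGroup V] [Module ℂ V] [FiniteDimensional ℂ V]
    (ξ : V →ₗ[ℂ] V) : finrank ℂ (LinearMap.ker ξ.dualMap) = finrank ℂ (LinearMap.ker ξ) := by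
  have h4 := Subspace.finrank_add_finrank_dualAnnihilator_eq (LinearMap.range ξ)
  have h5 := LinearMap.finrank_range_add_finrank_ker ξ
  rw [← LinearMap.ker_dualMap_eq_dualAnnihilator_range] at h4
  omega

theorem finrank_line_le {V W : Type*} [AddCommGroup V] [Module ℂ V] [FiniteDimensional ℂ V]
    [AddCommGroup W] [Module ℂ W] [FiniteDimensional ℂ W] (η : V →ₗ[ℂ] V) (θ : W →ₗ[ℂ] W)
    (μ : ℂ) (w : W) (hθw : θ w = μ • w) (ℓ : W →ₗ[ℂ] ℂ) (hℓ : ℓ w = 1)
    (K : Submodule ℂ (V →ₗ[ℂ] W)) (hK : K ≤ homComm η θ)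
    (hK' : ∀ X ∈ K, ∀ v, X v = ℓ (X v) • w) :
    finrank ℂ K ≤ finrank ℂ (LinearMap.ker (η - μ • LinearMap.id)) := by
  rw [finrank_eq_map_add K (LinearMap.compRight ℂ ℓ), ← finrank_ker_dualMap]
  have h1 : K ⊓ LinearMap.ker (LinearMap.compRight ℂ ℓ : (V →ₗ[ℂ] W) →ₗ[ℂ] _) = ⊥ := by
    rw [eq_bot_iff]
    rintro X ⟨hX, hX'⟩
    rw [Submodule.mem_bot]
    ext v
    have h2 : ℓ (X v) = 0 := LinearMap.congr_fun hX' v
    rw [hK' X hX v, h2, zero_smul, LinearMap.zero_apply]
  rw [h1, finrank_bot, add_zero]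
  refine Submodule.finrank_mono ?_
  rintro _ ⟨X, hX, rfl⟩
  rw [LinearMap.mem_ker]
  ext v
  have h4 : θ (X v) = X (η v) := LinearMap.congr_fun (hK hX) v
  show ℓ (X ((η - μ • LinearMap.id : V →ₗ[ℂ] V) v)) = 0
  rw [LinearMap.sub_apply, map_sub, map_sub, ← h4, LinearMap.smul_apply, LinearMap.id_apply,
    map_smul, map_smul]
  have h5 : θ (X v) = ℓ (X v) • μ • w := by rw [← hθw, ← map_smul, ← hK' X hX v]
  rw [h5, map_smul, map_smul, hℓ, smul_eq_mul, smul_eq_mul, smul_eq_mul, mul_one, mul_comm,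
    sub_self]

theorem finrank_homComm_le {V : Type} [AddCommGroup V] [Module ℂ V] [FiniteDimensional ℂ V]
    (η : V →ₗ[ℂ] V) (m : ℕ)
    (hm : ∀ μ : ℂ, finrank ℂ (LinearMap.ker (η - μ • LinearMap.id)) ≤ m) :
    ∀ (n : ℕ) (W : Type) [AddCommGroup W] [Module ℂ W] [FiniteDimensional ℂ W]
      (θ : W →ₗ[ℂ] W), finrank ℂ W = n → finrank ℂ (homComm η θ) ≤ m * n := by
  intro n
  induction n with
  | zero =>
    intro W _ _ _ θ hW
    have : Subsingleton W := finrank_zero_iff.1 hW
    have h1 : finrank ℂ (V →ₗ[ℂ] W) = 0 := finrank_zero_of_subsingleton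
    rw [mul_zero, ← h1]
    exact Submodule.finrank_le _
  | succ n ih =>
    intro W _ _ _ θ hW
    have : Nontrivial W := nontrivial_of_finrank_pos (R := ℂ) (by rw [hW]; exact Nat.succ_pos n)
    obtain ⟨μ, hμ⟩ := Module.End.exists_eigenvalue θ
    obtain ⟨w, hw⟩ := hμ.exists_hasEigenvector
    have hθw : θ w = μ • w := hw.apply_eq_smul
    have hw0 : w ≠ 0 := hw.2
    obtain ⟨L, hL⟩ : ∃ L : Submodule ℂ W, L = Submodule.span ℂ {w} := ⟨_, rfl⟩
    have hLθ : L ≤ L.comap θ := by
      rw [hL, Submodule.span_singleton_le_iff_mem, Submodule.mem_comap, hθw]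
      exact Submodule.smul_mem _ _ (Submodule.mem_span_singleton_self w)
    have hquot : finrank ℂ (W ⧸ L) = n := by
      have h1 := Submodule.finrank_quotient_add_finrank L
      rw [hL, finrank_span_singleton hw0, ← hL, hW] at h1
      omega
    obtain ⟨ℓ, hℓ⟩ : ∃ ℓ : W →ₗ[ℂ] ℂ, ℓ w = 1 := by
      have h3 : ¬ ∀ φ : Module.Dual ℂ W, φ w = 0 := fun h =>
        hw0 ((Module.forall_dual_apply_eq_zero_iff ℂ w).1 h)
      push Not at h3
      obtain ⟨φ, hφ⟩ := h3
      exact ⟨(φ w)⁻¹ • φ, by rw [LinearMap.smul_apply, smul_eq_mul, inv_mul_cancel₀ hφ]⟩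
    have h2 : finrank ℂ ((homComm η θ).map (LinearMap.compRight ℂ L.mkQ)) ≤ m * n := by
      refine le_trans (Submodule.finrank_mono ?_) (ih (W ⧸ L) (L.mapQ L θ hLθ) hquot)
      rintro _ ⟨X, hX, rfl⟩
      rw [mem_homComm]
      ext v
      have h3 : θ (X v) = X (η v) := LinearMap.congr_fun hX v
      simp [h3]
    have h3 : finrank ℂ (homComm η θ ⊓ LinearMap.ker (LinearMap.compRight ℂ L.mkQ) :
        Submodule ℂ (V →ₗ[ℂ] W)) ≤ m := by
      refine le_trans (finrank_line_le η θ μ w hθw ℓ hℓ _ inf_le_left fun X hX v => ?_) (hm μ)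
      have h4 : L.mkQ (X v) = 0 := LinearMap.congr_fun hX.2 v
      rw [Submodule.mkQ_apply, Submodule.Quotient.mk_eq_zero] at h4
      have h5 : X v ∈ Submodule.span ℂ {w} := hL ▸ h4
      rw [Submodule.mem_span_singleton] at h5
      obtain ⟨c, hc⟩ := h5
      rw [← hc, map_smul, hℓ, smul_eq_mul, mul_one]
    rw [finrank_eq_map_add (homComm η θ) (LinearMap.compRight ℂ L.mkQ), mul_add, mul_one]
    omega

/-- The centralizer of a family of matrices. -/
def centr {κ : Type*} (y : κ → Mat r ℂ) : Submodule ℂ (Mat r ℂ) where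
  carrier := {N | ∀ k, Commute N (y k)}
  add_mem' := fun h1 h2 k => (h1 k).add_left (h2 k)
  zero_mem' := fun k => Commute.zero_left _
  smul_mem' := fun c N h k => (h k).smul_left c

theorem mem_centr {κ : Type*} {y : κ → Mat r ℂ} {N : Mat r ℂ} :
    N ∈ centr y ↔ ∀ k, Commute N (y k) := Iff.rfl

/-- Dimension of the centralizer of one matrix. -/
theorem finrank_centr_single (η : Mat r ℂ) (m : ℕ)
    (hm : ∀ μ : ℂ, finrank ℂ (LinearMap.ker (Matrix.toLin' η - μ • LinearMap.id)) ≤ m) :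
    finrank ℂ (centr fun _ : Unit => η) ≤ m * r := by
  have h1 := finrank_homComm_le (Matrix.toLin' η) m hm r (Fin r → ℂ) (Matrix.toLin' η) (by simp)
  refine le_trans ?_ h1
  rw [← finrank_map_inj (Matrix.toLin' : Mat r ℂ ≃ₗ[ℂ] _).toLinearMap
    (Matrix.toLin' : Mat r ℂ ≃ₗ[ℂ] _).injective]
  refine Submodule.finrank_mono ?_
  rintro _ ⟨N, hN, rfl⟩
  rw [mem_homComm]
  have h2 : N * η = η * N := hN ()
  show (Matrix.toLin' η).comp (Matrix.toLin' N) = (Matrix.toLin' N).comp (Matrix.toLin' η)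
  rw [← Matrix.toLin'_mul, ← Matrix.toLin'_mul, h2]

/-- Endomorphisms that map the kernel of `E₀` into its range, up to scalars. -/
theorem finrank_defect_le {V : Type*} [AddCommGroup V] [Module ℂ V] [FiniteDimensional ℂ V]
    (E₀ : V →ₗ[ℂ] V) (S : Submodule ℂ (V →ₗ[ℂ] V))
    (hS : ∀ X ∈ S, ∃ μ : ℂ, ∀ v, E₀ v = 0 → X v - μ • v ∈ LinearMap.range E₀) :
    finrank ℂ S + finrank ℂ (LinearMap.ker E₀) * finrank ℂ (LinearMap.ker E₀) ≤
      finrank ℂ V * finrank ℂ V + 1 := by
  obtain ⟨Θ, hΘ⟩ : ∃ Θ : (V →ₗ[ℂ] V) →ₗ[ℂ] (LinearMap.ker E₀ →ₗ[ℂ] V ⧸ LinearMap.range E₀),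
      ∀ X v, Θ X v = (LinearMap.range E₀).mkQ (X v) :=
    ⟨(LinearMap.compRight ℂ (LinearMap.range E₀).mkQ).comp
      (LinearMap.lcomp ℂ V (LinearMap.ker E₀).subtype), fun X v => rfl⟩
  have hsurj : LinearMap.range Θ = ⊤ := by
    rw [LinearMap.range_eq_top]
    intro f
    obtain ⟨s, hs⟩ := (LinearMap.range E₀).mkQ.exists_rightInverse_of_surjective
      (LinearMap.range_eq_top.2 (Submodule.mkQ_surjective _))
    obtain ⟨X, hX⟩ := LinearMap.exists_extend (s.comp f)
    refine ⟨X, ?_⟩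
    refine LinearMap.ext fun v => ?_
    have h1 : X v = s (f v) := LinearMap.congr_fun hX v
    rw [hΘ, h1]
    exact LinearMap.congr_fun hs (f v)
  have h1 := LinearMap.finrank_range_add_finrank_ker Θ
  have h2 : finrank ℂ (LinearMap.ker E₀ →ₗ[ℂ] V ⧸ LinearMap.range E₀) =
      finrank ℂ (LinearMap.ker E₀) * finrank ℂ (LinearMap.ker E₀) := by
    rw [Module.finrank_linearMap]
    congr 1
    have h3 := Submodule.finrank_quotient_add_finrank (LinearMap.range E₀)
    have h4 := LinearMap.finrank_range_add_finrank_ker E₀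
    omega
  rw [hsurj, finrank_top, h2, Module.finrank_linearMap] at h1
  have h5 := finrank_eq_map_add S Θ
  have h6 : finrank ℂ (S.map Θ) ≤ 1 := by
    have h7 : S.map Θ ≤ Submodule.span ℂ {Θ LinearMap.id} := by
      rintro _ ⟨X, hX, rfl⟩
      obtain ⟨μ, hμ⟩ := hS X hX
      rw [Submodule.mem_span_singleton]
      refine ⟨μ, ?_⟩
      refine LinearMap.ext fun v => ?_
      rw [LinearMap.smul_apply, hΘ, hΘ, ← map_smul, eq_comm, ← sub_eq_zero, ← map_sub,
        Submodule.mkQ_apply, Submodule.Quotient.mk_eq_zero]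
      exact hμ v v.2
    refine (Submodule.finrank_mono h7).trans ?_
    refine (finrank_span_le_card _).trans ?_
    simp
  have h8 : finrank ℂ (S ⊓ LinearMap.ker Θ : Submodule ℂ (V →ₗ[ℂ] V)) ≤
      finrank ℂ (LinearMap.ker Θ) := Submodule.finrank_mono inf_le_right
  omega

section der

variable (δ : Derivation ℤ ℂ ℂ)

theorem map_der_mul (M N : Mat r ℂ) : (M * N).map δ = M.map δ * N + M * N.map δ := by
  ext i j
  simp only [Matrix.map_apply, Matrix.mul_apply, Matrix.add_apply, map_sum, Derivation.leibniz,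
    smul_eq_mul, Finset.sum_add_distrib]
  rw [add_comm]
  congr 1
  refine Finset.sum_congr rfl fun k _ => mul_comm _ _

theorem map_der_mulVec (M : Mat r ℂ) (v : Fin r → ℂ) :
    (fun i => δ ((M *ᵥ v) i)) = M.map δ *ᵥ v + M *ᵥ fun i => δ (v i) := by
  ext i
  simp only [Matrix.mulVec, dotProduct, Matrix.map_apply, Pi.add_apply, map_sum,
    Derivation.leibniz, smul_eq_mul, Finset.sum_add_distrib]
  rw [add_comm]
  congr 1
  refine Finset.sum_congr rfl fun k _ => mul_comm _ _

end der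

/-- The dimension count of PART III'. -/
theorem count_main {κ : Type} [Fintype κ] (hκ : 2 ≤ Fintype.card κ) (y : κ → Mat r ℂ)
    (c : Fin r × Fin r → ℂ) (T : Submodule ℂ (κ → Mat r ℂ))
    (hgen : ∀ u ∈ T, ∀ γ : Fin r × Fin r → ℂ, ∃ δ : Derivation ℤ ℂ ℂ,
      (∀ k i j, δ (y k i j) = u k i j) ∧ ∀ p, δ (c p) = γ p)
    (hd : ∃ N ∈ centr y, ∀ a : ℂ, N ≠ a • (1 : Mat r ℂ)) :
    finrank ℂ T + finrank ℂ (centr y) ≤ Fintype.card κ * (r * r) := by
  classical
  -- coordinates on the centralizer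
  obtain ⟨I, hI1, hI2⟩ := exists_coords
    (fun p : Fin r × Fin r => (Matrix.entryLinearMap ℂ ℂ p.1 p.2 : Mat r ℂ →ₗ[ℂ] ℂ)) (centr y)
    (fun z _ h => by
      ext i j
      exact h (i, j))
  obtain ⟨η, hη, hηc⟩ := hI2 c
  have hηy : ∀ k, η * y k = y k * η := fun k => hη k
  -- the space of pairs
  obtain ⟨TT, hTT⟩ : ∃ TT : Submodule ℂ ((κ → Mat r ℂ) × Mat r ℂ), ∀ p, p ∈ TT ↔ p.1 ∈ T ∧
      ∀ k, (p.2 * y k - y k * p.2) + (η * p.1 k - p.1 k * η) = 0 := by
    refine ⟨{ carrier := {p | p.1 ∈ T ∧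
                ∀ k, (p.2 * y k - y k * p.2) + (η * p.1 k - p.1 k * η) = 0}
              add_mem' := ?_
              zero_mem' := ⟨T.zero_mem, fun k => by simp⟩
              smul_mem' := ?_ }, fun p => Iff.rfl⟩
    · rintro p q ⟨hp1, hp2⟩ ⟨hq1, hq2⟩
      refine ⟨T.add_mem hp1 hq1, fun k => ?_⟩
      have h1 := hp2 k
      have h2 := hq2 k
      calc ((p + q).2 * y k - y k * (p + q).2) + (η * (p + q).1 k - (p + q).1 k * η)
          = ((p.2 * y k - y k * p.2) + (η * p.1 k - p.1 k * η)) +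
            ((q.2 * y k - y k * q.2) + (η * q.1 k - q.1 k * η)) := by
            simp only [Prod.fst_add, Prod.snd_add, Pi.add_apply, Matrix.add_mul, Matrix.mul_add]
            abel
        _ = 0 := by rw [h1, h2, add_zero]
    · rintro a p ⟨hp1, hp2⟩
      refine ⟨T.smul_mem a hp1, fun k => ?_⟩
      have h1 := hp2 k
      calc ((a • p).2 * y k - y k * (a • p).2) + (η * (a • p).1 k - (a • p).1 k * η)
          = a • ((p.2 * y k - y k * p.2) + (η * p.1 k - p.1 k * η)) := by
            simp only [Prod.smul_fst, Prod.smul_snd, Pi.smul_apply, Matrix.smul_mul,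
              Matrix.mul_smul, smul_add, smul_sub]
        _ = 0 := by rw [h1, smul_zero]
  -- derivative of the commutation relation
  have hder : ∀ δ : Derivation ℤ ℂ ℂ, ∀ u : κ → Mat r ℂ, (∀ k i j, δ (y k i j) = u k i j) →
      ∀ k, (η.map δ * y k - y k * η.map δ) + (η * u k - u k * η) = 0 := by
    intro δ u hδ k
    have hu : (y k).map δ = u k := by ext i j; exact hδ k i j
    have h1 := congrArg (fun M : Mat r ℂ => M.map δ) (hηy k)
    simp only [map_der_mul, hu] at h1
    rw [sub_add_sub_comm, h1, sub_eq_zero]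
    abel
  have claimA : ∀ p ∈ TT, ∃ δ : Derivation ℤ ℂ ℂ, (∀ k i j, δ (y k i j) = p.1 k i j) ∧
      η.map δ = p.2 := by
    intro p hp
    obtain ⟨hp1, hp2⟩ := (hTT p).1 hp
    obtain ⟨δ, hδ1, hδ2⟩ := hgen p.1 hp1 fun q => p.2 q.1 q.2
    refine ⟨δ, hδ1, ?_⟩
    have h1 : η.map δ - p.2 ∈ centr y := by
      intro k
      show (η.map δ - p.2) * y k = y k * (η.map δ - p.2)
      have h2 := hder δ p.1 hδ1 k
      have h3 := hp2 k
      have h4 : (η.map δ * y k - y k * η.map δ) = (p.2 * y k - y k * p.2) :=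
        add_right_cancel (h2.trans h3.symm)
      rw [Matrix.sub_mul, Matrix.mul_sub, sub_eq_sub_iff_sub_eq_sub]
      have h5 : η.map δ * y k - y k * η.map δ = p.2 * y k - y k * p.2 := h4
      rw [h5]
    have h2 := hI1 _ h1 fun q hq => by
      have h3 := hηc q hq
      simp only [Matrix.entryLinearMap_apply] at h3 ⊢
      rw [Matrix.sub_apply, Matrix.map_apply, h3, hδ2, sub_self]
    exact sub_eq_zero.1 h2
  have claimB : TT.map (LinearMap.fst ℂ _ _) = T := by
    ext u
    rw [Submodule.mem_map]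
    constructor
    · rintro ⟨p, hp, rfl⟩
      exact ((hTT p).1 hp).1
    · intro hu
      obtain ⟨δ, hδ1, -⟩ := hgen u hu 0
      exact ⟨(u, η.map δ), (hTT _).2 ⟨hu, hder δ u hδ1⟩, rfl⟩
  have claimB' : TT.comap (LinearMap.inr ℂ (κ → Mat r ℂ) (Mat r ℂ)) = centr y := by
    ext N
    rw [Submodule.mem_comap, hTT, mem_centr]
    constructor
    · rintro ⟨-, h⟩ k
      have h1 := h k
      simp only [LinearMap.inr_apply, Pi.zero_apply, Matrix.mul_zero, Matrix.zero_mul, sub_self,
        add_zero] at h1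
      exact sub_eq_zero.1 h1
    · intro h
      refine ⟨T.zero_mem, fun k => ?_⟩
      simp only [LinearMap.inr_apply, Pi.zero_apply, Matrix.mul_zero, Matrix.zero_mul, sub_self,
        add_zero]
      exact sub_eq_zero.2 (h k)
  -- `η` is not a scalar
  have hns : ∀ a : ℂ, η ≠ a • (1 : Mat r ℂ) := by
    intro a ha
    obtain ⟨N, hN, hN'⟩ := hd
    have h1 : N ∈ TT.comap (LinearMap.inr ℂ (κ → Mat r ℂ) (Mat r ℂ)) := claimB' ▸ hN
    obtain ⟨δ, -, hδ⟩ := claimA _ h1
    apply hN' (δ a)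
    have h2 : η.map δ = N := hδ
    rw [← h2, ha]
    ext i j
    rw [Matrix.map_apply, Matrix.smul_apply, Matrix.smul_apply, Matrix.one_apply]
    split_ifs with hij
    · rw [smul_eq_mul, mul_one, smul_eq_mul, mul_one]
    · rw [smul_zero, smul_zero, map_zero]
  -- maximal geometric multiplicity
  obtain ⟨lam, hlam⟩ : ∃ lam : ℂ, ∀ μ : ℂ,
      finrank ℂ (LinearMap.ker (Matrix.toLin' η - μ • LinearMap.id)) ≤
        finrank ℂ (LinearMap.ker (Matrix.toLin' η - lam • LinearMap.id)) := by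
    have hbdd : BddAbove (Set.range fun μ : ℂ =>
        finrank ℂ (LinearMap.ker (Matrix.toLin' η - μ • LinearMap.id))) := by
      refine ⟨r, ?_⟩
      rintro _ ⟨μ, rfl⟩
      refine (Submodule.finrank_le _).trans ?_
      simp
    obtain ⟨lam, hlam⟩ := Nat.sSup_mem (Set.range_nonempty _) hbdd
    exact ⟨lam, fun μ => by
      simp only at hlam
      rw [hlam]
      exact le_csSup hbdd ⟨μ, rfl⟩⟩
  obtain ⟨m, hm⟩ : ∃ m, m = finrank ℂ (LinearMap.ker (Matrix.toLin' η - lam • LinearMap.id)) :=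
    ⟨_, rfl⟩
  rw [← hm] at hlam
  have hmr : m < r := by
    have h1 : m ≤ r := by
      rw [hm]
      refine (Submodule.finrank_le _).trans ?_
      simp
    refine lt_of_le_of_ne h1 fun h2 => ?_
    have h3 : LinearMap.ker (Matrix.toLin' η - lam • LinearMap.id) = ⊤ := by
      apply Submodule.eq_top_of_finrank_eq
      rw [← hm, h2]
      simp
    rw [LinearMap.ker_eq_top, sub_eq_zero] at h3
    apply hns lam
    apply Matrix.toLin'.injective
    rw [h3, map_smul, Matrix.toLin'_one]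
  -- bound of the pairs
  have hsnd : finrank ℂ (TT.map (LinearMap.snd ℂ (κ → Mat r ℂ) (Mat r ℂ))) + m * m ≤
      r * r + 1 := by
    have h1 := finrank_defect_le (Matrix.toLin' η - lam • LinearMap.id)
      ((TT.map (LinearMap.snd ℂ (κ → Mat r ℂ) (Mat r ℂ))).map
        (Matrix.toLin' : Mat r ℂ ≃ₗ[ℂ] _).toLinearMap) ?_
    · rw [finrank_map_inj _ (Matrix.toLin' : Mat r ℂ ≃ₗ[ℂ] _).injective, ← hm] at h1
      simpa using h1
    · rintro _ ⟨_, ⟨p, hp, rfl⟩, rfl⟩
      obtain ⟨δ, -, hδ⟩ := claimA p hp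
      refine ⟨δ lam, fun v hv => ?_⟩
      refine ⟨-fun i => δ (v i), ?_⟩
      have h2 : η *ᵥ v = lam • v := by
        have := hv
        rw [LinearMap.sub_apply, Matrix.toLin'_apply, LinearMap.smul_apply, LinearMap.id_apply,
          sub_eq_zero] at this
        exact this
      have h3 := map_der_mulVec δ η v
      have h4 : (fun i => δ ((η *ᵥ v) i)) = δ lam • v + lam • fun i => δ (v i) := by
        ext i
        rw [h2]
        simp only [Pi.smul_apply, Pi.add_apply, smul_eq_mul, Derivation.leibniz]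
        ring
      rw [h3] at h4
      show (Matrix.toLin' η - lam • LinearMap.id : (Fin r → ℂ) →ₗ[ℂ] _) (-fun i => δ (v i)) =
        Matrix.toLin' p.2 v - δ lam • v
      rw [map_neg, LinearMap.sub_apply, Matrix.toLin'_apply, LinearMap.smul_apply,
        LinearMap.id_apply, Matrix.toLin'_apply, ← hδ]
      have h5 : η.map δ *ᵥ v = δ lam • v + lam • (fun i => δ (v i)) -
          η *ᵥ (fun i => δ (v i)) := by rw [← h4]; abel
      rw [h5]
      abel
  have hinl : finrank ℂ (TT.comap (LinearMap.inl ℂ (κ → Mat r ℂ) (Mat r ℂ))) ≤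
      Fintype.card κ * (m * r) := by
    have hmem : ∀ u ∈ TT.comap (LinearMap.inl ℂ (κ → Mat r ℂ) (Mat r ℂ)), ∀ k,
        u k ∈ centr fun _ : Unit => η := by
      intro u hu k _
      rw [Submodule.mem_comap, hTT] at hu
      have h2 := hu.2 k
      simp only [LinearMap.inl_apply, Matrix.mul_zero, Matrix.zero_mul, sub_self, zero_add] at h2
      exact (sub_eq_zero.1 h2).symm
    refine (LinearMap.finrank_le_finrank_of_injective (f := (LinearMap.pi fun k =>
      ((LinearMap.proj k).comp (Submodule.subtype _)).codRestrict (centr fun _ : Unit => η)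
        fun u => hmem u.1 u.2 k :
          TT.comap (LinearMap.inl ℂ (κ → Mat r ℂ) (Mat r ℂ)) →ₗ[ℂ]
            (κ → centr fun _ : Unit => η))) ?_).trans ?_
    · intro u v huv
      apply Subtype.ext
      funext k
      exact congrArg Subtype.val (congrFun huv k)
    · rw [Module.finrank_pi_fintype, Finset.sum_const, Finset.card_univ, smul_eq_mul]
      exact Nat.mul_le_mul_left _ (finrank_centr_single η m hlam)
  have e1 := finrank_prod_fst TT
  have e2 := finrank_prod_snd TT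
  rw [claimB, claimB'] at e1
  rw [← e1, e2]
  have h3 : Fintype.card κ * (m * r) + (r * r + 1) ≤ Fintype.card κ * (r * r) + m * m := by
    obtain ⟨q, hq⟩ := Nat.exists_eq_add_of_le hκ
    obtain ⟨t, ht⟩ := Nat.exists_eq_add_of_lt hmr
    rw [hq, ht]
    ring_nf
    nlinarith [Nat.zero_le (q * m), Nat.zero_le (q * t), Nat.zero_le (q * t * m),
      Nat.zero_le (q * t * t), Nat.zero_le (t * t)]
  omega

end Vale.Agent.P002
end

section

/-!
# P002R TASK G1: generic matrices over a countable subfield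
-/

namespace Vale.Agent.P002R

open Matrix

variable {g m n r : ℕ}

theorem generic_mul {K₀ : Subfield ℂ} {A : Mat r ℂ}
    (hA : AlgebraicIndependent K₀ fun p : Fin r × Fin r => A p.1 p.2) (P Q : Mat r ℂ)
    (hP : ∀ i j, P i j ∈ K₀) (hQ : ∀ i j, Q i j ∈ K₀) (hPu : IsUnit P) (hQu : IsUnit Q) :
    AlgebraicIndependent K₀ fun p : Fin r × Fin r => (P * A * Q) p.1 p.2 := by
  obtain ⟨P', hP'⟩ : ∃ P' : Mat r K₀, P'.map K₀.subtype = P :=
    ⟨Matrix.of fun i j => ⟨P i j, hP i j⟩, by ext i j; rfl⟩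
  obtain ⟨Q', hQ'⟩ : ∃ Q' : Mat r K₀, Q'.map K₀.subtype = Q :=
    ⟨Matrix.of fun i j => ⟨Q i j, hQ i j⟩, by ext i j; rfl⟩
  have hdet : ∀ (M' : Mat r K₀) (M : Mat r ℂ), M'.map K₀.subtype = M → IsUnit M →
      IsUnit M'.det := by
    intro M' M h hM
    rw [Matrix.isUnit_iff_isUnit_det, isUnit_iff_ne_zero] at hM
    rw [isUnit_iff_ne_zero]
    intro h0
    apply hM
    rw [← h]
    have : (M'.map K₀.subtype).det = K₀.subtype M'.det := (K₀.subtype.map_det M').symm
    rw [this, h0, map_zero]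
  have hP'u := hdet P' P hP' hPu
  have hQ'u := hdet Q' Q hQ' hQu
  rw [algebraicIndependent_iff]
  intro f hf
  -- the substituted polynomial
  obtain ⟨G, hG⟩ : ∃ G : MvPolynomial (Fin r × Fin r) K₀, G =
      MvPolynomial.aeval (fun p : Fin r × Fin r =>
        (P'.map (algebraMap K₀ (MvPolynomial (Fin r × Fin r) K₀)) *
          mvPolynomialX (Fin r) (Fin r) K₀ *
          Q'.map (algebraMap K₀ (MvPolynomial (Fin r × Fin r) K₀)) :
            Mat r (MvPolynomial (Fin r × Fin r) K₀)) p.1 p.2) f := ⟨_, rfl⟩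
  have key : ∀ {S : Type} [CommRing S] [Algebra K₀ S] (M : Mat r S),
      MvPolynomial.aeval (fun p : Fin r × Fin r => M p.1 p.2) G =
        MvPolynomial.aeval (fun p : Fin r × Fin r =>
          (P'.map (algebraMap K₀ S) * M * Q'.map (algebraMap K₀ S)) p.1 p.2) f := by
    intro S _ _ M
    rw [hG]
    rw [← AlgHom.comp_apply, MvPolynomial.comp_aeval]
    congr 2
    funext p
    simp only [Matrix.mul_apply, mvPolynomialX_apply, Matrix.map_apply, map_sum, map_mul,
      MvPolynomial.aeval_X, AlgHom.commutes]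
  have hG0 : G = 0 := by
    refine (algebraicIndependent_iff.1 hA) G ((key A).trans ?_)
    rw [← hf]
    congr 2
    funext p
    rw [← hP', ← hQ']
    rfl
  refine MvPolynomial.funext fun x => ?_
  obtain ⟨N, hN⟩ : ∃ N : Mat r K₀, N = Matrix.of fun i j => x (i, j) := ⟨_, rfl⟩
  have h1 := key (P'⁻¹ * N * Q'⁻¹)
  have hid : ∀ M : Mat r K₀, M.map (algebraMap K₀ K₀) = M := by
    intro M
    ext i j
    rfl
  have hcancel : P' * (P'⁻¹ * N * Q'⁻¹) * Q' = N := by
    calc P' * (P'⁻¹ * N * Q'⁻¹) * Q' = (P' * P'⁻¹) * N * (Q'⁻¹ * Q') := by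
          simp only [Matrix.mul_assoc]
      _ = N := by
          rw [Matrix.mul_nonsing_inv _ hP'u, Matrix.nonsing_inv_mul _ hQ'u, Matrix.one_mul,
            Matrix.mul_one]
  rw [hid, hid, hcancel, hG0, map_zero] at h1
  rw [map_zero]
  have h2 : (fun p : Fin r × Fin r => N p.1 p.2) = x := by
    funext p; rw [hN]; rfl
  rw [h2] at h1
  rw [h1]
  rfl

theorem generic_gen3 {K₀ : Subfield ℂ} {A : Mat r ℂ}
    (hA : AlgebraicIndependent K₀ fun p : Fin r × Fin r => A p.1 p.2) : Gen3 A := by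
  classical
  constructor
  · intro i j h
    exact hA.ne_zero (i, j) h
  · intro i j k hij hjk hik h
    have h1 : (MvPolynomial.aeval fun p : Fin r × Fin r => A p.1 p.2)
        ((MvPolynomial.X (i, j) * MvPolynomial.X (j, k) * MvPolynomial.X (k, i) -
          MvPolynomial.X (i, k) * MvPolynomial.X (k, j) * MvPolynomial.X (j, i) :
            MvPolynomial (Fin r × Fin r) K₀)) = 0 := by
      simp only [map_sub, map_mul, MvPolynomial.aeval_X]
      rw [h, sub_self]
    have h2 := (algebraicIndependent_iff.1 hA) _ h1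
    have h3 := congrArg (MvPolynomial.eval (fun p : Fin r × Fin r =>
      if p = (i, j) ∨ p = (j, k) ∨ p = (k, i) then (1 : K₀) else 0)) h2
    have hji : j ≠ i := fun h => hij h.symm
    have hkj : k ≠ j := fun h => hjk h.symm
    have hki : k ≠ i := fun h => hik h.symm
    simp [hij, hjk, hik, hji, hkj, hki] at h3

theorem exists_generic_over (K₀ : Subfield ℂ) [Countable K₀] (r : ℕ) :
    ∃ A : (Mat r ℂ)ˣ, AlgebraicIndependent K₀ fun p : Fin r × Fin r => (A : Mat r ℂ) p.1 p.2 := by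
  obtain ⟨s, hs⟩ := exists_isTranscendenceBasis K₀ ℂ
  have hR : Cardinal.mk K₀ ≤ Cardinal.aleph0 := Cardinal.mk_le_aleph0
  have hK : Cardinal.aleph0 < Cardinal.mk ℂ := by
    rw [Cardinal.mk_complex]; exact Cardinal.aleph0_lt_continuum
  have h1 := IsAlgClosed.cardinal_eq_cardinal_transcendence_basis_of_aleph0_lt' _ hs hR hK
  have h2 : Infinite s := by
    rw [Cardinal.infinite_iff, ← h1]
    exact hK.le
  obtain ⟨n, ⟨e⟩⟩ := Finite.exists_equiv_fin (Fin r × Fin r)
  obtain ⟨c, hc⟩ : ∃ c : Fin r × Fin r → ℂ, AlgebraicIndependent K₀ c := by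
    refine ⟨fun x => ((Infinite.natEmbedding s (e x : ℕ) : s) : ℂ), ?_⟩
    exact hs.1.comp (fun x => Infinite.natEmbedding s (e x : ℕ)) fun x y hxy =>
      e.injective (Fin.ext ((Infinite.natEmbedding s).injective hxy))
  have hC : AlgebraicIndependent K₀ fun p : Fin r × Fin r =>
      (Matrix.of fun i j => c (i, j) : Mat r ℂ) p.1 p.2 := hc
  have hu : IsUnit (Matrix.of fun i j => c (i, j) : Mat r ℂ) := by
    rw [Matrix.isUnit_iff_isUnit_det, isUnit_iff_ne_zero]
    intro h
    have h1 : (MvPolynomial.aeval fun p : Fin r × Fin r =>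
        (Matrix.of fun i j => c (i, j) : Mat r ℂ) p.1 p.2)
        (det (mvPolynomialX (Fin r) (Fin r) K₀)) = 0 := by
      rw [AlgHom.map_det, mvPolynomialX_mapMatrix_aeval, h]
    exact det_mvPolynomialX_ne_zero (Fin r) K₀ (hC (h1.trans (map_zero _).symm))
  obtain ⟨A, hA⟩ := hu
  refine ⟨A, ?_⟩
  rw [hA]
  exact hC

theorem exists_countable_subfield (s : Set ℂ) (hs : s.Countable) :
    ∃ K₀ : Subfield ℂ, Countable K₀ ∧ s ⊆ (K₀ : Set ℂ) := by
  refine ⟨Subfield.closure s, ?_, Subfield.subset_closure⟩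
  rw [← Cardinal.mk_le_aleph0_iff]
  refine (Subfield.cardinalMk_closure_le_max s).trans ?_
  exact max_le (Cardinal.le_aleph0_iff_set_countable.2 hs) le_rfl

end Vale.Agent.P002R
end

section

/-! Elementary lemmas for the final statement: orders of quasi-unipotent matrices and number fields
with enough roots of unity and units. -/

namespace Vale.Agent.P002R

open Matrix Polynomial NumberField

section nilp

variable {r n : ℕ}

/-- A matrix all whose eigenvalues are `N`-th roots of unity has unipotent `N`-th power. -/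
theorem isNilpotent_pow_sub_one_of_roots (C : Mat r ℂ) (N : ℕ)
    (h : ∀ μ ∈ C.charpoly.roots, μ ^ N = 1) : IsNilpotent (C ^ N - 1) := by
  have hsplit : C.charpoly.Splits := IsAlgClosed.splits _
  have hprod : C.charpoly = (C.charpoly.roots.map fun a => X - Polynomial.C a).prod :=
    hsplit.eq_prod_roots_of_monic C.charpoly_monic
  have hdvd : ∀ s : Multiset ℂ, (∀ μ ∈ s, μ ^ N = 1) →
      (s.map fun a => X - Polynomial.C a).prod ∣ (X ^ N - 1 : ℂ[X]) ^ s.card := by
    intro s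
    induction s using Multiset.induction_on with
    | empty => intro _; simp
    | cons a s ih =>
      intro hs
      rw [Multiset.map_cons, Multiset.prod_cons, Multiset.card_cons, pow_succ, mul_comm]
      refine mul_dvd_mul (ih fun μ hμ => hs μ (Multiset.mem_cons_of_mem hμ)) ?_
      rw [Polynomial.dvd_iff_isRoot]
      simp [hs a (Multiset.mem_cons_self a s)]
  obtain ⟨q, hq⟩ := hdvd _ h
  rw [← hprod] at hq
  refine ⟨C.charpoly.roots.card, ?_⟩
  have h1 := congrArg (Polynomial.aeval C) hq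
  rw [map_mul, Matrix.aeval_self_charpoly, zero_mul] at h1
  simpa using h1

/-- A matrix all whose eigenvalues are roots of unity has a unipotent power. -/
theorem exists_isNilpotent_pow_sub_one (C : Mat r ℂ)
    (h : ∀ μ ∈ C.charpoly.roots, ∃ k : ℕ, 0 < k ∧ μ ^ k = 1) :
    ∃ N : ℕ, 0 < N ∧ IsNilpotent (C ^ N - 1) := by
  have key : ∀ s : Multiset ℂ, (∀ μ ∈ s, ∃ k : ℕ, 0 < k ∧ μ ^ k = 1) →
      ∃ N : ℕ, 0 < N ∧ ∀ μ ∈ s, μ ^ N = 1 := by
    intro s
    induction s using Multiset.induction_on with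
    | empty => intro _; exact ⟨1, one_pos, by simp⟩
    | cons a s ih =>
      intro hs
      obtain ⟨N, hN, hN'⟩ := ih fun μ hμ => hs μ (Multiset.mem_cons_of_mem hμ)
      obtain ⟨k, hk, hk'⟩ := hs a (Multiset.mem_cons_self a s)
      refine ⟨k * N, Nat.mul_pos hk hN, fun μ hμ => ?_⟩
      rcases Multiset.mem_cons.1 hμ with rfl | hμ
      · rw [pow_mul, hk', one_pow]
      · rw [mul_comm, pow_mul, hN' μ hμ, one_pow]
  obtain ⟨N, hN, hN'⟩ := key _ h
  exact ⟨N, hN, isNilpotent_pow_sub_one_of_roots C N hN'⟩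

/-- The exponent can be multiplied. -/
theorem isNilpotent_pow_mul_sub_one {C : Mat r ℂ} {N : ℕ} (h : IsNilpotent (C ^ N - 1)) (k : ℕ) :
    IsNilpotent (C ^ (N * k) - 1) := by
  obtain ⟨q, hq⟩ : (X ^ N - 1 : ℂ[X]) ∣ X ^ (N * k) - 1 := by
    have := sub_dvd_pow_sub_pow (X ^ N : ℂ[X]) 1 k
    rwa [one_pow, ← pow_mul] at this
  have h1 := congrArg (Polynomial.aeval C) hq
  simp only [map_sub, map_pow, Polynomial.aeval_X, map_one, map_mul] at h1
  rw [h1]
  refine Commute.isNilpotent_mul_right ?_ h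
  have : (C ^ N - 1 : Mat r ℂ) = Polynomial.aeval C (X ^ N - 1 : ℂ[X]) := by simp
  rw [this]
  exact Commute.map (Commute.all _ _) (Polynomial.aeval C)

/-- A common exponent for finitely many quasi-unipotent matrices. -/
theorem exists_common_exponent (C : Fin n → Mat r ℂ)
    (h : ∀ j, ∀ μ ∈ (C j).charpoly.roots, ∃ k : ℕ, 0 < k ∧ μ ^ k = 1) :
    ∃ N : ℕ, 0 < N ∧ ∀ j, IsNilpotent (C j ^ N - 1) := by
  choose N hN hN' using fun j => exists_isNilpotent_pow_sub_one (C j) (h j)
  refine ⟨∏ j, N j, Finset.prod_pos fun j _ => hN j, fun j => ?_⟩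
  rw [← Finset.mul_prod_erase _ _ (Finset.mem_univ j)]
  exact isNilpotent_pow_mul_sub_one (hN' j) _

/-- The same with the roots of the characteristic polynomial. -/
theorem exists_common_exponent_isRoot (C : Fin n → Mat r ℂ)
    (h : ∀ j, ∀ μ : ℂ, (C j).charpoly.IsRoot μ → ∃ k : ℕ, 0 < k ∧ μ ^ k = 1) :
    ∃ N : ℕ, 0 < N ∧ ∀ j, IsNilpotent (C j ^ N - 1) :=
  exists_common_exponent C fun j μ hμ => h j μ (isRoot_of_mem_roots hμ)

/-- The same with eigenvectors. -/
theorem exists_common_exponent_eigenvector (C : Fin n → Mat r ℂ)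
    (h : ∀ j, ∀ (μ : ℂ) (v : Fin r → ℂ), v ≠ 0 → C j *ᵥ v = μ • v → ∃ k : ℕ, 0 < k ∧ μ ^ k = 1) :
    ∃ N : ℕ, 0 < N ∧ ∀ j, IsNilpotent (C j ^ N - 1) := by
  refine exists_common_exponent_isRoot C fun j μ hμ => ?_
  have hdet : (scalar (Fin r) μ - C j).det = 0 := by
    rw [← Matrix.eval_charpoly]
    exact hμ
  obtain ⟨v, hv, hv'⟩ := Matrix.exists_mulVec_eq_zero_iff.2 hdet
  refine h j μ v hv ?_
  rw [Matrix.sub_mulVec, sub_eq_zero] at hv'
  rw [← hv', Matrix.scalar_apply, ← Matrix.smul_one_eq_diagonal, Matrix.smul_mulVec,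
    Matrix.one_mulVec]

/-- The same with the spectrum. -/
theorem exists_common_exponent_spectrum (C : Fin n → Mat r ℂ)
    (h : ∀ j, ∀ μ ∈ spectrum ℂ (C j), ∃ k : ℕ, 0 < k ∧ μ ^ k = 1) :
    ∃ N : ℕ, 0 < N ∧ ∀ j, IsNilpotent (C j ^ N - 1) :=
  exists_common_exponent_isRoot C fun j μ hμ =>
    h j μ (Matrix.mem_spectrum_iff_isRoot_charpoly.2 hμ)

end nilp

section field

variable {L : Type*} [Field L]

/-- The embedding of the ring of integers of a subfield of the complex numbers. -/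
noncomputable def phiO (σ : L →+* ℂ) : 𝓞 L →+* ℂ := σ.comp (algebraMap (𝓞 L) L)

theorem phiO_injective (σ : L →+* ℂ) : Function.Injective (phiO σ) := by
  unfold phiO
  rw [RingHom.coe_comp]
  exact σ.injective.comp RingOfIntegers.coe_injective

/-- Roots of unity are integral. -/
theorem mem_range_phiO (σ : L →+* ℂ) {M : ℕ} (hM : 0 < M) {z : ℂ} (hz : z ^ M = 1)
    (h : z ∈ Set.range σ) : z ∈ Set.range (phiO σ) := by
  obtain ⟨w, rfl⟩ := h
  have hw : w ^ M = 1 := by
    apply σ.injective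
    rw [map_pow, hz, map_one]
  have hint : IsIntegral ℤ w := by
    refine ⟨X ^ M - 1, monic_X_pow_sub_C 1 hM.ne', ?_⟩
    simp [hw]
  exact ⟨⟨w, hint⟩, rfl⟩

/-- If the unit group is infinite, there is a unit of infinite order. -/
theorem exists_unit_infinite_order [NumberField L] (σ : L →+* ℂ) [Infinite (𝓞 L)ˣ] :
    ∃ u : (𝓞 L)ˣ, ∀ k : ℕ, 0 < k → phiO σ (u : 𝓞 L) ^ k ≠ 1 := by
  by_contra hcon
  push Not at hcon
  have hfin : Finite (CommGroup.torsion (𝓞 L)ˣ) :=
    inferInstanceAs (Finite (NumberField.Units.torsion L))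
  have htop : CommGroup.torsion (𝓞 L)ˣ = ⊤ := by
    rw [eq_top_iff]
    intro u _
    rw [CommGroup.mem_torsion, isOfFinOrder_iff_pow_eq_one]
    obtain ⟨k, hk, hk'⟩ := hcon u
    refine ⟨k, hk, ?_⟩
    ext1
    apply phiO_injective σ
    rw [Units.val_pow_eq_pow_val, map_pow, hk', Units.val_one, map_one]
  have : Finite (𝓞 L)ˣ := by
    rw [htop] at hfin
    exact Finite.of_equiv _ (Subgroup.topEquiv (G := (𝓞 L)ˣ)).toEquiv
  exact not_finite (𝓞 L)ˣ

/-- A number field with given roots of unity and a unit of infinite order. -/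
theorem exists_numberField (M : ℕ) (hM : 0 < M) :
    ∃ L : IntermediateField ℚ ℂ, FiniteDimensional ℚ L ∧
      (∀ z : ℂ, z ^ M = 1 → z ∈ Set.range (phiO (algebraMap L ℂ))) ∧
      ∃ u : (𝓞 L)ˣ, ∀ k : ℕ, 0 < k → phiO (algebraMap L ℂ) (u : 𝓞 L) ^ k ≠ 1 := by
  classical
  let S : Set ℂ := {z | z ^ M = 1} ∪ {((Real.sqrt 2 : ℝ) : ℂ)}
  have hs2 : (((Real.sqrt 2 : ℝ) : ℂ)) ^ 2 = 2 := by
    rw [← Complex.ofReal_pow, Real.sq_sqrt (by norm_num)]
    norm_num
  have hSfin : S.Finite := by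
    refine Set.Finite.union ?_ (Set.finite_singleton _)
    have : {z : ℂ | z ^ M = 1} ⊆ ((X ^ M - 1 : ℂ[X]).roots.toFinset : Set ℂ) := by
      intro z hz
      have hne : (X ^ M - 1 : ℂ[X]) ≠ 0 := (monic_X_pow_sub_C 1 hM.ne').ne_zero
      simp only [Finset.mem_coe, Multiset.mem_toFinset, mem_roots hne]
      have hz' : z ^ M = 1 := hz
      simp [hz']
    exact (Finset.finite_toSet _).subset this
  have hSint : ∀ x ∈ S, IsIntegral ℚ x := by
    rintro x (hx | hx)
    · refine ⟨X ^ M - 1, monic_X_pow_sub_C 1 hM.ne', ?_⟩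
      have hx' : x ^ M = 1 := hx
      simp [hx']
    · rw [Set.mem_singleton_iff] at hx
      subst hx
      refine ⟨X ^ 2 - Polynomial.C 2, monic_X_pow_sub_C 2 two_ne_zero, ?_⟩
      simp [hs2]
  let L : IntermediateField ℚ ℂ := IntermediateField.adjoin ℚ S
  have hLfin : FiniteDimensional ℚ L := by
    have : Finite S := hSfin
    exact IntermediateField.finiteDimensional_adjoin fun x hx => hSint x hx
  have hmem : ∀ z ∈ S, z ∈ L := fun z hz => IntermediateField.subset_adjoin ℚ S hz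
  refine ⟨L, hLfin, ?_, ?_⟩
  · intro z hz
    exact mem_range_phiO _ hM hz ⟨⟨z, hmem z (Or.inl hz)⟩, rfl⟩
  · let s : L := ⟨((Real.sqrt 2 : ℝ) : ℂ), hmem _ (Or.inr rfl)⟩
    have hs : s ^ 2 = 2 := by
      apply Subtype.ext
      exact hs2
    have hsint : IsIntegral ℤ s := by
      refine ⟨X ^ 2 - Polynomial.C 2, monic_X_pow_sub_C 2 two_ne_zero, ?_⟩
      simp [hs]
    let s' : 𝓞 L := ⟨s, hsint⟩
    have hs' : s' * s' = 2 := by
      apply RingOfIntegers.coe_injective
      have : s * s = 2 := by rw [← sq, hs]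
      exact this
    let u : (𝓞 L)ˣ := ⟨s' + 1, s' - 1, by linear_combination hs', by linear_combination hs'⟩
    refine ⟨u, fun k hk hone => ?_⟩
    have hu : phiO (algebraMap L ℂ) (u : 𝓞 L) = (((Real.sqrt 2 + 1 : ℝ)) : ℂ) := by
      change phiO (algebraMap L ℂ) (s' + 1) = _
      rw [map_add, map_one, Complex.ofReal_add, Complex.ofReal_one]
      rfl
    rw [hu] at hone
    have h1 : (Real.sqrt 2 + 1) ^ k = 1 := by exact_mod_cast hone
    have h2 : (1 : ℝ) < Real.sqrt 2 + 1 := by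
      have : 0 < Real.sqrt 2 := Real.sqrt_pos.2 (by norm_num)
      linarith
    exact absurd h1 (one_lt_pow₀ h2 hk.ne').ne'

end field

end Vale.Agent.P002R
end

section

/-!
# Number fields which contain enough roots of a group of units, and enough units
-/

namespace Vale.Agent.P002R

open Matrix NumberField

theorem coefOK_of_field (E : Subgroup ℂˣ) (hE : ∀ z ∈ E, IsIntegral ℤ (z : ℂ)) (hneg : -1 ∈ E)
    (r : ℕ) (L : IntermediateField ℚ ℂ)
    (hroot : ∀ k : ℕ, 0 < k → k ≤ r → ∀ z : ℂˣ, z ^ k ∈ E → (z : ℂ) ∈ L)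
    (hunit : ∃ u : (𝓞 L)ˣ, ∀ k : ℕ, 0 < k →
      ∀ e ∈ E, phiO (algebraMap L ℂ) (u : 𝓞 L) ^ k ≠ (e : ℂ)) :
    CoefOK (phiO (algebraMap L ℂ)) E r := by
  refine ⟨phiO_injective _, hneg, fun k hk hkr z hz => ?_, ?_⟩
  · have hzL := hroot k hk hkr z hz
    have h1 : IsIntegral ℤ ((z : ℂ) ^ k) := by
      have := hE _ hz
      rwa [Units.val_pow_eq_pow_val] at this
    have h2 : IsIntegral ℤ (z : ℂ) := h1.of_pow hk
    have h3 : IsIntegral ℤ (⟨(z : ℂ), hzL⟩ : L) := by
      rw [← isIntegral_algebraMap_iff (A := L) (B := ℂ) (algebraMap L ℂ).injective]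
      exact h2
    exact ⟨⟨_, h3⟩, rfl⟩
  · obtain ⟨u, hu⟩ := hunit
    refine ⟨u, fun k hk h => hu k hk _ h ?_⟩
    rw [Units.val_pow_eq_pow_val]
    rfl

/-- Roots of elements of a subgroup of `ℂˣ`, in terms of generators. -/
theorem root_mem_closure (S : Set ℂˣ) (k : ℕ) (hk : 0 < k) (z : ℂˣ)
    (hz : z ^ k ∈ Subgroup.closure S) :
    z ∈ Subgroup.closure {w : ℂˣ | w ^ k ∈ insert 1 S} := by
  obtain ⟨H, hH⟩ : ∃ H, H = Subgroup.closure {w : ℂˣ | w ^ k ∈ insert 1 S} := ⟨_, rfl⟩
  rw [← hH]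
  have h1 : ∀ e ∈ Subgroup.closure S, ∃ w ∈ H, w ^ k = e := by
    intro e he
    induction he using Subgroup.closure_induction with
    | mem x hx =>
      obtain ⟨w, hw⟩ := IsAlgClosed.exists_pow_nat_eq (x : ℂ) hk
      have hw0 : w ≠ 0 := by
        rintro rfl
        rw [zero_pow hk.ne'] at hw
        exact x.ne_zero hw.symm
      have hw' : (Units.mk0 w hw0) ^ k = x := by
        apply Units.ext
        rw [Units.val_pow_eq_pow_val, Units.val_mk0, hw]
      refine ⟨Units.mk0 w hw0, ?_, hw'⟩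
      rw [hH]
      apply Subgroup.subset_closure
      rw [Set.mem_ofPred_eq, hw']
      exact Or.inr hx
    | one => exact ⟨1, H.one_mem, one_pow k⟩
    | mul x y _ _ hx hy =>
      obtain ⟨a, ha, rfl⟩ := hx
      obtain ⟨b, hb, rfl⟩ := hy
      exact ⟨a * b, H.mul_mem ha hb, mul_pow a b k⟩
    | inv x _ hx =>
      obtain ⟨a, ha, rfl⟩ := hx
      exact ⟨a⁻¹, H.inv_mem ha, inv_pow a k⟩
  obtain ⟨w, hw, hwk⟩ := h1 _ hz
  have h2 : z * w⁻¹ ∈ H := by
    rw [hH]
    apply Subgroup.subset_closure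
    rw [Set.mem_ofPred_eq, mul_pow, inv_pow, hwk, mul_inv_cancel]
    exact Or.inl rfl
  have h3 := H.mul_mem h2 hw
  rwa [inv_mul_cancel_right] at h3

/-- The set of roots is finite. -/
theorem roots_finite (S : Set ℂˣ) (hS : S.Finite) (k : ℕ) (hk : 0 < k) :
    {w : ℂˣ | w ^ k ∈ S}.Finite := by
  have h1 : {w : ℂˣ | w ^ k ∈ S} = ⋃ s ∈ S, {w : ℂˣ | w ^ k = s} := by
    ext w
    simp
  rw [h1]
  refine hS.biUnion fun s _ => ?_
  have h2 : {z : ℂ | z ^ k = (s : ℂ)}.Finite := by
    have : {z : ℂ | z ^ k = (s : ℂ)} ⊆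
        ((Polynomial.X ^ k - Polynomial.C (s : ℂ)).roots.toFinset : Set ℂ) := by
      intro z hz
      have hne : (Polynomial.X ^ k - Polynomial.C (s : ℂ)) ≠ 0 :=
        (Polynomial.monic_X_pow_sub_C _ hk.ne').ne_zero
      simp only [Finset.mem_coe, Multiset.mem_toFinset, Polynomial.mem_roots hne]
      have hz' : z ^ k = (s : ℂ) := hz
      simp [hz']
    exact (Finset.finite_toSet _).subset this
  refine Set.Finite.of_finite_image (f := ((↑) : ℂˣ → ℂ)) (h2.subset ?_)
    (Units.val_injective.injOn)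
  rintro _ ⟨w, hw, rfl⟩
  have hw' : w ^ k = s := hw
  change (w : ℂ) ^ k = (s : ℂ)
  rw [← hw', Units.val_pow_eq_pow_val]

/-- A number field of large degree has units which are free modulo a given finitely generated
group. -/
theorem exists_free_unit (L : IntermediateField ℚ ℂ) [NumberField L] (S : Set ℂˣ) (hS : S.Finite)
    (hdeg : 2 * (S.ncard + 2) ≤ Module.finrank ℚ L) :
    ∃ u : (𝓞 L)ˣ, ∀ k : ℕ, 0 < k →
      ∀ e ∈ Subgroup.closure S, phiO (algebraMap L ℂ) (u : 𝓞 L) ^ k ≠ (e : ℂ) := by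
  by_contra hcon
  push Not at hcon
  choose k hk e he hke using hcon
  -- the units, as complex numbers
  obtain ⟨ι, hι⟩ : ∃ ι : (𝓞 L)ˣ →* ℂˣ, ι = Units.map (phiO (algebraMap L ℂ) : 𝓞 L →* ℂ) :=
    ⟨_, rfl⟩
  have hιinj : Function.Injective ι := by
    intro a b hab
    apply Units.ext
    apply phiO_injective (algebraMap L ℂ)
    have := congrArg Units.val hab
    rw [hι] at this
    exact this
  have hιk : ∀ u : (𝓞 L)ˣ, ι u ^ k u = e u := by
    intro u
    apply Units.ext
    rw [Units.val_pow_eq_pow_val, hι, ← hke]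
    rfl
  -- the fundamental units
  obtain ⟨v, hv⟩ : ∃ v : Fin (Units.rank L) → Additive (𝓞 L)ˣ,
    v = fun i => Additive.ofMul (Units.fundSystem L i) := ⟨_, rfl⟩
  have hvli : LinearIndependent ℤ v := by
    refine LinearIndependent.of_comp (Units.logEmbedding L).toIntLinearMap ?_
    have h1 : (Units.logEmbedding L).toIntLinearMap ∘ v =
        fun i => (Units.basisUnitLattice L i : Units.dirichletUnitTheorem.logSpace L) := by
      funext i
      rw [Function.comp_apply, hv]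
      exact Units.logEmbedding_fundSystem L i
    rw [h1]
    exact (Units.basisUnitLattice L).linearIndependent.map' (Submodule.subtype _)
      (Submodule.ker_subtype _)
  obtain ⟨j, hj⟩ : ∃ j : Additive (𝓞 L)ˣ →ₗ[ℤ] Additive ℂˣ,
      ∀ u : (𝓞 L)ˣ, j (Additive.ofMul u) = Additive.ofMul (ι u) :=
    ⟨(MonoidHom.toAdditive ι).toIntLinearMap, fun u => rfl⟩
  have hjinj : Function.Injective j := by
    intro a b hab
    have h1 := hj (Additive.toMul a)
    have h2 := hj (Additive.toMul b)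
    rw [ofMul_toMul] at h1 h2
    rw [h1, h2] at hab
    exact Additive.toMul.injective (hιinj (Additive.ofMul.injective hab))
  have hjv : LinearIndependent ℤ (j ∘ v) := hvli.map' j (LinearMap.ker_eq_bot.2 hjinj)
  -- the powers in the group
  have hkv : LinearIndependent ℤ (fun i => (k (Units.fundSystem L i) : ℤ) • (j ∘ v) i) := by
    rw [Fintype.linearIndependent_iff] at hjv ⊢
    intro a ha i
    have h1 := hjv (fun i => a i * (k (Units.fundSystem L i) : ℤ)) (by
      rw [← ha]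
      refine Finset.sum_congr rfl fun i _ => ?_
      rw [mul_smul]) i
    have h2 : (k (Units.fundSystem L i) : ℤ) ≠ 0 := by
      exact_mod_cast (hk _).ne'
    exact (mul_eq_zero.1 h1).resolve_right h2
  have hspan : ∀ x ∈ Subgroup.closure S,
      Additive.ofMul x ∈ Submodule.span ℤ (Additive.ofMul '' S : Set (Additive ℂˣ)) := by
    intro x hx
    induction hx using Subgroup.closure_induction with
    | mem x hx => exact Submodule.subset_span ⟨x, hx, rfl⟩
    | one =>
      rw [ofMul_one]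
      exact Submodule.zero_mem _
    | mul x y _ _ hx hy =>
      rw [ofMul_mul]
      exact Submodule.add_mem _ hx hy
    | inv x _ hx =>
      rw [ofMul_inv]
      exact Submodule.neg_mem _ hx
  have hfin : (Additive.ofMul '' S : Set (Additive ℂˣ)).Finite := hS.image _
  have : Fintype (Additive.ofMul '' S : Set (Additive ℂˣ)) := hfin.fintype
  have h1 := linearIndependent_le_span' _ hkv (Additive.ofMul '' S : Set (Additive ℂˣ)) (by
    rintro _ ⟨i, rfl⟩
    have h2 : (k (Units.fundSystem L i) : ℤ) • (j ∘ v) i =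
        Additive.ofMul (e (Units.fundSystem L i)) := by
      rw [Function.comp_apply, hv, hj, ← hιk]
      rw [natCast_zsmul]
      rfl
    change (k (Units.fundSystem L i) : ℤ) • (j ∘ v) i ∈ _
    rw [h2]
    exact hspan _ (he _))
  have h2 : Units.rank L ≤ S.ncard := by
    rw [Cardinal.mk_fin] at h1
    have h3 : Fintype.card (Additive.ofMul '' S : Set (Additive ℂˣ)) ≤ S.ncard := by
      rw [← Nat.card_eq_fintype_card, Nat.card_coe_set_eq]
      exact Set.ncard_image_le hS
    exact (Nat.cast_le.1 h1).trans h3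
  have h3 := InfinitePlace.card_add_two_mul_card_eq_rank L
  have h4 := InfinitePlace.card_eq_nrRealPlaces_add_nrComplexPlaces L
  have h5 : Units.rank L = Fintype.card (InfinitePlace L) - 1 := rfl
  omega

theorem exists_field_E (S : Set ℂˣ) (hS : S.Finite)
    (hint : ∀ z ∈ S, IsIntegral ℤ (z : ℂ) ∧ IsIntegral ℤ ((z⁻¹ : ℂˣ) : ℂ)) (r : ℕ) :
    ∃ L : IntermediateField ℚ ℂ, FiniteDimensional ℚ L ∧
      CoefOK (phiO (algebraMap L ℂ)) (Subgroup.closure (insert (-1) S)) r := by
  obtain ⟨S', hS'⟩ : ∃ S' : Set ℂˣ, S' = insert (-1) S := ⟨_, rfl⟩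
  rw [← hS']
  have hS'fin : S'.Finite := by
    rw [hS']
    exact hS.insert _
  have hint' : ∀ z ∈ S', IsIntegral ℤ (z : ℂ) ∧ IsIntegral ℤ ((z⁻¹ : ℂˣ) : ℂ) := by
    intro z hz
    rw [hS'] at hz
    rcases hz with rfl | hz
    · rw [inv_neg, inv_one, Units.val_neg, Units.val_one]
      exact ⟨isIntegral_one.neg, isIntegral_one.neg⟩
    · exact hint z hz
  have hE : ∀ z ∈ Subgroup.closure S', IsIntegral ℤ (z : ℂ) ∧
      IsIntegral ℤ ((z⁻¹ : ℂˣ) : ℂ) := by
    intro z hz
    induction hz using Subgroup.closure_induction with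
    | mem x hx => exact hint' x hx
    | one =>
      rw [inv_one, Units.val_one]
      exact ⟨isIntegral_one, isIntegral_one⟩
    | mul x y _ _ hx hy =>
      rw [mul_inv, Units.val_mul, Units.val_mul]
      exact ⟨hx.1.mul hy.1, hx.2.mul hy.2⟩
    | inv x _ hx =>
      rw [inv_inv]
      exact ⟨hx.2, hx.1⟩
  -- the roots of the generators
  obtain ⟨T, hT⟩ : ∃ T : ℕ → Set ℂˣ, T = fun k => {w : ℂˣ | w ^ k ∈ insert 1 S'} := ⟨_, rfl⟩
  have hTfin : ∀ k, 0 < k → (T k).Finite := by
    intro k hk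
    rw [hT]
    exact roots_finite _ (hS'fin.insert 1) k hk
  have hTint : ∀ k, 0 < k → ∀ z ∈ T k, IsIntegral ℤ (z : ℂ) := by
    intro k hk z hz
    rw [hT] at hz
    have hz' : z ^ k ∈ insert 1 S' := hz
    have h1 : IsIntegral ℤ ((z ^ k : ℂˣ) : ℂ) := by
      rcases hz' with h | h
      · rw [h, Units.val_one]
        exact isIntegral_one
      · exact (hint' _ h).1
    rw [Units.val_pow_eq_pow_val] at h1
    exact h1.of_pow hk
  -- a root of unity of large degree
  obtain ⟨p, hp1, hp⟩ := Nat.exists_infinite_primes (2 * (S'.ncard + 2) + 1)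
  obtain ⟨ζ, hζ⟩ : ∃ ζ : ℂ, IsPrimitiveRoot ζ p := ⟨_, Complex.isPrimitiveRoot_exp p hp.ne_zero⟩
  have hζint : IsIntegral ℤ ζ := hζ.isIntegral hp.pos
  obtain ⟨V, hV⟩ : ∃ V : Set ℂ, V = insert ζ (((↑) : ℂˣ → ℂ) '' ⋃ k ∈ Finset.Icc 1 r, T k) :=
    ⟨_, rfl⟩
  have hVfin : V.Finite := by
    rw [hV]
    refine Set.Finite.insert _ (Set.Finite.image _ ?_)
    refine Set.Finite.biUnion (Finset.finite_toSet _) fun k hk => hTfin k ?_
    have := Finset.mem_coe.1 hk
    rw [Finset.mem_Icc] at this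
    omega
  have hVint : ∀ x ∈ V, IsIntegral ℚ x := by
    intro x hx
    refine IsIntegral.tower_top (R := ℤ) ?_
    rw [hV] at hx
    rcases hx with rfl | ⟨w, hw, rfl⟩
    · exact hζint
    · rw [Set.mem_iUnion₂] at hw
      obtain ⟨k, hk, hw⟩ := hw
      rw [Finset.mem_Icc] at hk
      exact hTint k (by omega) w hw
  obtain ⟨L, hL⟩ : ∃ L : IntermediateField ℚ ℂ, L = IntermediateField.adjoin ℚ V := ⟨_, rfl⟩
  have hLfin : FiniteDimensional ℚ L := by
    have : Finite V := hVfin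
    rw [hL]
    exact IntermediateField.finiteDimensional_adjoin fun x hx => hVint x hx
  have hLmem : ∀ z ∈ V, z ∈ L := fun z hz => by
    rw [hL]
    exact IntermediateField.subset_adjoin ℚ V hz
  have : NumberField L := { to_charZero := inferInstance, to_finiteDimensional := hLfin }
  refine ⟨L, hLfin, coefOK_of_field _ (fun z hz => (hE z hz).1) ?_ r L ?_ ?_⟩
  · apply Subgroup.subset_closure
    rw [hS']
    exact Set.mem_insert _ _
  · intro k hk hkr z hz
    have h2 : ∀ w ∈ Subgroup.closure {w : ℂˣ | w ^ k ∈ insert 1 S'}, (w : ℂ) ∈ L := ?_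
    · exact h2 z (root_mem_closure S' k hk z hz)
    intro w hw
    induction hw using Subgroup.closure_induction with
    | mem x hx =>
      apply hLmem
      rw [hV]
      refine Or.inr ⟨x, ?_, rfl⟩
      rw [Set.mem_iUnion₂]
      refine ⟨k, Finset.mem_Icc.2 ⟨hk, hkr⟩, ?_⟩
      rw [hT]
      exact hx
    | one => exact L.one_mem
    | mul x y _ _ hx hy =>
      rw [Units.val_mul]
      exact L.mul_mem hx hy
    | inv x _ hx =>
      rw [Units.val_inv_eq_inv_val]
      exact L.inv_mem hx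
  · refine exists_free_unit L S' hS'fin ?_
    have h1 : (minpoly ℚ ζ).natDegree = p - 1 := by
      rw [← Polynomial.cyclotomic_eq_minpoly_rat hζ hp.pos, Polynomial.natDegree_cyclotomic,
        Nat.totient_prime hp]
    have h2 : (minpoly ℚ (⟨ζ, hLmem ζ (by rw [hV]; exact Set.mem_insert _ _)⟩ : L)).natDegree ≤
        Module.finrank ℚ L := minpoly.natDegree_le _
    have h3 : minpoly ℚ (⟨ζ, hLmem ζ (by rw [hV]; exact Set.mem_insert _ _)⟩ : L) =
        minpoly ℚ ζ := by
      rw [← minpoly.algebraMap_eq (algebraMap L ℂ).injective]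
      rfl
    rw [h3, h1] at h2
    omega

end Vale.Agent.P002R
end
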