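import Mathlib
import Vale.Agent.P002.Bdl.B11
import Vale.Agent.P002.Bdl.B9
import Vale.Agent.P002.Bdl.B1
import Vale.Agent.P002.Bdl.B2
import Vale.Agent.P002.Bdl.B8
import Vale.Agent.P002.Bdl.B7
import Vale.Agent.P002.Bdl.B3

set_option linter.all false

section

/-!
# P002 PART III': existence of generic points on a fibre of a submersion
-/

namespace Vale.Agent.P002

open Matrix Module

variable {r : ℕ}

section normed

open scoped Matrix.Norms.Operator

/-- If `f` is approximated by a linear isomorphism then its derivative is injective nearby. -/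
theorem injective_of_approx {E F : Type*} [NormedAddCommGroup E] [NormedSpace ℂ E]
    [NormedAddCommGroup F] [NormedSpace ℂ F] {f : E → F} (A : E ≃L[ℂ] F) {s : Set E}
    {c : NNReal} (hf : ApproximatesLinearOn f (A : E →L[ℂ] F) s c)
    (hc : (c : ℝ) * ‖(A.symm : F →L[ℂ] E)‖ < 1) {p : E} (hs : s ∈ nhds p) {f' : E →L[ℂ] F}
    (hf' : HasFDerivAt f f' p) (u : E) (hu : f' u = 0) : u = 0 := by
  have h1 : HasFDerivAt (f - ⇑(A : E →L[ℂ] F)) (f' - (A : E →L[ℂ] F)) p :=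
    hf'.sub (A : E →L[ℂ] F).hasFDerivAt
  have h2 : ‖f' - (A : E →L[ℂ] F)‖ ≤ c := h1.le_of_lipschitzOn hs hf.lipschitzOnWith
  have h3 : ‖A u‖ ≤ c * ‖u‖ := by
    have h4 : (f' - (A : E →L[ℂ] F)) u = - A u := by
      rw [_root_.sub_apply, hu, zero_sub]
      rfl
    calc ‖A u‖ = ‖(f' - (A : E →L[ℂ] F)) u‖ := by rw [h4, norm_neg]
      _ ≤ ‖f' - (A : E →L[ℂ] F)‖ * ‖u‖ := ContinuousLinearMap.le_opNorm _ _
      _ ≤ c * ‖u‖ := by gcongr
  have h5 : ‖u‖ ≤ ‖(A.symm : F →L[ℂ] E)‖ * ‖A u‖ := by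
    have h6 := (A.symm : F →L[ℂ] E).le_opNorm (A u)
    have h7 : (A.symm : F →L[ℂ] E) (A u) = u := A.symm_apply_apply u
    rw [h7] at h6
    exact h6
  by_contra hne
  have hpos : 0 < ‖u‖ := norm_pos_iff.2 hne
  have h8 : ‖u‖ ≤ (c * ‖(A.symm : F →L[ℂ] E)‖) * ‖u‖ := by
    calc ‖u‖ ≤ ‖(A.symm : F →L[ℂ] E)‖ * ‖A u‖ := h5
      _ ≤ ‖(A.symm : F →L[ℂ] E)‖ * (c * ‖u‖) := by gcongr
      _ = _ := by ring
  nlinarith

theorem exists_approx {E F : Type*} [NormedAddCommGroup E] [NormedSpace ℂ E]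
    [NormedAddCommGroup F] [NormedSpace ℂ F] {f : E → F} (A : E ≃L[ℂ] F) {p : E}
    (hf : HasStrictFDerivAt f (A : E →L[ℂ] F) p) :
    ∃ s ∈ nhds p, ∀ q, s ∈ nhds q → ∀ f' : E →L[ℂ] F, HasFDerivAt f f' q →
      ∀ u, f' u = 0 → u = 0 := by
  obtain ⟨c, hc0, hc1⟩ : ∃ c : NNReal, 0 < c ∧ (c : ℝ) * ‖(A.symm : F →L[ℂ] E)‖ < 1 := by
    refine ⟨Real.toNNReal (1 / (2 * (‖(A.symm : F →L[ℂ] E)‖ + 1))),
      Real.toNNReal_pos.2 (by positivity), ?_⟩
    rw [Real.coe_toNNReal _ (by positivity)]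
    have h0 : 0 ≤ ‖(A.symm : F →L[ℂ] E)‖ := norm_nonneg _
    rw [div_mul_eq_mul_div, one_mul, div_lt_one (by positivity)]
    linarith
  obtain ⟨s, hs, hA⟩ := hf.approximates_deriv_on_nhds (Or.inr hc0)
  exact ⟨s, hs, fun q hq f' hf' u hu => injective_of_approx A hA hc1 hq hf' u hu⟩

/-- Existence of generic points. -/
theorem exists_generic_point_norm {G : Type} [Fintype G] [DecidableEq G] (hr : 1 ≤ r)
    (K₀ : Subfield ℂ) (hK₀ : Countable K₀) (Φ : (G → Mat r ℂ) → Mat r ℂ)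
    (hΦ : ∀ Y : G → Mat r ℂ, (∀ k, IsUnit (Y k)) → ∃ D : (G → Mat r ℂ) →L[ℂ] Mat r ℂ,
      HasStrictFDerivAt Φ D Y ∧ ∀ δ : Derivation ℤ ℂ ℂ, (∀ c ∈ K₀, δ c = 0) →
        (Φ Y).map δ = D fun k => (Y k).map δ)
    (hdet : ∀ Y : G → Mat r ℂ, (∀ k, IsUnit (Y k)) → (Φ Y).det = 1)
    (X : G → Mat r ℂ) (hX : ∀ k, IsUnit (X k)) (hΦX : Φ X = 1)
    (hdual : ∀ D : (G → Mat r ℂ) →L[ℂ] Mat r ℂ, HasStrictFDerivAt Φ D X →
      ∀ N : Mat r ℂ, (∀ H, trace (N * D H) = 0) → ∃ c : ℂ, N = c • (1 : Mat r ℂ))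
    (U : Set (G → Mat r ℂ)) (hU : U ∈ nhds X) :
    ∃ Y ∈ U, (∀ k, IsUnit (Y k)) ∧ Φ Y = 1 ∧ ∃ c : Fin r × Fin r → ℂ,
      ∀ D : (G → Mat r ℂ) →L[ℂ] Mat r ℂ, HasStrictFDerivAt Φ D Y →
        ∀ H : G → Mat r ℂ, D H = 0 → ∀ γ : Fin r × Fin r → ℂ,
          ∃ δ : Derivation ℤ ℂ ℂ, (∀ k i j, δ (Y k i j) = H k i j) ∧ ∀ p, δ (c p) = γ p := by
  have hr0 : 0 < r := hr
  -- the derivative of `c • Φ Y`
  have hder : ∀ (Y : G → Mat r ℂ) (c : ℂ) (D : (G → Mat r ℂ) →L[ℂ] Mat r ℂ),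
      HasStrictFDerivAt Φ D Y → ∃ D' : ((G → Mat r ℂ) × ℂ) →L[ℂ] Mat r ℂ,
        HasStrictFDerivAt (fun p : (G → Mat r ℂ) × ℂ => p.2 • Φ p.1) D' (Y, c) ∧
          ∀ H γ, D' (H, γ) = c • D H + γ • Φ Y := by
    intro Y c D hD
    have hfst : HasStrictFDerivAt (fun p : (G → Mat r ℂ) × ℂ => Φ p.1)
        (D.comp (ContinuousLinearMap.fst ℂ (G → Mat r ℂ) ℂ)) (Y, c) :=
      HasStrictFDerivAt.comp (Y, c) hD
        (ContinuousLinearMap.fst ℂ (G → Mat r ℂ) ℂ).hasStrictFDerivAt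
    have hsnd : HasStrictFDerivAt (fun p : (G → Mat r ℂ) × ℂ => p.2)
        (ContinuousLinearMap.snd ℂ (G → Mat r ℂ) ℂ) (Y, c) :=
      (ContinuousLinearMap.snd ℂ (G → Mat r ℂ) ℂ).hasStrictFDerivAt
    exact ⟨_, hsnd.smul hfst, fun H γ => rfl⟩
  obtain ⟨D₀, hD₀, -⟩ := hΦ X hX
  obtain ⟨D, hD, hDe⟩ := hder X 1 D₀ hD₀
  have hDe' : ∀ H γ, D (H, γ) = D₀ H + γ • (1 : Mat r ℂ) := fun H γ => by
    rw [hDe, one_smul, hΦX]
  have hsurj : ∀ M, ∃ p, D p = M := by
    have h1 : D.range = ⊤ := by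
      by_contra hne
      obtain ⟨φ, hφ, hle⟩ := Submodule.exists_le_ker_of_lt_top _ (lt_top_iff_ne_top.2 hne)
      obtain ⟨N, hNφ⟩ := exists_trace_repr φ
      have h0 : ∀ p, trace (N * D p) = 0 := fun p => by
        have := hle (LinearMap.mem_range_self D.toLinearMap p)
        rw [LinearMap.mem_ker, hNφ] at this
        exact this
      have h1 : ∀ H, trace (N * D₀ H) = 0 := fun H => by
        have := h0 (H, 0)
        rw [hDe', zero_smul, add_zero] at this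
        exact this
      obtain ⟨c, hcN⟩ := hdual D₀ hD₀ N h1
      have h2 : trace N = 0 := by
        have := h0 (0, 1)
        rw [hDe', map_zero, one_smul, zero_add, Matrix.mul_one] at this
        exact this
      rw [hcN, trace_smul, trace_one, smul_eq_mul, Fintype.card_fin] at h2
      have hc0 : c = 0 := by
        rcases mul_eq_zero.1 h2 with h | h
        · exact h
        · exact absurd (Nat.cast_eq_zero.1 h) hr0.ne'
      rw [hc0, zero_smul] at hcN
      apply hφ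
      ext1 M
      rw [hNφ, hcN, Matrix.zero_mul, trace_zero, LinearMap.zero_apply]
    intro M
    have h2 : M ∈ D.range := h1 ▸ Submodule.mem_top
    exact h2
  -- coordinates
  obtain ⟨e, he⟩ : ∃ e : (G × Fin r × Fin r) → ((G → Mat r ℂ) × ℂ) →ₗ[ℂ] ℂ,
      ∀ a p, e a p = p.1 a.1 a.2.1 a.2.2 :=
    ⟨fun a => (Matrix.entryLinearMap ℂ ℂ a.2.1 a.2.2 : Mat r ℂ →ₗ[ℂ] ℂ).comp
      ((LinearMap.proj a.1).comp (LinearMap.fst ℂ (G → Mat r ℂ) ℂ)), fun a p => rfl⟩
  obtain ⟨I, hI1, hI2⟩ := exists_coords e (LinearMap.ker D.toLinearMap) (by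
    rintro ⟨H, γ⟩ hz h
    have h1 : H = 0 := by
      funext k
      ext i j
      have := h (k, i, j)
      rw [he] at this
      exact this
    have h2 : D (H, γ) = 0 := hz
    rw [hDe', h1, map_zero, zero_add] at h2
    have h3 : γ = 0 := by
      have := congrFun (congrFun h2 ⟨0, hr0⟩) ⟨0, hr0⟩
      simpa using this
    rw [h1, h3]
    rfl)
  -- the local diffeomorphism
  obtain ⟨eI, heI⟩ : ∃ eI : ((G → Mat r ℂ) × ℂ) →L[ℂ] (I → ℂ), ∀ p a, eI p a = e a p :=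
    ⟨LinearMap.toContinuousLinearMap (LinearMap.pi fun a : I => e a), fun p a => rfl⟩
  have hbij : Function.Bijective (D.prod eI) := by
    constructor
    · rw [injective_iff_map_eq_zero]
      intro z hz
      have h1 : D z = 0 := congrArg Prod.fst hz
      have h2 : eI z = 0 := congrArg Prod.snd hz
      refine hI1 z h1 fun i hi => ?_
      rw [← heI z ⟨i, hi⟩, h2]
      rfl
    · rintro ⟨M, a⟩
      obtain ⟨p, hp⟩ := hsurj M
      obtain ⟨z, hz, hz'⟩ := hI2 fun i => if h : i ∈ I then a ⟨i, h⟩ - e i p else 0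
      have hz0 : D z = 0 := hz
      refine ⟨p + z, Prod.ext ?_ ?_⟩
      · show D (p + z) = M
        rw [map_add, hp, hz0, add_zero]
      · show eI (p + z) = a
        funext i
        rw [map_add, Pi.add_apply, heI, heI, hz' i i.2, dif_pos i.2]
        ring
  obtain ⟨A, hA⟩ : ∃ A : ((G → Mat r ℂ) × ℂ) ≃L[ℂ] (Mat r ℂ × (I → ℂ)),
      (A : ((G → Mat r ℂ) × ℂ) →L[ℂ] (Mat r ℂ × (I → ℂ))) = D.prod eI := by
    refine ⟨(LinearEquiv.ofBijective (D.prod eI).toLinearMap hbij).toContinuousLinearEquiv, ?_⟩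
    ext p <;> rfl
  have hΨ : HasStrictFDerivAt (fun p : (G → Mat r ℂ) × ℂ => (p.2 • Φ p.1, eI p))
      (A : ((G → Mat r ℂ) × ℂ) →L[ℂ] (Mat r ℂ × (I → ℂ))) (X, (1 : ℂ)) := by
    rw [hA]
    exact hD.prodMk eI.hasStrictFDerivAt
  obtain ⟨s, hs, hsinj⟩ := exists_approx A hΨ
  have hmap := hΨ.map_nhds_eq_of_equiv
  -- the neighbourhood
  have hUn : {Y : G → Mat r ℂ | ∀ k, IsUnit (Y k)} ∈ nhds X := by
    have : {Y : G → Mat r ℂ | ∀ k, IsUnit (Y k)} =
        ⋂ k, {Y : G → Mat r ℂ | (Y k).det ≠ 0} := by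
      ext Y
      simp only [Set.mem_ofPred_eq, Set.mem_iInter]
      exact forall_congr' fun k => by rw [Matrix.isUnit_iff_isUnit_det, isUnit_iff_ne_zero]
    rw [this]
    refine (isOpen_iInter_of_finite fun k => ?_).mem_nhds ?_
    · exact isOpen_ne.preimage (Continuous.matrix_det (continuous_apply k))
    · simp only [Set.mem_iInter, Set.mem_ofPred_eq]
      intro k
      rw [← isUnit_iff_ne_zero, ← Matrix.isUnit_iff_isUnit_det]
      exact hX k
  have hCn : {c : ℂ | c ^ r = 1 → c = 1} ∈ nhds (1 : ℂ) := by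
    have hfin : ({c : ℂ | c ^ r = 1 ∧ c ≠ 1}).Finite := by
      refine (Multiset.finite_toSet (Polynomial.nthRoots r (1 : ℂ))).subset ?_
      rintro c ⟨h1, -⟩
      exact (Polynomial.mem_nthRoots hr0).2 h1
    have h1 : {c : ℂ | c ^ r = 1 → c = 1} = {c : ℂ | c ^ r = 1 ∧ c ≠ 1}ᶜ := by
      ext c
      simp only [Set.mem_ofPred_eq, Set.mem_compl_iff, not_and, not_not]
    rw [h1]
    refine hfin.isClosed.isOpen_compl.mem_nhds ?_
    simp
  have hprod : (U ∩ {Y : G → Mat r ℂ | ∀ k, IsUnit (Y k)}) ×ˢ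
      {c : ℂ | c ^ r = 1 → c = 1} ∈ nhds (X, (1 : ℂ)) :=
    prod_mem_nhds (Filter.inter_mem hU hUn) hCn
  have hall : ((U ∩ {Y : G → Mat r ℂ | ∀ k, IsUnit (Y k)}) ×ˢ
      {c : ℂ | c ^ r = 1 → c = 1}) ∩ interior s ∈ nhds (X, (1 : ℂ)) :=
    Filter.inter_mem hprod (interior_mem_nhds.2 hs)
  have himg := hmap.ge (Filter.image_mem_map (m := fun p : (G → Mat r ℂ) × ℂ =>
    (p.2 • Φ p.1, eI p)) hall)
  have hbase : ((X, (1 : ℂ)).2 • Φ (X, (1 : ℂ)).1, eI (X, (1 : ℂ))) =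
      ((1 : Mat r ℂ), eI (X, (1 : ℂ))) := by
    simp only [one_smul, hΦX]
  rw [hbase, nhds_prod_eq] at himg
  obtain ⟨V₁, hV₁, V₂, hV₂, hV⟩ := Filter.mem_prod_iff.1 himg
  obtain ⟨ε, hε, hball⟩ := Metric.mem_nhds_iff.1 hV₂
  -- algebraically independent coordinates
  obtain ⟨tc, htV, htind⟩ := exists_dense_algIndep K₀ hK₀
    (ι := I ⊕ (Fin r × Fin r))
    (fun a => Sum.elim (fun a : I => Metric.ball (eI (X, (1 : ℂ)) a) ε) (fun _ => Set.univ) a)
    (fun a => by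
      cases a with
      | inl a => exact Metric.isOpen_ball
      | inr a => exact isOpen_univ)
    (fun a => by
      cases a with
      | inl a => exact Metric.nonempty_ball.2 hε
      | inr a => exact Set.univ_nonempty)
  have htmem : (fun a : I => tc (Sum.inl a)) ∈ V₂ := by
    refine hball ?_
    rw [Metric.mem_ball, dist_pi_lt_iff hε]
    intro a
    exact htV (Sum.inl a)
  obtain ⟨⟨Y, c₁⟩, ⟨⟨⟨hYU, hYn⟩, hc₁⟩, hYs⟩, hYeq⟩ := hV (Set.mk_mem_prod
    (mem_of_mem_nhds hV₁) htmem)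
  have hY1 : c₁ • Φ Y = 1 := congrArg Prod.fst hYeq
  have hY2 : eI (Y, c₁) = fun a : I => tc (Sum.inl a) := congrArg Prod.snd hYeq
  have hc1 : c₁ = 1 := by
    apply hc₁
    have h1 := congrArg Matrix.det hY1
    rw [det_smul, hdet Y hYn, mul_one, det_one, Fintype.card_fin] at h1
    exact h1
  rw [hc1] at hY1 hY2 hYs
  rw [one_smul] at hY1
  refine ⟨Y, hYU, hYn, hY1, fun p => tc (Sum.inr p), fun D₁ hD₁ H hH γ => ?_⟩
  obtain ⟨δ, hδ0, hδ⟩ := exists_derivation K₀ tc htind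
    (fun a => Sum.elim (fun a : I => H a.1.1 a.1.2.1 a.1.2.2) γ a)
  refine ⟨δ, ?_, fun p => hδ (Sum.inr p)⟩
  obtain ⟨D₂, hD₂, hD₂δ⟩ := hΦ Y hYn
  have hDD : D₂ = D₁ := hD₂.hasFDerivAt.unique hD₁.hasFDerivAt
  have h1 : D₁ (fun k => (Y k).map δ) = 0 := by
    rw [← hDD, ← hD₂δ δ hδ0, hY1]
    ext i j
    rw [Matrix.map_apply, Matrix.one_apply]
    split_ifs
    · simp
    · simp
  obtain ⟨D₃, hD₃, hD₃e⟩ := hder Y 1 D₁ hD₁
  have h2 : ((fun k => (Y k).map δ) - H, (0 : ℂ)) = 0 := by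
    refine hsinj (Y, (1 : ℂ)) (mem_interior_iff_mem_nhds.1 hYs) (D₃.prod eI)
      (hD₃.prodMk eI.hasStrictFDerivAt).hasFDerivAt _ ?_
    refine Prod.ext ?_ ?_
    · show D₃ ((fun k => (Y k).map δ) - H, (0 : ℂ)) = 0
      rw [hD₃e, map_sub, h1, hH, sub_zero, smul_zero, zero_smul, add_zero]
    · show eI ((fun k => (Y k).map δ) - H, (0 : ℂ)) = 0
      funext a
      have h3 : Y a.1.1 a.1.2.1 a.1.2.2 = tc (Sum.inl a) := by
        have := congrFun hY2 a
        rw [heI, he] at this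
        exact this
      have h4 := hδ (Sum.inl a)
      rw [heI, he]
      show δ (Y a.1.1 a.1.2.1 a.1.2.2) - H a.1.1 a.1.2.1 a.1.2.2 = 0
      rw [h3, h4]
      exact sub_self _
  have h3 : (fun k => (Y k).map δ) - H = 0 := congrArg Prod.fst h2
  intro k i j
  have h4 := congrFun (congrFun (congrFun (sub_eq_zero.1 h3) k) i) j
  exact h4

end normed

end Vale.Agent.P002
end

section

/-!
# P002 PART III': annihilators, products of good functions, two handles
-/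

namespace Vale.Agent.P002

open Matrix Module

variable {r : ℕ}

/-- The orthogonal complement for the trace form. -/
def annT (R : Submodule ℂ (Mat r ℂ)) : Submodule ℂ (Mat r ℂ) where
  carrier := {N | ∀ M ∈ R, trace (N * M) = 0}
  add_mem' := fun {a b} ha hb M hM => by rw [Matrix.add_mul, trace_add, ha M hM, hb M hM, add_zero]
  zero_mem' := fun M _ => by rw [Matrix.zero_mul, trace_zero]
  smul_mem' := fun c a ha M hM => by rw [Matrix.smul_mul, trace_smul, ha M hM, smul_zero]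

theorem mem_annT {R : Submodule ℂ (Mat r ℂ)} {N : Mat r ℂ} :
    N ∈ annT R ↔ ∀ M ∈ R, trace (N * M) = 0 := Iff.rfl

theorem finrank_annT (R : Submodule ℂ (Mat r ℂ)) :
    finrank ℂ R + finrank ℂ (annT R) = r * r := by
  have h1 := Subspace.finrank_add_finrank_dualAnnihilator_eq R
  obtain ⟨T, hT⟩ : ∃ T : Mat r ℂ →ₗ[ℂ] Module.Dual ℂ (Mat r ℂ), ∀ N M, T N M = trace (N * M) :=
    ⟨{ toFun := fun N => (Matrix.traceLinearMap (Fin r) ℂ ℂ).comp (LinearMap.mulLeft ℂ N)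
       map_add' := fun N N' => by
        ext M
        simp [Matrix.add_mul]
       map_smul' := fun c N => by
        ext M
        simp }, fun N M => rfl⟩
  have hinj : Function.Injective T := fun N N' h =>
    eq_of_trace_eq fun H => by rw [← hT, ← hT, h]
  have h2 : (annT R).map T = R.dualAnnihilator := by
    ext φ
    rw [Submodule.mem_map, Submodule.mem_dualAnnihilator]
    constructor
    · rintro ⟨N, hN, rfl⟩ M hM
      rw [hT]; exact hN M hM
    · intro h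
      obtain ⟨N, hN⟩ := exists_trace_repr φ
      exact ⟨N, fun M hM => by rw [← hN]; exact h M hM, LinearMap.ext fun M => by rw [hT, hN]⟩
  have h3 := finrank_map_inj T hinj (annT R)
  rw [h2] at h3
  rw [h3] at h1
  rw [h1, Module.finrank_matrix, Fintype.card_fin, Module.finrank_self, mul_one]

section normed

open scoped Matrix.Norms.Operator

/-- The determinant is an obstruction to surjectivity. -/
theorem range_ne_top {E : Type*} [NormedAddCommGroup E] [NormedSpace ℂ E] [CompleteSpace E]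
    (hr : 1 ≤ r) {Φ : E → Mat r ℂ} {Y : E} {D : E →L[ℂ] Mat r ℂ} (hD : HasStrictFDerivAt Φ D Y)
    (hdet : ∀ᶠ Y' in nhds Y, (Φ Y').det = 1) : D.range ≠ ⊤ := by
  intro htop
  have hr0 : 0 < r := hr
  have hmap := hD.map_nhds_eq_of_surj htop
  have h1 : {M : Mat r ℂ | M.det = 1} ∈ nhds (Φ Y) := hmap.ge hdet
  have hY : (Φ Y).det = 1 := mem_of_mem_nhds (s := {M : Mat r ℂ | M.det = 1}) h1
  have hcont : Continuous fun c : ℂ => c • Φ Y := continuous_id.smul continuous_const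
  have h2 : (fun c : ℂ => c • Φ Y) ⁻¹' {M : Mat r ℂ | M.det = 1} ∈ nhds (1 : ℂ) := by
    apply hcont.continuousAt
    have h0 : (1 : ℂ) • Φ Y = Φ Y := one_smul _ _
    show {M : Mat r ℂ | M.det = 1} ∈ nhds ((1 : ℂ) • Φ Y)
    rw [h0]
    exact h1
  have hCn : {c : ℂ | c ^ r = 1 → c = 1} ∈ nhds (1 : ℂ) := by
    have hfin : ({c : ℂ | c ^ r = 1 ∧ c ≠ 1}).Finite := by
      refine (Multiset.finite_toSet (Polynomial.nthRoots r (1 : ℂ))).subset ?_
      rintro c ⟨h1, -⟩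
      exact (Polynomial.mem_nthRoots hr0).2 h1
    have h1 : {c : ℂ | c ^ r = 1 → c = 1} = {c : ℂ | c ^ r = 1 ∧ c ≠ 1}ᶜ := by
      ext c
      simp only [Set.mem_ofPred_eq, Set.mem_compl_iff, not_and, not_not]
    rw [h1]
    refine hfin.isClosed.isOpen_compl.mem_nhds ?_
    simp
  have h3 : ({1} : Set ℂ) ∈ nhds (1 : ℂ) := by
    filter_upwards [h2, hCn] with c hc1 hc2
    have h4 : (c • Φ Y).det = 1 := hc1
    rw [det_smul, hY, mul_one, Fintype.card_fin] at h4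
    exact hc2 h4
  have h4 : (nhdsWithin (1 : ℂ) {1}ᶜ).NeBot := inferInstance
  have h5 : nhdsWithin (1 : ℂ) {1}ᶜ = ⊥ := by
    rw [← Filter.empty_mem_iff_bot]
    have h7 : ({1} : Set ℂ) ∈ nhdsWithin (1 : ℂ) {1}ᶜ := mem_nhdsWithin_of_mem_nhds h3
    have h6 := Filter.inter_mem h7 self_mem_nhdsWithin
    rw [Set.inter_compl_self] at h6
    exact h6
  exact h4.ne h5

/-- Functions which are strictly differentiable, compatibly with derivations over `K₀`. -/
def GoodG {G : Type} [Fintype G] (K₀ : Subfield ℂ) (f : (G → Mat r ℂ) → Mat r ℂ)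
    (Y : G → Mat r ℂ) : Prop :=
  ∃ D : (G → Mat r ℂ) →L[ℂ] Mat r ℂ, HasStrictFDerivAt f D Y ∧
    ∀ δ : Derivation ℤ ℂ ℂ, (∀ c ∈ K₀, δ c = 0) → (f Y).map δ = D fun k => (Y k).map δ

variable {G : Type} [Fintype G] {K₀ : Subfield ℂ} {f h : (G → Mat r ℂ) → Mat r ℂ}
  {Y : G → Mat r ℂ}

theorem GoodG.mul (hf : GoodG K₀ f Y) (hh : GoodG K₀ h Y) : GoodG K₀ (fun Y => f Y * h Y) Y := by
  obtain ⟨D, hD, hδ⟩ := hf
  obtain ⟨D', hD', hδ'⟩ := hh
  obtain ⟨D'', hD'', he⟩ := exists_deriv_mul hD hD'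
  refine ⟨D'', hD'', fun δ hδ0 => ?_⟩
  have h1 : (f Y * h Y).map δ = D (fun k => (Y k).map δ) * h Y +
      f Y * D' (fun k => (Y k).map δ) := by
    rw [map_der_mul, hδ δ hδ0, hδ' δ hδ0]
  exact h1.trans (he _).symm

theorem GoodG.inv (hf : GoodG K₀ f Y) (hu : IsUnit (f Y)) : GoodG K₀ (fun Y => (f Y)⁻¹) Y := by
  obtain ⟨D, hD, hδ⟩ := hf
  obtain ⟨D'', hD'', he⟩ := exists_deriv_inv hD hu
  refine ⟨D'', hD'', fun δ hδ0 => ?_⟩
  refine Eq.trans ?_ ((congrArg (fun M : Mat r ℂ => -((f Y)⁻¹ * M * (f Y)⁻¹))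
    (hδ δ hδ0)).trans (he _).symm)
  have hud : IsUnit (f Y).det := (Matrix.isUnit_iff_isUnit_det _).1 hu
  have h1 : f Y * (f Y)⁻¹ = 1 := Matrix.mul_nonsing_inv _ hud
  have h2 : (f Y)⁻¹ * f Y = 1 := Matrix.nonsing_inv_mul _ hud
  have h3 := congrArg (fun M : Mat r ℂ => M.map δ) h1
  simp only [map_der_mul] at h3
  have h4 : (1 : Mat r ℂ).map δ = 0 := by
    ext i j
    rw [Matrix.map_apply, Matrix.one_apply]
    split_ifs <;> simp
  rw [h4] at h3
  have h5 : f Y * (f Y)⁻¹.map δ = -((f Y).map δ * (f Y)⁻¹) := by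
    rw [eq_neg_iff_add_eq_zero, add_comm]; exact h3
  calc (f Y)⁻¹.map δ = (f Y)⁻¹ * (f Y * (f Y)⁻¹.map δ) := by
        rw [← Matrix.mul_assoc, h2, Matrix.one_mul]
    _ = -((f Y)⁻¹ * (f Y).map δ * (f Y)⁻¹) := by
        rw [h5, Matrix.mul_neg, Matrix.mul_assoc]

theorem GoodG.proj (k : G) : GoodG K₀ (fun Y : G → Mat r ℂ => Y k) Y :=
  ⟨ContinuousLinearMap.proj k, (ContinuousLinearMap.proj k :
    (G → Mat r ℂ) →L[ℂ] Mat r ℂ).hasStrictFDerivAt, fun _ _ => rfl⟩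

theorem GoodG.const {J : Mat r ℂ} (hJ : ∀ i j, J i j ∈ K₀) :
    GoodG K₀ (fun _ : G → Mat r ℂ => J) Y := by
  refine ⟨0, hasStrictFDerivAt_const _ _, fun δ hδ => ?_⟩
  ext i j
  exact hδ _ (hJ i j)

theorem GoodG.list_prod {β : Type*} (F : β → (G → Mat r ℂ) → Mat r ℂ) (l : List β)
    (hF : ∀ b ∈ l, GoodG K₀ (F b) Y) : GoodG K₀ (fun Y => (l.map fun b => F b Y).prod) Y := by
  induction l with
  | nil =>
    simp only [List.map_nil, List.prod_nil]
    refine GoodG.const fun i j => ?_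
    rw [Matrix.one_apply]
    split_ifs
    · exact K₀.one_mem
    · exact K₀.zero_mem
  | cons b l ih =>
    simp only [List.map_cons, List.prod_cons]
    exact (hF b List.mem_cons_self).mul (ih fun b' hb' => hF b' (List.mem_cons_of_mem _ hb'))

end normed

end Vale.Agent.P002
end

section

/-!
# P002R TASK N7: near every irreducible point there are points all of whose handles have scalar
commutant
-/

namespace Vale.Agent.P002R

open Matrix Module Vale.Agent.P002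

variable {g n r : ℕ}

/-- Variables: handles and framings. -/
abbrev Var (g n : ℕ) := (Fin g × Bool) ⊕ Fin n

/-- Extension by the fixed matrices `J`. -/
def extV (J : Fin n → P002R.Mat r ℂ) (Y : Var g n → P002R.Mat r ℂ) : Gen g n → P002R.Mat r ℂ
  | Sum.inl k => Y (Sum.inl k)
  | Sum.inr (j, false) => Y (Sum.inr j)
  | Sum.inr (j, true) => J j

/-- The blocks of the relation. -/
noncomputable def bv (J : Fin n → P002R.Mat r ℂ) (b : Fin n ⊕ Fin g)
    (Y : Var g n → P002R.Mat r ℂ) : P002R.Mat r ℂ :=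
  match b with
  | Sum.inl j => Y (Sum.inr j) * J j * (Y (Sum.inr j))⁻¹
  | Sum.inr i => cm (Y (Sum.inl (i, false))) (Y (Sum.inl (i, true)))

/-- The list of the blocks. -/
def bl (g n : ℕ) : List (Fin n ⊕ Fin g) :=
  (List.finRange n).map Sum.inl ++ (List.finRange g).map Sum.inr

theorem nodup_bl : (bl g n).Nodup := by
  unfold bl
  rw [List.nodup_append]
  refine ⟨(List.nodup_finRange n).map Sum.inl_injective,
    (List.nodup_finRange g).map Sum.inr_injective, ?_⟩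
  intro a ha b hb hab
  rw [List.mem_map] at ha hb
  obtain ⟨x, -, rfl⟩ := ha
  obtain ⟨y, -, rfl⟩ := hb
  cases hab

theorem mem_bl (b : Fin n ⊕ Fin g) : b ∈ bl g n := by
  unfold bl
  rw [List.mem_append]
  cases b with
  | inl j => exact Or.inl (List.mem_map_of_mem (List.mem_finRange j))
  | inr i => exact Or.inr (List.mem_map_of_mem (List.mem_finRange i))

theorem relM_extV (J : Fin n → P002R.Mat r ℂ) (Y : Var g n → P002R.Mat r ℂ) :
    relM (extV J Y) = ((bl g n).map fun b => bv J b Y).prod := by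
  unfold relM bl
  rw [List.map_append, List.prod_append, List.map_map, List.map_map, List.ofFn_eq_map,
    List.ofFn_eq_map]
  rfl

/-- The block of a variable. -/
def blkOf : Var g n → Fin n ⊕ Fin g
  | Sum.inl (i, _) => Sum.inr i
  | Sum.inr j => Sum.inl j

theorem bv_congr (J : Fin n → P002R.Mat r ℂ) (b : Fin n ⊕ Fin g) {Y Y' : Var g n → P002R.Mat r ℂ}
    (h : ∀ k, blkOf k = b → Y k = Y' k) : bv J b Y = bv J b Y' := by
  cases b with
  | inl j => unfold bv; simp only; rw [h (Sum.inr j) rfl]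
  | inr i => unfold bv; simp only; rw [h (Sum.inl (i, false)) rfl, h (Sum.inl (i, true)) rfl]

/-- Restriction to the variables of a block. -/
def prj (b : Fin n ⊕ Fin g) : (Var g n → P002R.Mat r ℂ) →ₗ[ℂ] (Var g n → P002R.Mat r ℂ) where
  toFun H k := if blkOf k = b then H k else 0
  map_add' H H' := by
    funext k
    simp only [Pi.add_apply]
    split_ifs
    · rfl
    · rw [add_zero]
  map_smul' c H := by
    funext k
    simp only [Pi.smul_apply, RingHom.id_apply]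
    split_ifs
    · rfl
    · rw [smul_zero]

theorem prj_apply (b : Fin n ⊕ Fin g) (H : Var g n → P002R.Mat r ℂ) (k : Var g n) :
    prj b H k = if blkOf k = b then H k else 0 := rfl

theorem isUnit_bv {J : Fin n → P002R.Mat r ℂ} (hJ : ∀ j, IsUnit (J j)) (b : Fin n ⊕ Fin g)
    {Y : Var g n → P002R.Mat r ℂ} (hY : ∀ k, IsUnit (Y k)) : IsUnit (bv J b Y) := by
  cases b with
  | inl j => exact ((hY _).mul (hJ j)).mul (Matrix.isUnit_nonsing_inv_iff.2 (hY _))
  | inr i => exact isUnit_cm (hY _) (hY _)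

theorem isUnit_prod {J : Fin n → P002R.Mat r ℂ} (hJ : ∀ j, IsUnit (J j))
    {Y : Var g n → P002R.Mat r ℂ} (hY : ∀ k, IsUnit (Y k)) (l : List (Fin n ⊕ Fin g)) :
    IsUnit (l.map fun b => bv J b Y).prod := by
  induction l with
  | nil => simp
  | cons b l ih =>
    rw [List.map_cons, List.prod_cons]
    exact (isUnit_bv hJ b hY).mul ih

/-- The elements of a block. -/
def CommBlk (J : Fin n → P002R.Mat r ℂ) (Y : Var g n → P002R.Mat r ℂ) (b : Fin n ⊕ Fin g)
    (T : P002R.Mat r ℂ) : Prop :=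
  match b with
  | Sum.inl j => Commute T (bv J (Sum.inl j : Fin n ⊕ Fin g) Y)
  | Sum.inr i => Commute T (Y (Sum.inl (i, false))) ∧ Commute T (Y (Sum.inl (i, true)))

theorem CommBlk.comm {J : Fin n → P002R.Mat r ℂ} {Y : Var g n → P002R.Mat r ℂ}
    (hY : ∀ k, IsUnit (Y k)) {b : Fin n ⊕ Fin g} {T : P002R.Mat r ℂ} (h : CommBlk J Y b T) :
    Commute T (bv J b Y) := by
  cases b with
  | inl j => exact h
  | inr i => exact commute_cm (hY _) (hY _) h.1 h.2

section normed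

open scoped Matrix.Norms.Operator

theorem good_bv (K₀ : Subfield ℂ) {J : Fin n → P002R.Mat r ℂ} (hJK : ∀ j a b, J j a b ∈ K₀)
    (b : Fin n ⊕ Fin g) {Y : Var g n → P002R.Mat r ℂ} (hY : ∀ k, IsUnit (Y k)) :
    GoodG K₀ (bv J b) Y := by
  cases b with
  | inl j =>
    exact ((GoodG.proj _).mul (GoodG.const (hJK j))).mul (GoodG.inv (GoodG.proj _) (hY _))
  | inr i =>
    exact (((GoodG.proj _).mul (GoodG.proj _)).mul (GoodG.inv (GoodG.proj _) (hY _))).mul
      (GoodG.inv (GoodG.proj _) (hY _))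

theorem good_rel (K₀ : Subfield ℂ) {J : Fin n → P002R.Mat r ℂ} (hJK : ∀ j a b, J j a b ∈ K₀)
    {Y : Var g n → P002R.Mat r ℂ} (hY : ∀ k, IsUnit (Y k)) :
    GoodG K₀ (fun Y : Var g n → P002R.Mat r ℂ => relM (extV J Y)) Y := by
  have h1 : (fun Y : Var g n → P002R.Mat r ℂ => relM (extV J Y)) =
      fun Y => ((bl g n).map fun b => bv J b Y).prod := funext fun Y => relM_extV J Y
  rw [h1]
  exact GoodG.list_prod (fun b => bv J b) (bl g n) fun b _ => good_bv K₀ hJK b hY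

/-- The derivative of one block. -/
theorem exists_block_deriv {J : Fin n → P002R.Mat r ℂ} (b : Fin n ⊕ Fin g)
    {Y : Var g n → P002R.Mat r ℂ} (hY : ∀ k, IsUnit (Y k)) :
    ∃ D : (Var g n → P002R.Mat r ℂ) →L[ℂ] P002R.Mat r ℂ, HasStrictFDerivAt (bv J b) D Y ∧
      ∀ S : P002R.Mat r ℂ, (∀ H, trace (S * D H) = 0) → CommBlk J Y b (S * bv J b Y) := by
  have hp : ∀ k : Var g n,
      HasStrictFDerivAt (fun Y : Var g n → P002R.Mat r ℂ => Y k)
        (ContinuousLinearMap.proj k : (Var g n → P002R.Mat r ℂ) →L[ℂ] P002R.Mat r ℂ) Y :=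
    fun k => (ContinuousLinearMap.proj k :
      (Var g n → P002R.Mat r ℂ) →L[ℂ] P002R.Mat r ℂ).hasStrictFDerivAt
  cases b with
  | inl j =>
    obtain ⟨D1, h1, e1⟩ := exists_deriv_inv (hp (Sum.inr j)) (hY _)
    obtain ⟨D2, h2, e2⟩ := exists_deriv_mul (hp (Sum.inr j))
      (hasStrictFDerivAt_const (J j) Y)
    obtain ⟨D3, h3, e3⟩ := exists_deriv_mul h2 h1
    refine ⟨D3, h3, fun S hS => ?_⟩
    have hud : IsUnit (Y (Sum.inr j)).det := (Matrix.isUnit_iff_isUnit_det _).1 (hY _)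
    have a1 : Y (Sum.inr j) * (Y (Sum.inr j))⁻¹ = 1 := Matrix.mul_nonsing_inv _ hud
    have a2 : (Y (Sum.inr j))⁻¹ * Y (Sum.inr j) = 1 := Matrix.nonsing_inv_mul _ hud
    have key : J j * (Y (Sum.inr j))⁻¹ * S =
        (Y (Sum.inr j))⁻¹ * S * Y (Sum.inr j) * J j * (Y (Sum.inr j))⁻¹ := by
      refine eq_of_trace_eq fun H => ?_
      obtain ⟨Z, hZ⟩ : ∃ Z : Var g n → P002R.Mat r ℂ, ∀ k, Z (Sum.inr k) = H :=
        ⟨fun _ => H, fun _ => rfl⟩
      have eqn : D3 Z = (Z (Sum.inr j) * J j + Y (Sum.inr j) * 0) * (Y (Sum.inr j))⁻¹ +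
          Y (Sum.inr j) * J j * -((Y (Sum.inr j))⁻¹ * Z (Sum.inr j) * (Y (Sum.inr j))⁻¹) :=
        (e3 Z).trans (congrArg₂ (fun M N => M + N)
          (congrArg (fun M => M * (Y (Sum.inr j))⁻¹) (e2 Z))
          (congrArg (fun M => Y (Sum.inr j) * J j * M) (e1 Z)))
      have h0 := (congrArg (fun M => trace (S * M)) eqn).symm.trans (hS Z)
      simp only [hZ] at h0
      have e : S * ((H * J j + Y (Sum.inr j) * 0) * (Y (Sum.inr j))⁻¹ +
          Y (Sum.inr j) * J j * -((Y (Sum.inr j))⁻¹ * H * (Y (Sum.inr j))⁻¹)) =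
          (S * H) * (J j * (Y (Sum.inr j))⁻¹) -
            (S * Y (Sum.inr j) * J j * (Y (Sum.inr j))⁻¹ * H) * (Y (Sum.inr j))⁻¹ := by
        noncomm_ring
      rw [e, trace_sub, Matrix.trace_mul_comm (S * H),
        Matrix.trace_mul_comm (S * Y (Sum.inr j) * J j * (Y (Sum.inr j))⁻¹ * H),
        sub_eq_zero] at h0
      simpa only [Matrix.mul_assoc] using h0
    have key2 : bv J (Sum.inl j : Fin n ⊕ Fin g) Y * S = S * bv J (Sum.inl j : Fin n ⊕ Fin g) Y := by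
      show Y (Sum.inr j) * J j * (Y (Sum.inr j))⁻¹ * S = S * (Y (Sum.inr j) * J j * (Y (Sum.inr j))⁻¹)
      calc Y (Sum.inr j) * J j * (Y (Sum.inr j))⁻¹ * S
          = Y (Sum.inr j) * (J j * (Y (Sum.inr j))⁻¹ * S) := by simp only [Matrix.mul_assoc]
        _ = Y (Sum.inr j) * (Y (Sum.inr j))⁻¹ * (S * (Y (Sum.inr j) * J j *
              (Y (Sum.inr j))⁻¹)) := by rw [key]; simp only [Matrix.mul_assoc]
        _ = _ := by rw [a1, Matrix.one_mul]
    show Commute (S * bv J (Sum.inl j : Fin n ⊕ Fin g) Y) (bv J (Sum.inl j : Fin n ⊕ Fin g) Y)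
    exact Commute.mul_left key2.symm (Commute.refl _)
  | inr i =>
    obtain ⟨D1, h1, e1⟩ := exists_deriv_cm (hp (Sum.inl (i, false))) (hp (Sum.inl (i, true)))
      (hY _) (hY _)
    refine ⟨D1, h1, fun S hS => ?_⟩
    refine commute_of_trace (hY _) (hY _) fun H K => ?_
    obtain ⟨Z, hZ⟩ : ∃ Z : Var g n → P002R.Mat r ℂ, Z = fun k => match k with
        | Sum.inl (_, b) => if b then K else H
        | Sum.inr _ => 0 := ⟨_, rfl⟩
    have hZ0 : Z (Sum.inl (i, false)) = H := by rw [hZ]; rfl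
    have hZ1 : Z (Sum.inl (i, true)) = K := by rw [hZ]; rfl
    have h2 : trace (S * (Z (Sum.inl (i, false)) * Y (Sum.inl (i, true)) *
        (Y (Sum.inl (i, false)))⁻¹ * (Y (Sum.inl (i, true)))⁻¹ +
        Y (Sum.inl (i, false)) * Z (Sum.inl (i, true)) * (Y (Sum.inl (i, false)))⁻¹ *
          (Y (Sum.inl (i, true)))⁻¹ -
        Y (Sum.inl (i, false)) * Y (Sum.inl (i, true)) * (Y (Sum.inl (i, false)))⁻¹ *
          Z (Sum.inl (i, false)) * (Y (Sum.inl (i, false)))⁻¹ * (Y (Sum.inl (i, true)))⁻¹ -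
        Y (Sum.inl (i, false)) * Y (Sum.inl (i, true)) * (Y (Sum.inl (i, false)))⁻¹ *
          (Y (Sum.inl (i, true)))⁻¹ * Z (Sum.inl (i, true)) * (Y (Sum.inl (i, true)))⁻¹)) = 0 :=
      (congrArg (fun M => trace (S * M)) (e1 Z)).symm.trans (hS Z)
    rw [hZ0, hZ1] at h2
    exact h2

/-- The derivative of the relation in the direction of one block. -/
theorem deriv_block {J : Fin n → P002R.Mat r ℂ} {Y : Var g n → P002R.Mat r ℂ}
    {D : (Var g n → P002R.Mat r ℂ) →L[ℂ] P002R.Mat r ℂ}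
    (hD : HasStrictFDerivAt (fun Y : Var g n → P002R.Mat r ℂ => relM (extV J Y)) D Y)
    (b : Fin n ⊕ Fin g) {Db : (Var g n → P002R.Mat r ℂ) →L[ℂ] P002R.Mat r ℂ}
    (hDb : HasStrictFDerivAt (bv J b) Db Y) (l₁ l₂ : List (Fin n ⊕ Fin g))
    (hl : bl g n = l₁ ++ b :: l₂) (H : Var g n → P002R.Mat r ℂ) :
    D (prj b H) = (l₁.map fun b => bv J b Y).prod * Db H * (l₂.map fun b => bv J b Y).prod := by
  have hnd : (l₁ ++ b :: l₂).Nodup := hl ▸ nodup_bl
  have hb1 : ∀ b' ∈ l₁, b' ≠ b := by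
    intro b' hb' h
    rw [List.nodup_append] at hnd
    exact hnd.2.2 b' hb' b List.mem_cons_self h
  have hb2 : ∀ b' ∈ l₂, b' ≠ b := by
    intro b' hb' h
    rw [List.nodup_append, List.nodup_cons] at hnd
    exact hnd.2.1.1 (h ▸ hb')
  have hprod : ∀ l : List (Fin n ⊕ Fin g), (∀ b' ∈ l, b' ≠ b) → ∀ H : Var g n → P002R.Mat r ℂ,
      (l.map fun b' => bv J b' (Y + prj b H)).prod = (l.map fun b' => bv J b' Y).prod := by
    intro l hl H
    congr 1
    refine List.map_congr_left fun b' hb' => bv_congr J b' fun k hk => ?_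
    rw [Pi.add_apply, prj_apply, if_neg, add_zero]
    rw [hk]
    exact hl b' hb'
  have hfun : ∀ H : Var g n → P002R.Mat r ℂ, relM (extV J (Y + prj b H)) =
      (l₁.map fun b => bv J b Y).prod * bv J b (Y + H) * (l₂.map fun b => bv J b Y).prod := by
    intro H
    rw [relM_extV, hl, List.map_append, List.prod_append, List.map_cons, List.prod_cons,
      hprod l₁ hb1, hprod l₂ hb2, ← Matrix.mul_assoc]
    congr 2
    refine bv_congr J b fun k hk => ?_
    rw [Pi.add_apply, Pi.add_apply, prj_apply, if_pos hk]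
  -- the derivatives
  have e1 : HasFDerivAt (fun H : Var g n → P002R.Mat r ℂ => relM (extV J (Y + prj b H)))
      (D.comp (LinearMap.toContinuousLinearMap (prj b))) 0 := by
    have hD' : HasFDerivAt (fun Y : Var g n → P002R.Mat r ℂ => relM (extV J Y)) D
        (Y + (LinearMap.toContinuousLinearMap (prj b :
          (Var g n → P002R.Mat r ℂ) →ₗ[ℂ] _)) 0) := by
      rw [map_zero, add_zero]
      exact hD.hasFDerivAt
    exact hD'.comp 0 ((LinearMap.toContinuousLinearMap (prj b :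
      (Var g n → P002R.Mat r ℂ) →ₗ[ℂ] _)).hasFDerivAt.const_add Y)
  have e2 : HasFDerivAt (fun H : Var g n → P002R.Mat r ℂ =>
      (l₁.map fun b => bv J b Y).prod * bv J b (Y + H) * (l₂.map fun b => bv J b Y).prod)
      ((ContinuousLinearMap.mulLeftRight ℂ (P002R.Mat r ℂ) (l₁.map fun b => bv J b Y).prod
        (l₂.map fun b => bv J b Y).prod).comp Db) 0 := by
    have hDb' : HasFDerivAt (bv J b) Db (Y + 0) := by
      rw [add_zero]; exact hDb.hasFDerivAt
    have h3 := hDb'.comp (0 : Var g n → P002R.Mat r ℂ) ((hasFDerivAt_id _).const_add Y)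
    exact (ContinuousLinearMap.mulLeftRight ℂ (P002R.Mat r ℂ) (l₁.map fun b => bv J b Y).prod
        (l₂.map fun b => bv J b Y).prod).hasFDerivAt.comp 0 h3
  have e3 : (fun H : Var g n → P002R.Mat r ℂ => relM (extV J (Y + prj b H))) =
      (fun H : Var g n → P002R.Mat r ℂ =>
        (l₁.map fun b => bv J b Y).prod * bv J b (Y + H) * (l₂.map fun b => bv J b Y).prod) :=
    funext hfun
  rw [e3] at e1
  have e4 := e1.unique e2
  exact congrArg (fun L : (Var g n → P002R.Mat r ℂ) →L[ℂ] P002R.Mat r ℂ => L H) e4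

/-- A matrix which is orthogonal to the image of the derivative commutes with everything. -/
theorem comm_of_orth {J : Fin n → P002R.Mat r ℂ} (hJ : ∀ j, IsUnit (J j))
    {Y : Var g n → P002R.Mat r ℂ} (hY : ∀ k, IsUnit (Y k)) (hrel : relM (extV J Y) = 1)
    {D : (Var g n → P002R.Mat r ℂ) →L[ℂ] P002R.Mat r ℂ}
    (hD : HasStrictFDerivAt (fun Y : Var g n → P002R.Mat r ℂ => relM (extV J Y)) D Y)
    (N : P002R.Mat r ℂ) (hN : ∀ H, trace (N * D H) = 0) (b : Fin n ⊕ Fin g) :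
    CommBlk J Y b N := by
  have key : ∀ l₁ l₂ : List (Fin n ⊕ Fin g), bl g n = l₁ ++ l₂ →
      Commute N (l₁.map fun b => bv J b Y).prod ∧ ∀ b ∈ l₁, CommBlk J Y b N := by
    intro l₁
    induction l₁ using List.reverseRecOn with
    | nil => exact fun l₂ _ => ⟨by simp, by simp⟩
    | append_singleton l b ih =>
      intro l₂ hl
      have hl' : bl g n = l ++ b :: l₂ := by simpa using hl
      obtain ⟨h1, h2⟩ := ih (b :: l₂) hl'
      obtain ⟨Db, hDb, hkill⟩ := exists_block_deriv b hY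
      obtain ⟨P, hP⟩ : ∃ P, P = (l.map fun b => bv J b Y).prod := ⟨_, rfl⟩
      obtain ⟨Q, hQ⟩ : ∃ Q, Q = (l₂.map fun b => bv J b Y).prod := ⟨_, rfl⟩
      have hS : ∀ H, trace (Q * N * P * Db H) = 0 := by
        intro H
        have h3 := hN (prj b H)
        rw [deriv_block hD b hDb l l₂ hl' H, ← hP, ← hQ] at h3
        rw [← h3, ← Matrix.mul_assoc, ← Matrix.mul_assoc, Matrix.trace_mul_comm _ Q]
        simp only [Matrix.mul_assoc]
      have hPFQ : P * bv J b Y * Q = 1 := by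
        rw [← hrel, relM_extV, hl', List.map_append, List.prod_append, List.map_cons,
          List.prod_cons, ← hP, ← hQ, Matrix.mul_assoc]
      have hk := hkill _ hS
      have hc := hk.comm hY
      rw [← hP] at h1
      have hPu : IsUnit P := hP ▸ isUnit_prod hJ hY l
      have hFu : IsUnit (bv J b Y) := isUnit_bv hJ b hY
      have hT : Q * N * P * bv J b Y = N := by
        have e1 : P * (bv J b Y * (Q * N * P * bv J b Y)) = P * (N * bv J b Y) := by
          calc P * (bv J b Y * (Q * N * P * bv J b Y))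
              = (P * bv J b Y * Q) * (N * P) * bv J b Y := by simp only [Matrix.mul_assoc]
            _ = P * (N * bv J b Y) := by
                rw [hPFQ, Matrix.one_mul, h1.eq, Matrix.mul_assoc]
        have e2 := hPu.mul_left_cancel e1
        rw [← hc.eq] at e2
        exact hFu.mul_right_cancel e2
      rw [hT] at hk hc
      refine ⟨?_, ?_⟩
      · rw [List.map_append, List.prod_append, ← hP]
        simp only [List.map_cons, List.map_nil, List.prod_cons, List.prod_nil, mul_one]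
        exact h1.mul_right hc
      · intro b' hb'
        rcases List.mem_append.1 hb' with h | h
        · exact h2 b' h
        · rw [List.mem_singleton] at h
          rw [h]
          exact hk
  exact (key (bl g n) [] (by simp)).2 b (mem_bl b)

end normed

/-- Variations of one handle. -/
def inc (n : ℕ) (i : Fin g) : (Bool → P002R.Mat r ℂ) →ₗ[ℂ] (Var g n → P002R.Mat r ℂ) where
  toFun u k := match k with
    | Sum.inl (i', b) => if i' = i then u b else 0
    | Sum.inr _ => 0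
  map_add' u v := by
    funext k
    rcases k with ⟨i', b⟩ | j
    · simp only [Pi.add_apply]
      split_ifs
      · rfl
      · rw [add_zero]
    · simp
  map_smul' c u := by
    funext k
    rcases k with ⟨i', b⟩ | j
    · simp only [Pi.smul_apply, RingHom.id_apply]
      split_ifs
      · rfl
      · rw [smul_zero]
    · simp

theorem inc_inl (i i' : Fin g) (b : Bool) (u : Bool → P002R.Mat r ℂ) :
    inc n i u (Sum.inl (i', b)) = if i' = i then u b else 0 := rfl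

theorem inc_inr (i : Fin g) (j : Fin n) (u : Bool → P002R.Mat r ℂ) :
    inc n i u (Sum.inr j) = 0 := rfl

theorem prj_inr (i : Fin g) (H : Var g n → P002R.Mat r ℂ) :
    prj (Sum.inr i) H = inc n i fun b => H (Sum.inl (i, b)) := by
  funext k
  rcases k with ⟨i', b⟩ | j
  · rw [prj_apply, inc_inl]
    by_cases h : i' = i
    · subst h; simp [blkOf]
    · rw [if_neg h, if_neg]
      intro h1
      exact h (Sum.inr_injective h1)
  · rw [prj_apply, inc_inr, if_neg]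
    intro h1
    cases h1

section normed

open scoped Matrix.Norms.Operator

/-- The annihilator of the image of the variations of one handle. -/
theorem finrank_ann_handle {J : Fin n → P002R.Mat r ℂ} (hJ : ∀ j, IsUnit (J j))
    {Y : Var g n → P002R.Mat r ℂ} (hY : ∀ k, IsUnit (Y k))
    {D : (Var g n → P002R.Mat r ℂ) →L[ℂ] P002R.Mat r ℂ}
    (hD : HasStrictFDerivAt (fun Y : Var g n → P002R.Mat r ℂ => relM (extV J Y)) D Y)
    (i : Fin g) (D' : (Var g n → P002R.Mat r ℂ) →ₗ[ℂ] P002R.Mat r ℂ) (hD' : ∀ H, D' H = D H) :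
    finrank ℂ (annT (LinearMap.range (D'.comp (inc n i)))) ≤
      finrank ℂ (centr fun b : Bool => Y (Sum.inl (i, b))) := by
  obtain ⟨l₁, l₂, hl⟩ := List.append_of_mem (mem_bl (n := n) (Sum.inr i : Fin n ⊕ Fin g))
  obtain ⟨Db, hDb, hkill⟩ := exists_block_deriv (J := J) (Sum.inr i : Fin n ⊕ Fin g) hY
  obtain ⟨P, hP⟩ : ∃ P, P = (l₁.map fun b => bv J b Y).prod := ⟨_, rfl⟩
  obtain ⟨Q, hQ⟩ : ∃ Q, Q = (l₂.map fun b => bv J b Y).prod := ⟨_, rfl⟩
  have hPu : IsUnit P := hP ▸ isUnit_prod hJ hY l₁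
  have hQu : IsUnit Q := hQ ▸ isUnit_prod hJ hY l₂
  have hFu : IsUnit (bv J (Sum.inr i : Fin n ⊕ Fin g) Y) := isUnit_bv hJ _ hY
  obtain ⟨Θ, hΘ⟩ : ∃ Θ : P002R.Mat r ℂ →ₗ[ℂ] P002R.Mat r ℂ,
      ∀ N, Θ N = Q * N * P * bv J (Sum.inr i : Fin n ⊕ Fin g) Y :=
    ⟨(LinearMap.mulRight ℂ (bv J (Sum.inr i : Fin n ⊕ Fin g) Y)).comp
      ((LinearMap.mulRight ℂ P).comp (LinearMap.mulLeft ℂ Q)), fun N => rfl⟩
  have hinj : Function.Injective Θ := by
    intro N N' h
    rw [hΘ, hΘ] at h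
    exact hQu.mul_left_cancel (hPu.mul_right_cancel (hFu.mul_right_cancel h))
  rw [← finrank_map_inj Θ hinj]
  refine Submodule.finrank_mono ?_
  rintro _ ⟨N, hN, rfl⟩
  have hS : ∀ H, trace (Q * N * P * Db H) = 0 := by
    intro H
    have h3 : trace (N * D (prj (Sum.inr i) H)) = 0 := by
      rw [prj_inr, ← hD']
      exact hN _ ⟨_, rfl⟩
    rw [deriv_block hD _ hDb l₁ l₂ hl H, ← hP, ← hQ] at h3
    rw [← h3, ← Matrix.mul_assoc, ← Matrix.mul_assoc, Matrix.trace_mul_comm _ Q]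
    simp only [Matrix.mul_assoc]
  have hk := hkill _ hS
  rw [hΘ]
  intro b
  cases b with
  | false => exact hk.1
  | true => exact hk.2

/-- Two handles. -/
theorem two_handles (hr : 1 ≤ r) {J : Fin n → P002R.Mat r ℂ} (hJ : ∀ j, IsUnit (J j))
    {Y : Var g n → P002R.Mat r ℂ} (hY : ∀ k, IsUnit (Y k))
    {D : (Var g n → P002R.Mat r ℂ) →L[ℂ] P002R.Mat r ℂ}
    (hD : HasStrictFDerivAt (fun Y : Var g n → P002R.Mat r ℂ => relM (extV J Y)) D Y)
    (hdet : ∀ᶠ Y' in nhds Y, (relM (extV J Y')).det = 1)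
    (i j : Fin g) (D' : (Var g n → P002R.Mat r ℂ) →ₗ[ℂ] P002R.Mat r ℂ) (hD' : ∀ H, D' H = D H) :
    2 * (r * r) + 1 ≤ finrank ℂ ((LinearMap.range (D'.comp (inc n j))).comap (D'.comp (inc n i))) +
      finrank ℂ (centr fun b : Bool => Y (Sum.inl (j, b))) := by
  have h1 := finrank_eq_map_add ((LinearMap.range (D'.comp (inc n j))).comap (D'.comp (inc n i)))
    (D'.comp (inc n i))
  rw [Submodule.map_comap_eq] at h1
  have h2 : ((LinearMap.range (D'.comp (inc n j))).comap (D'.comp (inc n i)) ⊓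
      LinearMap.ker (D'.comp (inc n i)) : Submodule ℂ (Bool → P002R.Mat r ℂ)) =
        LinearMap.ker (D'.comp (inc n i)) := by
    refine inf_eq_right.2 fun x hx => ?_
    rw [Submodule.mem_comap, LinearMap.mem_ker.1 hx]
    exact Submodule.zero_mem _
  rw [h2] at h1
  have h3 := LinearMap.finrank_range_add_finrank_ker (D'.comp (inc (r := r) n i))
  have h4 : finrank ℂ (Bool → P002R.Mat r ℂ) = 2 * (r * r) := by
    rw [Module.finrank_pi_fintype]
    simp [Module.finrank_matrix]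
  rw [h4] at h3
  have h5 := Submodule.finrank_sup_add_finrank_inf_eq (LinearMap.range (D'.comp (inc n i)))
    (LinearMap.range (D'.comp (inc (r := r) n j)))
  have h6 : finrank ℂ (LinearMap.range (D'.comp (inc n i)) ⊔
      LinearMap.range (D'.comp (inc n j)) : Submodule ℂ (P002R.Mat r ℂ)) < r * r := by
    have h7 : LinearMap.range (D'.comp (inc n i)) ⊔ LinearMap.range (D'.comp (inc n j)) ≤
        LinearMap.range D' := sup_le (LinearMap.range_comp_le_range _ _)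
          (LinearMap.range_comp_le_range _ _)
    have h8 : LinearMap.range D' < ⊤ := by
      rw [lt_top_iff_ne_top]
      intro h9
      apply range_ne_top hr hD hdet
      rw [← h9]
      ext M
      constructor
      · rintro ⟨H, rfl⟩; exact ⟨H, hD' H⟩
      · rintro ⟨H, rfl⟩; exact ⟨H, (hD' H).symm⟩
    have h10 := Submodule.finrank_lt_finrank_of_lt h8
    rw [finrank_top, Module.finrank_matrix, Fintype.card_fin, Module.finrank_self, mul_one] at h10
    exact (Submodule.finrank_mono h7).trans_lt h10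
  have h11 : finrank ℂ (LinearMap.range (D'.comp (inc (r := r) n j))) +
      finrank ℂ (annT (LinearMap.range (D'.comp (inc (r := r) n j)))) = r * r := finrank_annT _
  have h12 := finrank_ann_handle hJ hY hD j D' hD'
  omega

theorem det_rel {J : Fin n → P002R.Mat r ℂ} {Y Y' : Var g n → P002R.Mat r ℂ}
    (hY : ∀ k, IsUnit (Y k)) (hY' : ∀ k, IsUnit (Y' k)) :
    (relM (extV J Y)).det = (relM (extV J Y')).det := by
  have h1 : ∀ Z : Var g n → P002R.Mat r ℂ, (∀ k, IsUnit (Z k)) → (relM (extV J Z)).det =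
      ((bl g n).map fun b => Sum.elim (fun j => (J j).det) (fun _ => (1 : ℂ)) b).prod := by
    intro Z hZ
    rw [relM_extV, ← Matrix.coe_detMonoidHom, map_list_prod, List.map_map]
    congr 1
    refine List.map_congr_left fun b _ => ?_
    rw [Function.comp_apply, Matrix.coe_detMonoidHom]
    cases b with
    | inl j =>
      show (Z (Sum.inr j) * J j * (Z (Sum.inr j))⁻¹).det = (J j).det
      have hud : IsUnit (Z (Sum.inr j)).det := (Matrix.isUnit_iff_isUnit_det _).1 (hZ _)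
      rw [det_mul, det_mul, det_nonsing_inv, mul_right_comm, Ring.mul_inverse_cancel _ hud,
        one_mul]
    | inr i => exact det_cm (hZ _) (hZ _)
  rw [h1 Y hY, h1 Y' hY']

theorem one_mem_centr {κ : Type*} (y : κ → P002R.Mat r ℂ) : (1 : P002R.Mat r ℂ) ∈ centr y :=
  fun _ => Commute.one_left _

theorem finrank_centr_pos (hr : 1 ≤ r) {κ : Type*} (y : κ → P002R.Mat r ℂ) :
    1 ≤ finrank ℂ (centr y) := by
  have : Nonempty (Fin r) := ⟨⟨0, hr⟩⟩
  have h : 0 < finrank ℂ (centr y) := by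
    rw [Module.finrank_pos_iff]
    refine ⟨⟨⟨1, one_mem_centr y⟩, 0, fun h => ?_⟩⟩
    exact one_ne_zero (congrArg Subtype.val h)
  exact h

theorem finrank_centr_le_one {κ : Type*} (y : κ → P002R.Mat r ℂ)
    (h : ∀ N ∈ centr y, ∃ a : ℂ, N = a • (1 : P002R.Mat r ℂ)) : finrank ℂ (centr y) ≤ 1 := by
  have h1 : centr y ≤ Submodule.span ℂ {(1 : P002R.Mat r ℂ)} := by
    intro N hN
    obtain ⟨a, ha⟩ := h N hN
    rw [ha]
    exact Submodule.smul_mem _ _ (Submodule.mem_span_singleton_self _)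
  refine (Submodule.finrank_mono h1).trans ((finrank_span_le_card _).trans ?_)
  simp

theorem continuous_extV (J : Fin n → P002R.Mat r ℂ) :
    Continuous (extV (g := g) J) := by
  refine continuous_pi fun k => ?_
  rcases k with k | ⟨j, b⟩
  · exact continuous_apply (Sum.inl k : Var g n)
  · cases b with
    | false => exact continuous_apply (Sum.inr j : Var g n)
    | true => exact continuous_const

theorem dense_handles_norm (hg : 2 ≤ g) (hr : 1 ≤ r) (X : Gen g n → P002R.Mat r ℂ)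
    (hX : ∀ k, IsUnit (X k)) (hrel : relM X = 1)
    (hc : ∀ N : P002R.Mat r ℂ, (∀ k, Commute N (X (Sum.inl k))) →
      (∀ j, Commute N (X (Sum.inr (j, false)) * X (Sum.inr (j, true)) *
        (X (Sum.inr (j, false)))⁻¹)) → ∃ c : ℂ, N = c • (1 : P002R.Mat r ℂ))
    (U : Set (Gen g n → P002R.Mat r ℂ)) (hU : U ∈ nhds X) :
    ∃ X' ∈ U, (∀ k, IsUnit (X' k)) ∧ (∀ j, X' (Sum.inr (j, true)) = X (Sum.inr (j, true))) ∧
      relM X' = 1 ∧ ∀ i : Fin g, ∀ N : P002R.Mat r ℂ, Commute N (X' (Sum.inl (i, false))) →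
        Commute N (X' (Sum.inl (i, true))) → ∃ c : ℂ, N = c • (1 : P002R.Mat r ℂ) := by
  classical
  obtain ⟨J, hJ⟩ : ∃ J : Fin n → P002R.Mat r ℂ, ∀ j, J j = X (Sum.inr (j, true)) :=
    ⟨_, fun _ => rfl⟩
  have hJu : ∀ j, IsUnit (J j) := fun j => by rw [hJ]; exact hX _
  obtain ⟨Y₀, hY₀⟩ : ∃ Y₀ : Var g n → P002R.Mat r ℂ, extV J Y₀ = X := by
    refine ⟨fun k => match k with
      | Sum.inl k => X (Sum.inl k)
      | Sum.inr j => X (Sum.inr (j, false)), ?_⟩
    funext k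
    rcases k with k | ⟨j, b⟩
    · rfl
    · cases b with
      | false => rfl
      | true => exact hJ j
  have hY₀u : ∀ k, IsUnit (Y₀ k) := by
    intro k
    rcases k with k | j
    · have := hX (Sum.inl k); rw [← hY₀] at this; exact this
    · have := hX (Sum.inr (j, false)); rw [← hY₀] at this; exact this
  have hrel₀ : relM (extV J Y₀) = 1 := by rw [hY₀]; exact hrel
  obtain ⟨K₀, hK₀, hK₀J⟩ := exists_countable_subfield'
    (Set.range fun p : Fin n × Fin r × Fin r => J p.1 p.2.1 p.2.2) (Set.countable_range _)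
  have hJK : ∀ j a b, J j a b ∈ K₀ := fun j a b => hK₀J ⟨(j, a, b), rfl⟩
  have hdet : ∀ Y : Var g n → P002R.Mat r ℂ, (∀ k, IsUnit (Y k)) →
      (relM (extV J Y)).det = 1 := by
    intro Y hY
    rw [det_rel hY hY₀u, hrel₀, det_one]
  have hUn : ∀ Y : Var g n → P002R.Mat r ℂ, (∀ k, IsUnit (Y k)) →
      {Y : Var g n → P002R.Mat r ℂ | ∀ k, IsUnit (Y k)} ∈ nhds Y := by
    intro Y hY
    have : {Y : Var g n → P002R.Mat r ℂ | ∀ k, IsUnit (Y k)} =
        ⋂ k, {Y : Var g n → P002R.Mat r ℂ | (Y k).det ≠ 0} := by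
      ext Y
      simp only [Set.mem_ofPred_eq, Set.mem_iInter]
      exact forall_congr' fun k => by rw [Matrix.isUnit_iff_isUnit_det, isUnit_iff_ne_zero]
    rw [this]
    refine (isOpen_iInter_of_finite fun k => ?_).mem_nhds ?_
    · exact isOpen_ne.preimage (Continuous.matrix_det (continuous_apply k))
    · simp only [Set.mem_iInter, Set.mem_ofPred_eq]
      intro k
      rw [← isUnit_iff_ne_zero, ← Matrix.isUnit_iff_isUnit_det]
      exact hY k
  have hU' : (extV J) ⁻¹' U ∈ nhds Y₀ := by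
    apply (continuous_extV J).continuousAt
    rw [hY₀]
    exact hU
  obtain ⟨Y, hYU, hYu, hYrel, c, hgen⟩ := exists_generic_point_norm hr K₀ hK₀
    (fun Y : Var g n → P002R.Mat r ℂ => relM (extV J Y))
    (fun Y hY => good_rel K₀ hJK hY) hdet Y₀ hY₀u hrel₀
    (fun D hD N hN => by
      have h1 := comm_of_orth hJu hY₀u hrel₀ hD N hN
      refine hc N (fun k => ?_) fun j => ?_
      · obtain ⟨i, b⟩ := k
        have h2 := h1 (Sum.inr i)
        rw [← hY₀]
        cases b with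
        | false => exact h2.1
        | true => exact h2.2
      · have h2 := h1 (Sum.inl j)
        rw [← hY₀]
        exact h2)
    _ hU'
  refine ⟨extV J Y, hYU, ?_, fun j => hJ j, hYrel, ?_⟩
  · intro k
    rcases k with k | ⟨j, b⟩
    · exact hYu _
    · cases b with
      | false => exact hYu _
      | true => exact hJu j
  obtain ⟨D, hD, -⟩ := good_rel K₀ hJK hYu
  obtain ⟨D', hD'⟩ : ∃ D' : (Var g n → P002R.Mat r ℂ) →ₗ[ℂ] P002R.Mat r ℂ, ∀ H, D' H = D H :=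
    ⟨D.toLinearMap, fun _ => rfl⟩
  have hdetY : ∀ᶠ Y' in nhds Y, (relM (extV J Y')).det = 1 := by
    filter_upwards [hUn Y hYu] with Y' hY'
    exact hdet Y' hY'
  have key : ∀ i j : Fin g, i ≠ j →
      (∃ N ∈ centr fun b : Bool => Y (Sum.inl (i, b)), ∀ a : ℂ, N ≠ a • (1 : P002R.Mat r ℂ)) →
      finrank ℂ (centr fun b : Bool => Y (Sum.inl (i, b))) + 1 ≤
        finrank ℂ (centr fun b : Bool => Y (Sum.inl (j, b))) := by
    intro i j hij hN
    have h1 : finrank ℂ ((LinearMap.range (D'.comp (inc n j))).comap (D'.comp (inc n i))) +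
        finrank ℂ (centr fun b : Bool => Y (Sum.inl (i, b))) ≤ Fintype.card Bool * (r * r) := by
      refine count_main (κ := Bool) (by simp) (fun b => Y (Sum.inl (i, b))) c
        ((LinearMap.range (D'.comp (inc n j))).comap (D'.comp (inc n i))) ?_ hN
      intro u hu γ
      obtain ⟨v, hv⟩ := hu
      have hH : D' (inc n i u - inc n j v) = 0 := by
        rw [map_sub, sub_eq_zero]
        exact hv.symm
      rw [hD'] at hH
      obtain ⟨δ, hδ1, hδ2⟩ := hgen D hD _ hH γ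
      refine ⟨δ, fun b a a' => ?_, hδ2⟩
      rw [hδ1, Pi.sub_apply, inc_inl, inc_inl, if_pos rfl, if_neg hij, sub_zero]
    have h2 := two_handles hr hJu hYu hD hdetY i j D' hD'
    rw [Fintype.card_bool] at h1
    omega
  intro i N hN1 hN2
  by_contra hcon
  push Not at hcon
  obtain ⟨j, hij⟩ : ∃ j, i ≠ j := by
    by_cases h : i = ⟨0, by omega⟩
    · exact ⟨⟨1, by omega⟩, fun h2 => by rw [h] at h2; exact absurd (Fin.mk.inj h2) (by omega)⟩
    · exact ⟨_, h⟩
  have h1 := key i j hij ⟨N, fun b => by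
    cases b with
    | false => exact hN1
    | true => exact hN2, hcon⟩
  have h2 := finrank_centr_pos hr fun b : Bool => Y (Sum.inl (i, b))
  have h3 : ∃ N ∈ centr fun b : Bool => Y (Sum.inl (j, b)), ∀ a : ℂ,
      N ≠ a • (1 : P002R.Mat r ℂ) := by
    by_contra hcon2
    push Not at hcon2
    have h4 := finrank_centr_le_one _ hcon2
    omega
  have h5 := key j i hij.symm h3
  omega

end normed

/-- TASK N7 -/
theorem dense_handles (hg : 2 ≤ g) (hr : 1 ≤ r) (X : Gen g n → P002R.Mat r ℂ)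
    (hX : ∀ k, IsUnit (X k)) (hrel : relM X = 1)
    (hc : ∀ N : P002R.Mat r ℂ, (∀ k, Commute N (X (Sum.inl k))) →
      (∀ j, Commute N (X (Sum.inr (j, false)) * X (Sum.inr (j, true)) *
        (X (Sum.inr (j, false)))⁻¹)) → ∃ c : ℂ, N = c • (1 : P002R.Mat r ℂ))
    (U : Set (Gen g n → P002R.Mat r ℂ)) (hU : U ∈ nhds X) :
    ∃ X' ∈ U, (∀ k, IsUnit (X' k)) ∧ (∀ j, X' (Sum.inr (j, true)) = X (Sum.inr (j, true))) ∧
      relM X' = 1 ∧ ∀ i : Fin g, ∀ N : P002R.Mat r ℂ, Commute N (X' (Sum.inl (i, false))) →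
        Commute N (X' (Sum.inl (i, true))) → ∃ c : ℂ, N = c • (1 : P002R.Mat r ℂ) :=
  dense_handles_norm hg hr X hX hrel hc U hU

end Vale.Agent.P002R
end

section

/-!
# P002, genus 0: generic points
-/

namespace Vale.Agent.P002R

open Matrix Module Vale.Agent.P002

variable {r : ℕ}

section normed

open scoped Matrix.Norms.Operator

/-- Existence of generic points; the derivations vanish on the subfield `K₀`. -/
theorem exists_generic_point_K {G : Type} [Fintype G] [DecidableEq G] (hr : 1 ≤ r)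
    (K₀ : Subfield ℂ) (hK₀ : Countable K₀) (Φ : (G → P002R.Mat r ℂ) → P002R.Mat r ℂ)
    (hΦ : ∀ Y : G → P002R.Mat r ℂ, (∀ k, IsUnit (Y k)) → ∃ D : (G → P002R.Mat r ℂ) →L[ℂ] P002R.Mat r ℂ,
      HasStrictFDerivAt Φ D Y ∧ ∀ δ : Derivation ℤ ℂ ℂ, (∀ c ∈ K₀, δ c = 0) →
        (Φ Y).map δ = D fun k => (Y k).map δ)
    (hdet : ∀ Y : G → P002R.Mat r ℂ, (∀ k, IsUnit (Y k)) → (Φ Y).det = 1)
    (X : G → P002R.Mat r ℂ) (hX : ∀ k, IsUnit (X k)) (hΦX : Φ X = 1)
    (hdual : ∀ D : (G → P002R.Mat r ℂ) →L[ℂ] P002R.Mat r ℂ, HasStrictFDerivAt Φ D X →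
      ∀ N : P002R.Mat r ℂ, (∀ H, trace (N * D H) = 0) → ∃ c : ℂ, N = c • (1 : P002R.Mat r ℂ))
    (U : Set (G → P002R.Mat r ℂ)) (hU : U ∈ nhds X) :
    ∃ Y ∈ U, (∀ k, IsUnit (Y k)) ∧ Φ Y = 1 ∧ ∃ c : Fin r × Fin r → ℂ,
      ∀ D : (G → P002R.Mat r ℂ) →L[ℂ] P002R.Mat r ℂ, HasStrictFDerivAt Φ D Y →
        ∀ H : G → P002R.Mat r ℂ, D H = 0 → ∀ γ : Fin r × Fin r → ℂ,
          ∃ δ : Derivation ℤ ℂ ℂ, (∀ c ∈ K₀, δ c = 0) ∧ (∀ k i j, δ (Y k i j) = H k i j) ∧
            ∀ p, δ (c p) = γ p := by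
  have hr0 : 0 < r := hr
  -- the derivative of `c • Φ Y`
  have hder : ∀ (Y : G → P002R.Mat r ℂ) (c : ℂ) (D : (G → P002R.Mat r ℂ) →L[ℂ] P002R.Mat r ℂ),
      HasStrictFDerivAt Φ D Y → ∃ D' : ((G → P002R.Mat r ℂ) × ℂ) →L[ℂ] P002R.Mat r ℂ,
        HasStrictFDerivAt (fun p : (G → P002R.Mat r ℂ) × ℂ => p.2 • Φ p.1) D' (Y, c) ∧
          ∀ H γ, D' (H, γ) = c • D H + γ • Φ Y := by
    intro Y c D hD
    have hfst : HasStrictFDerivAt (fun p : (G → P002R.Mat r ℂ) × ℂ => Φ p.1)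
        (D.comp (ContinuousLinearMap.fst ℂ (G → P002R.Mat r ℂ) ℂ)) (Y, c) :=
      HasStrictFDerivAt.comp (Y, c) hD
        (ContinuousLinearMap.fst ℂ (G → P002R.Mat r ℂ) ℂ).hasStrictFDerivAt
    have hsnd : HasStrictFDerivAt (fun p : (G → P002R.Mat r ℂ) × ℂ => p.2)
        (ContinuousLinearMap.snd ℂ (G → P002R.Mat r ℂ) ℂ) (Y, c) :=
      (ContinuousLinearMap.snd ℂ (G → P002R.Mat r ℂ) ℂ).hasStrictFDerivAt
    exact ⟨_, hsnd.smul hfst, fun H γ => rfl⟩
  obtain ⟨D₀, hD₀, -⟩ := hΦ X hX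
  obtain ⟨D, hD, hDe⟩ := hder X 1 D₀ hD₀
  have hDe' : ∀ H γ, D (H, γ) = D₀ H + γ • (1 : P002R.Mat r ℂ) := fun H γ => by
    rw [hDe, one_smul, hΦX]
  have hsurj : ∀ M, ∃ p, D p = M := by
    have h1 : D.range = ⊤ := by
      by_contra hne
      obtain ⟨φ, hφ, hle⟩ := Submodule.exists_le_ker_of_lt_top _ (lt_top_iff_ne_top.2 hne)
      obtain ⟨N, hNφ⟩ := exists_trace_repr φ
      have h0 : ∀ p, trace (N * D p) = 0 := fun p => by
        have := hle (LinearMap.mem_range_self D.toLinearMap p)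
        rw [LinearMap.mem_ker, hNφ] at this
        exact this
      have h1 : ∀ H, trace (N * D₀ H) = 0 := fun H => by
        have := h0 (H, 0)
        rw [hDe', zero_smul, add_zero] at this
        exact this
      obtain ⟨c, hcN⟩ := hdual D₀ hD₀ N h1
      have h2 : trace N = 0 := by
        have := h0 (0, 1)
        rw [hDe', map_zero, one_smul, zero_add, Matrix.mul_one] at this
        exact this
      rw [hcN, trace_smul, trace_one, smul_eq_mul, Fintype.card_fin] at h2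
      have hc0 : c = 0 := by
        rcases mul_eq_zero.1 h2 with h | h
        · exact h
        · exact absurd (Nat.cast_eq_zero.1 h) hr0.ne'
      rw [hc0, zero_smul] at hcN
      apply hφ
      ext1 M
      rw [hNφ, hcN, Matrix.zero_mul, trace_zero, LinearMap.zero_apply]
    intro M
    have h2 : M ∈ D.range := h1 ▸ Submodule.mem_top
    exact h2
  -- coordinates
  obtain ⟨e, he⟩ : ∃ e : (G × Fin r × Fin r) → ((G → P002R.Mat r ℂ) × ℂ) →ₗ[ℂ] ℂ,
      ∀ a p, e a p = p.1 a.1 a.2.1 a.2.2 :=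
    ⟨fun a => (Matrix.entryLinearMap ℂ ℂ a.2.1 a.2.2 : P002R.Mat r ℂ →ₗ[ℂ] ℂ).comp
      ((LinearMap.proj a.1).comp (LinearMap.fst ℂ (G → P002R.Mat r ℂ) ℂ)), fun a p => rfl⟩
  obtain ⟨I, hI1, hI2⟩ := exists_coords e (LinearMap.ker D.toLinearMap) (by
    rintro ⟨H, γ⟩ hz h
    have h1 : H = 0 := by
      funext k
      ext i j
      have := h (k, i, j)
      rw [he] at this
      exact this
    have h2 : D (H, γ) = 0 := hz
    rw [hDe', h1, map_zero, zero_add] at h2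
    have h3 : γ = 0 := by
      have := congrFun (congrFun h2 ⟨0, hr0⟩) ⟨0, hr0⟩
      simpa using this
    rw [h1, h3]
    rfl)
  -- the local diffeomorphism
  obtain ⟨eI, heI⟩ : ∃ eI : ((G → P002R.Mat r ℂ) × ℂ) →L[ℂ] (I → ℂ), ∀ p a, eI p a = e a p :=
    ⟨LinearMap.toContinuousLinearMap (LinearMap.pi fun a : I => e a), fun p a => rfl⟩
  have hbij : Function.Bijective (D.prod eI) := by
    constructor
    · rw [injective_iff_map_eq_zero]
      intro z hz
      have h1 : D z = 0 := congrArg Prod.fst hz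
      have h2 : eI z = 0 := congrArg Prod.snd hz
      refine hI1 z h1 fun i hi => ?_
      rw [← heI z ⟨i, hi⟩, h2]
      rfl
    · rintro ⟨M, a⟩
      obtain ⟨p, hp⟩ := hsurj M
      obtain ⟨z, hz, hz'⟩ := hI2 fun i => if h : i ∈ I then a ⟨i, h⟩ - e i p else 0
      have hz0 : D z = 0 := hz
      refine ⟨p + z, Prod.ext ?_ ?_⟩
      · show D (p + z) = M
        rw [map_add, hp, hz0, add_zero]
      · show eI (p + z) = a
        funext i
        rw [map_add, Pi.add_apply, heI, heI, hz' i i.2, dif_pos i.2]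
        ring
  obtain ⟨A, hA⟩ : ∃ A : ((G → P002R.Mat r ℂ) × ℂ) ≃L[ℂ] (P002R.Mat r ℂ × (I → ℂ)),
      (A : ((G → P002R.Mat r ℂ) × ℂ) →L[ℂ] (P002R.Mat r ℂ × (I → ℂ))) = D.prod eI := by
    refine ⟨(LinearEquiv.ofBijective (D.prod eI).toLinearMap hbij).toContinuousLinearEquiv, ?_⟩
    ext p <;> rfl
  have hΨ : HasStrictFDerivAt (fun p : (G → P002R.Mat r ℂ) × ℂ => (p.2 • Φ p.1, eI p))
      (A : ((G → P002R.Mat r ℂ) × ℂ) →L[ℂ] (P002R.Mat r ℂ × (I → ℂ))) (X, (1 : ℂ)) := by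
    rw [hA]
    exact hD.prodMk eI.hasStrictFDerivAt
  obtain ⟨s, hs, hsinj⟩ := exists_approx A hΨ
  have hmap := hΨ.map_nhds_eq_of_equiv
  -- the neighbourhood
  have hUn : {Y : G → P002R.Mat r ℂ | ∀ k, IsUnit (Y k)} ∈ nhds X := by
    have : {Y : G → P002R.Mat r ℂ | ∀ k, IsUnit (Y k)} =
        ⋂ k, {Y : G → P002R.Mat r ℂ | (Y k).det ≠ 0} := by
      ext Y
      simp only [Set.mem_ofPred_eq, Set.mem_iInter]
      exact forall_congr' fun k => by rw [Matrix.isUnit_iff_isUnit_det, isUnit_iff_ne_zero]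
    rw [this]
    refine (isOpen_iInter_of_finite fun k => ?_).mem_nhds ?_
    · exact isOpen_ne.preimage (Continuous.matrix_det (continuous_apply k))
    · simp only [Set.mem_iInter, Set.mem_ofPred_eq]
      intro k
      rw [← isUnit_iff_ne_zero, ← Matrix.isUnit_iff_isUnit_det]
      exact hX k
  have hCn : {c : ℂ | c ^ r = 1 → c = 1} ∈ nhds (1 : ℂ) := by
    have hfin : ({c : ℂ | c ^ r = 1 ∧ c ≠ 1}).Finite := by
      refine (Multiset.finite_toSet (Polynomial.nthRoots r (1 : ℂ))).subset ?_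
      rintro c ⟨h1, -⟩
      exact (Polynomial.mem_nthRoots hr0).2 h1
    have h1 : {c : ℂ | c ^ r = 1 → c = 1} = {c : ℂ | c ^ r = 1 ∧ c ≠ 1}ᶜ := by
      ext c
      simp only [Set.mem_ofPred_eq, Set.mem_compl_iff, not_and, not_not]
    rw [h1]
    refine hfin.isClosed.isOpen_compl.mem_nhds ?_
    simp
  have hprod : (U ∩ {Y : G → P002R.Mat r ℂ | ∀ k, IsUnit (Y k)}) ×ˢ
      {c : ℂ | c ^ r = 1 → c = 1} ∈ nhds (X, (1 : ℂ)) :=
    prod_mem_nhds (Filter.inter_mem hU hUn) hCn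
  have hall : ((U ∩ {Y : G → P002R.Mat r ℂ | ∀ k, IsUnit (Y k)}) ×ˢ
      {c : ℂ | c ^ r = 1 → c = 1}) ∩ interior s ∈ nhds (X, (1 : ℂ)) :=
    Filter.inter_mem hprod (interior_mem_nhds.2 hs)
  have himg := hmap.ge (Filter.image_mem_map (m := fun p : (G → P002R.Mat r ℂ) × ℂ =>
    (p.2 • Φ p.1, eI p)) hall)
  have hbase : ((X, (1 : ℂ)).2 • Φ (X, (1 : ℂ)).1, eI (X, (1 : ℂ))) =
      ((1 : P002R.Mat r ℂ), eI (X, (1 : ℂ))) := by
    simp only [one_smul, hΦX]
  rw [hbase, nhds_prod_eq] at himg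
  obtain ⟨V₁, hV₁, V₂, hV₂, hV⟩ := Filter.mem_prod_iff.1 himg
  obtain ⟨ε, hε, hball⟩ := Metric.mem_nhds_iff.1 hV₂
  -- algebraically independent coordinates
  obtain ⟨tc, htV, htind⟩ := exists_dense_algIndep K₀ hK₀
    (ι := I ⊕ (Fin r × Fin r))
    (fun a => Sum.elim (fun a : I => Metric.ball (eI (X, (1 : ℂ)) a) ε) (fun _ => Set.univ) a)
    (fun a => by
      cases a with
      | inl a => exact Metric.isOpen_ball
      | inr a => exact isOpen_univ)
    (fun a => by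
      cases a with
      | inl a => exact Metric.nonempty_ball.2 hε
      | inr a => exact Set.univ_nonempty)
  have htmem : (fun a : I => tc (Sum.inl a)) ∈ V₂ := by
    refine hball ?_
    rw [Metric.mem_ball, dist_pi_lt_iff hε]
    intro a
    exact htV (Sum.inl a)
  obtain ⟨⟨Y, c₁⟩, ⟨⟨⟨hYU, hYn⟩, hc₁⟩, hYs⟩, hYeq⟩ := hV (Set.mk_mem_prod
    (mem_of_mem_nhds hV₁) htmem)
  have hY1 : c₁ • Φ Y = 1 := congrArg Prod.fst hYeq
  have hY2 : eI (Y, c₁) = fun a : I => tc (Sum.inl a) := congrArg Prod.snd hYeq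
  have hc1 : c₁ = 1 := by
    apply hc₁
    have h1 := congrArg Matrix.det hY1
    rw [det_smul, hdet Y hYn, mul_one, det_one, Fintype.card_fin] at h1
    exact h1
  rw [hc1] at hY1 hY2 hYs
  rw [one_smul] at hY1
  refine ⟨Y, hYU, hYn, hY1, fun p => tc (Sum.inr p), fun D₁ hD₁ H hH γ => ?_⟩
  obtain ⟨δ, hδ0, hδ⟩ := exists_derivation K₀ tc htind
    (fun a => Sum.elim (fun a : I => H a.1.1 a.1.2.1 a.1.2.2) γ a)
  refine ⟨δ, hδ0, ?_, fun p => hδ (Sum.inr p)⟩
  obtain ⟨D₂, hD₂, hD₂δ⟩ := hΦ Y hYn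
  have hDD : D₂ = D₁ := hD₂.hasFDerivAt.unique hD₁.hasFDerivAt
  have h1 : D₁ (fun k => (Y k).map δ) = 0 := by
    rw [← hDD, ← hD₂δ δ hδ0, hY1]
    ext i j
    rw [Matrix.map_apply, Matrix.one_apply]
    split_ifs
    · simp
    · simp
  obtain ⟨D₃, hD₃, hD₃e⟩ := hder Y 1 D₁ hD₁
  have h2 : ((fun k => (Y k).map δ) - H, (0 : ℂ)) = 0 := by
    refine hsinj (Y, (1 : ℂ)) (mem_interior_iff_mem_nhds.1 hYs) (D₃.prod eI)
      (hD₃.prodMk eI.hasStrictFDerivAt).hasFDerivAt _ ?_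
    refine Prod.ext ?_ ?_
    · show D₃ ((fun k => (Y k).map δ) - H, (0 : ℂ)) = 0
      rw [hD₃e, map_sub, h1, hH, sub_zero, smul_zero, zero_smul, add_zero]
    · show eI ((fun k => (Y k).map δ) - H, (0 : ℂ)) = 0
      funext a
      have h3 : Y a.1.1 a.1.2.1 a.1.2.2 = tc (Sum.inl a) := by
        have := congrFun hY2 a
        rw [heI, he] at this
        exact this
      have h4 := hδ (Sum.inl a)
      rw [heI, he]
      show δ (Y a.1.1 a.1.2.1 a.1.2.2) - H a.1.1 a.1.2.1 a.1.2.2 = 0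
      rw [h3, h4]
      exact sub_self _
  have h3 : (fun k => (Y k).map δ) - H = 0 := congrArg Prod.fst h2
  intro k i j
  have h4 := congrFun (congrFun (congrFun (sub_eq_zero.1 h3) k) i) j
  exact h4

end normed

end Vale.Agent.P002R
end

section

/-!
# P002, genus 0: generic points of the variety of tuples of conjugates with product one
-/

namespace Vale.Agent.P002R

open Matrix Module Vale.Agent.P002

variable {r : ℕ} {ι : Type}

/-- the tuple of the conjugates -/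
noncomputable def cj (J Y : ι → P002R.Mat r ℂ) (j : ι) : P002R.Mat r ℂ := Y j * J j * (Y j)⁻¹

theorem cj_apply (J Y : ι → P002R.Mat r ℂ) (j : ι) : cj J Y j = Y j * J j * (Y j)⁻¹ := rfl

theorem isUnit_cj {J Y : ι → P002R.Mat r ℂ} (hJ : ∀ j, IsUnit (J j)) (hY : ∀ j, IsUnit (Y j))
    (j : ι) : IsUnit (cj J Y j) :=
  ((hY j).mul (hJ j)).mul (Matrix.isUnit_nonsing_inv_iff.2 (hY j))

theorem isUnit_cj_prod {J Y : ι → P002R.Mat r ℂ} (hJ : ∀ j, IsUnit (J j))
    (hY : ∀ j, IsUnit (Y j)) (l : List ι) : IsUnit (l.map (cj J Y)).prod := by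
  induction l with
  | nil => simp
  | cons j l ih => rw [List.map_cons, List.prod_cons]; exact (isUnit_cj hJ hY j).mul ih

theorem det_cj {J Y : ι → P002R.Mat r ℂ} (hY : ∀ j, IsUnit (Y j)) (j : ι) :
    (cj J Y j).det = (J j).det := by
  have hud : IsUnit (Y j).det := (Matrix.isUnit_iff_isUnit_det _).1 (hY j)
  rw [cj_apply, det_mul, det_mul, det_nonsing_inv, mul_right_comm, Ring.mul_inverse_cancel _ hud,
    one_mul]

theorem det_cj_prod {J Y : ι → P002R.Mat r ℂ} (hY : ∀ j, IsUnit (Y j)) (l : List ι) :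
    (l.map (cj J Y)).prod.det = (l.map fun j => (J j).det).prod := by
  induction l with
  | nil => simp
  | cons j l ih => rw [List.map_cons, List.prod_cons, det_mul, ih, det_cj hY, List.map_cons,
      List.prod_cons]

/-- a matrix orthogonal to the image of `DL` is a scalar -/
theorem scalar_of_orth [DecidableEq ι] {c : ι → P002R.Mat r ℂ} (L : List ι) (hnd : L.Nodup)
    (hmem : ∀ j, j ∈ L) (hrel : (L.map c).prod = 1)
    (hadj : Algebra.adjoin ℂ (Set.range c) = ⊤)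
    (N : P002R.Mat r ℂ) (hN : ∀ x, trace (N * DL c x L) = 0) :
    ∃ a : ℂ, N = a • (1 : P002R.Mat r ℂ) := by
  have h1 := pre_ind c N L (by
    intro l' j l'' hl hcom
    obtain ⟨X, hX⟩ : ∃ X, X = (l'.map c).prod := ⟨_, rfl⟩
    obtain ⟨Z, hZ⟩ : ∃ Z, Z = (l''.map c).prod := ⟨_, rfl⟩
    rw [← hX] at hcom
    have hnd' : (l' ++ j :: l'').Nodup := hl ▸ hnd
    rw [List.nodup_append, List.nodup_cons] at hnd'
    have h1 : ∀ H, trace ((0 : P002R.Mat r ℂ) * H) =
        trace ((c j * (Z * N * X) - (Z * N * X) * c j) * H) := by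
      intro H
      rw [← tr_comm, Matrix.zero_mul, trace_zero, ← hN (Function.update 0 j H), hl]
      rw [DL_split c _ l' l'' j (fun k hk => ?_) (fun k hk => ?_), Function.update_self, hX, hZ]
      · rw [Function.update_of_ne, Pi.zero_apply]
        exact hnd'.2.2 k hk j List.mem_cons_self
      · rw [Function.update_of_ne, Pi.zero_apply]
        rintro rfl
        exact hnd'.2.1.1 hk
    have h2 := eq_of_trace_eq h1
    have hcyc := cyc_one (X := X) (a := c j) (Y := Z) (by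
      rw [← hrel, hl, hX, hZ]
      simp only [List.map_append, List.map_cons, List.prod_append, List.prod_cons,
        Matrix.mul_assoc])
    refine comm_of_inv hcyc.1 ?_
    rw [show Z * X * N = Z * N * X by rw [Matrix.mul_assoc, ← hcom.eq, Matrix.mul_assoc], ← h2])
  have h2 : ∀ M : P002R.Mat r ℂ, Commute N M := by
    intro M
    have h3 : M ∈ Algebra.adjoin ℂ (Set.range c) := hadj ▸ Algebra.mem_top
    induction h3 using Algebra.adjoin_induction with
    | mem x hx =>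
      obtain ⟨j, rfl⟩ := hx
      exact h1.2 j (hmem j)
    | algebraMap a => exact (Algebra.commutes a N).symm
    | add x y _ _ hx hy => exact hx.add_right hy
    | mul x y _ _ hx hy => exact hx.mul_right hy
  obtain ⟨a, ha⟩ := Matrix.mem_range_scalar_iff_commute_single'.2 fun i j => (h2 (single i j 1)).symm
  refine ⟨a, ?_⟩
  rw [← ha, Matrix.scalar_apply, Matrix.smul_one_eq_diagonal]

section normed

open scoped Matrix.Norms.Operator

variable [Fintype ι]

theorem deriv_cj (J : ι → P002R.Mat r ℂ) {Y : ι → P002R.Mat r ℂ} (hY : ∀ j, IsUnit (Y j)) (j : ι) :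
    ∃ D : (ι → P002R.Mat r ℂ) →L[ℂ] P002R.Mat r ℂ,
      HasStrictFDerivAt (fun Y : ι → P002R.Mat r ℂ => cj J Y j) D Y ∧
      ∀ x : ι → P002R.Mat r ℂ, D (fun k => x k * Y k) = x j * cj J Y j - cj J Y j * x j := by
  have hp : HasStrictFDerivAt (fun Y : ι → P002R.Mat r ℂ => Y j)
      (ContinuousLinearMap.proj j : (ι → P002R.Mat r ℂ) →L[ℂ] P002R.Mat r ℂ) Y :=
    (ContinuousLinearMap.proj j : (ι → P002R.Mat r ℂ) →L[ℂ] P002R.Mat r ℂ).hasStrictFDerivAt
  obtain ⟨D1, h1, e1⟩ := exists_deriv_inv hp (hY j)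
  obtain ⟨D2, h2, e2⟩ := exists_deriv_mul hp (hasStrictFDerivAt_const (J j) Y)
  obtain ⟨D3, h3, e3⟩ := exists_deriv_mul h2 h1
  refine ⟨D3, h3, fun x => ?_⟩
  have hud : IsUnit (Y j).det := (Matrix.isUnit_iff_isUnit_det _).1 (hY j)
  have a1 : Y j * (Y j)⁻¹ = 1 := Matrix.mul_nonsing_inv _ hud
  have eqn : D3 (fun k => x k * Y k) = (x j * Y j * J j + Y j * 0) * (Y j)⁻¹ +
      Y j * J j * -((Y j)⁻¹ * (x j * Y j) * (Y j)⁻¹) :=
    (e3 _).trans (congrArg₂ (fun M N => M + N)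
      (congrArg (fun M => M * (Y j)⁻¹) (e2 _))
      (congrArg (fun M => Y j * J j * M) (e1 _)))
  refine eqn.trans ?_
  rw [cj_apply]
  have e : Y j * J j * -((Y j)⁻¹ * (x j * Y j) * (Y j)⁻¹) =
      -(Y j * J j * (Y j)⁻¹ * x j * (Y j * (Y j)⁻¹)) := by noncomm_ring
  rw [e, a1]
  noncomm_ring

theorem deriv_list (J : ι → P002R.Mat r ℂ) {Y : ι → P002R.Mat r ℂ} (hY : ∀ j, IsUnit (Y j))
    (l : List ι) :
    ∃ D : (ι → P002R.Mat r ℂ) →L[ℂ] P002R.Mat r ℂ,
      HasStrictFDerivAt (fun Y : ι → P002R.Mat r ℂ => (l.map (cj J Y)).prod) D Y ∧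
      ∀ x : ι → P002R.Mat r ℂ, D (fun k => x k * Y k) = DL (cj J Y) x l := by
  induction l with
  | nil =>
    refine ⟨0, ?_, fun x => rfl⟩
    simp only [List.map_nil, List.prod_nil]
    exact hasStrictFDerivAt_const _ _
  | cons j l ih =>
    obtain ⟨D₁, h1, e1⟩ := deriv_cj J hY j
    obtain ⟨D₂, h2, e2⟩ := ih
    obtain ⟨D, h, e⟩ := exists_deriv_mul h1 h2
    refine ⟨D, ?_, fun x => ?_⟩
    · simp only [List.map_cons, List.prod_cons]
      exact h
    · rw [DL_cons, ← e1, ← e2]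
      exact e _

theorem good_cj (K₀ : Subfield ℂ) {J : ι → P002R.Mat r ℂ} (hJK : ∀ j a b, J j a b ∈ K₀)
    {Y : ι → P002R.Mat r ℂ} (hY : ∀ j, IsUnit (Y j)) (l : List ι) :
    GoodG K₀ (fun Y : ι → P002R.Mat r ℂ => (l.map (cj J Y)).prod) Y := by
  refine GoodG.list_prod (fun j Y => cj J Y j) l fun j _ => ?_
  exact ((GoodG.proj _).mul (GoodG.const (hJK j))).mul (GoodG.inv (GoodG.proj _) (hY _))

theorem units_nhds (Y : ι → P002R.Mat r ℂ) (hY : ∀ j, IsUnit (Y j)) :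
    {Y : ι → P002R.Mat r ℂ | ∀ k, IsUnit (Y k)} ∈ nhds Y := by
  have : {Y : ι → P002R.Mat r ℂ | ∀ k, IsUnit (Y k)} =
      ⋂ k, {Y : ι → P002R.Mat r ℂ | (Y k).det ≠ 0} := by
    ext Y
    simp only [Set.mem_ofPred_eq, Set.mem_iInter]
    exact forall_congr' fun k => by rw [Matrix.isUnit_iff_isUnit_det, isUnit_iff_ne_zero]
  rw [this]
  refine (isOpen_iInter_of_finite fun k => ?_).mem_nhds ?_
  · exact isOpen_ne.preimage (Continuous.matrix_det (continuous_apply k))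
  · simp only [Set.mem_iInter, Set.mem_ofPred_eq]
    intro k
    rw [← isUnit_iff_ne_zero, ← Matrix.isUnit_iff_isUnit_det]
    exact hY k

/-- generating the matrix algebra is an open condition -/
theorem adjoin_nhds (J Y : ι → P002R.Mat r ℂ) (hY : ∀ j, IsUnit (Y j))
    (hadj : Algebra.adjoin ℂ (Set.range (cj J Y)) = ⊤) :
    {Y : ι → P002R.Mat r ℂ | Algebra.adjoin ℂ (Set.range (cj J Y)) = ⊤} ∈ nhds Y := by
  classical
  have h1 : Submodule.span ℂ (Submonoid.closure (Set.range (cj J Y)) : Set (P002R.Mat r ℂ)) = ⊤ := by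
    rw [← Algebra.adjoin_eq_span, hadj]
    rfl
  obtain ⟨f, hf, hspan, hind⟩ := Submodule.exists_fun_fin_finrank_span_eq ℂ
    (Submonoid.closure (Set.range (cj J Y)) : Set (P002R.Mat r ℂ))
  have hword : ∀ x ∈ Submonoid.closure (Set.range (cj J Y)),
      ∃ l : List ι, (l.map (cj J Y)).prod = x := by
    intro x hx
    induction hx using Submonoid.closure_induction with
    | mem x hx =>
      obtain ⟨j, rfl⟩ := hx
      exact ⟨[j], by simp⟩
    | one => exact ⟨[], rfl⟩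
    | mul x y _ _ hx hy =>
      obtain ⟨l, rfl⟩ := hx
      obtain ⟨l', rfl⟩ := hy
      exact ⟨l ++ l', by rw [List.map_append, List.prod_append]⟩
  choose w hw using fun i => hword (f i) (hf i)
  obtain ⟨d, hd⟩ : ∃ d, d = finrank ℂ (Submodule.span ℂ
    (Submonoid.closure (Set.range (cj J Y)) : Set (P002R.Mat r ℂ))) := ⟨_, rfl⟩
  have hcont : ContinuousAt (fun (Y : ι → P002R.Mat r ℂ) i => ((w i).map (cj J Y)).prod) Y := by
    refine continuousAt_pi.2 fun i => ?_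
    obtain ⟨D, hD, -⟩ := deriv_list J hY (w i)
    exact hD.hasFDerivAt.continuousAt
  have hfw : (fun i => ((w i).map (cj J Y)).prod) = f := funext hw
  have h3 : {g | LinearIndependent ℂ g} ∈ nhds (fun i => ((w i).map (cj J Y)).prod) := by
    rw [hfw]
    exact hind.eventually
  have h4 := hcont h3
  refine Filter.mem_of_superset h4 ?_
  intro Y' hY'
  have h5 : LinearIndependent ℂ (fun i => ((w i).map (cj J Y')).prod) := hY'
  show Algebra.adjoin ℂ (Set.range (cj J Y')) = ⊤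
  have h6 : Submodule.span ℂ (Set.range fun i => ((w i).map (cj J Y')).prod) = ⊤ := by
    apply Submodule.eq_top_of_finrank_eq
    rw [finrank_span_eq_card h5, Fintype.card_fin, h1, finrank_top]
  have h7 : Submodule.span ℂ (Set.range fun i => ((w i).map (cj J Y')).prod) ≤
      Subalgebra.toSubmodule (Algebra.adjoin ℂ (Set.range (cj J Y'))) := by
    rw [Submodule.span_le]
    rintro _ ⟨i, rfl⟩
    show ((w i).map (cj J Y')).prod ∈ Algebra.adjoin ℂ (Set.range (cj J Y'))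
    refine list_prod_mem fun x hx => ?_
    rw [List.mem_map] at hx
    obtain ⟨j, -, rfl⟩ := hx
    exact Algebra.subset_adjoin ⟨j, rfl⟩
  rw [h6, top_le_iff] at h7
  exact Algebra.toSubmodule_eq_top.1 h7

/-- Existence of generic points. -/
theorem generic_point_norm [DecidableEq ι] (hr : 1 ≤ r) (L : List ι) (hnd : L.Nodup)
    (hmem : ∀ j, j ∈ L) (K₀ : Subfield ℂ) (hK₀ : Countable K₀) (J : ι → P002R.Mat r ℂ)
    (hJK : ∀ j a b, J j a b ∈ K₀)
    (Y₀ : ι → P002R.Mat r ℂ) (hY₀ : ∀ j, IsUnit (Y₀ j)) (hrel : (L.map (cj J Y₀)).prod = 1)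
    (hadj : Algebra.adjoin ℂ (Set.range (cj J Y₀)) = ⊤) (U : Set (ι → P002R.Mat r ℂ))
    (hU : U ∈ nhds Y₀) :
    ∃ Y ∈ U, (∀ j, IsUnit (Y j)) ∧ (L.map (cj J Y)).prod = 1 ∧
      Algebra.adjoin ℂ (Set.range (cj J Y)) = ⊤ ∧
      ∀ x : ι → P002R.Mat r ℂ, DL (cj J Y) x L = 0 →
        ∃ δ : Derivation ℤ ℂ ℂ, (∀ a ∈ K₀, δ a = 0) ∧ ∀ k, (Y k).map δ = x k * Y k := by
  have hdet : ∀ Y : ι → P002R.Mat r ℂ, (∀ k, IsUnit (Y k)) →
      ((L.map (cj J Y)).prod).det = 1 := by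
    intro Y hY
    rw [det_cj_prod hY, ← det_cj_prod hY₀, hrel, det_one]
  obtain ⟨Y, ⟨hYU, hYadj⟩, hYu, hYrel, c, hgen⟩ := exists_generic_point_K hr K₀ hK₀
    (fun Y : ι → P002R.Mat r ℂ => (L.map (cj J Y)).prod)
    (fun Y hY => good_cj K₀ hJK hY L) hdet Y₀ hY₀ hrel
    (fun D hD N hN => by
      obtain ⟨D', hD', hDe⟩ := deriv_list J hY₀ L
      have hDD : D' = D := hD'.hasFDerivAt.unique hD.hasFDerivAt
      refine scalar_of_orth L hnd hmem hrel hadj N fun x => ?_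
      rw [← hDe, hDD]
      exact hN _)
    _ (Filter.inter_mem hU (adjoin_nhds J Y₀ hY₀ hadj))
  refine ⟨Y, hYU, hYu, hYrel, hYadj, fun x hx => ?_⟩
  obtain ⟨D, hD, hDe⟩ := deriv_list J hYu L
  obtain ⟨δ, hδ0, hδ1, -⟩ := hgen D hD (fun k => x k * Y k) (by rw [hDe]; exact hx) 0
  refine ⟨δ, hδ0, fun k => ?_⟩
  ext i j
  exact hδ1 k i j

theorem map_der_list_norm {K₀ : Subfield ℂ} {J Y : ι → P002R.Mat r ℂ} (hJK : ∀ j a b, J j a b ∈ K₀)
    (hY : ∀ j, IsUnit (Y j)) (δ : Derivation ℤ ℂ ℂ) (hδ : ∀ a ∈ K₀, δ a = 0)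
    (x : ι → P002R.Mat r ℂ) (hx : ∀ k, (Y k).map δ = x k * Y k) (l : List ι) :
    ((l.map (cj J Y)).prod).map δ = DL (cj J Y) x l := by
  obtain ⟨D, hD, h⟩ := good_cj K₀ hJK hY l
  obtain ⟨D', hD', e⟩ := deriv_list J hY l
  have hDD : D' = D := hD'.hasFDerivAt.unique hD.hasFDerivAt
  rw [← e, hDD]
  refine (h δ hδ).trans ?_
  congr 1
  funext k
  exact hx k

end normed

variable [Fintype ι]

/-- Generic points. -/
def GenPt (K₀ : Subfield ℂ) (J : ι → P002R.Mat r ℂ) (L : List ι) (Y : ι → P002R.Mat r ℂ) : Prop :=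
  ∀ x : ι → P002R.Mat r ℂ, DL (cj J Y) x L = 0 →
    ∃ δ : Derivation ℤ ℂ ℂ, (∀ a ∈ K₀, δ a = 0) ∧ ∀ k, (Y k).map δ = x k * Y k

theorem generic_point [DecidableEq ι] (hr : 1 ≤ r) (L : List ι) (hnd : L.Nodup)
    (hmem : ∀ j, j ∈ L) (K₀ : Subfield ℂ) (hK₀ : Countable K₀) (J : ι → P002R.Mat r ℂ)
    (hJK : ∀ j a b, J j a b ∈ K₀)
    (Y₀ : ι → P002R.Mat r ℂ) (hY₀ : ∀ j, IsUnit (Y₀ j)) (hrel : (L.map (cj J Y₀)).prod = 1)
    (hadj : Algebra.adjoin ℂ (Set.range (cj J Y₀)) = ⊤) (U : Set (ι → P002R.Mat r ℂ))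
    (hU : U ∈ nhds Y₀) :
    ∃ Y ∈ U, (∀ j, IsUnit (Y j)) ∧ (L.map (cj J Y)).prod = 1 ∧
      Algebra.adjoin ℂ (Set.range (cj J Y)) = ⊤ ∧ GenPt K₀ J L Y :=
  generic_point_norm hr L hnd hmem K₀ hK₀ J hJK Y₀ hY₀ hrel hadj U hU

theorem map_der_list {K₀ : Subfield ℂ} {J Y : ι → P002R.Mat r ℂ} (hJK : ∀ j a b, J j a b ∈ K₀)
    (hY : ∀ j, IsUnit (Y j)) (δ : Derivation ℤ ℂ ℂ) (hδ : ∀ a ∈ K₀, δ a = 0)
    (x : ι → P002R.Mat r ℂ) (hx : ∀ k, (Y k).map δ = x k * Y k) (l : List ι) :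
    ((l.map (cj J Y)).prod).map δ = DL (cj J Y) x l :=
  map_der_list_norm hJK hY δ hδ x hx l

theorem map_der_inv {M : P002R.Mat r ℂ} (hM : IsUnit M) (δ : Derivation ℤ ℂ ℂ) :
    (M⁻¹).map δ = -(M⁻¹ * M.map δ * M⁻¹) := by
  have hud : IsUnit M.det := (Matrix.isUnit_iff_isUnit_det _).1 hM
  have h1 : M * M⁻¹ = 1 := Matrix.mul_nonsing_inv _ hud
  have h2 : M⁻¹ * M = 1 := Matrix.nonsing_inv_mul _ hud
  have h3 := congrArg (fun M : P002R.Mat r ℂ => M.map δ) h1
  simp only [map_der_mul] at h3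
  have h4 : (1 : P002R.Mat r ℂ).map δ = 0 := by
    ext i j
    rw [Matrix.map_apply, Matrix.one_apply]
    split_ifs <;> simp
  rw [h4] at h3
  have h5 : M * M⁻¹.map δ = -(M.map δ * M⁻¹) := by
    rw [eq_neg_iff_add_eq_zero, add_comm]; exact h3
  calc M⁻¹.map δ = M⁻¹ * (M * M⁻¹.map δ) := by
        rw [← Matrix.mul_assoc, h2, Matrix.one_mul]
    _ = -(M⁻¹ * M.map δ * M⁻¹) := by
        rw [h5, Matrix.mul_neg, Matrix.mul_assoc]

omit [Fintype ι] in
/-- the functional equation at a generic point -/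
theorem generic_fun [DecidableEq ι] {K₀ : Subfield ℂ} {J : ι → P002R.Mat r ℂ}
    {Y : ι → P002R.Mat r ℂ} (hJ : ∀ j, IsUnit (J j)) (hY : ∀ j, IsUnit (Y j)) (b t : ι)
    (l₁ l₂ l₃ : List ι) (hnd : (b :: (l₁ ++ (l₂ ++ t :: l₃))).Nodup)
    (hmem : ∀ j, j ∈ b :: (l₁ ++ (l₂ ++ t :: l₃)))
    (hrel : ((b :: (l₁ ++ (l₂ ++ t :: l₃))).map (cj J Y)).prod = 1)
    (hadj : Algebra.adjoin ℂ (Set.range (cj J Y)) = ⊤)
    (hgen : GenPt K₀ J (b :: (l₁ ++ (l₂ ++ t :: l₃))) Y) (u y : Fin r → ℂ) (hu : u ≠ 0)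
    (hy : y ≠ 0) :
    ∃ (δ : Derivation ℤ ℂ ℂ) (x : ι → P002R.Mat r ℂ), (∀ a ∈ K₀, δ a = 0) ∧
      (∀ k, (Y k).map δ = x k * Y k) ∧
      y ⬝ᵥ ((DL (cj J Y) x l₁ + (l₁.map (cj J Y)).prod * x t - x b * (l₁.map (cj J Y)).prod) *ᵥ u)
        ≠ 0 := by
  obtain ⟨x, hx1, hx2⟩ := rank_one (cj J Y) (fun j => isUnit_cj hJ hY j) b t l₁ l₂ l₃ hnd hrel
    hmem (fun W hW => eq_bot_or_top_of_adjoin (cj J Y) hadj W hW) u y hu hy
  obtain ⟨δ, h1, h2⟩ := hgen x hx1
  exact ⟨δ, x, h1, h2, hx2⟩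

/-- minors at a generic point -/
theorem generic_minor [DecidableEq ι] {K₀ : Subfield ℂ} {J : ι → P002R.Mat r ℂ}
    (hJK : ∀ j a b, J j a b ∈ K₀)
    {Y : ι → P002R.Mat r ℂ} (hJ : ∀ j, IsUnit (J j)) (hY : ∀ j, IsUnit (Y j)) (b t : ι)
    (l₁ l₂ l₃ : List ι) (hnd : (b :: (l₁ ++ (l₂ ++ t :: l₃))).Nodup)
    (hmem : ∀ j, j ∈ b :: (l₁ ++ (l₂ ++ t :: l₃)))
    (hrel : ((b :: (l₁ ++ (l₂ ++ t :: l₃))).map (cj J Y)).prod = 1)
    (hadj : Algebra.adjoin ℂ (Set.range (cj J Y)) = ⊤)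
    (hgen : GenPt K₀ J (b :: (l₁ ++ (l₂ ++ t :: l₃))) Y) {κ : Type*} [Fintype κ] [DecidableEq κ]
    (f g : κ → Fin r) (hf : Function.Injective f) (hg : Function.Injective g) :
    (((Y b)⁻¹ * (l₁.map (cj J Y)).prod * Y t).submatrix f g).det ≠ 0 := by
  intro hdet
  obtain ⟨P, hP⟩ : ∃ P, P = (l₁.map (cj J Y)).prod := ⟨_, rfl⟩
  obtain ⟨G, hG⟩ : ∃ G, G = (Y b)⁻¹ * P * Y t := ⟨_, rfl⟩
  rw [← hP, ← hG] at hdet
  obtain ⟨v, hv0, hv⟩ := Matrix.exists_mulVec_eq_zero_iff.2 hdet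
  obtain ⟨z, hz0, hz⟩ := Matrix.exists_vecMul_eq_zero_iff.2 hdet
  have bu : IsUnit (Y b)⁻¹ := Matrix.isUnit_nonsing_inv_iff.2 (hY b)
  -- extension by zero
  obtain ⟨w, hw⟩ : ∃ w : Fin r → ℂ, ∀ M : P002R.Mat r ℂ, ∀ a, (M *ᵥ w) a =
      ∑ c, M a (g c) * v c := by
    refine ⟨∑ c, v c • Pi.single (g c) 1, fun M a => ?_⟩
    rw [Matrix.mulVec_sum, Finset.sum_apply]
    refine Finset.sum_congr rfl fun c _ => ?_
    rw [Matrix.mulVec_smul, Matrix.mulVec_single_one, Pi.smul_apply, smul_eq_mul, mul_comm]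
    rfl
  obtain ⟨s, hs⟩ : ∃ s : Fin r → ℂ, ∀ q : Fin r → ℂ, s ⬝ᵥ q = ∑ c, z c * q (f c) := by
    refine ⟨∑ c, z c • Pi.single (f c) 1, fun q => ?_⟩
    rw [sum_dotProduct]
    refine Finset.sum_congr rfl fun c _ => ?_
    rw [smul_dotProduct, single_dotProduct, one_mul, smul_eq_mul]
  have hw0 : w ≠ 0 := by
    intro h0
    obtain ⟨c₀, hc₀⟩ := Function.ne_iff.1 hv0
    apply hc₀
    have h1 := hw 1 (g c₀)
    rw [h0, Matrix.mulVec_zero, Pi.zero_apply, Finset.sum_eq_single c₀] at h1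
    · rw [Matrix.one_apply_eq, one_mul] at h1
      exact h1.symm
    · intro c _ hc
      rw [Matrix.one_apply_ne, zero_mul]
      intro h
      exact hc (hg h.symm)
    · intro h
      exact absurd (Finset.mem_univ _) h
  have hs0 : s ≠ 0 := by
    intro h0
    obtain ⟨c₀, hc₀⟩ := Function.ne_iff.1 hz0
    apply hc₀
    have h1 := hs (Pi.single (f c₀) 1)
    rw [h0, zero_dotProduct, Finset.sum_eq_single c₀] at h1
    · rw [Pi.single_eq_same, mul_one] at h1
      exact h1.symm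
    · intro c _ hc
      rw [Pi.single_eq_of_ne, mul_zero]
      intro h
      exact hc (hf h)
    · intro h
      exact absurd (Finset.mem_univ _) h
  have hu : Y t *ᵥ w ≠ 0 := by
    intro h
    apply hw0
    have hud : IsUnit (Y t).det := (Matrix.isUnit_iff_isUnit_det _).1 (hY t)
    calc w = ((Y t)⁻¹ * Y t) *ᵥ w := by rw [Matrix.nonsing_inv_mul _ hud, Matrix.one_mulVec]
      _ = 0 := by rw [← Matrix.mulVec_mulVec, h, Matrix.mulVec_zero]
  have hy : s ᵥ* (Y b)⁻¹ ≠ 0 := by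
    intro h
    apply hs0
    have hud : IsUnit (Y b).det := (Matrix.isUnit_iff_isUnit_det _).1 (hY b)
    calc s = s ᵥ* ((Y b)⁻¹ * Y b) := by rw [Matrix.nonsing_inv_mul _ hud, Matrix.vecMul_one]
      _ = 0 := by rw [← Matrix.vecMul_vecMul, h, Matrix.zero_vecMul]
  obtain ⟨δ, x, hδ, hx, hne⟩ := generic_fun hJ hY b t l₁ l₂ l₃ hnd hmem hrel hadj hgen _ _ hu hy
  apply hne
  rw [← hP]
  have hGδ : G.map δ = (Y b)⁻¹ * (DL (cj J Y) x l₁ + P * x t - x b * P) * Y t := by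
    have hud : IsUnit (Y b).det := (Matrix.isUnit_iff_isUnit_det _).1 (hY b)
    have a1 : Y b * (Y b)⁻¹ = 1 := Matrix.mul_nonsing_inv _ hud
    rw [hG, map_der_mul, map_der_mul, map_der_inv (hY b), hx, hx, hP, map_der_list hJK hY δ hδ x hx,
      ← hP]
    have e : -((Y b)⁻¹ * (x b * Y b) * (Y b)⁻¹) = -((Y b)⁻¹ * x b * (Y b * (Y b)⁻¹)) := by
      noncomm_ring
    rw [e, a1]
    noncomm_ring
  have h1 : (s ᵥ* (Y b)⁻¹) ⬝ᵥ ((DL (cj J Y) x l₁ + P * x t - x b * P) *ᵥ (Y t *ᵥ w)) =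
      s ⬝ᵥ (G.map δ *ᵥ w) := by
    rw [hGδ, ← Matrix.mulVec_mulVec, ← Matrix.mulVec_mulVec, Matrix.dotProduct_mulVec s]
  rw [h1, hs]
  -- `z δ(G') v = 0`
  have h2 : ∀ c, ∑ d, (G.map δ) (f c) (g d) * v d = - ∑ d, G (f c) (g d) * δ (v d) := by
    intro c
    have h3 := congrArg δ (congrFun hv c)
    rw [Pi.zero_apply, map_zero] at h3
    simp only [Matrix.mulVec, dotProduct, Matrix.submatrix_apply, map_sum, Derivation.leibniz,
      smul_eq_mul, Finset.sum_add_distrib] at h3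
    rw [eq_neg_iff_add_eq_zero, add_comm, ← h3]
    congr 1
    refine Finset.sum_congr rfl fun d _ => ?_
    rw [Matrix.map_apply, mul_comm]
  have h4 : ∑ c, z c * (G.map δ *ᵥ w) (f c) = - ∑ d, (∑ c, z c * G (f c) (g d)) * δ (v d) := by
    calc ∑ c, z c * (G.map δ *ᵥ w) (f c)
        = ∑ c, z c * -∑ d, G (f c) (g d) * δ (v d) := by
          refine Finset.sum_congr rfl fun c _ => ?_
          rw [hw, h2]
      _ = - ∑ c, ∑ d, z c * (G (f c) (g d) * δ (v d)) := by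
          rw [← Finset.sum_neg_distrib]
          refine Finset.sum_congr rfl fun c _ => ?_
          rw [mul_neg, Finset.mul_sum]
      _ = _ := by
          rw [Finset.sum_comm]
          congr 1
          refine Finset.sum_congr rfl fun d _ => ?_
          rw [Finset.sum_mul]
          refine Finset.sum_congr rfl fun c _ => by ring
  rw [h4, neg_eq_zero]
  refine Finset.sum_eq_zero fun d _ => ?_
  have h5 := congrFun hz d
  have h6 : ∑ c, z c * G (f c) (g d) = 0 := h5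
  rw [h6, zero_mul]

/-- linear functionals at a generic point -/
theorem generic_functional [DecidableEq ι] {K₀ : Subfield ℂ} {J : ι → P002R.Mat r ℂ}
    (hJK : ∀ j a b, J j a b ∈ K₀)
    {Y : ι → P002R.Mat r ℂ} (hJ : ∀ j, IsUnit (J j)) (hY : ∀ j, IsUnit (Y j)) (b t : ι)
    (l₁ l₂ l₃ : List ι) (hnd : (b :: (l₁ ++ (l₂ ++ t :: l₃))).Nodup)
    (hmem : ∀ j, j ∈ b :: (l₁ ++ (l₂ ++ t :: l₃)))
    (hrel : ((b :: (l₁ ++ (l₂ ++ t :: l₃))).map (cj J Y)).prod = 1)
    (hadj : Algebra.adjoin ℂ (Set.range (cj J Y)) = ⊤)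
    (hgen : GenPt K₀ J (b :: (l₁ ++ (l₂ ++ t :: l₃))) Y)
    (e ε : Fin r → ℂ) (he : ∀ i, e i ∈ K₀) (hε : ∀ i, ε i ∈ K₀) (he0 : e ≠ 0) (hε0 : ε ≠ 0) :
    ε ⬝ᵥ (((Y t)⁻¹ * ((l₁.map (cj J Y)).prod)⁻¹ * Y b) *ᵥ e) ≠ 0 := by
  intro h0
  obtain ⟨P, hP⟩ : ∃ P, P = (l₁.map (cj J Y)).prod := ⟨_, rfl⟩
  have hPu : IsUnit P := hP ▸ isUnit_cj_prod hJ hY l₁
  obtain ⟨G, hG⟩ : ∃ G, G = (Y t)⁻¹ * P⁻¹ * Y b := ⟨_, rfl⟩
  rw [← hP, ← hG] at h0
  have hu : (P⁻¹ * Y b) *ᵥ e ≠ 0 := by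
    intro h
    apply he0
    have hud : IsUnit (P⁻¹ * Y b).det :=
      (Matrix.isUnit_iff_isUnit_det _).1 ((Matrix.isUnit_nonsing_inv_iff.2 hPu).mul (hY b))
    calc e = ((P⁻¹ * Y b)⁻¹ * (P⁻¹ * Y b)) *ᵥ e := by
          rw [Matrix.nonsing_inv_mul _ hud, Matrix.one_mulVec]
      _ = 0 := by rw [← Matrix.mulVec_mulVec, h, Matrix.mulVec_zero]
  have hy : ε ᵥ* ((Y t)⁻¹ * P⁻¹) ≠ 0 := by
    intro h
    apply hε0
    have hud : IsUnit ((Y t)⁻¹ * P⁻¹).det :=
      (Matrix.isUnit_iff_isUnit_det _).1 ((Matrix.isUnit_nonsing_inv_iff.2 (hY t)).mul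
        (Matrix.isUnit_nonsing_inv_iff.2 hPu))
    calc ε = ε ᵥ* (((Y t)⁻¹ * P⁻¹) * ((Y t)⁻¹ * P⁻¹)⁻¹) := by
          rw [Matrix.mul_nonsing_inv _ hud, Matrix.vecMul_one]
      _ = 0 := by rw [← Matrix.vecMul_vecMul, h, Matrix.zero_vecMul]
  obtain ⟨δ, x, hδ, hx, hne⟩ := generic_fun hJ hY b t l₁ l₂ l₃ hnd hmem hrel hadj hgen _ _ hu hy
  apply hne
  rw [← hP]
  have hGδ : G.map δ = -((Y t)⁻¹ * P⁻¹ * (DL (cj J Y) x l₁ + P * x t - x b * P) * (P⁻¹ * Y b)) := by
    have hud : IsUnit (Y t).det := (Matrix.isUnit_iff_isUnit_det _).1 (hY t)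
    have hPd : IsUnit P.det := (Matrix.isUnit_iff_isUnit_det _).1 hPu
    have a1 : Y t * (Y t)⁻¹ = 1 := Matrix.mul_nonsing_inv _ hud
    have a2 : P * P⁻¹ = 1 := Matrix.mul_nonsing_inv _ hPd
    have a3 : P⁻¹ * P = 1 := Matrix.nonsing_inv_mul _ hPd
    have hPδ : P.map δ = DL (cj J Y) x l₁ := by rw [hP, map_der_list hJK hY δ hδ x hx]
    rw [hG, map_der_mul, map_der_mul, map_der_inv (hY t), map_der_inv hPu, hx, hx, hPδ]
    have e1 : -((Y t)⁻¹ * (x t * Y t) * (Y t)⁻¹) = -((Y t)⁻¹ * x t * (Y t * (Y t)⁻¹)) := by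
      noncomm_ring
    have e2 : (Y t)⁻¹ * P⁻¹ * (DL (cj J Y) x l₁ + P * x t - x b * P) * (P⁻¹ * Y b) =
        (Y t)⁻¹ * P⁻¹ * DL (cj J Y) x l₁ * P⁻¹ * Y b +
          (Y t)⁻¹ * (P⁻¹ * P) * x t * P⁻¹ * Y b - (Y t)⁻¹ * P⁻¹ * x b * (P * P⁻¹) * Y b := by
      noncomm_ring
    rw [e1, a1, e2, a2, a3]
    noncomm_ring
  have h1 : (ε ᵥ* ((Y t)⁻¹ * P⁻¹)) ⬝ᵥ
      ((DL (cj J Y) x l₁ + P * x t - x b * P) *ᵥ ((P⁻¹ * Y b) *ᵥ e)) = - (ε ⬝ᵥ (G.map δ *ᵥ e)) := by
    have e1 : ∀ A B C : P002R.Mat r ℂ, (ε ᵥ* A) ⬝ᵥ (B *ᵥ (C *ᵥ e)) =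
        ε ⬝ᵥ ((A * B * C) *ᵥ e) := fun A B C => by
      rw [← Matrix.mulVec_mulVec, ← Matrix.mulVec_mulVec, Matrix.dotProduct_mulVec ε]
    rw [hGδ, Matrix.neg_mulVec, dotProduct_neg, neg_neg, e1]
  rw [h1, neg_eq_zero]
  have h2 := congrArg δ h0
  rw [map_zero] at h2
  simp only [dotProduct, map_sum, Derivation.leibniz, smul_eq_mul, hδ _ (hε _), mul_zero,
    add_zero, Matrix.mulVec, Finset.mul_sum, hδ _ (he _)] at h2
  simp only [dotProduct, Matrix.mulVec, Matrix.map_apply, Finset.mul_sum]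
  rw [← h2]
  refine Finset.sum_congr rfl fun i _ => Finset.sum_congr rfl fun j _ => ?_
  rw [zero_add]
  ring

/-- The Krylov matrix is invertible if no left eigenvector annihilates the vector. -/
theorem kry_det_ne (M : P002R.Mat r ℂ) (v : Fin r → ℂ)
    (h : ∀ (lam : ℂ) (y : Fin r → ℂ), y ≠ 0 → y ᵥ* M = lam • y → y ⬝ᵥ v ≠ 0) :
    (kry M v).det ≠ 0 := by
  intro hdet
  obtain ⟨y, hy0, hy⟩ := Matrix.exists_vecMul_eq_zero_iff.2 hdet
  have h1 : ∀ j : ℕ, j < r → y ⬝ᵥ ((M ^ j) *ᵥ v) = 0 := by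
    intro j hj
    exact congrFun hy ⟨j, hj⟩
  have h2 : ∀ p : Polynomial ℂ, y ⬝ᵥ (Polynomial.aeval M p *ᵥ v) = 0 := by
    intro p
    have hm := Matrix.charpoly_monic M
    have e1 := Polynomial.modByMonic_add_div p M.charpoly
    have e2 : Polynomial.aeval M p = Polynomial.aeval M (p %ₘ M.charpoly) := by
      conv_lhs => rw [← e1]
      rw [map_add, map_mul, Matrix.aeval_self_charpoly, zero_mul, add_zero]
    by_cases h0 : p %ₘ M.charpoly = 0
    · rw [e2, h0, map_zero, Matrix.zero_mulVec, dotProduct_zero]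
    have hdeg : (p %ₘ M.charpoly).natDegree < r := by
      rw [Polynomial.natDegree_lt_iff_degree_lt h0]
      have := Polynomial.degree_modByMonic_lt p hm
      rwa [Matrix.charpoly_degree_eq_dim, Fintype.card_fin] at this
    rw [e2, Polynomial.aeval_eq_sum_range' hdeg, Matrix.sum_mulVec, dotProduct_sum]
    refine Finset.sum_eq_zero fun n hn => ?_
    rw [Matrix.smul_mulVec, dotProduct_smul, h1 n (Finset.mem_range.1 hn), smul_zero]
  -- the annihilator is invariant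
  obtain ⟨W, hW⟩ : ∃ W : Submodule ℂ (Fin r → ℂ), ∀ z, z ∈ W ↔
      ∀ p : Polynomial ℂ, z ⬝ᵥ (Polynomial.aeval M p *ᵥ v) = 0 :=
    ⟨{ carrier := {z | ∀ p : Polynomial ℂ, z ⬝ᵥ (Polynomial.aeval M p *ᵥ v) = 0}
       add_mem' := fun {a b} ha hb p => by rw [add_dotProduct, ha p, hb p, add_zero]
       zero_mem' := fun p => zero_dotProduct _
       smul_mem' := fun c z hz p => by rw [smul_dotProduct, hz p, smul_zero] }, fun z => Iff.rfl⟩
  have hinv : ∀ z ∈ W, Matrix.toLin' Mᵀ z ∈ W := by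
    intro z hz
    rw [hW] at hz ⊢
    intro p
    rw [Matrix.toLin'_apply, Matrix.mulVec_transpose, ← Matrix.dotProduct_mulVec,
      Matrix.mulVec_mulVec]
    have := hz (Polynomial.X * p)
    rwa [map_mul, Polynomial.aeval_X] at this
  have hyW : y ∈ W := (hW y).2 h2
  have hnt : Nontrivial W := ⟨⟨⟨y, hyW⟩, 0, fun h => hy0 (congrArg Subtype.val h)⟩⟩
  obtain ⟨lam, hlam⟩ := Module.End.exists_eigenvalue ((Matrix.toLin' Mᵀ).restrict hinv)
  obtain ⟨⟨z, hzW⟩, hz⟩ := hlam.exists_hasEigenvector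
  have hz1 : y ≠ 0 := hy0
  have hz2 : Matrix.toLin' Mᵀ z = lam • z := congrArg Subtype.val hz.apply_eq_smul
  have hz3 : z ≠ 0 := fun h0 => hz.2 (Subtype.ext h0)
  rw [Matrix.toLin'_apply, Matrix.mulVec_transpose] at hz2
  refine h lam z hz3 hz2 ?_
  have h3 := (hW z).1 hzW 1
  rwa [map_one, Matrix.one_mulVec] at h3

/-- A left eigenvector is unique up to scalars if there is a cyclic vector. -/
theorem left_eigen_unique {J : P002R.Mat r ℂ} {v : Fin r → ℂ} (hv : (kry J v).det ≠ 0) {lam : ℂ}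
    {y z : Fin r → ℂ} (hy : y ᵥ* J = lam • y) (hz : z ᵥ* J = lam • z) (hz0 : z ≠ 0) :
    ∃ a : ℂ, y = a • z := by
  have hpow : ∀ w : Fin r → ℂ, w ᵥ* J = lam • w → ∀ n : ℕ, w ᵥ* (J ^ n) = lam ^ n • w := by
    intro w hw n
    induction n with
    | zero => rw [pow_zero, pow_zero, one_smul, Matrix.vecMul_one]
    | succ n ih =>
      rw [pow_succ, ← Matrix.vecMul_vecMul, ih, Matrix.smul_vecMul, hw, smul_smul, pow_succ]
  have hzero : ∀ w : Fin r → ℂ, w ᵥ* J = lam • w → w ⬝ᵥ v = 0 → w = 0 := by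
    intro w hw h0
    by_contra hw0
    apply hv
    apply Matrix.exists_vecMul_eq_zero_iff.1
    refine ⟨w, hw0, ?_⟩
    funext j
    show w ⬝ᵥ (fun i => kry J v i j) = 0
    have h1 : (fun i => kry J v i j) = (J ^ (j : ℕ)) *ᵥ v := rfl
    rw [h1, Matrix.dotProduct_mulVec, hpow w hw, smul_dotProduct, h0, smul_zero]
  have hzv : z ⬝ᵥ v ≠ 0 := fun h => hz0 (hzero z hz h)
  refine ⟨(y ⬝ᵥ v) / (z ⬝ᵥ v), ?_⟩
  rw [← sub_eq_zero]
  refine hzero _ ?_ ?_
  · rw [Matrix.sub_vecMul, Matrix.smul_vecMul, hy, hz, smul_sub, smul_comm]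
  · rw [sub_dotProduct, smul_dotProduct, smul_eq_mul, div_mul_cancel₀ _ hzv, sub_self]

omit [Fintype ι] in
/-- The set of the values which have to be constants. -/
theorem exists_eigen_field [Finite ι] (J : ι → P002R.Mat r ℂ) :
    ∃ K₀ : Subfield ℂ, Countable K₀ ∧ (∀ j a b, J j a b ∈ K₀) ∧
      ∀ j (lam : ℂ) (y : Fin r → ℂ), y ≠ 0 → y ᵥ* J j = lam • y →
        ∃ z : Fin r → ℂ, z ≠ 0 ∧ z ᵥ* J j = lam • z ∧ ∀ i, z i ∈ K₀ := by
  classical
  have hch : ∀ (j : ι) (lam : ℂ), ∃ z : Fin r → ℂ,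
      (∃ y : Fin r → ℂ, y ≠ 0 ∧ y ᵥ* J j = lam • y) → z ≠ 0 ∧ z ᵥ* J j = lam • z := by
    intro j lam
    by_cases h : ∃ y : Fin r → ℂ, y ≠ 0 ∧ y ᵥ* J j = lam • y
    · obtain ⟨y, hy⟩ := h
      exact ⟨y, fun _ => hy⟩
    · exact ⟨0, fun h' => absurd h' h⟩
  choose z hz using hch
  obtain ⟨K₀, hK₀, hsub⟩ := exists_countable_subfield'
    ((Set.range fun p : ι × Fin r × Fin r => J p.1 p.2.1 p.2.2) ∪
      ⋃ j, ⋃ i : Fin r, (fun lam => z j lam i) '' {lam : ℂ | (J j).charpoly.IsRoot lam}) (by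
      have := Finite.to_countable (α := ι)
      refine (Set.countable_range _).union (Set.countable_iUnion fun j =>
        Set.countable_iUnion fun i => Set.Countable.image (Set.Finite.countable ?_) _)
      exact Polynomial.finite_setOfPred_isRoot (Matrix.charpoly_monic _).ne_zero)
  refine ⟨K₀, hK₀, fun j a b => hsub (Or.inl ⟨(j, a, b), rfl⟩), fun j lam y hy0 hy => ?_⟩
  obtain ⟨h1, h2⟩ := hz j lam ⟨y, hy0, hy⟩
  refine ⟨z j lam, h1, h2, fun i => hsub (Or.inr ?_)⟩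
  refine Set.mem_iUnion.2 ⟨j, Set.mem_iUnion.2 ⟨i, lam, ?_, rfl⟩⟩
  show (J j).charpoly.IsRoot lam
  rw [Polynomial.IsRoot.def, Matrix.eval_charpoly]
  apply Matrix.exists_vecMul_eq_zero_iff.1
  refine ⟨y, hy0, ?_⟩
  rw [Matrix.vecMul_sub, hy, Matrix.scalar_apply, ← Matrix.smul_one_eq_diagonal,
    Matrix.vecMul_smul, Matrix.vecMul_one, sub_self]

/-- Near every irreducible tuple of conjugates with product one there is one all of whose
flags are in general position, and which satisfies all cyclicity conditions. -/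
theorem exists_generic_flags [DecidableEq ι] (hr : 1 ≤ r) (L : List ι) (hnd : L.Nodup)
    (hmem : ∀ j, j ∈ L) (J : ι → P002R.Mat r ℂ) (hJ : ∀ j, IsUnit (J j))
    (Y₀ : ι → P002R.Mat r ℂ) (hY₀ : ∀ j, IsUnit (Y₀ j)) (hrel : (L.map (cj J Y₀)).prod = 1)
    (hadj : Algebra.adjoin ℂ (Set.range (cj J Y₀)) = ⊤) (U : Set (ι → P002R.Mat r ℂ))
    (hU : U ∈ nhds Y₀) :
    ∃ Y ∈ U, (∀ j, IsUnit (Y j)) ∧ (L.map (cj J Y)).prod = 1 ∧
      Algebra.adjoin ℂ (Set.range (cj J Y)) = ⊤ ∧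
      ∀ (b t : ι) (l₁ l₂ l₃ : List ι), L = b :: (l₁ ++ (l₂ ++ t :: l₃)) →
        (∀ (k : ℕ) (f g : Fin k → Fin r), Function.Injective f → Function.Injective g →
          (((Y b)⁻¹ * (l₁.map (cj J Y)).prod * Y t).submatrix f g).det ≠ 0) ∧
        ((∃ v, (kry (J t) v).det ≠ 0) → ∀ a : Fin r,
          (kry (cj J Y t)
            ((((l₁.map (cj J Y)).prod)⁻¹ * Y b) *ᵥ (Pi.single a 1 : Fin r → ℂ))).det ≠ 0) := by
  obtain ⟨K₀, hK₀, hJK, hE⟩ := exists_eigen_field J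
  obtain ⟨Y, hYU, hYu, hYrel, hYadj, hgen⟩ := generic_point hr L hnd hmem K₀ hK₀ J hJK Y₀ hY₀ hrel
    hadj U hU
  refine ⟨Y, hYU, hYu, hYrel, hYadj, ?_⟩
  rintro b t l₁ l₂ l₃ rfl
  refine ⟨fun k f g hf hg => generic_minor hJK hJ hYu b t l₁ l₂ l₃ hnd hmem hYrel hYadj hgen f g
    hf hg, fun hcyc a => ?_⟩
  obtain ⟨v, hv⟩ := hcyc
  refine kry_det_ne _ _ fun lam y hy0 hy h0 => ?_
  have hud : IsUnit (Y t).det := (Matrix.isUnit_iff_isUnit_det _).1 (hYu t)
  have a1 : Y t * (Y t)⁻¹ = 1 := Matrix.mul_nonsing_inv _ hud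
  have a2 : (Y t)⁻¹ * Y t = 1 := Matrix.nonsing_inv_mul _ hud
  have h1 : (y ᵥ* Y t) ᵥ* J t = lam • (y ᵥ* Y t) := by
    calc (y ᵥ* Y t) ᵥ* J t = (y ᵥ* cj J Y t) ᵥ* Y t := by
          rw [Matrix.vecMul_vecMul, Matrix.vecMul_vecMul, cj_apply, Matrix.mul_assoc (Y t * J t),
            a2, Matrix.mul_one]
      _ = _ := by rw [hy, Matrix.smul_vecMul]
  have h2 : y ᵥ* Y t ≠ 0 := by
    intro h
    apply hy0
    calc y = y ᵥ* (Y t * (Y t)⁻¹) := by rw [a1, Matrix.vecMul_one]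
      _ = 0 := by rw [← Matrix.vecMul_vecMul, h, Matrix.zero_vecMul]
  obtain ⟨z, hz0, hz, hzK⟩ := hE t lam _ h2 h1
  obtain ⟨c, hc⟩ := left_eigen_unique hv h1 hz hz0
  have hc0 : c ≠ 0 := by
    rintro rfl
    apply h2
    rw [hc, zero_smul]
  refine generic_functional hJK hJ hYu b t l₁ l₂ l₃ hnd hmem hYrel hYadj hgen
    (Pi.single a 1) z (fun i => ?_) hzK (fun h => ?_) hz0 ?_
  · by_cases hi : i = a
    · subst hi
      rw [Pi.single_eq_same]
      exact K₀.one_mem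
    · rw [Pi.single_eq_of_ne hi]
      exact K₀.zero_mem
  · have := congrFun h a
    rw [Pi.single_eq_same, Pi.zero_apply] at this
    exact one_ne_zero this
  · have h3 : z = c⁻¹ • (y ᵥ* Y t) := by
      rw [hc, smul_smul, inv_mul_cancel₀ hc0, one_smul]
    rw [h3, smul_dotProduct, Matrix.mul_assoc, ← Matrix.mulVec_mulVec, ← Matrix.dotProduct_mulVec,
      Matrix.mulVec_mulVec, a1, Matrix.one_mulVec, h0, smul_zero]

end Vale.Agent.P002R
end

section

/-!
# P002, genus 1: rank one lemmas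
-/

namespace Vale.Agent.P002R

open Matrix Module

variable {r : ℕ}

theorem vecMulVec_ne_zero {u y : Fin r → ℂ} (hu : u ≠ 0) (hy : y ≠ 0) :
    (vecMulVec u y : Mat r ℂ) ≠ 0 := by
  intro h0
  obtain ⟨i, hi⟩ := Function.ne_iff.1 hu
  obtain ⟨j, hj⟩ := Function.ne_iff.1 hy
  have h1 := congrFun (congrFun h0 i) j
  rw [vecMulVec_apply] at h1
  rcases mul_eq_zero.1 h1 with h | h
  · exact hi h
  · exact hj h

theorem vmv_mulVec (u y v : Fin r → ℂ) : (vecMulVec u y : Mat r ℂ) *ᵥ v = (y ⬝ᵥ v) • u := by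
  rw [Matrix.vecMulVec_mulVec]
  ext i
  simp [mul_comm]

/-- the final contradiction -/
theorem end_lemma {S : Type*} (g : S → Mat r ℂ) (hg : ∀ s, IsUnit (g s)) (N : Mat r ℂ)
    (y : Fin r → ℂ) (hy : y ≠ 0) (p : S → Fin r → ℂ)
    (h : ∀ s, N * g s = g s * (N + vecMulVec (p s) y) ∨ (N + vecMulVec (p s) y) * g s = g s * N)
    (hne : ∃ s, p s ≠ 0)
    (hirr : ∀ W : Submodule ℂ (Fin r → ℂ), (∀ s, ∀ w ∈ W, g s *ᵥ w ∈ W) → W = ⊥ ∨ W = ⊤) :
    False := by
  have hnonempty : Nonempty (Fin r) := by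
    by_contra h
    rw [not_nonempty_iff] at h
    exact hy (funext fun i => (h.false i).elim)
  -- not scalar
  have hns : ∀ a : ℂ, N ≠ a • (1 : Mat r ℂ) := by
    intro a ha
    obtain ⟨s, hs⟩ := hne
    have hcomm : a • (1 : Mat r ℂ) * g s = g s * (a • (1 : Mat r ℂ)) := by
      rw [Matrix.smul_mul, Matrix.mul_smul, Matrix.one_mul, Matrix.mul_one]
    have h2 : (vecMulVec (p s) y : Mat r ℂ) = 0 := by
      rcases h s with h1 | h1
      · rw [ha, hcomm, Matrix.mul_add, left_eq_add] at h1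
        exact (hg s).mul_left_cancel (by rw [h1, Matrix.mul_zero])
      · rw [ha, Matrix.add_mul, hcomm, add_eq_left] at h1
        exact (hg s).mul_right_cancel (by rw [h1, Matrix.zero_mul])
    exact vecMulVec_ne_zero hs hy h2
  obtain ⟨lam, hlam⟩ := Module.End.exists_eigenvalue (Matrix.toLin' N)
  obtain ⟨w₀, hw₀⟩ := hlam.exists_hasEigenvector
  have hw₀1 : N *ᵥ w₀ = lam • w₀ := by
    have := hw₀.apply_eq_smul
    rwa [Matrix.toLin'_apply] at this
  have hw₀2 : w₀ ≠ 0 := hw₀.2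
  let Kr : Mat r ℂ → Submodule ℂ (Fin r → ℂ) := fun M => LinearMap.ker (Matrix.toLin' (M - lam • 1))
  let Rg : Mat r ℂ → Submodule ℂ (Fin r → ℂ) := fun M => LinearMap.range (Matrix.toLin' (M - lam • 1))
  have hKr : ∀ M w, w ∈ Kr M ↔ M *ᵥ w = lam • w := by
    intro M w
    simp only [Kr, LinearMap.mem_ker, Matrix.toLin'_apply, Matrix.sub_mulVec, Matrix.smul_mulVec,
      Matrix.one_mulVec, sub_eq_zero]
  have hRg : ∀ M w, w ∈ Rg M ↔ ∃ v, M *ᵥ v - lam • v = w := by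
    intro M w
    simp only [Rg, LinearMap.mem_range, Matrix.toLin'_apply, Matrix.sub_mulVec, Matrix.smul_mulVec,
      Matrix.one_mulVec]
  -- intertwiners
  have hmapK : ∀ (A B G : Mat r ℂ), A * G = G * B → ∀ w ∈ Kr B, G *ᵥ w ∈ Kr A := by
    intro A B G hG w hw
    rw [hKr] at hw ⊢
    rw [Matrix.mulVec_mulVec, hG, ← Matrix.mulVec_mulVec, hw, Matrix.mulVec_smul]
  have hmapR : ∀ (A B G : Mat r ℂ), A * G = G * B → ∀ w ∈ Rg B, G *ᵥ w ∈ Rg A := by
    intro A B G hG w hw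
    rw [hRg] at hw ⊢
    obtain ⟨v, hv⟩ := hw
    refine ⟨G *ᵥ v, ?_⟩
    rw [Matrix.mulVec_mulVec, hG, ← Matrix.mulVec_mulVec, ← Matrix.mulVec_smul,
      ← Matrix.mulVec_sub, hv]
  have hdimK : ∀ (A B G : Mat r ℂ), IsUnit G → A * G = G * B →
      finrank ℂ (Kr B) ≤ finrank ℂ (Kr A) := by
    intro A B G hGu hG
    obtain ⟨G', hG'⟩ : ∃ G' : Mat r ℂ, G' * G = 1 := by
      obtain ⟨q, hq⟩ := hGu
      exact ⟨(q⁻¹ : (Mat r ℂ)ˣ), by rw [← hq]; simp⟩
    refine LinearMap.finrank_le_finrank_of_injective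
      (f := (Matrix.toLin' G).restrict (p := Kr B) (q := Kr A) (fun w hw => by
        rw [Matrix.toLin'_apply]; exact hmapK A B G hG w hw)) ?_
    rintro ⟨w, hw⟩ ⟨w', hw'⟩ h
    have h1 : G *ᵥ w = G *ᵥ w' := congrArg Subtype.val h
    have h2 : G' *ᵥ (G *ᵥ w) = G' *ᵥ (G *ᵥ w') := by rw [h1]
    rw [Matrix.mulVec_mulVec, Matrix.mulVec_mulVec, hG', Matrix.one_mulVec,
      Matrix.one_mulVec] at h2
    exact Subtype.ext h2
  have hdimR : ∀ (A B G : Mat r ℂ), IsUnit G → A * G = G * B →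
      finrank ℂ (Rg B) ≤ finrank ℂ (Rg A) := by
    intro A B G hGu hG
    obtain ⟨G', hG'⟩ : ∃ G' : Mat r ℂ, G' * G = 1 := by
      obtain ⟨q, hq⟩ := hGu
      exact ⟨(q⁻¹ : (Mat r ℂ)ˣ), by rw [← hq]; simp⟩
    refine LinearMap.finrank_le_finrank_of_injective
      (f := (Matrix.toLin' G).restrict (p := Rg B) (q := Rg A) (fun w hw => by
        rw [Matrix.toLin'_apply]; exact hmapR A B G hG w hw)) ?_
    rintro ⟨w, hw⟩ ⟨w', hw'⟩ h
    have h1 : G *ᵥ w = G *ᵥ w' := congrArg Subtype.val h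
    have h2 : G' *ᵥ (G *ᵥ w) = G' *ᵥ (G *ᵥ w') := by rw [h1]
    rw [Matrix.mulVec_mulVec, Matrix.mulVec_mulVec, hG', Matrix.one_mulVec,
      Matrix.one_mulVec] at h2
    exact Subtype.ext h2
  -- similar matrices have kernels and images of the same dimension
  have hswap : ∀ (A B G : Mat r ℂ), IsUnit G → A * G = G * B →
      ∃ G' : Mat r ℂ, IsUnit G' ∧ B * G' = G' * A := by
    intro A B G hGu hG
    obtain ⟨q, hq⟩ := hGu
    refine ⟨((q⁻¹ : (Mat r ℂ)ˣ) : Mat r ℂ), Units.isUnit _, ?_⟩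
    have h1 : (q : Mat r ℂ) * ((q⁻¹ : (Mat r ℂ)ˣ) : Mat r ℂ) = 1 := by simp
    have h2 : ((q⁻¹ : (Mat r ℂ)ˣ) : Mat r ℂ) * (q : Mat r ℂ) = 1 := by simp
    rw [← hq] at hG
    calc B * ((q⁻¹ : (Mat r ℂ)ˣ) : Mat r ℂ)
        = ((q⁻¹ : (Mat r ℂ)ˣ) : Mat r ℂ) * (q * B) * ((q⁻¹ : (Mat r ℂ)ˣ) : Mat r ℂ) := by
          rw [← Matrix.mul_assoc, h2, Matrix.one_mul]
      _ = _ := by rw [← hG, Matrix.mul_assoc, Matrix.mul_assoc, h1, Matrix.mul_one]
  have hdimK' : ∀ s, finrank ℂ (Kr (N + vecMulVec (p s) y)) ≤ finrank ℂ (Kr N) := by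
    intro s
    rcases h s with h1 | h1
    · exact hdimK _ _ _ (hg s) h1
    · obtain ⟨G', hG'u, hG'⟩ := hswap _ _ _ (hg s) h1
      exact hdimK _ _ _ hG'u hG'
  have hdimR' : ∀ s, finrank ℂ (Rg (N + vecMulVec (p s) y)) ≤ finrank ℂ (Rg N) := by
    intro s
    rcases h s with h1 | h1
    · exact hdimR _ _ _ (hg s) h1
    · obtain ⟨G', hG'u, hG'⟩ := hswap _ _ _ (hg s) h1
      exact hdimR _ _ _ hG'u hG'
  by_cases hcase : ∀ w ∈ Kr N, y ⬝ᵥ w = 0
  · -- case 1: the kernel is invariant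
    have hK : ∀ s, Kr N = Kr (N + vecMulVec (p s) y) := by
      intro s
      refine Submodule.eq_of_le_of_finrank_le ?_ (hdimK' s)
      intro w hw
      have h1 := hcase w hw
      rw [hKr] at hw ⊢
      rw [Matrix.add_mulVec, hw, vmv_mulVec, h1, zero_smul, add_zero]
    have hinv : ∀ s, ∀ w ∈ Kr N, g s *ᵥ w ∈ Kr N := by
      intro s w hw
      rcases h s with h1 | h1
      · exact hmapK _ _ _ h1 w (hK s ▸ hw)
      · rw [hK s]
        exact hmapK _ _ _ h1 w hw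
    rcases hirr (Kr N) hinv with h | h
    · have h1 : w₀ ∈ Kr N := (hKr N w₀).2 hw₀1
      rw [h, Submodule.mem_bot] at h1
      exact hw₀2 h1
    · apply hns lam
      refine Matrix.toLin'.injective (LinearMap.ext fun w => ?_)
      have h1 : w ∈ Kr N := h ▸ Submodule.mem_top
      rw [hKr] at h1
      rw [Matrix.toLin'_apply, Matrix.toLin'_apply, h1, Matrix.smul_mulVec, Matrix.one_mulVec]
  · -- case 2: the range is invariant
    push Not at hcase
    obtain ⟨w₁, hw₁, hw₁y⟩ := hcase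
    rw [hKr] at hw₁
    have hR : ∀ s, Rg N = Rg (N + vecMulVec (p s) y) := by
      intro s
      refine Submodule.eq_of_le_of_finrank_le ?_ (hdimR' s)
      have hp : p s ∈ Rg (N + vecMulVec (p s) y) := by
        rw [hRg]
        refine ⟨(y ⬝ᵥ w₁)⁻¹ • w₁, ?_⟩
        rw [Matrix.mulVec_smul, Matrix.add_mulVec, hw₁, vmv_mulVec, smul_add,
          smul_smul (y ⬝ᵥ w₁)⁻¹ (y ⬝ᵥ w₁), inv_mul_cancel₀ hw₁y,
          one_smul, smul_comm lam, add_sub_cancel_left]
      intro w hw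
      obtain ⟨v, hv⟩ := (hRg _ _).1 hw
      have h1 : w = ((N + vecMulVec (p s) y) *ᵥ v - lam • v) - (y ⬝ᵥ v) • p s := by
        rw [Matrix.add_mulVec, vmv_mulVec, ← hv]
        abel
      rw [h1]
      exact Submodule.sub_mem _ ((hRg _ _).2 ⟨v, rfl⟩) (Submodule.smul_mem _ _ hp)
    have hinv : ∀ s, ∀ w ∈ Rg N, g s *ᵥ w ∈ Rg N := by
      intro s w hw
      rcases h s with h1 | h1
      · exact hmapR _ _ _ h1 w (hR s ▸ hw)
      · rw [hR s]
        exact hmapR _ _ _ h1 w hw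
    rcases hirr (Rg N) hinv with h | h
    · apply hns lam
      refine Matrix.toLin'.injective (LinearMap.ext fun w => ?_)
      have h1 : N *ᵥ w - lam • w ∈ Rg N := (hRg _ _).2 ⟨w, rfl⟩
      rw [h, Submodule.mem_bot, sub_eq_zero] at h1
      rw [Matrix.toLin'_apply, Matrix.toLin'_apply, h1, Matrix.smul_mulVec, Matrix.one_mulVec]
    · have h1 : Function.Surjective (Matrix.toLin' (N - lam • 1)) := LinearMap.range_eq_top.1 h
      have h2 := LinearMap.injective_iff_surjective.2 h1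
      apply hw₀2
      apply h2
      rw [map_zero, Matrix.toLin'_apply, Matrix.sub_mulVec, Matrix.smul_mulVec, Matrix.one_mulVec,
        hw₀1, sub_self]

/-- The derivative of the relation in genus one. -/
noncomputable def D1 {ι : Type*} (c : ι → Mat r ℂ) (a b : Mat r ℂ) (L : List ι)
    (x : ι ⊕ Bool → Mat r ℂ) : Mat r ℂ :=
  DL c (fun j => x (Sum.inl j)) L * (a * b * a⁻¹ * b⁻¹) +
    (L.map c).prod * (x (Sum.inr false) * (a * b * a⁻¹ * b⁻¹) +
      a * x (Sum.inr true) * (b * a⁻¹ * b⁻¹) - a * b * a⁻¹ * x (Sum.inr false) * b⁻¹ -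
      a * b * a⁻¹ * b⁻¹ * x (Sum.inr true))

theorem exists_D1lin {ι : Type*} (c : ι → Mat r ℂ) (a b : Mat r ℂ) (L : List ι) :
    ∃ D : (ι ⊕ Bool → Mat r ℂ) →ₗ[ℂ] Mat r ℂ, ∀ x, D x = D1 c a b L x := by
  refine ⟨LinearMap.mk (AddHom.mk (D1 c a b L) ?_) ?_, fun x => rfl⟩
  · intro x y
    have h1 : (fun j => (x + y) (Sum.inl j)) = (fun j => x (Sum.inl j)) + fun j => y (Sum.inl j) :=
      rfl
    rw [D1, D1, D1, h1, DL_add, Pi.add_apply, Pi.add_apply]
    noncomm_ring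
  · intro t x
    show D1 c a b L (t • x) = t • D1 c a b L x
    have h1 : (fun j => (t • x) (Sum.inl j)) = t • fun j => x (Sum.inl j) := rfl
    rw [D1, D1, h1, DL_smul, Pi.smul_apply, Pi.smul_apply]
    simp only [smul_add, Matrix.smul_mul, Matrix.mul_smul, smul_sub, Matrix.mul_add,
      Matrix.mul_sub]

theorem DL_zero_fun {ι : Type*} (c : ι → Mat r ℂ) (l : List ι) (x : ι → Mat r ℂ)
    (hx : ∀ j, x j = 0) : DL c x l = 0 := DL_zero_of c x l fun j _ => hx j

/-- the functional of the rank one lemma for the handle -/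
theorem exists_FB {ι : Type*} (c : ι → Mat r ℂ) (a P Pi' V Wm : Mat r ℂ) (i₀ : ι) (l₁ : List ι)
    (κ : ℂ) : ∃ F : (ι ⊕ Bool → Mat r ℂ) →ₗ[ℂ] ℂ, ∀ x, F x =
      trace (Wm * (x (Sum.inr false) * a)) + κ * trace (V * (Pi' * x (Sum.inl i₀) * P -
        Pi' * DL c (fun j => x (Sum.inl j)) l₁)) := by
  refine ⟨LinearMap.mk (AddHom.mk (fun x => trace (Wm * (x (Sum.inr false) * a)) +
    κ * trace (V * (Pi' * x (Sum.inl i₀) * P -
      Pi' * DL c (fun j => x (Sum.inl j)) l₁))) ?_) ?_, fun x => rfl⟩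
  · intro x x'
    have h1 : (fun j => (x + x') (Sum.inl j)) =
      (fun j => x (Sum.inl j)) + fun j => x' (Sum.inl j) := rfl
    rw [h1, DL_add, Pi.add_apply, Pi.add_apply]
    have e1 : Wm * ((x (Sum.inr false) + x' (Sum.inr false)) * a) =
      Wm * (x (Sum.inr false) * a) + Wm * (x' (Sum.inr false) * a) := by
      rw [Matrix.add_mul, Matrix.mul_add]
    have e2 : V * (Pi' * (x (Sum.inl i₀) + x' (Sum.inl i₀)) * P -
        Pi' * (DL c (fun j => x (Sum.inl j)) l₁ + DL c (fun j => x' (Sum.inl j)) l₁)) =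
        V * (Pi' * x (Sum.inl i₀) * P - Pi' * DL c (fun j => x (Sum.inl j)) l₁) +
        V * (Pi' * x' (Sum.inl i₀) * P - Pi' * DL c (fun j => x' (Sum.inl j)) l₁) := by
      noncomm_ring
    rw [e1, e2, trace_add, trace_add]
    ring
  · intro t x
    show trace (Wm * ((t • x) (Sum.inr false) * a)) + κ * trace (V * (Pi' * (t • x) (Sum.inl i₀) *
      P - Pi' * DL c (fun j => (t • x) (Sum.inl j)) l₁)) = t • (trace (Wm * (x (Sum.inr false) *
      a)) + κ * trace (V * (Pi' * x (Sum.inl i₀) * P - Pi' * DL c (fun j => x (Sum.inl j)) l₁)))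
    have h1 : (fun j => (t • x) (Sum.inl j)) = t • fun j => x (Sum.inl j) := rfl
    rw [h1, DL_smul, Pi.smul_apply, Pi.smul_apply]
    have e1 : Wm * (t • x (Sum.inr false) * a) = t • (Wm * (x (Sum.inr false) * a)) := by
      simp only [Matrix.smul_mul, Matrix.mul_smul]
    have e2 : V * (Pi' * (t • x (Sum.inl i₀)) * P -
        Pi' * (t • DL c (fun j => x (Sum.inl j)) l₁)) =
        t • (V * (Pi' * x (Sum.inl i₀) * P - Pi' * DL c (fun j => x (Sum.inl j)) l₁)) := by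
      simp only [Matrix.smul_mul, Matrix.mul_smul, smul_sub, Matrix.mul_sub]
    rw [e1, e2, trace_smul, trace_smul]
    simp only [smul_eq_mul]
    ring

/-- data of a handle -/
structure HInv (a ai b bi h cP : Mat r ℂ) : Prop where
  a1 : a * ai = 1
  a2 : ai * a = 1
  b1 : b * bi = 1
  b2 : bi * b = 1
  hh : h = a * b * ai * bi
  rel : cP * h = 1

theorem mulL {x y z : Mat r ℂ} (h : x * y = 1) : x * (y * z) = z := by
  rw [← Matrix.mul_assoc, h, Matrix.one_mul]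

theorem HInv.cP_eq {a ai b bi h cP : Mat r ℂ} (H : HInv a ai b bi h cP) :
    cP = b * (a * (bi * ai)) := by
  have h1 : h * (b * (a * (bi * ai))) = 1 := by
    rw [H.hh]
    simp only [Matrix.mul_assoc, mulL H.b2, mulL H.a2, mulL H.b1, H.a1]
  calc cP = cP * (h * (b * (a * (bi * ai)))) := by rw [h1, Matrix.mul_one]
    _ = (cP * h) * (b * (a * (bi * ai))) := by rw [Matrix.mul_assoc]
    _ = _ := by rw [H.rel, Matrix.one_mul]

theorem HInv.rel' {a ai b bi h cP : Mat r ℂ} (H : HInv a ai b bi h cP) : h * cP = 1 :=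
  mul_eq_one_comm.1 H.rel

theorem rankB_Eb {a ai b bi h cP N : Mat r ℂ} (H : HInv a ai b bi h cP)
    (hN : ∀ X, trace (N * (cP * (a * X * (b * ai * bi) - h * X))) = 0) :
    b * (ai * (bi * N)) = N * (b * (ai * bi)) := by
  have h1 : ∀ X, trace ((0 : Mat r ℂ) * X) =
      trace ((b * ai * bi * N * (b * a * bi) - N) * X) := by
    intro X
    have e1 : cP * (a * X * (b * ai * bi) - h * X) =
        b * a * bi * X * (b * ai * bi) - X := by
      rw [Matrix.mul_sub, ← Matrix.mul_assoc cP h, H.rel, Matrix.one_mul, H.cP_eq]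
      simp only [Matrix.mul_assoc, mulL H.a2]
    rw [Matrix.zero_mul, trace_zero, ← hN X, e1, Matrix.mul_sub, Matrix.sub_mul, trace_sub,
      trace_sub]
    congr 1
    rw [show N * (b * a * bi * X * (b * ai * bi)) = (N * (b * a * bi) * X) * (b * ai * bi) by
        simp only [Matrix.mul_assoc], Matrix.trace_mul_comm (N * (b * a * bi) * X)]
    simp only [Matrix.mul_assoc]
  have h2 := Vale.Agent.P002.eq_of_trace_eq h1
  have h3 : b * ai * bi * N * (b * a * bi) = N := (sub_eq_zero.1 h2.symm)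
  have e2 : b * a * bi * (b * ai * bi) = 1 := by
    simp only [Matrix.mul_assoc, mulL H.b2, mulL H.a1, H.b1]
  calc b * (ai * (bi * N)) = b * ai * bi * N * (b * a * bi * (b * ai * bi)) := by
        rw [e2, Matrix.mul_one]
        simp only [Matrix.mul_assoc]
    _ = (b * ai * bi * N * (b * a * bi)) * (b * ai * bi) := by simp only [Matrix.mul_assoc]
    _ = _ := by rw [h3]; simp only [Matrix.mul_assoc]

theorem rankB_Ea {a ai b bi h cP N Wm : Mat r ℂ} (H : HInv a ai b bi h cP)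
    (hN : ∀ X, trace (Wm * (X * a)) = trace (N * (cP * (X * h - a * b * ai * X * bi)))) :
    h * N * cP - bi * N * b = a * Wm := by
  refine Vale.Agent.P002.eq_of_trace_eq fun X => ?_
  have e1 : cP * (X * h - a * b * ai * X * bi) = cP * X * h - b * X * bi := by
    rw [Matrix.mul_sub]
    congr 1
    · rw [Matrix.mul_assoc]
    · rw [H.cP_eq]
      simp only [Matrix.mul_assoc, mulL H.a2, mulL H.b2, mulL H.a1]
  have h2 := hN X
  rw [e1] at h2
  rw [Matrix.sub_mul, trace_sub]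
  have e2 : trace (h * N * cP * X) = trace (N * (cP * X * h)) := by
    rw [show N * (cP * X * h) = (N * cP * X) * h by simp only [Matrix.mul_assoc],
      Matrix.trace_mul_comm (N * cP * X)]
    simp only [Matrix.mul_assoc]
  have e3 : trace (bi * N * b * X) = trace (N * (b * X * bi)) := by
    rw [show N * (b * X * bi) = (N * b * X) * bi by simp only [Matrix.mul_assoc],
      Matrix.trace_mul_comm (N * b * X)]
    simp only [Matrix.mul_assoc]
  rw [e2, e3, ← trace_sub, ← Matrix.mul_sub, ← h2, Matrix.mul_assoc, Matrix.trace_mul_comm a,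
    Matrix.mul_assoc]

theorem rankB_E0 {h c₀ P Pi' N V : Mat r ℂ} {κ : ℂ} (hrel : c₀ * P * h = 1)
    (hN : ∀ X, κ * trace (V * (Pi' * X * P)) = trace (N * ((X * c₀ - c₀ * X) * P * h))) :
    N * c₀ = c₀ * (N - κ • (P * V * Pi')) := by
  have h1 : ∀ X, trace ((κ • (P * V * Pi')) * X) =
      trace ((c₀ * (P * h * N) - (P * h * N) * c₀) * X) := by
    intro X
    have e2 := tr_comm N 1 (P * h) c₀ X
    rw [Matrix.one_mul, Matrix.mul_one, ← Matrix.mul_assoc (X * c₀ - c₀ * X)] at e2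
    rw [← e2, ← hN X, Matrix.smul_mul, trace_smul, smul_eq_mul]
    congr 1
    rw [show V * (Pi' * X * P) = (V * Pi' * X) * P by simp only [Matrix.mul_assoc],
      Matrix.trace_mul_comm (V * Pi' * X)]
    simp only [Matrix.mul_assoc]
  have h2 := Vale.Agent.P002.eq_of_trace_eq h1
  have hrel' : c₀ * (P * h) = 1 := by rw [← Matrix.mul_assoc]; exact hrel
  have e1 : c₀ * (P * h * N) = N := by
    rw [← Matrix.mul_assoc, hrel', Matrix.one_mul]
  rw [e1] at h2
  rw [h2, sub_sub_cancel]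
  simp only [← Matrix.mul_assoc]
  rw [hrel, Matrix.one_mul]

theorem rankB_step {h c₀ cj X Z V Pi' N P : Mat r ℂ} {κ : ℂ} (hPX : P = X * (cj * Z))
    (hrel : c₀ * P * h = 1) (E0 : N * c₀ = c₀ * (N - κ • (P * V * Pi'))) (hcom : Commute N X)
    (hN : ∀ H, -(κ * trace (V * (Pi' * (X * (H * cj - cj * H) * Z)))) =
      trace (N * (c₀ * (X * (H * cj - cj * H) * Z) * h))) : Commute N cj := by
  have h1 : ∀ H, trace (-(κ • (cj * (Z * (V * Pi') * X) - (Z * (V * Pi') * X) * cj)) * H) =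
      trace ((cj * ((Z * h) * N * (c₀ * X)) - ((Z * h) * N * (c₀ * X)) * cj) * H) := by
    intro H
    rw [← tr_comm, Matrix.neg_mul, trace_neg, Matrix.smul_mul, trace_smul, ← tr_comm, smul_eq_mul]
    have e1 : V * Pi' * (X * (H * cj - cj * H) * Z) = V * (Pi' * (X * (H * cj - cj * H) * Z)) :=
      Matrix.mul_assoc _ _ _
    rw [e1, hN H]
    simp only [Matrix.mul_assoc]
  have h2 := Vale.Agent.P002.eq_of_trace_eq h1
  have hcyc := cyc_one (X := c₀ * X) (a := cj) (Y := Z * h) (by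
    rw [← hrel, hPX]; simp only [Matrix.mul_assoc])
  have hrel2 : h * (c₀ * P) = 1 := mul_eq_one_comm.1 hrel
  have h3 : (Z * h) * N * (c₀ * X) = ((Z * h) * (c₀ * X)) * N - κ • (Z * (V * Pi') * X) := by
    calc (Z * h) * N * (c₀ * X) = (Z * h) * (N * c₀) * X := by simp only [Matrix.mul_assoc]
      _ = (Z * h) * c₀ * (N * X) - κ • (Z * (h * (c₀ * P)) * V * Pi' * X) := by
        rw [E0]
        simp only [Matrix.mul_sub, Matrix.sub_mul, Matrix.mul_smul, Matrix.smul_mul,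
          Matrix.mul_assoc]
      _ = _ := by
        rw [hrel2, hcom.eq, Matrix.mul_one]
        simp only [Matrix.mul_assoc]
  refine comm_of_inv hcyc.1 ?_
  rw [h3] at h2
  have h4 : cj * ((Z * h) * (c₀ * X) * N - κ • (Z * (V * Pi') * X)) -
      ((Z * h) * (c₀ * X) * N - κ • (Z * (V * Pi') * X)) * cj -
      -(κ • (cj * (Z * (V * Pi') * X) - (Z * (V * Pi') * X) * cj)) = 0 := by
    rw [← h2, sub_self]
  rw [← h4]
  simp only [Matrix.mul_sub, Matrix.sub_mul, Matrix.mul_smul, Matrix.smul_mul, smul_sub]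
  abel

/-- Stability under the inverse. -/
theorem inv_stab {P Pi' : Mat r ℂ} (hP2 : Pi' * P = 1) (W : Submodule ℂ (Fin r → ℂ))
    (hW : ∀ w ∈ W, P *ᵥ w ∈ W) : ∀ w ∈ W, Pi' *ᵥ w ∈ W := by
  obtain ⟨T, hT⟩ : ∃ T : W →ₗ[ℂ] W, ∀ z : W, ((T z : W) : Fin r → ℂ) = P *ᵥ (z : Fin r → ℂ) :=
    ⟨(Matrix.toLin' P).restrict (fun z hz => by rw [Matrix.toLin'_apply]; exact hW z hz),
      fun z => rfl⟩
  have hinj : Function.Injective T := by
    intro z z' hzz
    have h1 := congrArg (fun q : W => Pi' *ᵥ (q : Fin r → ℂ)) hzz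
    simp only [hT, Matrix.mulVec_mulVec, hP2, Matrix.one_mulVec] at h1
    exact Subtype.ext h1
  intro w hw
  obtain ⟨z, hz⟩ := (LinearMap.injective_iff_surjective.1 hinj) ⟨w, hw⟩
  have h1 : P *ᵥ (z : Fin r → ℂ) = w := by rw [← hT, hz]
  rw [← h1, Matrix.mulVec_mulVec, hP2, Matrix.one_mulVec]
  exact z.2

theorem prod_stab {ι : Type*} (c : ι → Mat r ℂ) (W : Submodule ℂ (Fin r → ℂ)) (l : List ι)
    (hl : ∀ j ∈ l, ∀ z ∈ W, c j *ᵥ z ∈ W) : ∀ z ∈ W, (l.map c).prod *ᵥ z ∈ W := by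
  induction l with
  | nil => intro z hz; simpa using hz
  | cons j l ih =>
    intro z hz
    rw [List.map_cons, List.prod_cons, ← Matrix.mulVec_mulVec]
    exact hl j List.mem_cons_self _ (ih (fun k hk => hl k (List.mem_cons_of_mem _ hk)) z hz)

/-- the algebraic end of the rank one lemma for the handle -/
theorem rankB_end {ι : Type*} [DecidableEq ι] (c : ι → Mat r ℂ) (hc : ∀ j, IsUnit (c j))
    {a ai b bi h P Pi' N V Wm : Mat r ℂ} (i₀ : ι) (l₁ : List ι) (hi₀ : i₀ ∉ l₁)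
    (hmem : ∀ j, j ∈ i₀ :: l₁) (hPdef : P = (l₁.map c).prod)
    (H : HInv a ai b bi h (c i₀ * P)) (hP1 : P * Pi' = 1) (hP2 : Pi' * P = 1)
    (hirr : ∀ W : Submodule ℂ (Fin r → ℂ), (∀ j, ∀ w ∈ W, c j *ᵥ w ∈ W) →
      (∀ w ∈ W, a *ᵥ w ∈ W) → (∀ w ∈ W, b *ᵥ w ∈ W) → W = ⊥ ∨ W = ⊤)
    (y w v : Fin r → ℂ) (hy : y ≠ 0) (hw : w ≠ 0) (lam κ : ℂ) (hlam : lam ≠ 0)
    (haw : a *ᵥ w = lam • w - κ • v) (hV : V = vecMulVec v y) (hWm : Wm = vecMulVec w y)
    (Eb : b * (ai * (bi * N)) = N * (b * (ai * bi)))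
    (Ea : h * N * (c i₀ * P) - bi * N * b = a * Wm)
    (E0 : N * c i₀ = c i₀ * (N - κ • (P * V * Pi')))
    (hNP : Commute N P) (hNl₁ : ∀ j ∈ l₁, Commute N (c j)) : False := by
  have hNPi : N * Pi' = Pi' * N := by
    calc N * Pi' = Pi' * (P * N) * Pi' := by rw [← Matrix.mul_assoc, hP2, Matrix.one_mul]
      _ = Pi' * N := by rw [← hNP.eq, Matrix.mul_assoc, Matrix.mul_assoc, hP1, Matrix.mul_one]
  have EcP : N * (c i₀ * P) = (c i₀ * P) * (N - κ • V) := by
    calc N * (c i₀ * P) = (N * c i₀) * P := by rw [Matrix.mul_assoc]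
      _ = c i₀ * (N * P) - κ • (c i₀ * P * V * (Pi' * P)) := by
        rw [E0]
        simp only [Matrix.mul_sub, Matrix.sub_mul, Matrix.mul_smul, Matrix.smul_mul,
          Matrix.mul_assoc]
      _ = _ := by
        rw [hP2, hNP.eq, Matrix.mul_one, Matrix.mul_sub, Matrix.mul_smul]
        simp only [Matrix.mul_assoc]
  have hhN : h * N * (c i₀ * P) = N - κ • V := by
    rw [Matrix.mul_assoc, EcP, ← Matrix.mul_assoc, H.rel', Matrix.one_mul]
  have haN : a * N = (N - κ • V) * a := by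
    have e1 : h * N * (c i₀ * P) = a * N * ai := by
      rw [H.cP_eq, H.hh]
      simp only [Matrix.mul_assoc]
      have e2 : b * (ai * (bi * (N * (b * (a * (bi * ai)))))) =
          (b * (ai * (bi * N))) * (b * (a * (bi * ai))) := by simp only [Matrix.mul_assoc]
      rw [e2, Eb]
      simp only [Matrix.mul_assoc, mulL H.b2, mulL H.a2, mulL H.b1]
    rw [← hhN, e1, Matrix.mul_assoc, H.a2, Matrix.mul_one]
  have hbN : N * b = b * (N - lam • Wm) := by
    have e1 : lam • Wm = κ • V + a * Wm := by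
      rw [hWm, hV, Matrix.mul_vecMulVec, haw]
      ext i j
      simp only [Matrix.add_apply, Matrix.smul_apply, vecMulVec_apply, Pi.sub_apply,
        Pi.smul_apply, smul_eq_mul]
      ring
    have e2 : N - lam • Wm = bi * N * b := by
      rw [e1, ← Ea, hhN]
      abel
    rw [e2]
    simp only [Matrix.mul_assoc, mulL H.b1]
  refine end_lemma (S := ι ⊕ Bool) (fun s => Sum.elim (fun j => if j = i₀ then Pi' * c i₀ * P
    else c j) (fun s => if s then b else a) s) ?_ N y hy (fun s => Sum.elim (fun j =>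
    if j = i₀ then (-κ) • v else 0) (fun s => if s then (-lam) • w else (-κ) • v) s) ?_ ?_ ?_
  · rintro (j | s)
    · show IsUnit (if j = i₀ then Pi' * c i₀ * P else c j)
      split_ifs
      · exact ((IsUnit.of_mul_eq_one _ hP2).mul (hc i₀)).mul (IsUnit.of_mul_eq_one _ hP1)
      · exact hc j
    · cases s
      · exact IsUnit.of_mul_eq_one _ H.a1
      · exact IsUnit.of_mul_eq_one _ H.b1
  · rintro (j | s)
    · left
      show N * (if j = i₀ then Pi' * c i₀ * P else c j) = (if j = i₀ then Pi' * c i₀ * P else c j) *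
        (N + vecMulVec (if j = i₀ then (-κ) • v else 0) y)
      by_cases hj : j = i₀
      · rw [if_pos hj, if_pos hj, smul_vecMulVec, ← hV, neg_smul, ← sub_eq_add_neg]
        calc N * (Pi' * c i₀ * P) = (N * Pi') * (c i₀ * P) := by simp only [Matrix.mul_assoc]
          _ = Pi' * (N * (c i₀ * P)) := by rw [hNPi, Matrix.mul_assoc]
          _ = _ := by rw [EcP]; simp only [Matrix.mul_assoc]
      · rw [if_neg hj, if_neg hj, zero_vecMulVec, add_zero]
        have hj' := hmem j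
        rw [List.mem_cons] at hj'
        exact (hNl₁ j (hj'.resolve_left hj)).eq
    · cases s
      · right
        show (N + vecMulVec ((-κ) • v) y) * a = a * N
        rw [smul_vecMulVec, ← hV, neg_smul, ← sub_eq_add_neg, haN]
      · left
        show N * b = b * (N + vecMulVec ((-lam) • w) y)
        rw [smul_vecMulVec, ← hWm, neg_smul, ← sub_eq_add_neg, hbN]
  · refine ⟨Sum.inr true, ?_⟩
    show (-lam) • w ≠ 0
    rw [neg_smul, neg_ne_zero, smul_ne_zero_iff]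
    exact ⟨hlam, hw⟩
  · intro W hW
    have hl₁ : ∀ j ∈ l₁, ∀ z ∈ W, c j *ᵥ z ∈ W := by
      intro j hj z hz
      have h1 := hW (Sum.inl j) z hz
      have hj0 : j ≠ i₀ := by rintro rfl; exact hi₀ hj
      simp only [Sum.elim_inl, if_neg hj0] at h1
      exact h1
    have hP' : ∀ z ∈ W, P *ᵥ z ∈ W := fun z hz => hPdef ▸ prod_stab c W l₁ hl₁ z hz
    refine hirr W (fun j z hz => ?_) (fun z hz => hW (Sum.inr false) z hz)
      (fun z hz => hW (Sum.inr true) z hz)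
    by_cases hj : j = i₀
    · rw [hj]
      have h1 := hW (Sum.inl i₀) _ (inv_stab hP2 W hP' z hz)
      simp only [Sum.elim_inl, if_true] at h1
      have h2 := hP' _ h1
      rw [Matrix.mulVec_mulVec, Matrix.mulVec_mulVec] at h2
      have e1 : P * (Pi' * c i₀ * P) * Pi' = c i₀ := by
        simp only [Matrix.mul_assoc, mulL hP1, hP1, Matrix.mul_one]
      rwa [e1] at h2
    · have hj' := hmem j
      rw [List.mem_cons] at hj'
      exact hl₁ j (hj'.resolve_left hj) z hz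

/-- The rank one lemma for the handle. -/
theorem rank_B {ι : Type*} [DecidableEq ι] (c : ι → Mat r ℂ) (hc : ∀ j, IsUnit (c j))
    (a b : Mat r ℂ) (ha : IsUnit a) (hb : IsUnit b) (i₀ : ι) (l₁ : List ι)
    (hnd : (i₀ :: l₁).Nodup) (hmem : ∀ j, j ∈ i₀ :: l₁)
    (hrel : ((i₀ :: l₁).map c).prod * (a * b * a⁻¹ * b⁻¹) = 1)
    (hirr : ∀ W : Submodule ℂ (Fin r → ℂ), (∀ j, ∀ w ∈ W, c j *ᵥ w ∈ W) →
      (∀ w ∈ W, a *ᵥ w ∈ W) → (∀ w ∈ W, b *ᵥ w ∈ W) → W = ⊥ ∨ W = ⊤)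
    (y w v : Fin r → ℂ) (hy : y ≠ 0) (hw : w ≠ 0) (lam κ : ℂ) (hlam : lam ≠ 0)
    (haw : a *ᵥ w = lam • w - κ • v) :
    ∃ x : ι ⊕ Bool → Mat r ℂ, D1 c a b (i₀ :: l₁) x = 0 ∧
      y ⬝ᵥ ((x (Sum.inr false) * a) *ᵥ w) +
        κ * (y ⬝ᵥ ((((l₁.map c).prod)⁻¹ * x (Sum.inl i₀) * (l₁.map c).prod -
          ((l₁.map c).prod)⁻¹ * DL c (fun j => x (Sum.inl j)) l₁) *ᵥ v)) ≠ 0 := by
  by_contra hcon
  push Not at hcon
  obtain ⟨P, hPdef⟩ : ∃ P, P = (l₁.map c).prod := ⟨_, rfl⟩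
  have hprodunit : ∀ l : List ι, IsUnit (l.map c).prod := by
    intro l
    induction l with
    | nil => simp
    | cons j l ih => rw [List.map_cons, List.prod_cons]; exact (hc j).mul ih
  have hPu : IsUnit P := hPdef ▸ hprodunit l₁
  have hPd : IsUnit P.det := (Matrix.isUnit_iff_isUnit_det _).1 hPu
  have had : IsUnit a.det := (Matrix.isUnit_iff_isUnit_det _).1 ha
  have hbd : IsUnit b.det := (Matrix.isUnit_iff_isUnit_det _).1 hb
  obtain ⟨Pi', hPi'⟩ : ∃ Pi', Pi' = P⁻¹ := ⟨_, rfl⟩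
  have hP1 : P * Pi' = 1 := by rw [hPi']; exact Matrix.mul_nonsing_inv _ hPd
  have hP2 : Pi' * P = 1 := by rw [hPi']; exact Matrix.nonsing_inv_mul _ hPd
  have hi₀ : i₀ ∉ l₁ := (List.nodup_cons.1 hnd).1
  have hnd1 : l₁.Nodup := (List.nodup_cons.1 hnd).2
  obtain ⟨h, hh⟩ : ∃ h, h = a * b * a⁻¹ * b⁻¹ := ⟨_, rfl⟩
  have H : HInv a a⁻¹ b b⁻¹ h (c i₀ * P) :=
    ⟨Matrix.mul_nonsing_inv _ had, Matrix.nonsing_inv_mul _ had, Matrix.mul_nonsing_inv _ hbd,
      Matrix.nonsing_inv_mul _ hbd, hh, by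
        rw [← hrel, List.map_cons, List.prod_cons, hPdef, hh]⟩
  rw [← hPdef, ← hPi'] at hcon
  obtain ⟨F, hF⟩ := exists_FB c a P Pi' (vecMulVec v y) (vecMulVec w y) i₀ l₁ κ
  obtain ⟨D, hD⟩ := exists_D1lin c a b (i₀ :: l₁)
  obtain ⟨N, hN⟩ := exists_factor D F (by
    intro x hx
    rw [hF, trace_vecMulVec_mul, trace_vecMulVec_mul]
    exact hcon x (by rw [← hD]; exact hx))
  have hN' : ∀ x : ι ⊕ Bool → Mat r ℂ,
      trace (vecMulVec w y * (x (Sum.inr false) * a)) + κ * trace (vecMulVec v y *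
      (Pi' * x (Sum.inl i₀) * P - Pi' * DL c (fun j => x (Sum.inl j)) l₁)) =
      trace (N * (DL c (fun j => x (Sum.inl j)) (i₀ :: l₁) * h +
      c i₀ * P * (x (Sum.inr false) * h + a * x (Sum.inr true) * (b * a⁻¹ * b⁻¹) -
        a * b * a⁻¹ * x (Sum.inr false) * b⁻¹ - h * x (Sum.inr true)))) := by
    intro x
    rw [← hF, hN, hD, D1, ← hh, List.map_cons, List.prod_cons, hPdef]
  have hu1 : ∀ (s : Bool) (X : Mat r ℂ) (j : ι),
      (Function.update (0 : ι ⊕ Bool → Mat r ℂ) (Sum.inr s) X) (Sum.inl j) = 0 := by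
    intro s X j
    rw [Function.update_of_ne (by simp), Pi.zero_apply]
  have hu2 : ∀ (s : Bool) (X : Mat r ℂ) (j : ι),
      (Function.update (0 : ι ⊕ Bool → Mat r ℂ) (Sum.inl j) X) (Sum.inr s) = 0 := by
    intro s X j
    rw [Function.update_of_ne (by simp), Pi.zero_apply]
  have hu3 : ∀ (X : Mat r ℂ) (j k : ι), k ≠ j →
      (Function.update (0 : ι ⊕ Bool → Mat r ℂ) (Sum.inl j) X) (Sum.inl k) = 0 := by
    intro X j k hk
    rw [Function.update_of_ne (by simpa using hk), Pi.zero_apply]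
  have hu4 : ∀ X : Mat r ℂ,
      (Function.update (0 : ι ⊕ Bool → Mat r ℂ) (Sum.inr false) X) (Sum.inr true) = 0 := by
    intro X
    rw [Function.update_of_ne (by simp), Pi.zero_apply]
  have hu5 : ∀ X : Mat r ℂ,
      (Function.update (0 : ι ⊕ Bool → Mat r ℂ) (Sum.inr true) X) (Sum.inr false) = 0 := by
    intro X
    rw [Function.update_of_ne (by simp), Pi.zero_apply]
  have Eb := rankB_Eb (N := N) H (fun X => by
    have h2 := hN' (Function.update 0 (Sum.inr true) X)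
    rw [Function.update_self, hu5, hu1,
      DL_zero_fun c l₁ _ (fun j => hu1 true X j),
      DL_zero_fun c (i₀ :: l₁) _ (fun j => hu1 true X j)] at h2
    simp only [Matrix.zero_mul, Matrix.mul_zero, sub_zero, zero_add, trace_zero, mul_zero] at h2
    exact h2.symm)
  have Ea := rankB_Ea (N := N) (Wm := vecMulVec w y) H (fun X => by
    have h2 := hN' (Function.update 0 (Sum.inr false) X)
    rw [Function.update_self, hu4, hu1,
      DL_zero_fun c l₁ _ (fun j => hu1 false X j),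
      DL_zero_fun c (i₀ :: l₁) _ (fun j => hu1 false X j)] at h2
    simp only [Matrix.zero_mul, Matrix.mul_zero, sub_zero, zero_add, trace_zero, mul_zero,
      add_zero] at h2
    exact h2)
  have E0 := rankB_E0 (N := N) (V := vecMulVec v y) (κ := κ) (Pi' := Pi') H.rel (fun X => by
    have h2 := hN' (Function.update 0 (Sum.inl i₀) X)
    have e0 : DL c (fun j => (Function.update (0 : ι ⊕ Bool → Mat r ℂ) (Sum.inl i₀) X)
        (Sum.inl j)) l₁ = 0 := DL_zero_of _ _ _ fun j hj => hu3 X i₀ j (by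
          rintro rfl; exact hi₀ hj)
    rw [DL_cons, e0, Function.update_self, hu2, hu2, ← hPdef] at h2
    simp only [Matrix.zero_mul, Matrix.mul_zero, sub_zero, zero_add, trace_zero, mul_zero,
      add_zero] at h2
    exact h2)
  have hc1 := pre_ind c N l₁ (by
    intro l' j l'' hl hcom
    have hjl : j ∈ l₁ := by rw [hl]; simp
    have hj0 : i₀ ≠ j := fun h => hi₀ (h ▸ hjl)
    have hn1' : (l' ++ j :: l'').Nodup := hl ▸ hnd1
    rw [List.nodup_append, List.nodup_cons] at hn1'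
    refine rankB_step (X := (l'.map c).prod) (Z := (l''.map c).prod) (by
      rw [hPdef, hl]
      simp only [List.map_append, List.map_cons, List.prod_append, List.prod_cons]) H.rel E0 hcom
      (fun X => ?_)
    have h2 := hN' (Function.update 0 (Sum.inl j) X)
    have e0 : DL c (fun k => (Function.update (0 : ι ⊕ Bool → Mat r ℂ) (Sum.inl j) X)
        (Sum.inl k)) l₁ = (l'.map c).prod * (X * c j - c j * X) * (l''.map c).prod := by
      rw [hl, DL_split c _ l' l'' j (fun k hk => ?_) (fun k hk => ?_), Function.update_self]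
      · exact hu3 X j k (hn1'.2.2 k hk j List.mem_cons_self)
      · refine hu3 X j k ?_
        rintro rfl
        exact hn1'.2.1.1 hk
    rw [DL_cons, e0, hu3 X j i₀ hj0, hu2, hu2] at h2
    simp only [Matrix.zero_mul, Matrix.mul_zero, zero_add, trace_zero,
      add_zero, sub_self, zero_sub, Matrix.mul_neg, trace_neg, mul_neg] at h2
    exact h2)
  exact rankB_end c hc i₀ l₁ hi₀ hmem hPdef H hP1 hP2 hirr y w v hy hw lam κ hlam haw rfl rfl
    Eb Ea E0 (hPdef ▸ hc1.1) hc1.2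

end Vale.Agent.P002R
end

section

/-!
# P002, genus 1: generic points
-/

namespace Vale.Agent.P002R

open Matrix Module Vale.Agent.P002

variable {r : ℕ} {ι : Type}

/-- the tuple of the conjugates -/
noncomputable def cI (J : ι → P002R.Mat r ℂ) (Y : ι ⊕ Bool → P002R.Mat r ℂ) : ι → P002R.Mat r ℂ :=
  cj J fun j => Y (Sum.inl j)

theorem cI_eqn (J : ι → P002R.Mat r ℂ) (Y : ι ⊕ Bool → P002R.Mat r ℂ) :
    cI J Y = cj J fun j => Y (Sum.inl j) := rfl

/-- the handle -/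
noncomputable def hI (Y : ι ⊕ Bool → P002R.Mat r ℂ) : P002R.Mat r ℂ :=
  Y (Sum.inr false) * Y (Sum.inr true) * (Y (Sum.inr false))⁻¹ * (Y (Sum.inr true))⁻¹

/-- the relation -/
noncomputable def PhiI (J : ι → P002R.Mat r ℂ) (L : List ι) (Y : ι ⊕ Bool → P002R.Mat r ℂ) :
    P002R.Mat r ℂ := (L.map (cI J Y)).prod * hI Y

/-- all matrices -/
noncomputable def allI (J : ι → P002R.Mat r ℂ) (Y : ι ⊕ Bool → P002R.Mat r ℂ) :
    ι ⊕ Bool → P002R.Mat r ℂ := Sum.elim (cI J Y) fun s => Y (Sum.inr s)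

theorem orth_comm1 [DecidableEq ι] {c : ι → P002R.Mat r ℂ} {a b : P002R.Mat r ℂ}
    (ha : IsUnit a) (hb : IsUnit b) (L : List ι) (hnd : L.Nodup)
    (hrel : (L.map c).prod * (a * b * a⁻¹ * b⁻¹) = 1)
    (N : P002R.Mat r ℂ) (hN : ∀ x, trace (N * D1 c a b L x) = 0) :
    (∀ j ∈ L, Commute N (c j)) ∧ Commute N a ∧ Commute N b := by
  have had : IsUnit a.det := (Matrix.isUnit_iff_isUnit_det _).1 ha
  have hbd : IsUnit b.det := (Matrix.isUnit_iff_isUnit_det _).1 hb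
  obtain ⟨cP, hcP⟩ : ∃ cP, cP = (L.map c).prod := ⟨_, rfl⟩
  obtain ⟨h, hh⟩ : ∃ h, h = a * b * a⁻¹ * b⁻¹ := ⟨_, rfl⟩
  have H : HInv a a⁻¹ b b⁻¹ h cP :=
    ⟨Matrix.mul_nonsing_inv _ had, Matrix.nonsing_inv_mul _ had, Matrix.mul_nonsing_inv _ hbd,
      Matrix.nonsing_inv_mul _ hbd, hh, by rw [← hrel, hcP, hh]⟩
  have hN' : ∀ x : ι ⊕ Bool → P002R.Mat r ℂ,
      0 = trace (N * (DL c (fun j => x (Sum.inl j)) L * h +
      cP * (x (Sum.inr false) * h + a * x (Sum.inr true) * (b * a⁻¹ * b⁻¹) -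
        a * b * a⁻¹ * x (Sum.inr false) * b⁻¹ - h * x (Sum.inr true)))) := by
    intro x
    have h1 := hN x
    rw [D1, ← hh, ← hcP] at h1
    exact h1.symm
  have hu1 : ∀ (s : Bool) (X : P002R.Mat r ℂ) (j : ι),
      (Function.update (0 : ι ⊕ Bool → P002R.Mat r ℂ) (Sum.inr s) X) (Sum.inl j) = 0 := by
    intro s X j
    rw [Function.update_of_ne (by simp), Pi.zero_apply]
  have hu2 : ∀ (s : Bool) (X : P002R.Mat r ℂ) (j : ι),
      (Function.update (0 : ι ⊕ Bool → P002R.Mat r ℂ) (Sum.inl j) X) (Sum.inr s) = 0 := by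
    intro s X j
    rw [Function.update_of_ne (by simp), Pi.zero_apply]
  have hu3 : ∀ (X : P002R.Mat r ℂ) (j k : ι), k ≠ j →
      (Function.update (0 : ι ⊕ Bool → P002R.Mat r ℂ) (Sum.inl j) X) (Sum.inl k) = 0 := by
    intro X j k hk
    rw [Function.update_of_ne (by simpa using hk), Pi.zero_apply]
  have hu4 : ∀ X : P002R.Mat r ℂ,
      (Function.update (0 : ι ⊕ Bool → P002R.Mat r ℂ) (Sum.inr false) X) (Sum.inr true) = 0 := by
    intro X
    rw [Function.update_of_ne (by simp), Pi.zero_apply]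
  have hu5 : ∀ X : P002R.Mat r ℂ,
      (Function.update (0 : ι ⊕ Bool → P002R.Mat r ℂ) (Sum.inr true) X) (Sum.inr false) = 0 := by
    intro X
    rw [Function.update_of_ne (by simp), Pi.zero_apply]
  have hc1 := pre_ind c N L (by
    intro l' j l'' hl hcom
    obtain ⟨X, hX⟩ : ∃ X, X = (l'.map c).prod := ⟨_, rfl⟩
    obtain ⟨Z, hZ⟩ : ∃ Z, Z = (l''.map c).prod := ⟨_, rfl⟩
    rw [← hX] at hcom
    have hnd' : (l' ++ j :: l'').Nodup := hl ▸ hnd
    rw [List.nodup_append, List.nodup_cons] at hnd'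
    have h1 : ∀ K, trace ((0 : P002R.Mat r ℂ) * K) =
        trace ((c j * (Z * h * N * X) - (Z * h * N * X) * c j) * K) := by
      intro K
      have h2 := hN' (Function.update 0 (Sum.inl j) K)
      have e0 : DL c (fun k => (Function.update (0 : ι ⊕ Bool → P002R.Mat r ℂ) (Sum.inl j) K)
          (Sum.inl k)) L = X * (K * c j - c j * K) * Z := by
        rw [hl, DL_split c _ l' l'' j (fun k hk => ?_) (fun k hk => ?_), Function.update_self,
          hX, hZ]
        · exact hu3 K j k (hnd'.2.2 k hk j List.mem_cons_self)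
        · refine hu3 K j k ?_
          rintro rfl
          exact hnd'.2.1.1 hk
      rw [e0, hu2, hu2] at h2
      simp only [Matrix.zero_mul, Matrix.mul_zero, add_zero,
        sub_self] at h2
      rw [← tr_comm, Matrix.zero_mul, trace_zero, h2]
      simp only [Matrix.mul_assoc]
    have h2 := eq_of_trace_eq h1
    have hcyc := cyc_one (X := X) (a := c j) (Y := Z * h) (by
      rw [← H.rel, hcP, hl, hX, hZ]
      simp only [List.map_append, List.map_cons, List.prod_append, List.prod_cons,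
        Matrix.mul_assoc])
    refine comm_of_inv hcyc.1 ?_
    rw [show Z * h * X * N = Z * h * N * X by rw [Matrix.mul_assoc, ← hcom.eq, Matrix.mul_assoc,
      Matrix.mul_assoc, Matrix.mul_assoc], ← h2])
  rw [← hcP] at hc1
  have Eb := rankB_Eb (N := N) H (fun X => by
    have h2 := hN' (Function.update 0 (Sum.inr true) X)
    rw [Function.update_self, hu5,
      DL_zero_fun c L _ (fun j => hu1 true X j)] at h2
    simp only [Matrix.zero_mul, Matrix.mul_zero, sub_zero, zero_add] at h2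
    exact h2.symm)
  have Ea := rankB_Ea (N := N) (Wm := 0) H (fun X => by
    have h2 := hN' (Function.update 0 (Sum.inr false) X)
    rw [Function.update_self, hu4,
      DL_zero_fun c L _ (fun j => hu1 false X j)] at h2
    simp only [Matrix.zero_mul, Matrix.mul_zero, sub_zero, zero_add, trace_zero,
      add_zero] at h2 ⊢
    exact h2)
  have h1 : h * N * cP = N := by
    rw [Matrix.mul_assoc, hc1.1.eq, ← Matrix.mul_assoc, H.rel', Matrix.one_mul]
  rw [h1, Matrix.mul_zero, sub_eq_zero] at Ea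
  have hNb : Commute N b := by
    show N * b = b * N
    conv_rhs => rw [Ea]
    simp only [Matrix.mul_assoc, mulL H.b1]
  have hNbi : Commute N b⁻¹ := by
    show N * b⁻¹ = b⁻¹ * N
    calc N * b⁻¹ = b⁻¹ * (b * N) * b⁻¹ := by rw [mulL H.b2]
      _ = b⁻¹ * N := by rw [← hNb.eq]; simp only [Matrix.mul_assoc, H.b1, Matrix.mul_one]
  have hNa : Commute N a⁻¹ := by
    have e1 : b * (a⁻¹ * (N * b⁻¹)) = b * (N * (a⁻¹ * b⁻¹)) := by
      rw [hNbi.eq, Eb, ← Matrix.mul_assoc, hNb.eq, Matrix.mul_assoc]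
    have e2 : b⁻¹ * (b * (a⁻¹ * (N * b⁻¹))) * b = b⁻¹ * (b * (N * (a⁻¹ * b⁻¹))) * b := by rw [e1]
    simp only [mulL H.b2] at e2
    simp only [Matrix.mul_assoc, H.b2, Matrix.mul_one] at e2
    exact e2.symm
  refine ⟨hc1.2, ?_, hNb⟩
  show N * a = a * N
  calc N * a = a * (a⁻¹ * N) * a := by rw [mulL H.a1]
    _ = a * N := by rw [← hNa.eq]; simp only [Matrix.mul_assoc, H.a2, Matrix.mul_one]

/-- a matrix orthogonal to the image of `D1` is a scalar -/
theorem scalar_of_orth1 [DecidableEq ι] {c : ι → P002R.Mat r ℂ} {a b : P002R.Mat r ℂ}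
    (ha : IsUnit a) (hb : IsUnit b) (L : List ι) (hnd : L.Nodup) (hmem : ∀ j, j ∈ L)
    (hrel : (L.map c).prod * (a * b * a⁻¹ * b⁻¹) = 1) (q : ι ⊕ Bool → P002R.Mat r ℂ)
    (hq1 : ∀ j, q (Sum.inl j) = c j) (hq2 : q (Sum.inr false) = a) (hq3 : q (Sum.inr true) = b)
    (hadj : Algebra.adjoin ℂ (Set.range q) = ⊤)
    (N : P002R.Mat r ℂ) (hN : ∀ x, trace (N * D1 c a b L x) = 0) :
    ∃ t : ℂ, N = t • (1 : P002R.Mat r ℂ) := by
  obtain ⟨h1, h2, h3⟩ := orth_comm1 ha hb L hnd hrel N hN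
  have h4 : ∀ M : P002R.Mat r ℂ, Commute N M := by
    intro M
    have h5 : M ∈ Algebra.adjoin ℂ (Set.range q) := hadj ▸ Algebra.mem_top
    induction h5 using Algebra.adjoin_induction with
    | mem x hx =>
      obtain ⟨k, rfl⟩ := hx
      rcases k with j | s
      · rw [hq1]
        exact h1 j (hmem j)
      · cases s
        · rw [hq2]
          exact h2
        · rw [hq3]
          exact h3
    | algebraMap a => exact (Algebra.commutes a N).symm
    | add x y _ _ hx hy => exact hx.add_right hy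
    | mul x y _ _ hx hy => exact hx.mul_right hy
  obtain ⟨t, ht⟩ := Matrix.mem_range_scalar_iff_commute_single'.2 fun i j => (h4 (single i j 1)).symm
  refine ⟨t, ?_⟩
  rw [← ht, Matrix.scalar_apply, Matrix.smul_one_eq_diagonal]

/-- Generic points. -/
def GenPt1 (K₀ : Subfield ℂ) (J : ι → P002R.Mat r ℂ) (L : List ι)
    (Y : ι ⊕ Bool → P002R.Mat r ℂ) : Prop :=
  ∀ x : ι ⊕ Bool → P002R.Mat r ℂ,
    D1 (cI J Y) (Y (Sum.inr false)) (Y (Sum.inr true)) L x = 0 →
    ∃ δ : Derivation ℤ ℂ ℂ, (∀ a ∈ K₀, δ a = 0) ∧ ∀ k, (Y k).map δ = x k * Y k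

section normed

open scoped Matrix.Norms.Operator

/-- generating the matrix algebra is an open condition -/
theorem adjoin_nhds_gen_norm {E κ : Type*} [TopologicalSpace E] (c : E → κ → P002R.Mat r ℂ) (p : E)
    (hc : ContinuousAt c p) (hadj : Algebra.adjoin ℂ (Set.range (c p)) = ⊤) :
    {q | Algebra.adjoin ℂ (Set.range (c q)) = ⊤} ∈ nhds p := by
  classical
  have h1 : Submodule.span ℂ (Submonoid.closure (Set.range (c p)) : Set (P002R.Mat r ℂ)) = ⊤ := by
    rw [← Algebra.adjoin_eq_span, hadj]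
    rfl
  obtain ⟨f, hf, hspan, hind⟩ := Submodule.exists_fun_fin_finrank_span_eq ℂ
    (Submonoid.closure (Set.range (c p)) : Set (P002R.Mat r ℂ))
  have hword : ∀ x ∈ Submonoid.closure (Set.range (c p)),
      ∃ l : List κ, (l.map (c p)).prod = x := by
    intro x hx
    induction hx using Submonoid.closure_induction with
    | mem x hx =>
      obtain ⟨j, rfl⟩ := hx
      exact ⟨[j], by simp⟩
    | one => exact ⟨[], rfl⟩
    | mul x y _ _ hx hy =>
      obtain ⟨l, rfl⟩ := hx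
      obtain ⟨l', rfl⟩ := hy
      exact ⟨l ++ l', by rw [List.map_append, List.prod_append]⟩
  choose w hw using fun i => hword (f i) (hf i)
  obtain ⟨d, hd⟩ : ∃ d, d = finrank ℂ (Submodule.span ℂ
    (Submonoid.closure (Set.range (c p)) : Set (P002R.Mat r ℂ))) := ⟨_, rfl⟩
  have hlist : ∀ l : List κ, ContinuousAt (fun q : E => (l.map (c q)).prod) p := by
    intro l
    induction l with
    | nil =>
      simp only [List.map_nil, List.prod_nil]
      exact continuousAt_const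
    | cons j l ih =>
      simp only [List.map_cons, List.prod_cons]
      exact ContinuousAt.mul (continuousAt_pi.1 hc j) ih
  have hcont : ContinuousAt (fun (q : E) i => ((w i).map (c q)).prod) p :=
    continuousAt_pi.2 fun i => hlist (w i)
  have hfw : (fun i => ((w i).map (c p)).prod) = f := funext hw
  have h3 : {g | LinearIndependent ℂ g} ∈ nhds (fun i => ((w i).map (c p)).prod) := by
    rw [hfw]
    exact hind.eventually
  have h4 := hcont h3
  refine Filter.mem_of_superset h4 ?_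
  intro q hq
  have h5 : LinearIndependent ℂ (fun i => ((w i).map (c q)).prod) := hq
  show Algebra.adjoin ℂ (Set.range (c q)) = ⊤
  have h6 : Submodule.span ℂ (Set.range fun i => ((w i).map (c q)).prod) = ⊤ := by
    apply Submodule.eq_top_of_finrank_eq
    rw [finrank_span_eq_card h5, Fintype.card_fin, h1, finrank_top]
  have h7 : Submodule.span ℂ (Set.range fun i => ((w i).map (c q)).prod) ≤
      Subalgebra.toSubmodule (Algebra.adjoin ℂ (Set.range (c q))) := by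
    rw [Submodule.span_le]
    rintro _ ⟨i, rfl⟩
    show ((w i).map (c q)).prod ∈ Algebra.adjoin ℂ (Set.range (c q))
    refine list_prod_mem fun x hx => ?_
    rw [List.mem_map] at hx
    obtain ⟨j, -, rfl⟩ := hx
    exact Algebra.subset_adjoin ⟨j, rfl⟩
  rw [h6, top_le_iff] at h7
  exact Algebra.toSubmodule_eq_top.1 h7

variable [Fintype ι]

theorem deriv_listI (J : ι → P002R.Mat r ℂ) {Y : ι ⊕ Bool → P002R.Mat r ℂ}
    (hY : ∀ j, IsUnit (Y j)) (l : List ι) :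
    ∃ D : (ι ⊕ Bool → P002R.Mat r ℂ) →L[ℂ] P002R.Mat r ℂ,
      HasStrictFDerivAt (fun Y : ι ⊕ Bool → P002R.Mat r ℂ => (l.map (cI J Y)).prod) D Y ∧
      ∀ x : ι ⊕ Bool → P002R.Mat r ℂ, D (fun k => x k * Y k) =
        DL (cI J Y) (fun j => x (Sum.inl j)) l := by
  obtain ⟨D, hD, he⟩ := deriv_list J (Y := fun j => Y (Sum.inl j)) (fun j => hY _) l
  obtain ⟨R, hR⟩ : ∃ R : (ι ⊕ Bool → P002R.Mat r ℂ) →L[ℂ] (ι → P002R.Mat r ℂ),
      ∀ Y, R Y = fun j => Y (Sum.inl j) :=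
    ⟨ContinuousLinearMap.pi fun j => ContinuousLinearMap.proj (Sum.inl j), fun Y => rfl⟩
  refine ⟨D.comp R, ?_, fun x => ?_⟩
  · have h1 : HasStrictFDerivAt (fun Y => R Y) R Y := R.hasStrictFDerivAt
    have h2 : HasStrictFDerivAt (fun Y : ι → P002R.Mat r ℂ => (l.map (cj J Y)).prod) D (R Y) := by
      rw [hR]
      exact hD
    have h3 := HasStrictFDerivAt.comp Y h2 h1
    have h4 : (fun Y : ι ⊕ Bool → P002R.Mat r ℂ => (l.map (cI J Y)).prod) =
        (fun Y : ι → P002R.Mat r ℂ => (l.map (cj J Y)).prod) ∘ fun Y => R Y := by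
      funext Y'
      rw [Function.comp_apply, hR]
      rfl
    rw [h4]
    exact h3
  · rw [ContinuousLinearMap.comp_apply, hR]
    exact he fun j => x (Sum.inl j)

theorem deriv_PhiI (J : ι → P002R.Mat r ℂ) {Y : ι ⊕ Bool → P002R.Mat r ℂ}
    (hY : ∀ j, IsUnit (Y j)) (L : List ι) :
    ∃ D : (ι ⊕ Bool → P002R.Mat r ℂ) →L[ℂ] P002R.Mat r ℂ,
      HasStrictFDerivAt (PhiI J L) D Y ∧
      ∀ x : ι ⊕ Bool → P002R.Mat r ℂ, D (fun k => x k * Y k) =
        D1 (cI J Y) (Y (Sum.inr false)) (Y (Sum.inr true)) L x := by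
  obtain ⟨D₁, h1, e1⟩ := deriv_listI J hY L
  have hp : ∀ s : Bool, HasStrictFDerivAt (fun Y : ι ⊕ Bool → P002R.Mat r ℂ => Y (Sum.inr s))
      (ContinuousLinearMap.proj (Sum.inr s) : (ι ⊕ Bool → P002R.Mat r ℂ) →L[ℂ] P002R.Mat r ℂ) Y :=
    fun s => (ContinuousLinearMap.proj (Sum.inr s) :
      (ι ⊕ Bool → P002R.Mat r ℂ) →L[ℂ] P002R.Mat r ℂ).hasStrictFDerivAt
  obtain ⟨D₂, h2, e2⟩ := exists_deriv_cm (hp false) (hp true) (hY _) (hY _)
  obtain ⟨D, h, e⟩ := exists_deriv_mul h1 h2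
  refine ⟨D, h, fun x => ?_⟩
  have had : IsUnit (Y (Sum.inr false)).det := (Matrix.isUnit_iff_isUnit_det _).1 (hY _)
  have hbd : IsUnit (Y (Sum.inr true)).det := (Matrix.isUnit_iff_isUnit_det _).1 (hY _)
  have a1 := Matrix.mul_nonsing_inv _ had
  have b1 := Matrix.mul_nonsing_inv _ hbd
  obtain ⟨a, ha⟩ : ∃ a, a = Y (Sum.inr false) := ⟨_, rfl⟩
  obtain ⟨b, hb⟩ : ∃ b, b = Y (Sum.inr true) := ⟨_, rfl⟩
  have h3 : D₂ (fun k => x k * Y k) = x (Sum.inr false) * (a * b * a⁻¹ * b⁻¹) +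
      a * x (Sum.inr true) * (b * a⁻¹ * b⁻¹) - a * b * a⁻¹ * x (Sum.inr false) * b⁻¹ -
      a * b * a⁻¹ * b⁻¹ * x (Sum.inr true) := by
    refine (e2 _).trans ?_
    show (x (Sum.inr false) * Y (Sum.inr false)) * Y (Sum.inr true) * (Y (Sum.inr false))⁻¹ *
      (Y (Sum.inr true))⁻¹ + Y (Sum.inr false) * (x (Sum.inr true) * Y (Sum.inr true)) *
      (Y (Sum.inr false))⁻¹ * (Y (Sum.inr true))⁻¹ - Y (Sum.inr false) * Y (Sum.inr true) *
      (Y (Sum.inr false))⁻¹ * (x (Sum.inr false) * Y (Sum.inr false)) * (Y (Sum.inr false))⁻¹ *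
      (Y (Sum.inr true))⁻¹ - Y (Sum.inr false) * Y (Sum.inr true) * (Y (Sum.inr false))⁻¹ *
      (Y (Sum.inr true))⁻¹ * (x (Sum.inr true) * Y (Sum.inr true)) * (Y (Sum.inr true))⁻¹ = _
    rw [← ha] at a1
    rw [← hb] at b1
    rw [← ha, ← hb]
    simp only [Matrix.mul_assoc, mulL a1, b1, Matrix.mul_one]
  refine (e _).trans ?_
  rw [D1, ← ha, ← hb, ← h3, ← e1]
  have h4 : a * b * a⁻¹ * b⁻¹ = cm (Y (Sum.inr false)) (Y (Sum.inr true)) := by
    rw [ha, hb]
    rfl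
  rw [h4, ha, hb]
  rfl

theorem good_cI (K₀ : Subfield ℂ) {J : ι → P002R.Mat r ℂ} (hJK : ∀ j a b, J j a b ∈ K₀)
    {Y : ι ⊕ Bool → P002R.Mat r ℂ} (hY : ∀ j, IsUnit (Y j)) (l : List ι) :
    GoodG K₀ (fun Y : ι ⊕ Bool → P002R.Mat r ℂ => (l.map (cI J Y)).prod) Y := by
  refine GoodG.list_prod (fun j Y => cI J Y j) l fun j _ => ?_
  exact ((GoodG.proj _).mul (GoodG.const (hJK j))).mul (GoodG.inv (GoodG.proj _) (hY _))

theorem good_PhiI (K₀ : Subfield ℂ) {J : ι → P002R.Mat r ℂ} (hJK : ∀ j a b, J j a b ∈ K₀)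
    {Y : ι ⊕ Bool → P002R.Mat r ℂ} (hY : ∀ j, IsUnit (Y j)) (l : List ι) :
    GoodG K₀ (PhiI J l) Y :=
  (good_cI K₀ hJK hY l).mul ((((GoodG.proj _).mul (GoodG.proj _)).mul
    (GoodG.inv (GoodG.proj _) (hY _))).mul (GoodG.inv (GoodG.proj _) (hY _)))

omit [Fintype ι] in
theorem det_PhiI {J : ι → P002R.Mat r ℂ} {Y : ι ⊕ Bool → P002R.Mat r ℂ}
    (hY : ∀ j, IsUnit (Y j)) (l : List ι) :
    (PhiI J l Y).det = (l.map fun j => (J j).det).prod := by
  have had : IsUnit (Y (Sum.inr false)).det := (Matrix.isUnit_iff_isUnit_det _).1 (hY _)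
  have hbd : IsUnit (Y (Sum.inr true)).det := (Matrix.isUnit_iff_isUnit_det _).1 (hY _)
  have h1 : (hI Y).det = 1 := by
    rw [hI, det_mul, det_mul, det_mul, det_nonsing_inv, det_nonsing_inv,
      mul_right_comm (Y (Sum.inr false)).det, Ring.mul_inverse_cancel _ had, one_mul,
      Ring.mul_inverse_cancel _ hbd]
  rw [PhiI, det_mul, h1, mul_one, cI_eqn, det_cj_prod fun j => hY _]

theorem continuousAt_allI (J : ι → P002R.Mat r ℂ) {Y : ι ⊕ Bool → P002R.Mat r ℂ}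
    (hY : ∀ j, IsUnit (Y j)) :
    ContinuousAt (fun Y : ι ⊕ Bool → P002R.Mat r ℂ => allI J Y) Y := by
  refine continuousAt_pi.2 fun k => ?_
  rcases k with j | s
  · obtain ⟨D, hD, -⟩ := deriv_listI J hY [j]
    have h1 := hD.hasFDerivAt.continuousAt
    simp only [List.map_cons, List.map_nil, List.prod_cons, List.prod_nil, mul_one] at h1
    exact h1
  · exact continuousAt_apply (Sum.inr s) Y

/-- Existence of generic points. -/
theorem generic_point1_norm [DecidableEq ι] (hr : 1 ≤ r) (L : List ι) (hnd : L.Nodup)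
    (hmem : ∀ j, j ∈ L) (K₀ : Subfield ℂ) (hK₀ : Countable K₀) (J : ι → P002R.Mat r ℂ)
    (hJK : ∀ j a b, J j a b ∈ K₀)
    (Y₀ : ι ⊕ Bool → P002R.Mat r ℂ) (hY₀ : ∀ j, IsUnit (Y₀ j)) (hrel : PhiI J L Y₀ = 1)
    (hadj : Algebra.adjoin ℂ (Set.range (allI J Y₀)) = ⊤) (U : Set (ι ⊕ Bool → P002R.Mat r ℂ))
    (hU : U ∈ nhds Y₀) :
    ∃ Y ∈ U, (∀ j, IsUnit (Y j)) ∧ PhiI J L Y = 1 ∧
      Algebra.adjoin ℂ (Set.range (allI J Y)) = ⊤ ∧ GenPt1 K₀ J L Y := by
  have hdet : ∀ Y : ι ⊕ Bool → P002R.Mat r ℂ, (∀ k, IsUnit (Y k)) → (PhiI J L Y).det = 1 := by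
    intro Y hY
    rw [det_PhiI hY, ← det_PhiI hY₀, hrel, det_one]
  obtain ⟨Y, ⟨hYU, hYadj⟩, hYu, hYrel, c, hgen⟩ := exists_generic_point_K hr K₀ hK₀
    (PhiI J L) (fun Y hY => good_PhiI K₀ hJK hY L) hdet Y₀ hY₀ hrel
    (fun D hD N hN => by
      obtain ⟨D', hD', hDe⟩ := deriv_PhiI J hY₀ L
      have hDD : D' = D := hD'.hasFDerivAt.unique hD.hasFDerivAt
      refine scalar_of_orth1 (hY₀ _) (hY₀ _) L hnd hmem hrel (allI J Y₀) (fun j => rfl) rfl rfl
        hadj N fun x => ?_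
      rw [← hDe, hDD]
      exact hN _)
    _ (Filter.inter_mem hU (adjoin_nhds_gen_norm (fun Y => allI J Y) Y₀ (continuousAt_allI J hY₀)
      hadj))
  refine ⟨Y, hYU, hYu, hYrel, hYadj, fun x hx => ?_⟩
  obtain ⟨D, hD, hDe⟩ := deriv_PhiI J hYu L
  obtain ⟨δ, hδ0, hδ1, -⟩ := hgen D hD (fun k => x k * Y k) (by rw [hDe]; exact hx) 0
  refine ⟨δ, hδ0, fun k => ?_⟩
  ext i j
  exact hδ1 k i j

theorem map_der_listI_norm {K₀ : Subfield ℂ} {J : ι → P002R.Mat r ℂ} {Y : ι ⊕ Bool → P002R.Mat r ℂ}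
    (hJK : ∀ j a b, J j a b ∈ K₀) (hY : ∀ j, IsUnit (Y j)) (δ : Derivation ℤ ℂ ℂ)
    (hδ : ∀ a ∈ K₀, δ a = 0) (x : ι ⊕ Bool → P002R.Mat r ℂ) (hx : ∀ k, (Y k).map δ = x k * Y k)
    (l : List ι) :
    ((l.map (cI J Y)).prod).map δ = DL (cI J Y) (fun j => x (Sum.inl j)) l :=
  map_der_list_norm hJK (fun j => hY (Sum.inl j)) δ hδ (fun j => x (Sum.inl j))
    (fun j => hx (Sum.inl j)) l

end normed

variable [Fintype ι]

theorem adjoin_nhds_gen {E κ : Type*} [TopologicalSpace E] (c : E → κ → P002R.Mat r ℂ) (p : E)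
    (hc : ContinuousAt c p) (hadj : Algebra.adjoin ℂ (Set.range (c p)) = ⊤) :
    {q | Algebra.adjoin ℂ (Set.range (c q)) = ⊤} ∈ nhds p := adjoin_nhds_gen_norm c p hc hadj

theorem generic_point1 [DecidableEq ι] (hr : 1 ≤ r) (L : List ι) (hnd : L.Nodup)
    (hmem : ∀ j, j ∈ L) (K₀ : Subfield ℂ) (hK₀ : Countable K₀) (J : ι → P002R.Mat r ℂ)
    (hJK : ∀ j a b, J j a b ∈ K₀)
    (Y₀ : ι ⊕ Bool → P002R.Mat r ℂ) (hY₀ : ∀ j, IsUnit (Y₀ j)) (hrel : PhiI J L Y₀ = 1)
    (hadj : Algebra.adjoin ℂ (Set.range (allI J Y₀)) = ⊤) (U : Set (ι ⊕ Bool → P002R.Mat r ℂ))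
    (hU : U ∈ nhds Y₀) :
    ∃ Y ∈ U, (∀ j, IsUnit (Y j)) ∧ PhiI J L Y = 1 ∧
      Algebra.adjoin ℂ (Set.range (allI J Y)) = ⊤ ∧ GenPt1 K₀ J L Y :=
  generic_point1_norm hr L hnd hmem K₀ hK₀ J hJK Y₀ hY₀ hrel hadj U hU

theorem map_der_listI {K₀ : Subfield ℂ} {J : ι → P002R.Mat r ℂ} {Y : ι ⊕ Bool → P002R.Mat r ℂ}
    (hJK : ∀ j a b, J j a b ∈ K₀) (hY : ∀ j, IsUnit (Y j)) (δ : Derivation ℤ ℂ ℂ)
    (hδ : ∀ a ∈ K₀, δ a = 0) (x : ι ⊕ Bool → P002R.Mat r ℂ) (hx : ∀ k, (Y k).map δ = x k * Y k)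
    (l : List ι) :
    ((l.map (cI J Y)).prod).map δ = DL (cI J Y) (fun j => x (Sum.inl j)) l :=
  map_der_listI_norm hJK hY δ hδ x hx l

end Vale.Agent.P002R
end

section

/-!
# P002, genus 1: consequences of genericity
-/

namespace Vale.Agent.P002R

open Matrix Module Vale.Agent.P002

variable {r : ℕ} {ι : Type} [Fintype ι]

omit [Fintype ι] in
theorem allI_inl (J : ι → P002R.Mat r ℂ) (Y : ι ⊕ Bool → P002R.Mat r ℂ) (j : ι) :
    allI J Y (Sum.inl j) = cI J Y j := rfl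

omit [Fintype ι] in
theorem allI_inr (J : ι → P002R.Mat r ℂ) (Y : ι ⊕ Bool → P002R.Mat r ℂ) (s : Bool) :
    allI J Y (Sum.inr s) = Y (Sum.inr s) := rfl

omit [Fintype ι] in
theorem isUnit_cI {J : ι → P002R.Mat r ℂ} {Y : ι ⊕ Bool → P002R.Mat r ℂ} (hJ : ∀ j, IsUnit (J j))
    (hY : ∀ j, IsUnit (Y j)) (j : ι) : IsUnit (cI J Y j) := isUnit_cj hJ (fun _ => hY _) j

omit [Fintype ι] in
theorem isUnit_cI_prod {J : ι → P002R.Mat r ℂ} {Y : ι ⊕ Bool → P002R.Mat r ℂ}
    (hJ : ∀ j, IsUnit (J j)) (hY : ∀ j, IsUnit (Y j)) (l : List ι) :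
    IsUnit (l.map (cI J Y)).prod := isUnit_cj_prod hJ (fun _ => hY _) l

/-- derivation of a matrix-vector product -/
theorem der_mulVec (δ : Derivation ℤ ℂ ℂ) (M : P002R.Mat r ℂ) (v : Fin r → ℂ) :
    (fun i => δ ((M *ᵥ v) i)) = M.map δ *ᵥ v + M *ᵥ fun i => δ (v i) := by
  funext i
  simp only [Matrix.mulVec, dotProduct, map_sum, Derivation.leibniz, smul_eq_mul, Pi.add_apply,
    Matrix.map_apply, ← Finset.sum_add_distrib]
  refine Finset.sum_congr rfl fun j _ => ?_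
  ring

omit [Fintype ι] in
/-- the generic point and rank one lemma together -/
theorem gen_B [DecidableEq ι] {K₀ : Subfield ℂ} {J : ι → P002R.Mat r ℂ}
    {Y : ι ⊕ Bool → P002R.Mat r ℂ} (hJ : ∀ j, IsUnit (J j)) (hY : ∀ j, IsUnit (Y j)) (i₀ : ι)
    (l₁ : List ι) (hnd : (i₀ :: l₁).Nodup) (hmem : ∀ j, j ∈ i₀ :: l₁)
    (hrel : PhiI J (i₀ :: l₁) Y = 1)
    (hadj : Algebra.adjoin ℂ (Set.range (allI J Y)) = ⊤) (hgen : GenPt1 K₀ J (i₀ :: l₁) Y)
    (y w v : Fin r → ℂ) (hy : y ≠ 0) (hw : w ≠ 0) (lam κ : ℂ) (hlam : lam ≠ 0)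
    (haw : Y (Sum.inr false) *ᵥ w = lam • w - κ • v) :
    ∃ (δ : Derivation ℤ ℂ ℂ) (x : ι ⊕ Bool → P002R.Mat r ℂ), (∀ a ∈ K₀, δ a = 0) ∧
      (∀ k, (Y k).map δ = x k * Y k) ∧
      y ⬝ᵥ ((x (Sum.inr false) * Y (Sum.inr false)) *ᵥ w) +
        κ * (y ⬝ᵥ ((((l₁.map (cI J Y)).prod)⁻¹ * x (Sum.inl i₀) * (l₁.map (cI J Y)).prod -
          ((l₁.map (cI J Y)).prod)⁻¹ * DL (cI J Y) (fun j => x (Sum.inl j)) l₁) *ᵥ v)) ≠ 0 := by
  obtain ⟨x, hx1, hx2⟩ := rank_B (cI J Y) (isUnit_cI hJ hY) _ _ (hY (Sum.inr false))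
    (hY (Sum.inr true)) i₀ l₁ hnd hmem hrel (fun W h1 h2 h3 => by
      refine eq_bot_or_top_of_adjoin (allI J Y) hadj W fun k => ?_
      rcases k with j | s
      · exact h1 j
      · cases s
        · exact h2
        · exact h3) y w v hy hw lam κ hlam haw
  obtain ⟨δ, h1, h2⟩ := hgen x hx1
  exact ⟨δ, x, h1, h2, hx2⟩

omit [Fintype ι] in
/-- left and right eigenvectors pair nontrivially -/
theorem gen_pair [DecidableEq ι] {K₀ : Subfield ℂ} {J : ι → P002R.Mat r ℂ}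
    {Y : ι ⊕ Bool → P002R.Mat r ℂ} (hJ : ∀ j, IsUnit (J j)) (hY : ∀ j, IsUnit (Y j)) (i₀ : ι)
    (l₁ : List ι) (hnd : (i₀ :: l₁).Nodup) (hmem : ∀ j, j ∈ i₀ :: l₁)
    (hrel : PhiI J (i₀ :: l₁) Y = 1)
    (hadj : Algebra.adjoin ℂ (Set.range (allI J Y)) = ⊤) (hgen : GenPt1 K₀ J (i₀ :: l₁) Y)
    (lam : ℂ) (y w : Fin r → ℂ) (hy : y ≠ 0) (hw : w ≠ 0)
    (hya : y ᵥ* Y (Sum.inr false) = lam • y) (haw : Y (Sum.inr false) *ᵥ w = lam • w) :
    y ⬝ᵥ w ≠ 0 := by
  intro h0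
  have had : IsUnit (Y (Sum.inr false)).det := (Matrix.isUnit_iff_isUnit_det _).1 (hY _)
  have hlam : lam ≠ 0 := by
    rintro rfl
    apply hw
    rw [zero_smul] at haw
    calc w = ((Y (Sum.inr false))⁻¹ * Y (Sum.inr false)) *ᵥ w := by
          rw [Matrix.nonsing_inv_mul _ had, Matrix.one_mulVec]
      _ = 0 := by rw [← Matrix.mulVec_mulVec, haw, Matrix.mulVec_zero]
  obtain ⟨δ, x, -, hx, hne⟩ := gen_B hJ hY i₀ l₁ hnd hmem hrel hadj hgen y w 0 hy hw lam 0 hlam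
    (by rw [haw, zero_smul, sub_zero])
  apply hne
  rw [zero_mul, add_zero, ← hx]
  have h1 := der_mulVec δ (Y (Sum.inr false)) w
  rw [haw] at h1
  have h2 := congrArg (fun q => y ⬝ᵥ q) h1
  simp only [Pi.smul_apply, smul_eq_mul, Derivation.leibniz, dotProduct_add] at h2
  have h3 : y ⬝ᵥ (Y (Sum.inr false) *ᵥ fun i => δ (w i)) = lam * (y ⬝ᵥ fun i => δ (w i)) := by
    rw [Matrix.dotProduct_mulVec, hya, smul_dotProduct, smul_eq_mul]
  have h4 : (y ⬝ᵥ fun i => lam * δ (w i) + w i * δ lam) =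
      lam * (y ⬝ᵥ fun i => δ (w i)) + δ lam * (y ⬝ᵥ w) := by
    simp only [dotProduct, Finset.mul_sum, ← Finset.sum_add_distrib]
    refine Finset.sum_congr rfl fun i _ => ?_
    ring
  rw [h3, h4, h0, mul_zero, add_zero] at h2
  linear_combination -h2

/-- no degenerate data -/
theorem gen_cyc [DecidableEq ι] {K₀ : Subfield ℂ} {J : ι → P002R.Mat r ℂ}
    (hJK : ∀ j a b, J j a b ∈ K₀)
    {Y : ι ⊕ Bool → P002R.Mat r ℂ} (hJ : ∀ j, IsUnit (J j)) (hY : ∀ j, IsUnit (Y j)) (i₀ : ι)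
    (l₁ : List ι) (hnd : (i₀ :: l₁).Nodup) (hmem : ∀ j, j ∈ i₀ :: l₁)
    (hrel : PhiI J (i₀ :: l₁) Y = 1)
    (hadj : Algebra.adjoin ℂ (Set.range (allI J Y)) = ⊤) (hgen : GenPt1 K₀ J (i₀ :: l₁) Y)
    (e : Fin r → ℂ) (he : ∀ i, e i ∈ K₀) (lam κ : ℂ) (y w v : Fin r → ℂ)
    (hv : v = (((l₁.map (cI J Y)).prod)⁻¹ * Y (Sum.inl i₀)) *ᵥ e)
    (hlam : lam ≠ 0) (hy : y ≠ 0) (hw : w ≠ 0)
    (hya : y ᵥ* Y (Sum.inr false) = lam • y) (hyv : y ⬝ᵥ v = 0) (hyw : y ⬝ᵥ w = 0)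
    (haw : Y (Sum.inr false) *ᵥ w = lam • w - κ • v) : False := by
  obtain ⟨δ, x, hδ, hx, hne⟩ := gen_B hJ hY i₀ l₁ hnd hmem hrel hadj hgen y w v hy hw lam κ hlam haw
  obtain ⟨P, hP⟩ : ∃ P, P = (l₁.map (cI J Y)).prod := ⟨_, rfl⟩
  have hPu : IsUnit P := hP ▸ isUnit_cI_prod hJ hY l₁
  have hPd : IsUnit P.det := (Matrix.isUnit_iff_isUnit_det _).1 hPu
  have a2 : P * P⁻¹ = 1 := Matrix.mul_nonsing_inv _ hPd
  rw [← hP] at hv hne
  apply hne
  rw [← hx]
  have hPδ : P.map δ = DL (cI J Y) (fun j => x (Sum.inl j)) l₁ := by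
    rw [hP, map_der_listI hJK hY δ hδ x hx]
  -- the derivative of `v`
  have hvδ : (fun i => δ (v i)) = (P⁻¹ * x (Sum.inl i₀) * P -
      P⁻¹ * DL (cI J Y) (fun j => x (Sum.inl j)) l₁) *ᵥ v := by
    have h1 := der_mulVec δ (P⁻¹ * Y (Sum.inl i₀)) e
    rw [← hv] at h1
    have h2 : (fun i => δ (e i)) = 0 := funext fun i => hδ _ (he i)
    rw [h1, h2, Matrix.mulVec_zero, add_zero, hv, Matrix.mulVec_mulVec]
    congr 1
    rw [map_der_mul, map_der_inv hPu, hx, hPδ, Matrix.sub_mul]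
    have e1 : P⁻¹ * x (Sum.inl i₀) * P * (P⁻¹ * Y (Sum.inl i₀)) =
        P⁻¹ * (x (Sum.inl i₀) * Y (Sum.inl i₀)) := by
      simp only [Matrix.mul_assoc, mulL a2]
    rw [e1, Matrix.neg_mul, neg_add_eq_sub]
    simp only [Matrix.mul_assoc]
  rw [← hvδ]
  have h1 := der_mulVec δ (Y (Sum.inr false)) w
  rw [haw] at h1
  have h2 := congrArg (fun q => y ⬝ᵥ q) h1
  simp only [Pi.sub_apply, Pi.smul_apply, smul_eq_mul, map_sub, Derivation.leibniz,
    dotProduct_add] at h2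
  have h3 : y ⬝ᵥ (Y (Sum.inr false) *ᵥ fun i => δ (w i)) = lam * (y ⬝ᵥ fun i => δ (w i)) := by
    rw [Matrix.dotProduct_mulVec, hya, smul_dotProduct, smul_eq_mul]
  have h4 : (y ⬝ᵥ fun i => lam * δ (w i) + w i * δ lam - (κ * δ (v i) + v i * δ κ)) =
      lam * (y ⬝ᵥ fun i => δ (w i)) + δ lam * (y ⬝ᵥ w) - κ * (y ⬝ᵥ fun i => δ (v i)) -
        δ κ * (y ⬝ᵥ v) := by
    simp only [dotProduct, Finset.mul_sum, ← Finset.sum_add_distrib, ← Finset.sum_sub_distrib]
    refine Finset.sum_congr rfl fun i _ => ?_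
    ring
  rw [h3, h4, hyv, hyw] at h2
  linear_combination -h2

omit [Fintype ι] in
/-- derivation of eigenvector matrices -/
theorem der_eigenbasis {a A Z : P002R.Mat r ℂ} {ν : Fin r → ℂ} (δ : Derivation ℤ ℂ ℂ)
    (ha : a.map δ = 0) (hA : IsUnit A) (hν : Function.Injective ν) (haA : a * A = A * diagonal ν)
    (hZ : A.map δ = A * Z) : ∀ i j, i ≠ j → Z i j = 0 := by
  have hud : IsUnit A.det := (Matrix.isUnit_iff_isUnit_det _).1 hA
  have a2 : A⁻¹ * A = 1 := Matrix.nonsing_inv_mul _ hud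
  have h1 := congrArg (fun M : P002R.Mat r ℂ => M.map δ) haA
  simp only [map_der_mul] at h1
  rw [ha, Matrix.zero_mul, zero_add, hZ] at h1
  have h2 : diagonal ν * Z = Z * diagonal ν + (diagonal ν).map δ := by
    calc diagonal ν * Z = A⁻¹ * (A * diagonal ν) * Z := by rw [mulL a2]
      _ = A⁻¹ * (a * (A * Z)) := by rw [← haA]; simp only [Matrix.mul_assoc]
      _ = _ := by
        rw [h1, Matrix.mul_add, mulL a2, Matrix.mul_assoc, mulL a2]
  intro i j hij
  have h3 := congrFun (congrFun h2 i) j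
  rw [Matrix.diagonal_mul, Matrix.add_apply, Matrix.mul_diagonal, Matrix.map_apply,
    Matrix.diagonal_apply_ne _ hij, map_zero, add_zero] at h3
  have h4 : (ν i - ν j) * Z i j = 0 := by
    linear_combination h3
  rcases mul_eq_zero.1 h4 with h | h
  · exact absurd (hν (sub_eq_zero.1 h)) hij
  · exact h

omit [Fintype ι] in
/-- the derivative of the relation with frozen `a` -/
theorem D1_frozen {c : ι → P002R.Mat r ℂ} {a b : P002R.Mat r ℂ} (L : List ι)
    (q : ι ⊕ Bool → P002R.Mat r ℂ) (hq1 : ∀ j, q (Sum.inl j) = c j) (hq2 : q (Sum.inr false) = a)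
    (hq3 : q (Sum.inr true) = b * a⁻¹ * b⁻¹) (x : ι ⊕ Bool → P002R.Mat r ℂ)
    (hx : x (Sum.inr false) = 0) :
    D1 c a b L x = DL q x (L.map Sum.inl ++ [Sum.inr false, Sum.inr true]) := by
  have h1 : ∀ l : List ι, DL q x (l.map Sum.inl) = DL c (fun j => x (Sum.inl j)) l := by
    intro l
    induction l with
    | nil => rfl
    | cons j l ih =>
      rw [List.map_cons, DL_cons, DL_cons, ih, hq1, List.map_map]
      congr 3
      refine List.map_congr_left fun k _ => ?_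
      exact hq1 k
  have h2 : ((L.map Sum.inl).map q).prod = (L.map c).prod := by
    rw [List.map_map]
    congr 1
    exact List.map_congr_left fun k _ => hq1 k
  rw [D1, DL_append, h1, h2, hx, DL_cons, DL_cons, DL_nil, hq2, hq3, hx]
  simp only [List.map_cons, List.map_nil, List.prod_cons, List.prod_nil, hq3, hq2]
  have h3 : a * (b * a⁻¹ * b⁻¹) = a * b * a⁻¹ * b⁻¹ := by simp only [Matrix.mul_assoc]
  rw [Matrix.mul_one, h3]
  noncomm_ring

end Vale.Agent.P002R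
end

section

/-!
# P002: coordinate subspaces stable under `U L`
-/

namespace Vale.Agent.P002R

open Matrix

/-- If `Z = U L` preserves a coordinate subspace, then so do `U` and `L`. -/
theorem coord_stable {K : Type*} [Field K] {r : ℕ} {X : Mat r K} (hX : ∀ i, X i i ≠ 0)
    (I : Finset (Fin r)) (h : ∀ i, i ∉ I → ∀ j ∈ I, zZ X i j = 0) :
    ∀ i, i ∉ I → ∀ j ∈ I, uU X i j = 0 ∧ lL X i j = 0 := by
  have key : ∀ (d : ℕ) (i j : Fin r), i ∉ I → j ∈ I → r ≤ max (i : ℕ) (j : ℕ) + d →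
      uU X i j = 0 ∧ lL X i j = 0 := by
    intro d
    induction d with
    | zero =>
      intro i j _ _ h1
      exfalso
      have h2 := i.isLt
      have h3 := j.isLt
      omega
    | succ d ih =>
      intro i j hi hj h1
      have hij : i ≠ j := fun h2 => hi (h2 ▸ hj)
      have h2 := h i hi j hj
      rw [zZ_eqn, Matrix.mul_apply] at h2
      have hbig : ∀ k : Fin r, max (i : ℕ) (j : ℕ) < (k : ℕ) → uU X i k * lL X k j = 0 := by
        intro k hk
        by_cases hkI : k ∈ I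
        · rw [(ih i k hi hkI (by omega)).1, zero_mul]
        · rw [(ih k j hkI hj (by omega)).2, mul_zero]
      rcases lt_or_gt_of_ne hij with hlt | hgt
      · -- `i < j`
        have hl : lL X i j = 0 := loT_lL X i j hlt
        refine ⟨?_, hl⟩
        rw [Finset.sum_eq_single j] at h2
        · rw [lL_diag] at h2
          exact (mul_eq_zero.1 h2).resolve_right (hX j)
        · intro k _ hkj
          rcases lt_or_gt_of_ne hkj with h3 | h3
          · rw [loT_lL X k j h3, mul_zero]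
          · exact hbig k (by
              have h4 : (i : ℕ) < j := hlt
              have h5 : (j : ℕ) < k := h3
              omega)
        · intro h3
          exact absurd (Finset.mem_univ j) h3
      · -- `j < i`
        have hu : uU X i j = 0 := upT_uU X i j hgt
        refine ⟨hu, ?_⟩
        rw [Finset.sum_eq_single i] at h2
        · rwa [uU_diag, one_mul] at h2
        · intro k _ hki
          rcases lt_or_gt_of_ne hki with h3 | h3
          · rw [upT_uU X i k h3, zero_mul]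
          · exact hbig k (by
              have h4 : (j : ℕ) < i := hgt
              have h5 : (i : ℕ) < k := h3
              omega)
        · intro h3
          exact absurd (Finset.mem_univ i) h3
  intro i hi j hj
  exact key r i j hi hj (by omega)

/-- The inverse of a matrix which preserves a coordinate subspace. -/
theorem coord_stable_inv {K : Type*} [Field K] {r : ℕ} {M : Mat r K} (hM : IsUnit M.det)
    (I : Finset (Fin r)) (h : ∀ i, i ∉ I → ∀ j ∈ I, M i j = 0) :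
    ∀ i, i ∉ I → ∀ j ∈ I, M⁻¹ i j = 0 := by
  classical
  have : Invertible M := M.invertibleOfIsUnitDet hM
  have hb : BlockTriangular M (fun i : Fin r => if i ∈ I then 0 else 1) := by
    intro i j hij
    by_cases hi : i ∈ I
    · by_cases hj : j ∈ I
      · simp [hi, hj] at hij
      · simp [hi, hj] at hij
    · by_cases hj : j ∈ I
      · exact h i hi j hj
      · simp [hi, hj] at hij
  have hb' := blockTriangular_inv_of_blockTriangular hb
  intro i hi j hj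
  apply hb'
  simp [hi, hj]

theorem coord_stable_mul {K : Type*} [Field K] {r : ℕ} {M N : Mat r K} (I : Finset (Fin r))
    (hM : ∀ i, i ∉ I → ∀ j ∈ I, M i j = 0) (hN : ∀ i, i ∉ I → ∀ j ∈ I, N i j = 0) :
    ∀ i, i ∉ I → ∀ j ∈ I, (M * N) i j = 0 := by
  intro i hi j hj
  rw [Matrix.mul_apply]
  refine Finset.sum_eq_zero fun k _ => ?_
  by_cases hk : k ∈ I
  · rw [hM i hi k hk, zero_mul]
  · rw [hN k hk j hj, mul_zero]

/-- The coordinate subspace. -/
def cSub (K : Type*) [Field K] {r : ℕ} (I : Finset (Fin r)) : Submodule K (Fin r → K) where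
  carrier := {v | ∀ i, i ∉ I → v i = 0}
  add_mem' := fun {a b} ha hb i hi => by
    rw [Pi.add_apply, ha i hi, hb i hi, add_zero]
  zero_mem' := fun _ _ => rfl
  smul_mem' := fun c v hv i hi => by
    rw [Pi.smul_apply, hv i hi, smul_zero]

theorem mem_cSub {K : Type*} [Field K] {r : ℕ} {I : Finset (Fin r)} {v : Fin r → K} :
    v ∈ cSub K I ↔ ∀ i, i ∉ I → v i = 0 := Iff.rfl

theorem mulVec_mem_cSub {K : Type*} [Field K] {r : ℕ} {M : Mat r K} {I : Finset (Fin r)}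
    (hM : ∀ i, i ∉ I → ∀ j ∈ I, M i j = 0) {v : Fin r → K} (hv : v ∈ cSub K I) :
    M *ᵥ v ∈ cSub K I := by
  intro i hi
  rw [Matrix.mulVec, dotProduct]
  refine Finset.sum_eq_zero fun k _ => ?_
  by_cases hk : k ∈ I
  · rw [hM i hi k hk, zero_mul]
  · rw [mem_cSub.1 hv k hk, mul_zero]

theorem cSub_ne_bot {K : Type*} [Field K] {r : ℕ} {I : Finset (Fin r)} (hI : I.Nonempty) :
    cSub K I ≠ ⊥ := by
  obtain ⟨j, hj⟩ := hI
  intro h
  have h1 : (Pi.single j 1 : Fin r → K) ∈ cSub K I := by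
    intro i hi
    have hij : i ≠ j := fun h2 => hi (by rw [h2]; exact hj)
    exact Pi.single_eq_of_ne hij _
  rw [h, Submodule.mem_bot] at h1
  have h2 := congrFun h1 j
  rw [Pi.single_eq_same] at h2
  exact one_ne_zero h2

theorem cSub_ne_top {K : Type*} [Field K] {r : ℕ} {I : Finset (Fin r)} (hI : I ≠ Finset.univ) :
    cSub K I ≠ ⊤ := by
  obtain ⟨j, hj⟩ : ∃ j, j ∉ I := by
    by_contra h
    push Not at h
    exact hI (Finset.eq_univ_iff_forall.2 h)
  intro h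
  have h1 : (Pi.single j 1 : Fin r → K) ∈ cSub K I := by
    rw [h]
    trivial
  have h2 := h1 j hj
  rw [Pi.single_eq_same] at h2
  exact one_ne_zero h2

/-- CASE 2 of (A4): a family of matrices of the form (diagonal, `U⁻¹`, `L⁻¹`, ...) that preserve a
coordinate subspace has an invariant subspace. -/
theorem no_coord_stable {K : Type*} [Field K] {r : ℕ} {ι : Type*} (c : ι → Mat r K)
    (hirr : ∀ W : Submodule K (Fin r → K), (∀ j, ∀ w ∈ W, c j *ᵥ w ∈ W) → W = ⊥ ∨ W = ⊤)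
    (I : Finset (Fin r)) (hI : I.Nonempty) (hI' : I ≠ Finset.univ) :
    ∃ j, ∃ a, a ∉ I ∧ ∃ b ∈ I, c j a b ≠ 0 := by
  by_contra hcon
  push Not at hcon
  rcases hirr (cSub K I) (fun j w hw => mulVec_mem_cSub (fun a ha b hb => hcon j a ha b hb) hw)
    with h | h
  · exact cSub_ne_bot hI h
  · exact cSub_ne_top hI' h

end Vale.Agent.P002R
end

section

/-!
# Curve groups with free punctures and prescribed classes: elimination of one free generator
-/

namespace Vale.Agent.P002R.Orb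

open Matrix NumberField

/-! ### One curve -/

section curve

variable {g n : ℕ} {P : Fin n → Prop} {o : Option (Fin n)}

/-- The free generators: the handles and the free punctures other than `o`. -/
abbrev KO (g : ℕ) {n : ℕ} (P : Fin n → Prop) (o : Option (Fin n)) :=
  (Fin g × Bool) ⊕ {j : Fin n // ¬ P j ∧ o ≠ some j}

/-- The generators with prescribed classes. -/
abbrev IO {n : ℕ} (P : Fin n → Prop) := {j : Fin n // P j}

open Classical in
/-- The generator of a puncture. -/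
noncomputable def gO (g : ℕ) {n : ℕ} (P : Fin n → Prop) (o : Option (Fin n)) (j : Fin n) :
    FreeGroup (KO g P o ⊕ IO P) :=
  if h : P j then FreeGroup.of (Sum.inr ⟨j, h⟩) else
    if h' : o ≠ some j then FreeGroup.of (Sum.inl (Sum.inr ⟨j, h, h'⟩)) else 1

/-- The product of the commutators. -/
def hO (g : ℕ) {n : ℕ} (P : Fin n → Prop) (o : Option (Fin n)) : FreeGroup (KO g P o ⊕ IO P) :=
  (List.ofFn fun l : Fin g => (FreeGroup.of (Sum.inl (Sum.inl (l, false))) *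
    FreeGroup.of (Sum.inl (Sum.inl (l, true))) *
    (FreeGroup.of (Sum.inl (Sum.inl (l, false))))⁻¹ *
    (FreeGroup.of (Sum.inl (Sum.inl (l, true))))⁻¹ : FreeGroup (KO g P o ⊕ IO P))).prod

/-- The surface word. -/
noncomputable def tO (g : ℕ) {n : ℕ} (P : Fin n → Prop) (o : Option (Fin n)) :
    FreeGroup (KO g P o ⊕ IO P) :=
  hO g P o * (List.ofFn fun j => gO g P o j).prod

/-- The relator, if there is no free puncture. -/
def RelO (g : ℕ) {n : ℕ} (P : Fin n → Prop) (o : Option (Fin n)) :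
    Set (FreeGroup (KO g P o ⊕ IO P)) := {w | o = none ∧ w = tO g P o}

open Classical in
/-- The generators as words. -/
noncomputable def wO (g : ℕ) {n : ℕ} (P : Fin n → Prop) (o : Option (Fin n)) :
    (Fin g × Bool) ⊕ Fin n → FreeGroup (KO g P o ⊕ IO P)
  | Sum.inl p => FreeGroup.of (Sum.inl (Sum.inl p))
  | Sum.inr j => if o = some j then
      ((List.ofFn fun j => gO g P o j).take j).prod⁻¹ * (hO g P o)⁻¹ *
        ((List.ofFn fun j => gO g P o j).drop (j + 1)).prod⁻¹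
      else gO g P o j

/-- The generators are a part of the given generators. -/
def bO (g : ℕ) {n : ℕ} (P : Fin n → Prop) (o : Option (Fin n)) :
    KO g P o ⊕ IO P → (Fin g × Bool) ⊕ Fin n
  | Sum.inl (Sum.inl p) => Sum.inl p
  | Sum.inl (Sum.inr j) => Sum.inr j.1
  | Sum.inr j => Sum.inr j.1

/-- The surface relation. -/
def SRel {H : Type*} [Group H] (c : (Fin g × Bool) ⊕ Fin n → H) : Prop :=
  (List.ofFn fun l : Fin g => c (Sum.inl (l, false)) * c (Sum.inl (l, true)) *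
    (c (Sum.inl (l, false)))⁻¹ * (c (Sum.inl (l, true)))⁻¹).prod *
      (List.ofFn fun j : Fin n => c (Sum.inr j)).prod = 1

theorem prod_split {H : Type*} [Group H] (c c' : Fin n → H) (j₀ : Fin n)
    (h : ∀ j, j ≠ j₀ → c j = c' j) : (List.ofFn c).prod =
      ((List.ofFn c').take j₀).prod * (c j₀ * ((List.ofFn c').drop (j₀ + 1)).prod) := by
  have h1 : (List.ofFn c').take j₀ = (List.ofFn c).take j₀ := by
    apply List.ext_getElem
    · simp
    · intro i hi hi'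
      simp only [List.getElem_take, List.getElem_ofFn]
      refine (h _ fun h0 => ?_).symm
      have h2 := congrArg Fin.val h0
      simp only [List.length_take, List.length_ofFn] at hi h2
      omega
  have h2 : (List.ofFn c').drop (j₀ + 1) = (List.ofFn c).drop (j₀ + 1) := by
    apply List.ext_getElem
    · simp
    · intro i hi hi'
      simp only [List.getElem_drop, List.getElem_ofFn]
      refine (h _ fun h0 => ?_).symm
      have h2 := congrArg Fin.val h0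
      simp only at h2
      omega
  rw [h1, h2]
  have h3 : (j₀ : ℕ) < (List.ofFn c).length := by
    rw [List.length_ofFn]
    exact j₀.2
  have h4 := List.take_append_drop (j₀ : ℕ) (List.ofFn c)
  rw [List.drop_eq_getElem_cons h3] at h4
  have h5 := congrArg List.prod h4
  rw [List.prod_append, List.prod_cons, List.getElem_ofFn] at h5
  exact h5.symm

theorem map_hO {H : Type*} [Group H] (y : FreeGroup (KO g P o ⊕ IO P) →* H) :
    y (hO g P o) = (List.ofFn fun l : Fin g => y (wO g P o (Sum.inl (l, false))) *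
      y (wO g P o (Sum.inl (l, true))) * (y (wO g P o (Sum.inl (l, false))))⁻¹ *
        (y (wO g P o (Sum.inl (l, true))))⁻¹).prod := by
  unfold hO wO
  rw [map_list_prod, List.map_ofFn]
  congr 2
  funext l
  simp only [Function.comp, map_mul, map_inv]

theorem wO_inr_of_ne {j : Fin n} (h : o ≠ some j) : wO g P o (Sum.inr j) = gO g P o j := by
  simp only [wO]
  rw [if_neg h]

theorem wO_inr_self (j : Fin n) : wO g P (some j) (Sum.inr j) =
    ((List.ofFn fun j' => gO g P (some j) j').take j).prod⁻¹ * (hO g P (some j))⁻¹ *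
      ((List.ofFn fun j' => gO g P (some j) j').drop (j + 1)).prod⁻¹ := by
  simp only [wO, if_true]

/-- The words satisfy the surface relation. -/
theorem srel_word {H : Type*} [Group H] (y : FreeGroup (KO g P o ⊕ IO P) →* H)
    (hy : ∀ w ∈ RelO g P o, y w = 1) : SRel fun p => y (wO g P o p) := by
  unfold SRel
  rw [← map_hO]
  rcases o with _ | j₀
  · have h1 := hy _ ⟨rfl, rfl⟩
    rw [tO, map_mul, map_list_prod, List.map_ofFn] at h1
    have h2 : (fun j : Fin n => y (wO g P none (Sum.inr j))) = y ∘ fun j => gO g P none j := by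
      funext j
      rw [wO_inr_of_ne (by simp)]
      rfl
    rw [h2]
    exact h1
  · rw [prod_split _ (y ∘ fun j => gO g P (some j₀) j) j₀ fun j hj => by
      simp only [Function.comp]
      rw [wO_inr_of_ne fun h => hj (Option.some.inj h).symm]]
    dsimp only
    rw [wO_inr_self, ← List.map_ofFn, ← List.map_take, ← List.map_drop, ← map_list_prod, ← map_list_prod,
      ← map_mul, ← map_mul, ← map_mul]
    have h3 : hO g P (some j₀) * (((List.ofFn fun j => gO g P (some j₀) j).take j₀).prod *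
        (((List.ofFn fun j => gO g P (some j₀) j).take j₀).prod⁻¹ * (hO g P (some j₀))⁻¹ *
        ((List.ofFn fun j => gO g P (some j₀) j).drop (j₀ + 1)).prod⁻¹ *
        ((List.ofFn fun j => gO g P (some j₀) j).drop (j₀ + 1)).prod)) = 1 := by
      group
    rw [h3, map_one]

/-- The given tuple in terms of words. -/
theorem gO_comp {H : Type*} [Group H] (c : (Fin g × Bool) ⊕ Fin n → H)
    (y : FreeGroup (KO g P o ⊕ IO P) →* H) (hy : ∀ p, y (FreeGroup.of p) = c (bO g P o p))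
    {j : Fin n} (h : o ≠ some j) : y (gO g P o j) = c (Sum.inr j) := by
  unfold gO
  split_ifs with h1
  · rw [hy]; rfl
  · rw [hy]; rfl

theorem word_comp {H : Type*} [Group H] (c : (Fin g × Bool) ⊕ Fin n → H) (hc : SRel c)
    (y : FreeGroup (KO g P o ⊕ IO P) →* H) (hy : ∀ p, y (FreeGroup.of p) = c (bO g P o p)) :
    (∀ w ∈ RelO g P o, y w = 1) ∧ ∀ p, y (wO g P o p) = c p := by
  have hh : y (hO g P o) = (List.ofFn fun l : Fin g => c (Sum.inl (l, false)) *
      c (Sum.inl (l, true)) * (c (Sum.inl (l, false)))⁻¹ * (c (Sum.inl (l, true)))⁻¹).prod := by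
    rw [map_hO]
    simp only [wO, hy]
    rfl
  unfold SRel at hc
  rw [← hh] at hc
  constructor
  · rintro w ⟨rfl, rfl⟩
    rw [tO, map_mul, map_list_prod, List.map_ofFn]
    have h2 : (y ∘ fun j => gO g P none j) = fun j : Fin n => c (Sum.inr j) := by
      funext j
      exact gO_comp c y hy (by simp)
    rw [h2]
    exact hc
  · rintro (p | j)
    · exact hy _
    · by_cases h : o = some j
      · subst h
        rw [prod_split _ (y ∘ fun j' => gO g P (some j) j') j fun j' hj' => by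
          simp only [Function.comp]
          rw [gO_comp c y hy fun h => hj' (Option.some.inj h).symm]] at hc
        rw [← List.map_ofFn, ← List.map_take, ← List.map_drop, ← map_list_prod,
          ← map_list_prod] at hc
        rw [wO_inr_self, map_mul, map_mul, map_inv, map_inv, map_inv]
        have h3 : ∀ a b d e : H, a * (b * (d * e)) = 1 → b⁻¹ * a⁻¹ * e⁻¹ = d := by
          intro a b d e h
          have : a = (b * (d * e))⁻¹ := eq_inv_of_mul_eq_one_left h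
          rw [this]
          group
        exact h3 _ _ _ _ hc
      · rw [wO_inr_of_ne h]
        exact gO_comp c y hy h

theorem wO_bO (ho : ∀ j, o = some j → ¬ P j) (p : KO g P o ⊕ IO P) :
    wO g P o (bO g P o p) = FreeGroup.of p := by
  rcases p with (p | j) | j
  · rfl
  · simp only [bO]
    rw [wO_inr_of_ne j.2.2, gO, dif_neg j.2.1, dif_pos j.2.2]
  · simp only [bO]
    rw [wO_inr_of_ne fun h => ho _ h j.2, gO, dif_pos j.2]

theorem RelO_charOK (hn : o = none → ∀ j, P j) : CharOK (RelO g P o) := by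
  rintro w ⟨ho, rfl⟩ A _ χ hχ
  rw [tO, map_mul, map_hO]
  have h1 : χ (List.ofFn fun j => gO g P o j).prod = 1 := by
    rw [map_list_prod, List.map_ofFn]
    have : (χ ∘ fun j => gO g P o j) = fun _ : Fin n => (1 : A) := by
      funext j
      simp only [Function.comp, gO]
      rw [dif_pos (hn ho j)]
      exact hχ _
    rw [this]
    simp
  rw [h1, mul_one]
  simp

end curve

end Vale.Agent.P002R.Orb
end
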