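import Mathlib
import Vale.Agent.P002.Bdl.B2
import Vale.Agent.P002.Bdl.B1

set_option linter.all false

section

/-!
# Basic lemmas for the relative framework
-/

namespace Vale.Agent.P002R

open Matrix

variable {κ : Type*} {r : ℕ} {S T : Type*} [CommRing S] [CommRing T]

theorem evalW_comp [Algebra ℂ S] (x : FreeGroup κ →* (Mat r S)ˣ) (φ : FreeGroup κ →* FreeGroup κ)
    (f : MvPolynomial (FreeGroup κ × Fin r × Fin r) ℂ) :
    evalW (x.comp φ) f = evalW x (MvPolynomial.rename (fun p => (φ p.1, p.2)) f) := by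
  simp only [evalW, MvPolynomial.aeval_rename]
  rfl

theorem InZ.comp' [Algebra ℂ S] {D : Set (FreeGroup κ →* (Mat r ℂ)ˣ)} {x : FreeGroup κ →* (Mat r S)ˣ}
    (hx : InZ D x) (φ : FreeGroup κ →* FreeGroup κ) (hφ : ∀ y ∈ D, y.comp φ ∈ D) :
    InZ D (x.comp φ) := by
  intro f hf
  rw [evalW_comp]
  apply hx
  intro y hy
  rw [← evalW_comp]
  exact hf _ (hφ y hy)

theorem InZ.of_mem {D : Set (FreeGroup κ →* (Mat r ℂ)ˣ)} {x : FreeGroup κ →* (Mat r ℂ)ˣ}
    (hx : x ∈ D) : InZ D x := fun _ hf => hf x hx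

theorem InZ.word_eq [Algebra ℂ S] {D : Set (FreeGroup κ →* (Mat r ℂ)ˣ)} (w : FreeGroup κ)
    (M : Mat r ℂ) (hD : ∀ y ∈ D, (y w : Mat r ℂ) = M)
    {x : FreeGroup κ →* (Mat r S)ˣ} (hx : InZ D x) :
    (x w : Mat r S) = M.map (algebraMap ℂ S) := by
  ext i j
  have := hx (MvPolynomial.X (w, i, j) - MvPolynomial.C (M i j)) ?_
  · simp only [evalW, map_sub, MvPolynomial.aeval_X, MvPolynomial.aeval_C, sub_eq_zero] at this
    rw [this, Matrix.map_apply]
  · intro y hy
    simp only [evalW, map_sub, MvPolynomial.aeval_X, MvPolynomial.aeval_C, sub_eq_zero, hD y hy]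
    rfl

theorem InZ.rel [Algebra ℂ S] {D : Set (FreeGroup κ →* (Mat r ℂ)ˣ)} {w : FreeGroup κ}
    (hD : ∀ y ∈ D, y w = 1) {x : FreeGroup κ →* (Mat r S)ˣ} (hx : InZ D x) : x w = 1 := by
  ext1
  rw [hx.word_eq w 1 (fun y hy => by rw [hD y hy]; rfl)]
  rw [Matrix.map_one _ (map_zero _) (map_one _)]
  rfl

theorem baseChange_apply (θ : S →+* T) (x : FreeGroup κ →* (Mat r S)ˣ) (w : FreeGroup κ) :
    (baseChange θ x w : Mat r T) = (x w : Mat r S).map θ := rfl

theorem baseChange_inv_apply (θ : S →+* T) (x : FreeGroup κ →* (Mat r S)ˣ) (w : FreeGroup κ) :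
    (((baseChange θ x w)⁻¹ : (Mat r T)ˣ) : Mat r T) =
      (((x w)⁻¹ : (Mat r S)ˣ) : Mat r S).map θ := rfl

theorem evalW_baseChange [Algebra ℂ S] [Algebra ℂ T] (θ : S →ₐ[ℂ] T)
    (x : FreeGroup κ →* (Mat r S)ˣ) (f : MvPolynomial (FreeGroup κ × Fin r × Fin r) ℂ) :
    evalW (baseChange (θ : S →+* T) x) f = θ (evalW x f) := by
  have : (evalW (baseChange (θ : S →+* T) x)) = θ.comp (evalW x) := by
    apply MvPolynomial.algHom_ext
    intro p
    simp [evalW, baseChange_apply]
  rw [this]; rfl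

theorem flow_of [DecidableEq κ] (x : FreeGroup κ →* (Mat r S)ˣ) (k : κ) (z : (Mat r S)ˣ) (l : κ) :
    flow x k z (FreeGroup.of l) =
      if l = k then x (FreeGroup.of k) * z else x (FreeGroup.of l) := by
  simp [flow]

/-- The endomorphism `k ↦ k * l ^ n`. -/
def twist [DecidableEq κ] (k l : κ) (n : ℤ) : FreeGroup κ →* FreeGroup κ :=
  FreeGroup.lift fun i => if i = k then FreeGroup.of k * FreeGroup.of l ^ n else FreeGroup.of i

theorem twist_of [DecidableEq κ] (k l : κ) (n : ℤ) (i : κ) :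
    twist k l n (FreeGroup.of i) =
      if i = k then FreeGroup.of k * FreeGroup.of l ^ n else FreeGroup.of i := by
  simp [twist]

theorem twist_comp [DecidableEq κ] {k l : κ} (hkl : k ≠ l) (n : ℤ) :
    (twist k l n).comp (twist k l (-n)) = MonoidHom.id _ := by
  apply FreeGroup.ext_hom
  intro i
  by_cases hi : i = k
  · subst hi
    simp only [MonoidHom.comp_apply, twist_of, if_true, map_mul, map_zpow, hkl.symm, if_false,
      MonoidHom.id_apply]
    group
  · simp [twist_of, hi]

/-- The automorphism `k ↦ k * l ^ n`. -/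
def dehn [DecidableEq κ] {k l : κ} (hkl : k ≠ l) (n : ℤ) : FreeGroup κ ≃* FreeGroup κ :=
  MonoidHom.toMulEquiv (twist k l n) (twist k l (-n))
    (by simpa using twist_comp hkl (-n)) (twist_comp hkl n)

theorem flow_pow [DecidableEq κ] (x : FreeGroup κ →* (Mat r S)ˣ) (k l : κ) (n : ℤ) :
    flow x k (x (FreeGroup.of l) ^ n) = x.comp (twist k l n) := by
  apply FreeGroup.ext_hom
  intro i
  rw [flow_of, MonoidHom.comp_apply, twist_of]
  split_ifs <;> simp

theorem baseChange_flow [DecidableEq κ] (θ : S →+* T) (x : FreeGroup κ →* (Mat r S)ˣ) (k : κ)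
    (z : (Mat r S)ˣ) :
    baseChange θ (flow x k z) =
      flow (baseChange θ x) k (Units.map (RingHom.mapMatrix θ).toMonoidHom z) := by
  apply FreeGroup.ext_hom
  intro i
  rw [flow_of]
  show (Units.map (RingHom.mapMatrix θ).toMonoidHom) (flow x k z (FreeGroup.of i)) = _
  rw [flow_of]
  split_ifs
  · rw [map_mul]; rfl
  · rfl

theorem baseChange_comp (θ : S →+* T) (x : FreeGroup κ →* (Mat r S)ˣ)
    (φ : FreeGroup κ →* FreeGroup κ) :
    (baseChange θ x).comp φ = baseChange θ (x.comp φ) := rfl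

end Vale.Agent.P002R
end

section

/-!
# Application of the arc lemma to representations
-/

namespace Vale.Agent.P002R

open Matrix

variable {κ : Type*} {r : ℕ} {S : Type*} [CommRing S]

section words

/-- The generic matrix of a generator (`b = false`) or of its inverse (`b = true`). -/
noncomputable def gpoly (r : ℕ) (k : κ) (b : Bool) :
    Mat r (MvPolynomial (κ × Bool × Fin r × Fin r) ℂ) :=
  Matrix.of fun i j => MvPolynomial.X (k, b, i, j)

/-- The generic matrix of a word. -/
noncomputable def wpoly (r : ℕ) [DecidableEq κ] (w : FreeGroup κ) :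
    Mat r (MvPolynomial (κ × Bool × Fin r × Fin r) ℂ) :=
  (w.toWord.map fun l => gpoly r l.1 (!l.2)).prod

theorem evalP_gpoly [Algebra ℂ S] (X : κ → (Mat r S)ˣ) (k : κ) (b : Bool) :
    (gpoly r k b).map (evalP X) =
      if b then (((X k)⁻¹ : (Mat r S)ˣ) : Mat r S) else (X k : Mat r S) := by
  ext i j
  rw [Matrix.map_apply, gpoly, Matrix.of_apply, evalP, MvPolynomial.aeval_X]
  cases b <;> simp

theorem evalP_wpoly [DecidableEq κ] [Algebra ℂ S] (X : κ → (Mat r S)ˣ) (w : FreeGroup κ) :
    (wpoly r w).map (evalP X) = (FreeGroup.lift X w : Mat r S) := by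
  have h : ∀ L : List (κ × Bool), ((L.map fun l => gpoly r l.1 (!l.2)).prod).map (evalP X) =
      ((FreeGroup.lift X (FreeGroup.mk L) : (Mat r S)ˣ) : Mat r S) := by
    intro L
    induction L with
    | nil =>
      rw [List.map_nil, List.prod_nil, FreeGroup.lift_mk, List.map_nil, List.prod_nil,
        Units.val_one]
      exact Matrix.map_one _ (map_zero _) (map_one _)
    | cons l L ih =>
      rw [List.map_cons, List.prod_cons, FreeGroup.lift_mk, List.map_cons, List.prod_cons,
        Units.val_mul, Matrix.map_mul, ih, evalP_gpoly, FreeGroup.lift_mk]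
      obtain ⟨k, b⟩ := l
      cases b <;> simp
  have h2 := h w.toWord
  rw [FreeGroup.mk_toWord] at h2
  exact h2

/-- A polynomial in the entries of all words as a polynomial in the entries of the generators
and of their inverses. -/
noncomputable def toP [DecidableEq κ] :
    MvPolynomial (FreeGroup κ × Fin r × Fin r) ℂ →ₐ[ℂ]
      MvPolynomial (κ × Bool × Fin r × Fin r) ℂ :=
  MvPolynomial.aeval fun p => wpoly r p.1 p.2.1 p.2.2

theorem evalP_toP [DecidableEq κ] [Algebra ℂ S] (X : κ → (Mat r S)ˣ)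
    (f : MvPolynomial (FreeGroup κ × Fin r × Fin r) ℂ) :
    evalP X (toP f) = evalW (FreeGroup.lift X) f := by
  have : (evalP X).comp toP = evalW (FreeGroup.lift X) := by
    apply MvPolynomial.algHom_ext
    intro p
    rw [AlgHom.comp_apply, toP, MvPolynomial.aeval_X, evalW, MvPolynomial.aeval_X]
    have := congrFun (congrFun (evalP_wpoly X p.1) p.2.1) p.2.2
    rwa [Matrix.map_apply] at this
  rw [← this]; rfl

theorem lift_of (x : FreeGroup κ →* (Mat r S)ˣ) :
    FreeGroup.lift (fun k => x (FreeGroup.of k)) = x := by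
  apply FreeGroup.ext_hom
  intro k
  simp

end words

section der

theorem IsDer.one {x : FreeGroup κ →* (Mat r ℂ)ˣ} {E : FreeGroup κ → Mat r ℂ} (hE : IsDer x E) :
    E 1 = 0 := by
  have h := hE 1 1
  rw [mul_one, map_one, Units.val_one, Matrix.mul_one, Matrix.one_mul] at h
  exact (add_eq_left.1 h.symm)

theorem IsDer.inv {x : FreeGroup κ →* (Mat r ℂ)ˣ} {E : FreeGroup κ → Mat r ℂ} (hE : IsDer x E)
    (w : FreeGroup κ) : E w⁻¹ = -((((x w)⁻¹ : (Mat r ℂ)ˣ) : Mat r ℂ) * E w *
      (((x w)⁻¹ : (Mat r ℂ)ˣ) : Mat r ℂ)) := by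
  have h := hE w⁻¹ w
  rw [inv_mul_cancel, hE.one, map_inv] at h
  have h1 : E w⁻¹ * (x w : Mat r ℂ) = -((((x w)⁻¹ : (Mat r ℂ)ˣ) : Mat r ℂ) * E w) :=
    eq_neg_of_add_eq_zero_left h.symm
  rw [← Matrix.neg_mul, ← h1, Matrix.mul_assoc, ← Units.val_mul, mul_inv_cancel, Units.val_one,
    Matrix.mul_one]

/-- Two derivations which agree on the generators agree. -/
theorem IsDer.ext {x : FreeGroup κ →* (Mat r ℂ)ˣ} {E E' : FreeGroup κ → Mat r ℂ}
    (hE : IsDer x E) (hE' : IsDer x E') (h : ∀ k, E (FreeGroup.of k) = E' (FreeGroup.of k)) :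
    E = E' := by
  funext w
  induction w using FreeGroup.induction_on with
  | C1 => rw [hE.one, hE'.one]
  | of k => exact h k
  | inv_of k hk => rw [hE.inv, hE'.inv, hk]
  | mul a b ha hb => rw [hE, hE', ha, hb]

/-- Derivation `E` composed with an endomorphism. -/
theorem IsDer.comp {x : FreeGroup κ →* (Mat r ℂ)ˣ} {E : FreeGroup κ → Mat r ℂ} (hE : IsDer x E)
    (φ : FreeGroup κ →* FreeGroup κ) : IsDer (x.comp φ) (fun w => E (φ w)) := by
  intro w w'
  simp only [map_mul, MonoidHom.comp_apply]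
  exact hE _ _

theorem IsDer.add {x : FreeGroup κ →* (Mat r ℂ)ˣ} {E E' : FreeGroup κ → Mat r ℂ}
    (hE : IsDer x E) (hE' : IsDer x E') : IsDer x (fun w => E w + E' w) := by
  intro w w'
  simp only [hE w w', hE' w w', Matrix.add_mul, Matrix.mul_add]
  abel

theorem IsDer.smul {x : FreeGroup κ →* (Mat r ℂ)ˣ} {E : FreeGroup κ → Mat r ℂ}
    (hE : IsDer x E) (c : ℂ) : IsDer x (fun w => c • E w) := by
  intro w w'
  simp only [hE w w', Matrix.smul_mul, Matrix.mul_smul, smul_add]

/-- Linear part of a representation over power series. -/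
noncomputable def der1 (x : FreeGroup κ →* (Mat r (PowerSeries ℂ))ˣ) (w : FreeGroup κ) :
    Mat r ℂ := (x w : Mat r (PowerSeries ℂ)).map (PowerSeries.coeff 1)

/-- Constant part of a representation over power series. -/
noncomputable def rep0 (x : FreeGroup κ →* (Mat r (PowerSeries ℂ))ˣ) :
    FreeGroup κ →* (Mat r ℂ)ˣ := baseChange PowerSeries.constantCoeff x

theorem map_coeff_one_mul (M N : Mat r (PowerSeries ℂ)) :
    (M * N).map (PowerSeries.coeff 1) =
      M.map (PowerSeries.coeff 1) * N.map PowerSeries.constantCoeff +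
      M.map PowerSeries.constantCoeff * N.map (PowerSeries.coeff 1) := by
  ext i j
  simp only [Matrix.map_apply, Matrix.mul_apply, Matrix.add_apply, map_sum,
    PowerSeries.coeff_one_mul, ← Finset.sum_add_distrib]
  refine Finset.sum_congr rfl fun k _ => ?_
  ring

theorem isDer_der1 (x : FreeGroup κ →* (Mat r (PowerSeries ℂ))ˣ) : IsDer (rep0 x) (der1 x) := by
  intro w w'
  rw [der1, map_mul, Units.val_mul, map_coeff_one_mul]
  rfl

end der

/-- `C p + X u` as a matrix of power series. -/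
noncomputable def lin1 (P U : Mat r ℂ) : Mat r (PowerSeries ℂ) :=
  P.map (PowerSeries.C (R := ℂ)) + (PowerSeries.X : PowerSeries ℂ) • U.map (PowerSeries.C (R := ℂ))

theorem lin1_const (P U : Mat r ℂ) : (lin1 P U).map PowerSeries.constantCoeff = P := by
  ext i j
  simp [lin1]

theorem lin1_one (P U : Mat r ℂ) : (lin1 P U).map (PowerSeries.coeff 1) = U := by
  ext i j
  simp [lin1]

theorem isUnit_of_const (M : Mat r (PowerSeries ℂ))
    (h : IsUnit (M.map PowerSeries.constantCoeff)) : IsUnit M := by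
  rw [Matrix.isUnit_iff_isUnit_det] at h ⊢
  rw [PowerSeries.isUnit_iff_constantCoeff]
  have : (M.map PowerSeries.constantCoeff).det = PowerSeries.constantCoeff M.det :=
    (RingHom.map_det _ M).symm
  rwa [this] at h

/-- The coordinates of a tuple of invertible matrices. -/
noncomputable def coo (X : κ → (Mat r S)ˣ) (p : κ × Bool × Fin r × Fin r) : S :=
  if p.2.1 then (((X p.1)⁻¹ : (Mat r S)ˣ) : Mat r S) p.2.2.1 p.2.2.2
    else (X p.1 : Mat r S) p.2.2.1 p.2.2.2

theorem evalP_eq_aeval [Algebra ℂ S] (X : κ → (Mat r S)ˣ) :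
    evalP X = MvPolynomial.aeval (coo X) := rfl

theorem aeval_eq {σ : Type*} (p : σ → ℂ) (h : MvPolynomial σ ℂ) :
    MvPolynomial.aeval p h = MvPolynomial.eval p h := by
  rw [MvPolynomial.aeval_def, Algebra.algebraMap_self]
  rfl

/-- The equations of the representation variety. -/
noncomputable def eqns [DecidableEq κ] {ι : Type*} (W : ι → FreeGroup κ) (M : ι → Mat r ℂ) :
    (κ × Fin r × Fin r) ⊕ (ι × Fin r × Fin r) → MvPolynomial (κ × Bool × Fin r × Fin r) ℂ
  | Sum.inl q => (gpoly r q.1 false * gpoly r q.1 true) q.2.1 q.2.2 -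
      MvPolynomial.C ((1 : Mat r ℂ) q.2.1 q.2.2)
  | Sum.inr q => wpoly r (W q.1) q.2.1 q.2.2 - MvPolynomial.C (M q.1 q.2.1 q.2.2)

theorem evalP_eqns [DecidableEq κ] [Algebra ℂ S] {ι : Type*} (W : ι → FreeGroup κ)
    (M : ι → Mat r ℂ) (X : κ → (Mat r S)ˣ)
    (hX : ∀ i, (FreeGroup.lift X (W i) : Mat r S) = (M i).map (algebraMap ℂ S)) (q) :
    evalP X (eqns W M q) = 0 := by
  rcases q with q | q
  · have h1 : evalP X ((gpoly r q.1 false * gpoly r q.1 true) q.2.1 q.2.2) =
        (1 : Mat r S) q.2.1 q.2.2 := by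
      have h2 : (gpoly r q.1 false * gpoly r q.1 true).map (evalP X) = (1 : Mat r S) := by
        rw [Matrix.map_mul, evalP_gpoly, evalP_gpoly]
        simp only [Bool.false_eq_true, if_false, if_true]
        rw [← Units.val_mul, mul_inv_cancel, Units.val_one]
      rw [← h2, Matrix.map_apply]
    rw [eqns, map_sub, h1, evalP, MvPolynomial.aeval_C]
    by_cases h : q.2.1 = q.2.2
    · rw [h, Matrix.one_apply_eq, Matrix.one_apply_eq, map_one, sub_self]
    · rw [Matrix.one_apply_ne h, Matrix.one_apply_ne h, map_zero, sub_self]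
  · have h1 : evalP X (wpoly r (W q.1) q.2.1 q.2.2) =
        algebraMap ℂ S (M q.1 q.2.1 q.2.2) := by
      have h2 := evalP_wpoly X (W q.1)
      rw [hX] at h2
      have h3 := congrFun (congrFun h2 q.2.1) q.2.2
      rwa [Matrix.map_apply, Matrix.map_apply] at h3
    rw [eqns, map_sub, h1, evalP, MvPolynomial.aeval_C, sub_self]

/-- Application of the arc lemma. -/
theorem arc_application [Fintype κ] [DecidableEq κ] {ι : Type*} [Finite ι]
    (W : ι → FreeGroup κ) (M : ι → Mat r ℂ) (D : Set (FreeGroup κ →* (Mat r ℂ)ˣ))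
    (hD : ∀ y ∈ D, ∀ i, (y (W i) : Mat r ℂ) = M i) (ρ : FreeGroup κ →* (Mat r ℂ)ˣ)
    (hρ : ∀ i, (ρ (W i) : Mat r ℂ) = M i)
    (hreal : ∀ E : FreeGroup κ → Mat r ℂ, IsDer ρ E → (∀ i, E (W i) = 0) →
      ∃ x : FreeGroup κ →* (Mat r (PowerSeries ℂ))ˣ, InZ D x ∧ rep0 x = ρ ∧
        ∀ k, der1 x (FreeGroup.of k) = E (FreeGroup.of k))
    (f : MvPolynomial (FreeGroup κ × Fin r × Fin r) ℂ) (hf : ∀ y ∈ D, evalW y f = 0) :
    ∃ h : MvPolynomial (κ × Bool × Fin r × Fin r) ℂ,
      evalP (fun k => ρ (FreeGroup.of k)) h ≠ 0 ∧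
      ∀ X : κ → (Mat r ℂ)ˣ, (∀ i, (FreeGroup.lift X (W i) : Mat r ℂ) = M i) →
        evalP X h * evalW (FreeGroup.lift X) f = 0 := by
  obtain ⟨P, hP⟩ : ∃ P : κ → (Mat r ℂ)ˣ, P = fun k => ρ (FreeGroup.of k) := ⟨_, rfl⟩
  have hPρ : FreeGroup.lift P = ρ := by rw [hP]; exact lift_of ρ
  have hPk : ∀ k, ρ (FreeGroup.of k) = P k := fun k => by rw [hP]
  -- jets of coordinates
  have h0 : ∀ x : FreeGroup κ →* (Mat r (PowerSeries ℂ))ˣ, rep0 x = ρ →
      ∀ v, PowerSeries.coeff 0 (coo (fun k => x (FreeGroup.of k)) v) = coo P v := by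
    rintro x hx ⟨k, b, i, j⟩
    have h1 : (rep0 x (FreeGroup.of k)) = P k := by rw [hx, hPk]
    cases b
    · have h2 := congrArg (fun U : (Mat r ℂ)ˣ => (U : Mat r ℂ) i j) h1
      simpa [coo, rep0, baseChange_apply] using h2
    · have h2 := congrArg (fun U : (Mat r ℂ)ˣ => ((U⁻¹ : (Mat r ℂ)ˣ) : Mat r ℂ) i j) h1
      simp only [rep0, baseChange_inv_apply] at h2
      simpa [coo] using h2
  have h1 : ∀ x : FreeGroup κ →* (Mat r (PowerSeries ℂ))ˣ, rep0 x = ρ →
      ∀ u : κ × Bool × Fin r × Fin r → ℂ,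
      (∀ k, der1 x (FreeGroup.of k) = Matrix.of fun i j => u (k, false, i, j)) →
      (∀ k, (P k : Mat r ℂ) * (Matrix.of fun i j => u (k, true, i, j)) +
        (Matrix.of fun i j => u (k, false, i, j)) * (((P k)⁻¹ : (Mat r ℂ)ˣ) : Mat r ℂ) = 0) →
      ∀ v, PowerSeries.coeff 1 (coo (fun k => x (FreeGroup.of k)) v) = u v := by
    rintro x hx u hu1 hu2 ⟨k, b, i, j⟩
    cases b
    · have h2 := congrFun (congrFun (hu1 k) i) j
      simpa [coo, der1] using h2
    · have h3 : der1 x (FreeGroup.of k)⁻¹ = Matrix.of fun i j => u (k, true, i, j) := by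
        have h4 : IsDer ρ (der1 x) := by rw [← hx]; exact isDer_der1 x
        rw [h4.inv, hu1, hPk]
        have h5 := hu2 k
        have h6 : (P k : Mat r ℂ) * (Matrix.of fun i j => u (k, true, i, j)) =
            -((Matrix.of fun i j => u (k, false, i, j)) *
              (((P k)⁻¹ : (Mat r ℂ)ˣ) : Mat r ℂ)) := eq_neg_of_add_eq_zero_left h5
        have h7 : (Matrix.of fun i j => u (k, true, i, j)) =
            (((P k)⁻¹ : (Mat r ℂ)ˣ) : Mat r ℂ) * ((P k : Mat r ℂ) *
              (Matrix.of fun i j => u (k, true, i, j))) := by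
          rw [← Matrix.mul_assoc, ← Units.val_mul, inv_mul_cancel, Units.val_one, Matrix.one_mul]
        rw [h7, h6, Matrix.mul_neg, Matrix.mul_assoc]
      have h8 := congrFun (congrFun h3 i) j
      rw [der1, map_inv, Matrix.map_apply, Matrix.of_apply] at h8
      simpa [coo] using h8
  have hpz : ∀ q, MvPolynomial.eval (coo P) (eqns W M q) = 0 := by
    intro q
    have := evalP_eqns W M P (fun i => by rw [hPρ, hρ]; ext i j; simp) q
    rwa [evalP_eq_aeval, aeval_eq] at this
  have harc : ∀ u : κ × Bool × Fin r × Fin r → ℂ,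
      (∀ q, ∑ v, MvPolynomial.eval (coo P) (MvPolynomial.pderiv v (eqns W M q)) * u v = 0) →
      ∃ c : κ × Bool × Fin r × Fin r → PowerSeries ℂ,
        (∀ v, PowerSeries.coeff 0 (c v) = coo P v) ∧ (∀ v, PowerSeries.coeff 1 (c v) = u v) ∧
        MvPolynomial.aeval c (toP f) = 0 ∧ ∀ q, MvPolynomial.aeval c (eqns W M q) = 0 := by
    intro u hu
    -- tangent vectors
    have hlin : ∀ q, PowerSeries.coeff 1 (MvPolynomial.aeval
        (fun v => (PowerSeries.C (R := ℂ) (coo P v) + PowerSeries.X * PowerSeries.C (R := ℂ) (u v)))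
          (eqns W M q)) = 0 := by
      intro q
      rw [P002.coeff_one_aeval]
      rw [← hu q]
      refine Finset.sum_congr rfl fun v _ => ?_
      have e0 : (fun i => PowerSeries.coeff 0 (PowerSeries.C (R := ℂ) (coo P i) +
          PowerSeries.X * PowerSeries.C (R := ℂ) (u i))) = coo P := by
        funext i; simp
      have e1 : PowerSeries.coeff 1 (PowerSeries.C (R := ℂ) (coo P v) +
          PowerSeries.X * PowerSeries.C (R := ℂ) (u v)) = u v := by
        simp
      rw [e0, e1]
    have htan : ∀ k, (P k : Mat r ℂ) * (Matrix.of fun i j => u (k, true, i, j)) +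
        (Matrix.of fun i j => u (k, false, i, j)) * (((P k)⁻¹ : (Mat r ℂ)ˣ) : Mat r ℂ) = 0 := by
      intro k
      have g1 : ∀ b, (gpoly r k b).map (MvPolynomial.aeval
          (fun v => (PowerSeries.C (R := ℂ) (coo P v) +
            PowerSeries.X * PowerSeries.C (R := ℂ) (u v)))) =
          lin1 (if b then (((P k)⁻¹ : (Mat r ℂ)ˣ) : Mat r ℂ) else (P k : Mat r ℂ))
            (Matrix.of fun i j => u (k, b, i, j)) := by
        intro b
        ext1 i j
        rw [Matrix.map_apply, gpoly, Matrix.of_apply, MvPolynomial.aeval_X]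
        cases b <;> simp [lin1, coo]
      have g2 := map_coeff_one_mul
        (lin1 (P k : Mat r ℂ) (Matrix.of fun i j => u (k, false, i, j)))
        (lin1 (((P k)⁻¹ : (Mat r ℂ)ˣ) : Mat r ℂ) (Matrix.of fun i j => u (k, true, i, j)))
      rw [lin1_one, lin1_one, lin1_const, lin1_const] at g2
      rw [add_comm, ← g2]
      ext i j
      have g3 := hlin (Sum.inl (k, i, j))
      rw [eqns, map_sub, map_sub, MvPolynomial.aeval_C] at g3
      have g4 : MvPolynomial.aeval (fun v => (PowerSeries.C (R := ℂ) (coo P v) +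
            PowerSeries.X * PowerSeries.C (R := ℂ) (u v)))
            ((gpoly r k false * gpoly r k true) i j) =
          (lin1 (P k : Mat r ℂ) (Matrix.of fun i j => u (k, false, i, j)) *
        lin1 (((P k)⁻¹ : (Mat r ℂ)ˣ) : Mat r ℂ) (Matrix.of fun i j => u (k, true, i, j))) i j := by
        have g5 := congrFun (congrFun (Matrix.map_mul (f := (MvPolynomial.aeval
          (fun v => (PowerSeries.C (R := ℂ) (coo P v) +
            PowerSeries.X * PowerSeries.C (R := ℂ) (u v))) :
            MvPolynomial (κ × Bool × Fin r × Fin r) ℂ →ₐ[ℂ] PowerSeries ℂ))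
            (L := gpoly r k false) (M := gpoly r k true)) i) j
        rw [g1, g1] at g5
        simp only [Bool.false_eq_true, if_false, if_true] at g5
        rw [← g5, Matrix.map_apply]
      rw [g4] at g3
      rw [Matrix.map_apply, Matrix.zero_apply]
      rw [← g3]
      have g6 : PowerSeries.coeff 1 (algebraMap ℂ (PowerSeries ℂ) ((1 : Mat r ℂ) i j)) = 0 := by
        rw [← PowerSeries.C_eq_algebraMap, PowerSeries.coeff_C]
        simp
      rw [g6, sub_zero]
    -- the linear family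
    have hY : ∀ k, ∃ y : (Mat r (PowerSeries ℂ))ˣ, (y : Mat r (PowerSeries ℂ)) =
        lin1 (P k : Mat r ℂ) (Matrix.of fun i j => u (k, false, i, j)) := by
      intro k
      have : IsUnit (lin1 (P k : Mat r ℂ) (Matrix.of fun i j => u (k, false, i, j))) := by
        apply isUnit_of_const
        rw [lin1_const]
        exact (P k).isUnit
      exact this
    choose Y hY using hY
    have hY0 : rep0 (FreeGroup.lift Y) = ρ := by
      rw [← hPρ]
      apply FreeGroup.ext_hom
      intro k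
      ext1
      rw [rep0, baseChange_apply, FreeGroup.lift_apply_of, FreeGroup.lift_apply_of, hY,
        lin1_const]
    have hY1 : ∀ k, der1 (FreeGroup.lift Y) (FreeGroup.of k) =
        Matrix.of fun i j => u (k, false, i, j) := by
      intro k
      rw [der1, FreeGroup.lift_apply_of, hY, lin1_one]
    have hYv := h1 _ hY0 u hY1 htan
    have hY0v := h0 _ hY0
    have hE : IsDer ρ (der1 (FreeGroup.lift Y)) := by rw [← hY0]; exact isDer_der1 _
    have hEW : ∀ a, der1 (FreeGroup.lift Y) (W a) = 0 := by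
      intro a
      ext i j
      have g3 := hu (Sum.inr (a, i, j))
      have g4 : PowerSeries.coeff 1 (evalP (fun k => (FreeGroup.lift Y) (FreeGroup.of k))
          (eqns W M (Sum.inr (a, i, j)))) = 0 := by
        rw [evalP_eq_aeval, P002.coeff_one_aeval, ← g3]
        refine Finset.sum_congr rfl fun v _ => ?_
        rw [hYv, funext hY0v]
      rw [eqns, map_sub, map_sub] at g4
      have g5 := congrFun (congrFun (evalP_wpoly (fun k => (FreeGroup.lift Y) (FreeGroup.of k))
        (W a)) i) j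
      rw [Matrix.map_apply, lift_of] at g5
      rw [g5, evalP, MvPolynomial.aeval_C, ← PowerSeries.C_eq_algebraMap, PowerSeries.coeff_C]
        at g4
      simpa [der1] using g4
    obtain ⟨x, hx1, hx2, hx3⟩ := hreal _ hE hEW
    refine ⟨coo fun k => x (FreeGroup.of k), h0 x hx2, h1 x hx2 u (fun k => ?_) htan, ?_, ?_⟩
    · rw [hx3, hY1]
    · rw [← evalP_eq_aeval, evalP_toP, lift_of]
      exact hx1 f hf
    · intro q
      rw [← evalP_eq_aeval]
      apply evalP_eqns
      intro i
      rw [lift_of]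
      exact hx1.word_eq (W i) (M i) fun y hy => hD y hy i
  obtain ⟨h, hh1, hh2⟩ := P002.arc_lemma (eqns W M) (toP f) (coo P) hpz harc
  refine ⟨h, ?_, fun X hX => ?_⟩
  · rw [← hP, evalP_eq_aeval, aeval_eq]
    exact hh1
  · rw [← evalP_toP, ← map_mul]
    have hker : Ideal.span (Set.range (eqns W M)) ≤ RingHom.ker (evalP X : _ →ₐ[ℂ] ℂ) := by
      rw [Ideal.span_le]
      rintro _ ⟨q, rfl⟩
      rw [SetLike.mem_coe, RingHom.mem_ker]
      exact evalP_eqns W M X (fun i => by rw [hX]; ext i j; simp) q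
    exact (RingHom.mem_ker).1 (hker hh2)

end Vale.Agent.P002R
end

section

/-!
# Composites of slides
-/

namespace Vale.Agent.P002R

open Matrix

variable {g m n r : ℕ}

theorem gC_def (j : Fin n) : (gC j : FF g n) = gD j * gE j * (gD j)⁻¹ := rfl

theorem Adm.map_Fc {τ : FF g n ≃* FF g n} (h : Adm τ) {w : FF g n} (hw : w ∈ Fc g n) :
    τ w ∈ Fc g n := by
  have : (Fc g n) ≤ (Fc g n).comap τ.toMonoidHom := by
    rw [Fc, Subgroup.closure_le]
    rintro w (⟨k, rfl⟩ | ⟨j, rfl⟩)
    · exact h.hab k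
    · obtain ⟨u, hu, hu'⟩ := h.hd j
      rw [SetLike.mem_coe, Subgroup.mem_comap]
      have h1 : τ.toMonoidHom (gC j) = u * gC j * u⁻¹ := by
        change τ (gC j) = _
        rw [gC_def, map_mul, map_mul, map_inv, h.he, hu']
        group
      rw [h1]
      exact mul_mem (mul_mem hu (Subgroup.subset_closure (Or.inr ⟨j, rfl⟩))) (inv_mem hu)
  exact this hw

theorem Adm.refl : Adm (MulEquiv.refl (FF g n)) where
  rel := rfl
  he _ := rfl
  hd _ := ⟨1, one_mem _, by simp⟩
  hab k := Subgroup.subset_closure (Or.inl ⟨k, rfl⟩)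

theorem Adm.trans {τ τ' : FF g n ≃* FF g n} (h : Adm τ) (h' : Adm τ') : Adm (τ.trans τ') where
  rel := by rw [MulEquiv.trans_apply, h.rel, h'.rel]
  he j := by rw [MulEquiv.trans_apply, h.he, h'.he]
  hd j := by
    obtain ⟨u, hu, hu'⟩ := h.hd j
    obtain ⟨v, hv, hv'⟩ := h'.hd j
    refine ⟨τ' u * v, mul_mem (h'.map_Fc hu) hv, ?_⟩
    rw [MulEquiv.trans_apply, hu', map_mul, hv', mul_assoc]
  hab k := by
    rw [MulEquiv.trans_apply]
    exact h'.map_Fc (h.hab k)

/-- `σ` is a slide of the last handle around the loop `q`. -/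
def IsSlide (q : Loop m n) (σ : FF (m + 1) n ≃* FF (m + 1) n) : Prop :=
  Adm σ ∧ Adm σ.symm ∧ σ (gB (Fin.last m)) = gB (Fin.last m) ∧
      (∀ {G : Type} [Group G] (x : FF (m + 1) n →* G), x (gB (Fin.last m)) = 1 →
        x (σ (gA (Fin.last m))) = x (loopW q) * x (gA (Fin.last m)) ∧
          ∀ k, k ≠ Sum.inl (Fin.last m, false) →
            x (σ (FreeGroup.of k)) = x (FreeGroup.of k)) ∧
      (∀ (r : ℕ) (x : FF (m + 1) n →* (Mat r ℂ)ˣ), x (gB (Fin.last m)) = 1 →
        ∀ E : FF (m + 1) n → Mat r ℂ, IsDer x E → ∀ k, k ≠ Sum.inl (Fin.last m, false) →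
          E (σ.symm (FreeGroup.of k)) = E (FreeGroup.of k) +
            Lam x q ((x (gA (Fin.last m)) : Mat r ℂ) * E (gB (Fin.last m)) *
              (((x (gA (Fin.last m)))⁻¹ : (Mat r ℂ)ˣ) : Mat r ℂ)) k)

variable (σ : Loop m n → FF (m + 1) n ≃* FF (m + 1) n)

/-- Composite of slides. -/
def slp : List (Loop m n) → FF (m + 1) n ≃* FF (m + 1) n
  | [] => MulEquiv.refl _
  | q :: p => (σ q).trans (slp p)

theorem slp_nil : slp σ [] = MulEquiv.refl _ := rfl

theorem slp_cons (q : Loop m n) (p : List (Loop m n)) (w : FF (m + 1) n) :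
    slp σ (q :: p) w = slp σ p (σ q w) := rfl

theorem slp_cons_symm (q : Loop m n) (p : List (Loop m n)) (w : FF (m + 1) n) :
    (slp σ (q :: p)).symm w = (σ q).symm ((slp σ p).symm w) := rfl

variable {σ} (hσ : ∀ q, IsSlide q (σ q))

include hσ

theorem slp_adm (p : List (Loop m n)) : Adm (slp σ p) := by
  induction p with
  | nil => exact Adm.refl
  | cons q p ih => exact (hσ q).1.trans ih

theorem slp_symm_adm (p : List (Loop m n)) : Adm (slp σ p).symm := by
  induction p with
  | nil => exact Adm.refl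
  | cons q p ih => exact ih.trans (hσ q).2.1

theorem slp_gB (p : List (Loop m n)) : slp σ p (gB (Fin.last m)) = gB (Fin.last m) := by
  induction p with
  | nil => rfl
  | cons q p ih => rw [slp_cons, (hσ q).2.2.1, ih]

theorem slp_symm_gB (p : List (Loop m n)) :
    (slp σ p).symm (gB (Fin.last m)) = gB (Fin.last m) := by
  rw [MulEquiv.symm_apply_eq, slp_gB hσ]

theorem slp_of {G : Type} [Group G] (x : FF (m + 1) n →* G) (hx : x (gB (Fin.last m)) = 1)
    (p : List (Loop m n)) (k : Gen (m + 1) n) (hk : k ≠ Sum.inl (Fin.last m, false)) :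
    x (slp σ p (FreeGroup.of k)) = x (FreeGroup.of k) := by
  induction p with
  | nil => rfl
  | cons q p ih =>
    rw [slp_cons]
    have hy : (x.comp (slp σ p).toMonoidHom) (gB (Fin.last m)) = 1 := by
      change x (slp σ p (gB (Fin.last m))) = 1
      rw [slp_gB hσ, hx]
    have := ((hσ q).2.2.2.1 (x.comp (slp σ p).toMonoidHom) hy).2 k hk
    change x (slp σ p (σ q (FreeGroup.of k))) = x (slp σ p (FreeGroup.of k)) at this
    rw [this, ih]

omit hσ in
/-- The subgroup generated by all generators except `a_m`. -/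
def Fprime (m n : ℕ) : Subgroup (FF (m + 1) n) :=
  Subgroup.closure {w | ∃ k : Gen (m + 1) n, k ≠ Sum.inl (Fin.last m, false) ∧
    w = FreeGroup.of k}

omit hσ in
theorem of_mem_Fprime {k : Gen (m + 1) n} (hk : k ≠ Sum.inl (Fin.last m, false)) :
    FreeGroup.of k ∈ Fprime m n := Subgroup.subset_closure ⟨k, hk, rfl⟩

omit hσ in
theorem gB_mem (i : Fin (m + 1)) : (gB i : FF (m + 1) n) ∈ Fprime m n :=
  of_mem_Fprime (by simp)

omit hσ in
theorem gA_mem (i : Fin m) : (gA i.castSucc : FF (m + 1) n) ∈ Fprime m n :=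
  of_mem_Fprime (by simp [(Fin.castSucc_lt_last i).ne])

omit hσ in
theorem gC_mem (j : Fin n) : (gC j : FF (m + 1) n) ∈ Fprime m n := by
  rw [gC_def]
  exact mul_mem (mul_mem (of_mem_Fprime (by simp)) (of_mem_Fprime (by simp)))
    (inv_mem (of_mem_Fprime (by simp)))

omit hσ in
theorem bw_mem (b : Fin n ⊕ Fin m) : bw b ∈ Fprime m n := by
  rcases b with j | i
  · exact gC_mem j
  · exact mul_mem (mul_mem (mul_mem (gA_mem i) (gB_mem _)) (inv_mem (gA_mem i)))
      (inv_mem (gB_mem _))

omit hσ in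
theorem aftL_mem (b : Fin n ⊕ Fin m) (l : List (Fin n ⊕ Fin m)) : aftL b l ∈ Fprime m n := by
  induction l with
  | nil => exact one_mem _
  | cons b' l ih =>
    rw [aftL]
    split_ifs
    · apply Subgroup.list_prod_mem
      intro w hw
      rw [List.mem_map] at hw
      obtain ⟨c, _, rfl⟩ := hw
      exact bw_mem c
    · exact ih

omit hσ in
theorem kap_mem (q : Loop m n) : kap q ∈ Fprime m n := aftL_mem _ _

omit hσ in
theorem loopW_mem (q : Loop m n) : loopW q ∈ Fprime m n := by
  refine mul_mem (mul_mem (inv_mem (kap_mem q)) ?_) (kap_mem q)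
  rcases q with j | ⟨i, b⟩
  · exact gC_mem j
  · cases b
    · exact mul_mem (mul_mem (gB_mem _) (inv_mem (gA_mem i))) (inv_mem (gB_mem _))
    · exact inv_mem (gB_mem _)

omit hσ in
/-- Homomorphisms which agree on the generators except `a_m` agree on `Fprime`. -/
theorem eq_on_Fprime {G : Type} [Group G] (x y : FF (m + 1) n →* G)
    (h : ∀ k : Gen (m + 1) n, k ≠ Sum.inl (Fin.last m, false) →
      x (FreeGroup.of k) = y (FreeGroup.of k)) {w : FF (m + 1) n} (hw : w ∈ Fprime m n) :
    x w = y w := by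
  have : Fprime m n ≤ x.eqLocus y := by
    rw [Fprime, Subgroup.closure_le]
    rintro w ⟨k, hk, rfl⟩
    exact h k hk
  exact this hw

theorem slp_mem {G : Type} [Group G] (x : FF (m + 1) n →* G) (hx : x (gB (Fin.last m)) = 1)
    (p : List (Loop m n)) {w : FF (m + 1) n} (hw : w ∈ Fprime m n) :
    x (slp σ p w) = x w :=
  eq_on_Fprime (x.comp (slp σ p).toMonoidHom) x (fun k hk => slp_of hσ x hx p k hk) hw

omit hσ in
/-- Product of loops. -/
def wordL : List (Loop m n) → FF (m + 1) n
  | [] => 1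
  | q :: p => loopW q * wordL p

omit hσ in
theorem wordL_mem (p : List (Loop m n)) : wordL p ∈ Fprime m n := by
  induction p with
  | nil => exact one_mem _
  | cons q p ih => exact mul_mem (loopW_mem q) ih

theorem slp_gA {G : Type} [Group G] (x : FF (m + 1) n →* G) (hx : x (gB (Fin.last m)) = 1)
    (p : List (Loop m n)) :
    x (slp σ p (gA (Fin.last m))) = x (wordL p) * x (gA (Fin.last m)) := by
  induction p with
  | nil => simp [slp_nil, wordL]
  | cons q p ih =>
    have hy : (x.comp (slp σ p).toMonoidHom) (gB (Fin.last m)) = 1 := by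
      change x (slp σ p (gB (Fin.last m))) = 1
      rw [slp_gB hσ, hx]
    have h1 := ((hσ q).2.2.2.1 (x.comp (slp σ p).toMonoidHom) hy).1
    change x (slp σ p (σ q (gA (Fin.last m)))) =
      x (slp σ p (loopW q)) * x (slp σ p (gA (Fin.last m))) at h1
    rw [slp_cons, h1, ih, slp_mem hσ x hx p (loopW_mem q), wordL, map_mul, mul_assoc]

omit hσ in
theorem wP_wordL (x : FF (m + 1) n →* (Mat r ℂ)ˣ) (p : List (Loop m n)) :
    wP (fun q => x (loopW q)) p = x (wordL p) := by
  induction p with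
  | nil => simp [wP, wordL]
  | cons q p ih => rw [wP, wordL, map_mul, ih]

omit hσ in
/-- The effect of a composite of slides on derivations. -/
noncomputable def Del (x : FF (m + 1) n →* (Mat r ℂ)ˣ) (Z : Mat r ℂ) (k : Gen (m + 1) n) :
    List (Loop m n) → Mat r ℂ
  | [] => 0
  | q :: p => Lam x q ((x (wordL (q :: p) * gA (Fin.last m)) : Mat r ℂ) * Z *
      (((x (wordL (q :: p) * gA (Fin.last m)))⁻¹ : (Mat r ℂ)ˣ) : Mat r ℂ)) k + Del x Z k p

omit hσ in
theorem Lam_congr (x y : FF (m + 1) n →* (Mat r ℂ)ˣ)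
    (h : ∀ k : Gen (m + 1) n, k ≠ Sum.inl (Fin.last m, false) →
      x (FreeGroup.of k) = y (FreeGroup.of k)) (q : Loop m n) (ε : Mat r ℂ)
    (k : Gen (m + 1) n) : Lam x q ε k = Lam y q ε k := by
  have h1 := eq_on_Fprime x y h (kap_mem q)
  have h2 : ∀ j, x (gD j) = y (gD j) := fun j => h _ (by simp)
  have h3 : ∀ i : Fin m, x (gB i.castSucc) = y (gB i.castSucc) := fun i => h _ (by simp)
  have h4 : ∀ i : Fin m, x (gA i.castSucc) = y (gA i.castSucc) :=
    fun i => h _ (by simp [(Fin.castSucc_lt_last i).ne])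
  unfold Lam
  rw [h1]
  rcases q with j | ⟨i, b⟩
  · simp only [h2]
  · cases b
    · simp only [h3]
    · simp only [h3, h4]

theorem der_slp (x : FF (m + 1) n →* (Mat r ℂ)ˣ) (hx : x (gB (Fin.last m)) = 1)
    (p : List (Loop m n)) (E : FF (m + 1) n → Mat r ℂ)
    (hE : IsDer (x.comp (slp σ p).toMonoidHom) E) (k : Gen (m + 1) n)
    (hk : k ≠ Sum.inl (Fin.last m, false)) :
    E ((slp σ p).symm (FreeGroup.of k)) =
      E (FreeGroup.of k) + Del x (E (gB (Fin.last m))) k p := by
  induction p generalizing E with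
  | nil =>
    rw [Del, add_zero]
    rfl
  | cons q p ih =>
    rw [slp_cons_symm]
    have hy : (x.comp (slp σ (q :: p)).toMonoidHom) (gB (Fin.last m)) = 1 := by
      change x (slp σ (q :: p) (gB (Fin.last m))) = 1
      rw [slp_gB hσ, hx]
    have hE' : IsDer (x.comp (slp σ p).toMonoidHom) (fun w => E ((σ q).symm w)) := by
      have h1 := hE.comp (σ q).symm.toMonoidHom
      have h2 : (x.comp (slp σ (q :: p)).toMonoidHom).comp (σ q).symm.toMonoidHom =
          x.comp (slp σ p).toMonoidHom := by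
        ext1 k
        change x (slp σ p (σ q ((σ q).symm (FreeGroup.of k)))) = x (slp σ p (FreeGroup.of k))
        rw [MulEquiv.apply_symm_apply]
      rw [h2] at h1
      exact h1
    have h3 := ih _ hE'
    have h4 : (σ q).symm (gB (Fin.last m)) = gB (Fin.last m) := by
      rw [MulEquiv.symm_apply_eq, (hσ q).2.2.1]
    have h5 := (hσ q).2.2.2.2 r (x.comp (slp σ (q :: p)).toMonoidHom) hy E hE k hk
    have h6 : (x.comp (slp σ (q :: p)).toMonoidHom) (gA (Fin.last m)) =
        x (wordL (q :: p) * gA (Fin.last m)) := by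
      rw [map_mul]
      exact slp_gA hσ x hx (q :: p)
    rw [h6, Lam_congr (x.comp (slp σ (q :: p)).toMonoidHom) x
      (fun k hk => slp_of hσ x hx (q :: p) k hk)] at h5
    rw [h3, h4, h5, Del, add_assoc]

end Vale.Agent.P002R
end

section

/-! The eigenvalues of a matrix with algebraically independent entries. -/

namespace Vale.Agent.P002

open Matrix

/-- Elementary symmetric functions of the eigenvalues as polynomials in the entries. -/
noncomputable def eE (r : ℕ) (i : Fin r) : MvPolynomial (Fin r × Fin r) ℤ :=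
  (-1) ^ ((i : ℕ) + 1) * (Matrix.charpoly.univ ℤ (Fin r)).coeff (r - ((i : ℕ) + 1))

lemma aeval_eE {r : ℕ} {S : Type*} [CommRing S] (M : Matrix (Fin r) (Fin r) S) (f : Fin r → S)
    (h : M.charpoly = ∏ i, (Polynomial.X - Polynomial.C (f i))) (i : Fin r) :
    MvPolynomial.aeval (fun p : Fin r × Fin r => M p.1 p.2) (eE r i) =
      MvPolynomial.aeval f (MvPolynomial.esymm (Fin r) ℤ ((i : ℕ) + 1)) := by
  rw [MvPolynomial.aeval_esymm_eq_multiset_esymm, eE, map_mul, map_pow, map_neg, map_one]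
  have h1 : MvPolynomial.aeval (fun p : Fin r × Fin r => M p.1 p.2)
      ((Matrix.charpoly.univ ℤ (Fin r)).coeff (r - ((i : ℕ) + 1))) =
      M.charpoly.coeff (r - ((i : ℕ) + 1)) := by
    have := Matrix.charpoly.univ_coeff_eval₂Hom (Fin r) (Int.castRingHom S)
      (fun p : Fin r × Fin r => M p.1 p.2) (r - ((i : ℕ) + 1))
    rw [show (Matrix.of (Function.curry fun p : Fin r × Fin r => M p.1 p.2)) = M from rfl] at this
    rw [← this]
    rfl
  have hi := i.2
  have hcard : Multiset.card (Finset.univ.val.map f) = r := by simp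
  have h2 : M.charpoly.coeff (r - ((i : ℕ) + 1)) =
      (-1) ^ ((i : ℕ) + 1) * (Finset.univ.val.map f).esymm ((i : ℕ) + 1) := by
    have h3 : M.charpoly = ((Finset.univ.val.map f).map
        (fun t => Polynomial.X - Polynomial.C t)).prod := by
      rw [h, Multiset.map_map]; rfl
    rw [h3, Multiset.prod_X_sub_C_coeff _ (by rw [hcard]; omega), hcard,
      show r - (r - ((i : ℕ) + 1)) = (i : ℕ) + 1 by omega]
  rw [h1, h2, ← mul_assoc, ← mul_pow]
  simp

lemma aeval_key {r : ℕ} {S : Type*} [CommRing S] (M : Matrix (Fin r) (Fin r) S) (f : Fin r → S)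
    (hM : M.charpoly = ∏ i, (Polynomial.X - Polynomial.C (f i)))
    (q : MvPolynomial (Fin r) ℤ) :
    MvPolynomial.aeval (fun p : Fin r × Fin r => M p.1 p.2) (MvPolynomial.aeval (eE r) q) =
      MvPolynomial.aeval f (MvPolynomial.aeval
        (fun i : Fin r => MvPolynomial.esymm (Fin r) ℤ ((i : ℕ) + 1)) q) := by
  have h1 := DFunLike.congr_fun (MvPolynomial.comp_aeval (R := ℤ) (eE r)
    (MvPolynomial.aeval (fun p : Fin r × Fin r => M p.1 p.2))) q
  have h2 := DFunLike.congr_fun (MvPolynomial.comp_aeval (R := ℤ)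
    (fun i : Fin r => MvPolynomial.esymm (Fin r) ℤ ((i : ℕ) + 1)) (MvPolynomial.aeval f)) q
  simp only [AlgHom.comp_apply] at h1 h2
  rw [h1, h2]
  congr 2
  funext i
  exact aeval_eE M f hM i

/-- The eigenvalues are algebraically independent. -/
theorem algebraicIndependent_eigen {r : ℕ} {K : Type*} [CommRing K] [IsDomain K]
    (X : Matrix (Fin r) (Fin r) K)
    (hX : AlgebraicIndependent ℤ fun p : Fin r × Fin r => X p.1 p.2) (l : Fin r → K)
    (hl : X.charpoly = ∏ i, (Polynomial.X - Polynomial.C (l i))) :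
    AlgebraicIndependent ℤ l := by
  classical
  rw [algebraicIndependent_iff]
  intro p hp
  by_contra hp0
  set p' : MvPolynomial (Fin r) ℤ := ∏ σ : Equiv.Perm (Fin r), MvPolynomial.rename σ p with hp'
  have hsym : p'.IsSymmetric := by
    intro e
    rw [hp', map_prod]
    simp only [MvPolynomial.rename_rename]
    exact Fintype.prod_equiv (Equiv.mulLeft e) _ _ (fun σ => rfl)
  have hne : p' ≠ 0 := by
    rw [hp', Finset.prod_ne_zero_iff]
    intro σ _ h
    apply hp0
    apply MvPolynomial.rename_injective σ σ.injective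
    rw [h, map_zero]
  have hz : MvPolynomial.aeval l p' = 0 := by
    rw [hp', map_prod]
    apply Finset.prod_eq_zero (Finset.mem_univ 1)
    simpa using hp
  obtain ⟨q, hq⟩ := MvPolynomial.esymmAlgHom_fin_surjective (R := ℤ) (le_refl r) ⟨p', hsym⟩
  have hq' : MvPolynomial.aeval
      (fun i : Fin r => MvPolynomial.esymm (Fin r) ℤ ((i : ℕ) + 1)) q = p' := by
    rw [← MvPolynomial.esymmAlgHom_apply, hq]
  have h1 := aeval_key X l hl q
  rw [hq', hz] at h1
  have h2 : MvPolynomial.aeval (eE r) q = 0 := by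
    rw [algebraicIndependent_iff] at hX
    exact hX _ h1
  have h3 := aeval_key (Matrix.diagonal (MvPolynomial.X : Fin r → MvPolynomial (Fin r) ℤ))
    MvPolynomial.X (Matrix.charpoly_diagonal _) q
  rw [h2, map_zero, hq'] at h3
  apply hne
  rw [h3]
  clear_value p'
  clear hq hq' hz hp' hsym h3 hne
  induction p' using MvPolynomial.induction_on with
  | C a => simp
  | add p q hp hq => rw [map_add, ← hp, ← hq]
  | mul_X p i hp => rw [map_mul, ← hp, MvPolynomial.aeval_X]

/-- TASK A -/
theorem exists_diag {r : ℕ} {K : Type*} [Field K] [IsAlgClosed K] [CharZero K] (X : Mat r K)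
    (hX : AlgebraicIndependent ℤ fun p : Fin r × Fin r => X p.1 p.2) :
    ∃ (P : (Mat r K)ˣ) (l : Fin r → K),
      X = (P : Mat r K) * diagonal l * ((P⁻¹ : (Mat r K)ˣ) : Mat r K) ∧
        AlgebraicIndependent ℤ l := by
  classical
  obtain ⟨l, hl⟩ : ∃ l : Fin r → K, X.charpoly = ∏ i, (Polynomial.X - Polynomial.C (l i)) := by
    have hs : X.charpoly.Splits := IsAlgClosed.splits _
    have h1 := hs.eq_prod_roots_of_monic (Matrix.charpoly_monic X)
    have hcard : Multiset.card X.charpoly.roots = r := by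
      rw [← hs.natDegree_eq_card_roots, Matrix.charpoly_natDegree_eq_dim, Fintype.card_fin]
    obtain ⟨L, hL⟩ : ∃ L : List K, (L : Multiset K) = X.charpoly.roots := ⟨_, Multiset.coe_toList _⟩
    have hLlen : L.length = r := by rw [← hcard, ← hL]; rfl
    subst hLlen
    refine ⟨L.get, ?_⟩
    rw [h1, ← hL, Multiset.map_coe, Multiset.prod_coe]
    rw [← List.prod_ofFn]
    congr 1
    have h2 : L = List.ofFn L.get := (List.ofFn_get L).symm
    conv_lhs => rw [h2, List.map_ofFn]
    rfl
  have hind := algebraicIndependent_eigen X hX l hl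
  have hinj : Function.Injective l := hind.injective
  have hev : ∀ i, ∃ v : Fin r → K, v ≠ 0 ∧ X *ᵥ v = l i • v := by
    intro i
    have hdet : (Matrix.scalar (Fin r) (l i) - X).det = 0 := by
      rw [← Matrix.eval_charpoly, hl, Polynomial.eval_prod]
      apply Finset.prod_eq_zero (Finset.mem_univ i)
      simp
    obtain ⟨v, hv, hv2⟩ := Matrix.exists_mulVec_eq_zero_iff.mpr hdet
    refine ⟨v, hv, ?_⟩
    rw [Matrix.sub_mulVec, sub_eq_zero] at hv2
    rw [← hv2]
    simp
  choose v hv hXv using hev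
  have hlin : LinearIndependent K v := by
    apply Module.End.eigenvectors_linearIndependent' (Matrix.toLin' X) l hinj v
    intro i
    refine ⟨?_, hv i⟩
    rw [Module.End.mem_eigenspace_iff, Matrix.toLin'_apply, hXv]
  set P : Mat r K := Matrix.of (fun i j => v j i) with hP
  have hPu : IsUnit P := by
    rw [← Matrix.linearIndependent_cols_iff_isUnit]
    exact hlin
  obtain ⟨u, hu⟩ := hPu
  refine ⟨u, l, ?_, hind⟩
  have hXP : X * P = P * diagonal l := by
    ext i j
    have := congrFun (hXv j) i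
    rw [Matrix.mul_diagonal]
    simp only [hP, Matrix.of_apply]
    rw [Matrix.mul_apply]
    simp only [Matrix.mulVec, dotProduct, Pi.smul_apply, smul_eq_mul] at this
    rw [mul_comm, ← this]
    rfl
  rw [hu, ← hXP, ← hu, mul_assoc, Units.mul_inv, mul_one]

end Vale.Agent.P002
end

section

/-!
# The flow lemma
-/

namespace Vale.Agent.P002R

open Matrix

variable {κ : Type*} {r : ℕ} {K : Type*} [Field K]

/-- Diagonal invertible matrices. -/
def dgU : (Fin r → Kˣ) →* (Mat r K)ˣ where
  toFun s := ⟨diagonal fun i => (s i : K), diagonal fun i => ((s i)⁻¹ : Kˣ), by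
    rw [diagonal_mul_diagonal]; simp, by rw [diagonal_mul_diagonal]; simp⟩
  map_one' := by ext1; simp
  map_mul' s t := by
    ext1
    simp [diagonal_mul_diagonal]

theorem dgU_val (s : Fin r → Kˣ) : (dgU s : Mat r K) = diagonal fun i => (s i : K) := rfl

theorem dgU_inv_val (s : Fin r → Kˣ) :
    ((dgU s)⁻¹ : (Mat r K)ˣ).val = diagonal fun i => ((s i)⁻¹ : Kˣ).val := rfl

/-- The algebra homomorphism from Laurent polynomials to functions on the torus. -/
noncomputable def torusHom (r : ℕ) (K : Type*) [Field K] :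
    MonoidAlgebra K (Multiplicative (Fin r → ℤ)) →ₐ[K] ((Fin r → Kˣ) → K) :=
  MonoidAlgebra.lift K _ _
    { toFun := fun e s => ((∏ i, s i ^ (e.toAdd i) : Kˣ) : K)
      map_one' := by funext s; simp
      map_mul' := by
        intro a b
        funext s
        simp only [toAdd_mul, Pi.add_apply, _root_.zpow_add, Finset.prod_mul_distrib,
          Pi.mul_apply, Units.val_mul] }

theorem torusHom_single (e : Multiplicative (Fin r → ℤ)) (s : Fin r → Kˣ) :
    torusHom r K (MonoidAlgebra.single e 1) s = ((∏ i, s i ^ (e.toAdd i) : Kˣ) : K) := by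
  simp [torusHom]

/-- Functions on the torus that are Laurent polynomials. -/
noncomputable def torusAlg (r : ℕ) (K : Type*) [Field K] : Subalgebra K ((Fin r → Kˣ) → K) :=
  (torusHom r K).range

theorem coord_mem (i : Fin r) : (fun s : Fin r → Kˣ => (s i : K)) ∈ torusAlg r K := by
  refine ⟨MonoidAlgebra.single (Multiplicative.ofAdd (Pi.single i 1)) 1, ?_⟩
  funext s
  change torusHom r K _ s = _
  rw [torusHom_single]
  simp only [toAdd_ofAdd]
  rw [Finset.prod_eq_single i]
  · simp
  · intro b _ hb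
    simp [Pi.single_eq_of_ne hb]
  · simp

theorem coord_inv_mem (i : Fin r) :
    (fun s : Fin r → Kˣ => (((s i)⁻¹ : Kˣ) : K)) ∈ torusAlg r K := by
  refine ⟨MonoidAlgebra.single (Multiplicative.ofAdd (Pi.single i (-1))) 1, ?_⟩
  funext s
  change torusHom r K _ s = _
  rw [torusHom_single]
  simp only [toAdd_ofAdd]
  rw [Finset.prod_eq_single i]
  · simp
  · intro b _ hb
    simp [Pi.single_eq_of_ne hb]
  · simp

/-- A matrix valued function whose entries are Laurent polynomials. -/
def EntA (M : (Fin r → Kˣ) → Mat r K) : Prop := ∀ i j, (fun s => M s i j) ∈ torusAlg r K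

theorem EntA.mul {M N : (Fin r → Kˣ) → Mat r K} (hM : EntA M) (hN : EntA N) :
    EntA fun s => M s * N s := by
  intro i j
  have : (fun s => (M s * N s) i j) = ∑ k, (fun s => M s i k) * (fun s => N s k j) := by
    funext s
    simp [Matrix.mul_apply]
  rw [this]
  exact Subalgebra.sum_mem _ fun k _ => Subalgebra.mul_mem _ (hM i k) (hN k j)

theorem EntA.const (M : Mat r K) : EntA fun _ : Fin r → Kˣ => M := by
  intro i j
  have : (fun _ : Fin r → Kˣ => M i j) = algebraMap K ((Fin r → Kˣ) → K) (M i j) := rfl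
  rw [this]
  exact Subalgebra.algebraMap_mem _ _

theorem entA_dg : EntA fun s : Fin r → Kˣ => (dgU s : Mat r K) := by
  intro i j
  by_cases h : i = j
  · subst h
    simpa [dgU_val] using coord_mem (K := K) i
  · have : (fun s : Fin r → Kˣ => (dgU s : Mat r K) i j) = 0 := by
      funext s
      simp [dgU_val, Matrix.diagonal_apply_ne _ h]
    rw [this]
    exact Subalgebra.zero_mem _

theorem entA_dg_inv : EntA fun s : Fin r → Kˣ => (((dgU s)⁻¹ : (Mat r K)ˣ) : Mat r K) := by
  intro i j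
  by_cases h : i = j
  · subst h
    have : (fun s : Fin r → Kˣ => (((dgU s)⁻¹ : (Mat r K)ˣ) : Mat r K) i i) =
        fun s : Fin r → Kˣ => (((s i)⁻¹ : Kˣ) : K) := by
      funext s
      rw [dgU_inv_val]
      simp only [Matrix.diagonal_apply_eq]
    rw [this]
    exact coord_inv_mem (K := K) i
  · have : (fun s : Fin r → Kˣ => (((dgU s)⁻¹ : (Mat r K)ˣ) : Mat r K) i j) = 0 := by
      funext s
      rw [dgU_inv_val]
      simp [Matrix.diagonal_apply_ne _ h]
    rw [this]
    exact Subalgebra.zero_mem _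

theorem EntA.word [DecidableEq κ] (x : FreeGroup κ →* (Mat r K)ˣ) (j : κ) (P : (Mat r K)ˣ)
    (w : FreeGroup κ) :
    EntA (fun s : Fin r → Kˣ => (flow x j (P * dgU s * P⁻¹) w : Mat r K)) ∧
    EntA (fun s : Fin r → Kˣ => (((flow x j (P * dgU s * P⁻¹) w)⁻¹ : (Mat r K)ˣ) : Mat r K)) := by
  induction w using FreeGroup.induction_on with
  | C1 =>
    constructor
    · simpa using EntA.const (K := K) (1 : Mat r K)
    · simpa using EntA.const (K := K) (1 : Mat r K)
  | of k =>
    by_cases hk : k = j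
    · constructor
      · simp only [flow_of, hk, if_true, Units.val_mul]
        exact (EntA.const _).mul (((EntA.const _).mul entA_dg).mul (EntA.const _))
      · simp only [flow_of, hk, if_true, _root_.mul_inv_rev, inv_inv, Units.val_mul]
        exact ((EntA.const _).mul (entA_dg_inv.mul (EntA.const _))).mul (EntA.const _)
    · constructor
      · simp only [flow_of, hk, if_false]
        exact EntA.const _
      · simp only [flow_of, hk, if_false]
        exact EntA.const _
  | inv_of k h =>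
    constructor
    · simp only [map_inv]
      exact h.2
    · simp only [map_inv, inv_inv]
      exact h.1
  | mul a b ha hb =>
    constructor
    · simp only [map_mul, Units.val_mul]
      exact ha.1.mul hb.1
    · simp only [map_mul, _root_.mul_inv_rev, Units.val_mul]
      exact hb.2.mul ha.2

/-- evaluation over a field extension -/
noncomputable def evalK (α : ℂ →+* K) (x : FreeGroup κ →* (Mat r K)ˣ)
    (f : MvPolynomial (FreeGroup κ × Fin r × Fin r) ℂ) : K :=
  MvPolynomial.eval₂ α (fun p => (x p.1 : Mat r K) p.2.1 p.2.2) f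

theorem evalK_mem [DecidableEq κ] (α : ℂ →+* K) (x : FreeGroup κ →* (Mat r K)ˣ) (j : κ)
    (P : (Mat r K)ˣ) (f : MvPolynomial (FreeGroup κ × Fin r × Fin r) ℂ) :
    (fun s : Fin r → Kˣ => evalK α (flow x j (P * dgU s * P⁻¹)) f) ∈ torusAlg r K := by
  let β : ℂ →+* ((Fin r → Kˣ) → K) := (algebraMap K ((Fin r → Kˣ) → K)).comp α
  let v : FreeGroup κ × Fin r × Fin r → ((Fin r → Kˣ) → K) :=
    fun p s => (flow x j (P * dgU s * P⁻¹) p.1 : Mat r K) p.2.1 p.2.2
  have h1 : (fun s : Fin r → Kˣ => evalK α (flow x j (P * dgU s * P⁻¹)) f) =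
      MvPolynomial.eval₂ β v f := by
    funext s
    have := MvPolynomial.map_eval₂Hom (Pi.evalRingHom (fun _ : Fin r → Kˣ => K) s) 
      (f := β) (g := v) (p := f)
    simp only [MvPolynomial.coe_eval₂Hom, Pi.evalRingHom_apply] at this
    rw [this]
    rfl
  rw [h1]
  apply MvPolynomial.eval₂_mem
  · intro i _
    exact Subalgebra.algebraMap_mem _ _
  · intro p
    exact (EntA.word x j P p.1).1 p.2.1 p.2.2

theorem zpow_prod_injective {l : Fin r → Kˣ}
    (hl : AlgebraicIndependent ℤ fun i => (l i : K)) :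
    Function.Injective fun e : Fin r → ℤ => ∏ i, l i ^ e i := by
  intro e e' h
  simp only at h
  -- exponents p, q natural
  let p : Fin r →₀ ℕ := Finsupp.equivFunOnFinite.symm fun i => (e i - e' i).toNat
  let q : Fin r →₀ ℕ := Finsupp.equivFunOnFinite.symm fun i => (e' i - e i).toNat
  have h1 : ∏ i, (l i : K) ^ p i = ∏ i, (l i : K) ^ q i := by
    have h2 : ∏ i, l i ^ (e i - e' i) = 1 := by
      simp only [_root_.zpow_sub, Finset.prod_mul_distrib, Finset.prod_inv_distrib]
      rw [h]; simp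
    have h3 : ∏ i, l i ^ p i = ∏ i, l i ^ q i := by
      rw [← div_eq_one, ← Finset.prod_div_distrib, ← h2]
      apply Finset.prod_congr rfl
      intro i _
      rw [div_eq_mul_inv, ← zpow_natCast, ← zpow_natCast, ← _root_.zpow_neg, ← _root_.zpow_add]
      congr 1
      simp only [p, q, Finsupp.equivFunOnFinite_symm_apply_apply]
      omega
    have h4 := congrArg (Units.val) h3
    simpa using h4
  have h5 : MvPolynomial.aeval (fun i => (l i : K))
      (MvPolynomial.monomial p (1 : ℤ) - MvPolynomial.monomial q 1) = 0 := by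
    rw [map_sub, MvPolynomial.aeval_monomial, MvPolynomial.aeval_monomial]
    simp only [map_one, one_mul]
    rw [Finsupp.prod_fintype _ _ (by simp), Finsupp.prod_fintype _ _ (by simp), h1, sub_self]
  have h6 := (injective_iff_map_eq_zero _).1 hl _ h5
  rw [sub_eq_zero, MvPolynomial.monomial_left_inj one_ne_zero] at h6
  funext i
  have h7 := DFunLike.congr_fun h6 i
  simp only [p, q, Finsupp.equivFunOnFinite_symm_apply_apply] at h7
  omega

theorem torusHom_eq_zero {l : Fin r → Kˣ}
    (hl : AlgebraicIndependent ℤ fun i => (l i : K))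
    (γ : MonoidAlgebra K (Multiplicative (Fin r → ℤ)))
    (h : ∀ n : ℕ, torusHom r K γ (l ^ n) = 0) : γ = 0 := by
  let ψ : Multiplicative (Fin r → ℤ) → (Multiplicative ℕ →* K) := fun e =>
    (Units.coeHom K).comp (powersHom Kˣ (∏ i, l i ^ (e.toAdd i)))
  have hψ : Function.Injective ψ := by
    intro e e' hee
    have h1 := DFunLike.congr_fun hee (Multiplicative.ofAdd 1)
    simp only [ψ, MonoidHom.comp_apply, powersHom_apply, toAdd_ofAdd, pow_one, Units.coeHom_apply,
      Units.val_inj] at h1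
    have h2 := zpow_prod_injective hl h1
    exact Multiplicative.toAdd.injective h2
  have hlin := (linearIndependent_monoidHom (Multiplicative ℕ) K).comp ψ hψ
  rw [linearIndependent_iff] at hlin
  have hc : γ.coeff = 0 := by
    apply hlin γ.coeff
    funext n
    have hn := h n.toAdd
    rw [Finsupp.linearCombination_apply]
    rw [torusHom, MonoidAlgebra.lift_apply] at hn
    simp only [Finsupp.sum, Finset.sum_apply, Pi.smul_apply, Pi.zero_apply] at hn ⊢
    rw [← hn]
    apply Finset.sum_congr rfl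
    intro e _
    simp only [ψ, Function.comp, MonoidHom.comp_apply, powersHom_apply, Units.coeHom_apply,
      smul_eq_mul, MonoidHom.coe_mk, OneHom.coe_mk, Pi.pow_apply]
    congr 2
    rw [← Finset.prod_pow]
    apply Finset.prod_congr rfl
    intro i _
    rw [← zpow_natCast, ← zpow_natCast, ← _root_.zpow_mul, ← _root_.zpow_mul, mul_comm]
  ext e
  rw [hc]
  rfl

theorem evalK_eq_zero [DecidableEq κ] (α : ℂ →+* K) (x : FreeGroup κ →* (Mat r K)ˣ) (j : κ)
    (P : (Mat r K)ˣ) (f : MvPolynomial (FreeGroup κ × Fin r × Fin r) ℂ) {l : Fin r → Kˣ}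
    (hl : AlgebraicIndependent ℤ fun i => (l i : K))
    (h : ∀ n : ℕ, evalK α (flow x j (P * dgU (l ^ n) * P⁻¹)) f = 0) (s : Fin r → Kˣ) :
    evalK α (flow x j (P * dgU s * P⁻¹)) f = 0 := by
  obtain ⟨γ, hγ⟩ := evalK_mem α x j P f
  have hγ' : ∀ s, torusHom r K γ s = evalK α (flow x j (P * dgU s * P⁻¹)) f := fun s =>
    congrFun hγ s
  have h0 : γ = 0 := by
    apply torusHom_eq_zero hl
    intro n
    rw [hγ', h]
  rw [← hγ', h0, map_zero, Pi.zero_apply]

theorem adjoin_diag {S : Type*} [CommRing S] (ι : S →+* K) (A : Mat r S) (P : (Mat r K)ˣ)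
    (l : Fin r → K)
    (hA : A.map ι = (P : Mat r K) * diagonal l * ((P⁻¹ : (Mat r K)ˣ) : Mat r K))
    (z : Mat r S) (hz : z ∈ Algebra.adjoin S {A}) :
    ∃ d : Fin r → K, z.map ι = (P : Mat r K) * diagonal d * ((P⁻¹ : (Mat r K)ˣ) : Mat r K) := by
  have hP : ((P⁻¹ : (Mat r K)ˣ) : Mat r K) * (P : Mat r K) = 1 := by
    rw [← Units.val_mul, inv_mul_cancel, Units.val_one]
  have hP' : (P : Mat r K) * ((P⁻¹ : (Mat r K)ˣ) : Mat r K) = 1 := by
    rw [← Units.val_mul, mul_inv_cancel, Units.val_one]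
  induction hz using Algebra.adjoin_induction with
  | mem x hx =>
    rw [Set.mem_singleton_iff] at hx
    subst hx
    exact ⟨l, hA⟩
  | algebraMap s =>
    refine ⟨fun _ => ι s, ?_⟩
    have : (algebraMap S (Mat r S) s).map ι = (algebraMap K (Mat r K) (ι s)) := by
      rw [Algebra.algebraMap_eq_smul_one, Algebra.algebraMap_eq_smul_one]
      ext i j
      by_cases h : i = j
      · subst h; simp
      · simp [Matrix.one_apply_ne h]
    rw [this, show (diagonal fun _ : Fin r => ι s) = algebraMap K (Mat r K) (ι s) from ?_,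
      ← Algebra.commutes, Matrix.mul_assoc, hP', Matrix.mul_one]
    rw [Matrix.algebraMap_eq_diagonal]
    rfl
  | add x y _ _ hx hy =>
    obtain ⟨d, hd⟩ := hx
    obtain ⟨d', hd'⟩ := hy
    refine ⟨d + d', ?_⟩
    rw [Matrix.map_add ι (map_add ι), hd, hd', ← Matrix.add_mul, ← Matrix.mul_add, diagonal_add]
    rfl
  | mul x y _ _ hx hy =>
    obtain ⟨d, hd⟩ := hx
    obtain ⟨d', hd'⟩ := hy
    refine ⟨d * d', ?_⟩
    rw [Matrix.map_mul, hd, hd']
    calc _ = (P : Mat r K) * diagonal d * (((P⁻¹ : (Mat r K)ˣ) : Mat r K) * (P : Mat r K)) *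
        diagonal d' * ((P⁻¹ : (Mat r K)ˣ) : Mat r K) := by simp only [Matrix.mul_assoc]
      _ = _ := by
        rw [hP, Matrix.mul_one, Matrix.mul_assoc (P : Mat r K), diagonal_mul_diagonal]
        rfl

theorem diag_ne_zero {S : Type*} [CommRing S] (ι : S →+* K) (P : (Mat r K)ˣ) (d : Fin r → K)
    (z : (Mat r S)ˣ)
    (hd : (z : Mat r S).map ι = (P : Mat r K) * diagonal d * ((P⁻¹ : (Mat r K)ˣ) : Mat r K)) :
    ∀ i, d i ≠ 0 := by
  have hu : IsUnit (((z : Mat r S).map ι).det) := by
    have h1 : ((z : Mat r S).map ι).det = ι (z : Mat r S).det := (RingHom.map_det ι _).symm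
    rw [h1]
    exact ((Matrix.isUnit_iff_isUnit_det _).1 z.isUnit).map ι
  rw [hd, det_mul, det_mul, det_diagonal, mul_right_comm, ← det_mul, ← Units.val_mul,
    mul_inv_cancel, Units.val_one, det_one, one_mul, isUnit_iff_ne_zero] at hu
  intro i hi
  exact hu (Finset.prod_eq_zero (Finset.mem_univ i) hi)

theorem units_map_dg {S : Type*} [CommRing S] (ι : S →+* K) (P : (Mat r K)ˣ) (d : Fin r → Kˣ)
    (z : (Mat r S)ˣ)
    (hd : (z : Mat r S).map ι = (P : Mat r K) * diagonal (fun i => (d i : K)) *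
      ((P⁻¹ : (Mat r K)ˣ) : Mat r K)) :
    (Units.map (RingHom.mapMatrix ι).toMonoidHom) z = P * dgU d * P⁻¹ := by
  ext1
  rw [Units.val_mul, Units.val_mul, dgU_val]
  exact hd

theorem evalK_baseChange {S : Type*} [CommRing S] [Algebra ℂ S] (ι : S →+* K)
    (y : FreeGroup κ →* (Mat r S)ˣ) (f : MvPolynomial (FreeGroup κ × Fin r × Fin r) ℂ) :
    evalK (ι.comp (algebraMap ℂ S)) (baseChange ι y) f = ι (evalW y f) := by
  rw [evalK, evalW, MvPolynomial.aeval_def, MvPolynomial.eval₂_comp_left ι]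
  rfl

theorem flow_aux [DecidableEq κ] [IsAlgClosed K] [CharZero K]
    {D : Set (FreeGroup κ →* (Mat r ℂ)ˣ)} {k l : κ}
    (hD : ∀ y ∈ D, ∀ n : ℤ, y.comp (twist k l n) ∈ D) {S : Type*} [CommRing S]
    [Algebra ℂ S] (ι : S →+* K) (hι : Function.Injective ι)
    {x : FreeGroup κ →* (Mat r S)ˣ} (hx : InZ D x)
    (hA : AlgebraicIndependent ℤ fun p : Fin r × Fin r =>
      (x (FreeGroup.of l) : Mat r S) p.1 p.2)
    (z : (Mat r S)ˣ) (hz : (z : Mat r S) ∈ Algebra.adjoin S {(x (FreeGroup.of l) : Mat r S)}) :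
    InZ D (flow x k z) := by
  intro f hf
  have hAK : AlgebraicIndependent ℤ fun p : Fin r × Fin r =>
      ((x (FreeGroup.of l) : Mat r S).map ι) p.1 p.2 :=
    hA.map' (f := ι.toIntAlgHom) hι
  obtain ⟨P, l', hP, hl'⟩ := P002.exists_diag _ hAK
  have hl0 : ∀ i, l' i ≠ 0 := fun i => hl'.ne_zero i
  obtain ⟨lu, hlu'⟩ : ∃ lu : Fin r → Kˣ, ∀ i, (lu i : K) = l' i :=
    ⟨fun i => Units.mk0 (l' i) (hl0 i), fun i => rfl⟩
  have hlu'' : l' = fun i => (lu i : K) := funext fun i => (hlu' i).symm
  rw [hlu''] at hl' hP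
  have hxK := units_map_dg ι P lu (x (FreeGroup.of l)) hP
  have hpow : ∀ n : ℕ, evalK (ι.comp (algebraMap ℂ S))
      (flow (baseChange ι x) k (P * dgU (lu ^ n) * P⁻¹)) f = 0 := by
    intro n
    have h1 : P * dgU (lu ^ n) * P⁻¹ = (Units.map (RingHom.mapMatrix ι).toMonoidHom)
        (x (FreeGroup.of l) ^ (n : ℤ)) := by
      rw [map_zpow, hxK, zpow_natCast, map_pow, conj_pow]
    rw [h1, ← baseChange_flow, flow_pow, evalK_baseChange]
    rw [hx.comp' (twist k l n) (fun y hy => hD y hy n) f hf, map_zero]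
  have hall := evalK_eq_zero (ι.comp (algebraMap ℂ S)) (baseChange ι x) k P f hl' hpow
  obtain ⟨d, hd⟩ := adjoin_diag ι _ P _ hP (z : Mat r S) hz
  have hd0 := diag_ne_zero ι P d z hd
  obtain ⟨du, hdu'⟩ : ∃ du : Fin r → Kˣ, d = fun i => (du i : K) :=
    ⟨fun i => Units.mk0 (d i) (hd0 i), rfl⟩
  rw [hdu'] at hd
  have h3 := hall du
  rw [← units_map_dg ι P du z hd, ← baseChange_flow, evalK_baseChange] at h3
  exact hι (by rw [h3, map_zero])

/-- FLOW LEMMA. -/
theorem InZ.flow [DecidableEq κ] {D : Set (FreeGroup κ →* (Mat r ℂ)ˣ)} {k l : κ}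
    (hD : ∀ y ∈ D, ∀ n : ℤ, y.comp (twist k l n) ∈ D) {S : Type*} [CommRing S] [IsDomain S]
    [Algebra ℂ S] {x : FreeGroup κ →* (Mat r S)ˣ} (hx : InZ D x)
    (hA : AlgebraicIndependent ℤ fun p : Fin r × Fin r =>
      (x (FreeGroup.of l) : Mat r S) p.1 p.2)
    (z : (Mat r S)ˣ) (hz : (z : Mat r S) ∈ Algebra.adjoin S {(x (FreeGroup.of l) : Mat r S)}) :
    InZ D (P002R.flow x k z) := by
  have hι : Function.Injective ((algebraMap (FractionRing S) (AlgebraicClosure (FractionRing S))).comp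
      (algebraMap S (FractionRing S))) :=
    (algebraMap (FractionRing S) (AlgebraicClosure (FractionRing S))).injective.comp
      (IsFractionRing.injective S (FractionRing S))
  have : CharZero (AlgebraicClosure (FractionRing S)) := charZero_of_injective_ringHom
    ((((algebraMap (FractionRing S) (AlgebraicClosure (FractionRing S))).comp
      (algebraMap S (FractionRing S))).comp (algebraMap ℂ S)).injective)
  exact flow_aux hD _ hι hx hA z hz

end Vale.Agent.P002R
end
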