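import Mathlib
import Vale.Agent.P002.Bdl.B1
import Vale.Agent.P002.Bdl.B4
import Vale.Agent.P002.Bdl.B6
import Vale.Agent.P002.Bdl.B10
import Vale.Agent.P002.Bdl.B11
import Vale.Agent.P002.Bdl.B5
import Vale.Agent.P002.Bdl.B2
import Vale.Agent.P002.Bdl.B3
import Vale.Agent.P002.Bdl.B8

set_option linter.all false

section

/-!
# P002R TASK H: the base representations lie in the Zariski closure
-/

namespace Vale.Agent.P002R

open Matrix

variable {m n r : ℕ}

section reps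

variable {S T : Type*} [CommRing S] [Algebra ℂ S] [CommRing T] [Algebra ℂ T]

theorem baseRep_inl (ρ : FF (m + 1) n →* (Mat r ℂ)ˣ) (B : (Mat r S)ˣ) (k : Fin n → (Mat r S)ˣ)
    (i : Fin (m + 1) × Bool) :
    baseRep ρ B k (FreeGroup.of (Sum.inl i)) = if i = (Fin.last m, false) then B
        else baseChange (algebraMap ℂ S) ρ (FreeGroup.of (Sum.inl i)) := by
  rw [baseRep, FreeGroup.lift_apply_of]

theorem baseRep_gD (ρ : FF (m + 1) n →* (Mat r ℂ)ˣ) (B : (Mat r S)ˣ) (k : Fin n → (Mat r S)ˣ)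
    (j : Fin n) : baseRep ρ B k (gD j) = k j := by
  rw [baseRep, gD, FreeGroup.lift_apply_of]

theorem baseRep_gE (ρ : FF (m + 1) n →* (Mat r ℂ)ˣ) (B : (Mat r S)ˣ) (k : Fin n → (Mat r S)ˣ)
    (j : Fin n) : baseRep ρ B k (gE j) = baseChange (algebraMap ℂ S) ρ (gE j) := by
  rw [baseRep, gE, FreeGroup.lift_apply_of]

theorem baseChange_baseRep (θ : S →ₐ[ℂ] T) (ρ : FF (m + 1) n →* (Mat r ℂ)ˣ) (B : (Mat r S)ˣ)
    (k : Fin n → (Mat r S)ˣ) (B' : (Mat r T)ˣ) (k' : Fin n → (Mat r T)ˣ)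
    (hB : (B' : Mat r T) = (B : Mat r S).map θ)
    (hk : ∀ j, (k' j : Mat r T) = (k j : Mat r S).map θ) :
    baseChange (θ : S →+* T) (baseRep ρ B k) = baseRep ρ B' k' := by
  have hcc : ∀ w, baseChange (θ : S →+* T) (baseChange (algebraMap ℂ S) ρ) w =
      baseChange (algebraMap ℂ T) ρ w := by
    intro w
    ext a b
    rw [baseChange_apply, baseChange_apply, baseChange_apply, Matrix.map_apply, Matrix.map_apply,
      Matrix.map_apply]
    exact θ.commutes _
  refine FreeGroup.ext_hom _ _ fun l => ?_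
  have h0 : ∀ w, baseChange (θ : S →+* T) (baseRep ρ B k) w =
      Units.map (RingHom.mapMatrix (θ : S →+* T)).toMonoidHom (baseRep ρ B k w) := fun w => rfl
  rcases l with i | ⟨j, b⟩
  · rw [h0, baseRep_inl, baseRep_inl]
    split_ifs with h
    · ext1
      exact hB.symm
    · exact hcc _
  · cases b
    · have h1 := baseRep_gD ρ B k j
      have h2 := baseRep_gD ρ B' k' j
      rw [gD] at h1 h2
      rw [h0, h1, h2]
      ext1
      exact (hk j).symm
    · have h1 := baseRep_gE ρ B k j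
      have h2 := baseRep_gE ρ B' k' j
      rw [gE] at h1 h2
      rw [h0, h1, h2]
      exact hcc _

end reps

/-- Variables: entries of the matrix, and the parameters of the framings. -/
abbrev VarH (n r : ℕ) := (Fin r × Fin r) ⊕ Fin n

/-- The generic matrix. -/
noncomputable def hM (n r : ℕ) : Mat r (MvPolynomial (VarH n r) ℂ) :=
  Matrix.of fun a b => MvPolynomial.X (Sum.inl (a, b))

/-- The generic framings. -/
noncomputable def hK (κ : Fin n → Mat r ℂ) (j : Fin n) : Mat r (MvPolynomial (VarH n r) ℂ) :=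
  1 + (MvPolynomial.X (Sum.inr j) : MvPolynomial (VarH n r) ℂ) •
    (κ j).map (algebraMap ℂ (MvPolynomial (VarH n r) ℂ))

/-- The product of the determinants. -/
noncomputable def hdel (κ : Fin n → Mat r ℂ) : MvPolynomial (VarH n r) ℂ :=
  (hM n r).det * ∏ j, (hK κ j).det

/-- The universal ring. -/
abbrev HU (κ : Fin n → Mat r ℂ) : Type := Localization.Away (hdel κ)

theorem hM_isUnit (κ : Fin n → Mat r ℂ) :
    IsUnit ((hM n r).map (algebraMap (MvPolynomial (VarH n r) ℂ) (HU κ))) := by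
  rw [Matrix.isUnit_iff_isUnit_det]
  have h1 : ((hM n r).map (algebraMap (MvPolynomial (VarH n r) ℂ) (HU κ))).det =
      algebraMap _ (HU κ) (hM n r).det := by
    rw [RingHom.map_det]
    rfl
  rw [h1]
  exact IsLocalization.Away.isUnit_of_dvd (hdel κ) (dvd_mul_right _ _)

theorem hK_isUnit (κ : Fin n → Mat r ℂ) (j : Fin n) :
    IsUnit ((hK κ j).map (algebraMap (MvPolynomial (VarH n r) ℂ) (HU κ))) := by
  rw [Matrix.isUnit_iff_isUnit_det]
  have h1 : ((hK κ j).map (algebraMap (MvPolynomial (VarH n r) ℂ) (HU κ))).det =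
      algebraMap _ (HU κ) (hK κ j).det := by
    rw [RingHom.map_det]
    rfl
  rw [h1]
  refine IsLocalization.Away.isUnit_of_dvd (hdel κ) (Dvd.dvd.mul_left ?_ _)
  exact Finset.dvd_prod_of_mem _ (Finset.mem_univ j)

/-- The universal matrix. -/
noncomputable def hMu (κ : Fin n → Mat r ℂ) : (Mat r (HU κ))ˣ := (hM_isUnit κ).unit

/-- The universal framings. -/
noncomputable def hKu (κ : Fin n → Mat r ℂ) (j : Fin n) : (Mat r (HU κ))ˣ := (hK_isUnit κ j).unit

theorem h_univ (κ : Fin n → Mat r ℂ) {T : Type*} [CommRing T] [Algebra ℂ T] (B : (Mat r T)ˣ)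
    (t : Fin n → T) (k : Fin n → (Mat r T)ˣ)
    (hk : ∀ j, (k j : Mat r T) = 1 + t j • (κ j).map (algebraMap ℂ T))
    (ρ : FF (m + 1) n →* (Mat r ℂ)ˣ) :
    ∃ ψ : HU κ →ₐ[ℂ] T,
      (∀ p : MvPolynomial (VarH n r) ℂ, ψ (algebraMap _ (HU κ) p) =
        MvPolynomial.aeval (Sum.elim (fun q : Fin r × Fin r => (B : Mat r T) q.1 q.2) t) p) ∧
      ∀ f, evalW (baseRep ρ B k) f = ψ (evalW (baseRep ρ (hMu κ) (hKu κ)) f) := by
  obtain ⟨ev, hev⟩ : ∃ ev : MvPolynomial (VarH n r) ℂ →ₐ[ℂ] T, ev =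
      MvPolynomial.aeval (Sum.elim (fun q : Fin r × Fin r => (B : Mat r T) q.1 q.2) t) := ⟨_, rfl⟩
  have hevM : (hM n r).map ev = (B : Mat r T) := by
    ext a b
    simp [hM, hev]
  have hevK : ∀ j, (hK κ j).map ev = (k j : Mat r T) := by
    intro j
    rw [hk]
    ext a b
    simp only [hK, Matrix.map_apply, Matrix.add_apply, Matrix.smul_apply, smul_eq_mul, map_add,
      map_mul, AlgHom.commutes]
    congr 1
    · rw [Matrix.one_apply, Matrix.one_apply]
      split <;> simp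
    · rw [hev, MvPolynomial.aeval_X, Sum.elim_inr]
  have hu : IsUnit (ev (hdel κ)) := by
    unfold hdel
    rw [map_mul, map_prod]
    have h1 : ev (hM n r).det = (B : Mat r T).det := by
      rw [← hevM, AlgHom.map_det]
      rfl
    have h2 : ∀ j, ev (hK κ j).det = (k j : Mat r T).det := by
      intro j
      rw [← hevK, AlgHom.map_det]
      rfl
    rw [h1]
    refine IsUnit.mul ((Matrix.isUnit_iff_isUnit_det _).mp B.isUnit) ?_
    rw [IsUnit.prod_iff]
    intro j _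
    rw [h2]
    exact (Matrix.isUnit_iff_isUnit_det _).mp (k j).isUnit
  have hlift : ∀ p : MvPolynomial (VarH n r) ℂ,
      IsLocalization.Away.liftAlgHom (hdel κ) hu (algebraMap _ (HU κ) p) = ev p := by
    intro p
    rw [IsLocalization.Away.liftAlgHom_apply, IsLocalization.Away.lift_eq]
    rfl
  refine ⟨IsLocalization.Away.liftAlgHom (hdel κ) hu, fun p => ?_, fun f => ?_⟩
  · rw [hlift, hev]
  · rw [← evalW_baseChange]
    congr 2
    symm
    apply baseChange_baseRep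
    · rw [← hevM]
      ext a b
      rw [Matrix.map_apply, Matrix.map_apply, ← hlift]
      rfl
    · intro j
      rw [← hevK]
      ext a b
      rw [Matrix.map_apply, Matrix.map_apply, ← hlift]
      rfl

/-- Complex base representations with an integral unimodular matrix are in `DFr`. -/
theorem baseRep_mem {R : Type*} [CommRing R] (φ : R →+* ℂ) (J : Fin n → (Mat r ℂ)ˣ)
    (ρ : FF (m + 1) n →* (Mat r ℂ)ˣ) (hρ : ρ ∈ DFr φ J) (hb : ρ (gB (Fin.last m)) = 1)
    (hd : ∀ j, ρ (gD j) = 1) (κ : Fin n → Mat r ℂ) (hκ : ∀ j, Commute (κ j) (J j : Mat r ℂ))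
    (B : (Mat r ℂ)ˣ) (hB : B ∈ GR r φ) (t : Fin n → ℂ)
    (k : Fin n → (Mat r ℂ)ˣ)
    (hk : ∀ j, (k j : Mat r ℂ) = 1 + t j • (κ j).map (algebraMap ℂ ℂ)) :
    baseRep ρ B k ∈ DFr φ J := by
  have hbc : ∀ w, baseChange (algebraMap ℂ ℂ) ρ w = ρ w := by
    intro w
    ext a b
    rw [baseChange_apply]
    rfl
  have hE : ∀ j, baseRep ρ B k (gE j) = J j := by
    intro j
    rw [baseRep_gE, hbc]
    exact hρ.2.1 j
  have hC : ∀ j, baseRep ρ B k (gC j) = ρ (gC j) := by
    intro j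
    have hcomm : k j * J j = J j * k j := by
      ext1
      rw [Units.val_mul, Units.val_mul, hk]
      have h1 : (κ j).map (algebraMap ℂ ℂ) = κ j := by
        ext a b
        rfl
      rw [h1]
      have h2 : κ j * (J j : Mat r ℂ) = (J j : Mat r ℂ) * κ j := hκ j
      rw [add_mul, mul_add, one_mul, mul_one, Matrix.smul_mul, Matrix.mul_smul, h2]
    rw [gC, map_mul, map_mul, map_inv, baseRep_gD, hE, hcomm, mul_inv_cancel_right, map_mul,
      map_mul, map_inv, hd, hρ.2.1, one_mul, inv_one, mul_one]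
  have hbl : baseRep ρ B k (gB (Fin.last m)) = 1 := by
    rw [gB, baseRep_inl, if_neg (by simp), hbc]
    exact hb
  have hH : ∀ i, baseRep ρ B k (hcomm i) = ρ (hcomm i) := by
    intro i
    by_cases hi : i = Fin.last m
    · subst hi
      rw [hcomm, map_mul, map_mul, map_mul, map_inv, map_inv, hbl, map_mul, map_mul, map_mul,
        map_inv, map_inv, hb]
      simp
    · have h1 : baseRep ρ B k (gA i) = ρ (gA i) := by
        rw [gA, baseRep_inl, if_neg (by simp [hi]), hbc]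
      have h2 : baseRep ρ B k (gB i) = ρ (gB i) := by
        rw [gB, baseRep_inl, if_neg (by simp), hbc]
      rw [hcomm, map_mul, map_mul, map_mul, map_inv, map_inv, h1, h2, map_mul, map_mul, map_mul,
        map_inv, map_inv]
  refine ⟨?_, hE, ?_, ?_⟩
  · rw [← hρ.1, relator, map_mul, map_mul, map_list_prod, map_list_prod, map_list_prod,
      map_list_prod, List.map_ofFn, List.map_ofFn, List.map_ofFn, List.map_ofFn]
    congr 3
    · funext j
      exact hC j
    · funext i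
      exact hH i
  · intro i
    rw [baseRep_inl]
    split_ifs with h
    · exact hB
    · rw [hbc]
      exact hρ.2.2.1 i
  · intro j
    rw [hC]
    exact hρ.2.2.2 j

theorem inZ_baseRep {R : Type*} [CommRing R] (φ : R →+* ℂ) (J : Fin n → (Mat r ℂ)ˣ)
    (ρ : FF (m + 1) n →* (Mat r ℂ)ˣ) (hρ : ρ ∈ DFr φ J) (hb : ρ (gB (Fin.last m)) = 1)
    (hd : ∀ j, ρ (gD j) = 1) (κ : Fin n → Mat r ℂ) (hκ : ∀ j, Commute (κ j) (J j : Mat r ℂ))
    {S : Type*} [CommRing S] [Algebra ℂ S] (B : (Mat r S)ˣ) (t : Fin n → S)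
    (k : Fin n → (Mat r S)ˣ)
    (hk : ∀ j, (k j : Mat r S) = 1 + t j • (κ j).map (algebraMap ℂ S)) :
    InZ (DFr φ J) (baseRep ρ B k) := by
  intro f hf
  obtain ⟨N, a, ha⟩ := IsLocalization.Away.surj (hdel κ)
    (evalW (baseRep ρ (hMu κ) (hKu κ)) f)
  -- `a` vanishes at the points `(c X, t)` with invertible `1 + t κ`
  have key : ∀ (c : ℂˣ) (X : SpecialLinearGroup (Fin r) ℤ) (t : Fin n → ℂ),
      MvPolynomial.eval (Sum.elim (fun q : Fin r × Fin r => (c : ℂ) * ((X.1 q.1 q.2 : ℤ) : ℂ)) t)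
        (a * ∏ j, (hK κ j).det) = 0 := by
    intro c X t
    rw [map_mul]
    by_cases h0 : MvPolynomial.eval
        (Sum.elim (fun q : Fin r × Fin r => (c : ℂ) * ((X.1 q.1 q.2 : ℤ) : ℂ)) t)
        (∏ j, (hK κ j).det) = 0
    · rw [h0, mul_zero]
    · have hk : ∀ j, IsUnit (1 + t j • (κ j).map (algebraMap ℂ ℂ) : Mat r ℂ) := by
        intro j
        rw [Matrix.isUnit_iff_isUnit_det, isUnit_iff_ne_zero]
        intro hdet
        apply h0
        rw [map_prod]
        refine Finset.prod_eq_zero (Finset.mem_univ j) ?_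
        rw [← hdet, RingHom.map_det]
        congr 1
        ext a b
        simp only [hK, RingHom.mapMatrix_apply, Matrix.map_apply, Matrix.add_apply,
          Matrix.smul_apply, smul_eq_mul, map_add, map_mul, MvPolynomial.eval_X, Sum.elim_inr,
          MvPolynomial.algebraMap_eq, MvPolynomial.eval_C]
        congr 1
        rw [Matrix.one_apply, Matrix.one_apply]
        split <;> simp
      choose k hk using hk
      have hGR : scalarU c * slU φ (Matrix.SpecialLinearGroup.map (Int.castRingHom R) X) ∈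
          GR r φ := ⟨c, _, rfl⟩
      have h1 := hf _ (baseRep_mem φ J ρ hρ hb hd κ hκ _ hGR t k hk)
      obtain ⟨ψ, hψ1, hψ2⟩ := h_univ κ
        (scalarU c * slU φ (Matrix.SpecialLinearGroup.map (Int.castRingHom R) X)) t k hk ρ
      rw [hψ2] at h1
      have h2 := congrArg ψ ha
      rw [map_mul, h1, zero_mul, hψ1] at h2
      have h3 : MvPolynomial.eval
          (Sum.elim (fun q : Fin r × Fin r => (c : ℂ) * ((X.1 q.1 q.2 : ℤ) : ℂ)) t) a = 0 := by
        rw [h2, MvPolynomial.aeval_def, Algebra.algebraMap_self, ← MvPolynomial.eval₂_id]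
        congr 1
        funext q
        rcases q with q | j
        · rw [Sum.elim_inl, Sum.elim_inl, Units.val_mul]
          change _ = ((algebraMap ℂ (Mat r ℂ) (c : ℂ)) *
            (slU φ (Matrix.SpecialLinearGroup.map (Int.castRingHom R) X) : Mat r ℂ)) q.1 q.2
          rw [← Algebra.smul_def, Matrix.smul_apply, smul_eq_mul]
          congr 1
          change _ = φ (Int.castRingHom R (X.1 q.1 q.2))
          simp
        · rfl
      rw [h3, zero_mul]
  have h1 : a * ∏ j, (hK κ j).det = 0 := by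
    apply MvPolynomial.funext
    intro x
    rw [map_zero]
    obtain ⟨Q, hQ⟩ : ∃ Q : MvPolynomial (Fin r × Fin r) ℂ, Q =
        MvPolynomial.aeval (Sum.elim (fun q : Fin r × Fin r =>
          (MvPolynomial.X q : MvPolynomial (Fin r × Fin r) ℂ))
          fun j => MvPolynomial.C (x (Sum.inr j))) (a * ∏ j, (hK κ j).det) := ⟨_, rfl⟩
    have hQe : ∀ y : Fin r × Fin r → ℂ, MvPolynomial.eval y Q =
        MvPolynomial.eval (Sum.elim y fun j => x (Sum.inr j)) (a * ∏ j, (hK κ j).det) := by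
      intro y
      rw [hQ]
      generalize a * ∏ j, (hK κ j).det = P
      induction P using MvPolynomial.induction_on with
      | C x => simp
      | add f g hf hg => simp only [map_add, hf, hg]
      | mul_X f p hf =>
        rw [map_mul, map_mul, map_mul, hf]
        congr 1
        rcases p with p | j <;> simp
    have hQ0 : Q = 0 := by
      apply Vale.Agent.P002.scaledSL_dense
      intro c X
      rw [hQe]
      exact key c X _
    have h2 := hQe fun q => x (Sum.inl q)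
    rw [hQ0, map_zero] at h2
    rw [h2]
    congr 2
    funext q
    rcases q with q | j <;> rfl
  have h2 : (∏ j, (hK κ j).det) ≠ 0 := by
    intro h0
    have h3 := congrArg (MvPolynomial.eval fun _ => (0 : ℂ)) h0
    rw [map_prod, map_zero] at h3
    have h4 : ∀ j, MvPolynomial.eval (fun _ => (0 : ℂ)) (hK κ j).det = 1 := by
      intro j
      rw [RingHom.map_det, ← Matrix.det_one (n := Fin r) (R := ℂ)]
      congr 1
      ext a b
      simp only [hK, RingHom.mapMatrix_apply, Matrix.map_apply, Matrix.add_apply,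
        Matrix.smul_apply, smul_eq_mul, map_add, map_mul, MvPolynomial.eval_X, zero_mul, add_zero]
      rw [Matrix.one_apply, Matrix.one_apply]
      split <;> simp
    rw [Finset.prod_congr rfl fun j _ => h4 j, Finset.prod_const_one] at h3
    exact one_ne_zero h3
  have ha0 : a = 0 := (mul_eq_zero.1 h1).resolve_right h2
  rw [ha0, map_zero] at ha
  have h7 : evalW (baseRep ρ (hMu κ) (hKu κ)) f = 0 := by
    have hu : IsUnit (algebraMap (MvPolynomial (VarH n r) ℂ) (HU κ) (hdel κ) ^ N) :=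
      (IsLocalization.Away.algebraMap_isUnit (hdel κ)).pow N
    exact (hu.mul_left_eq_zero).mp ha
  obtain ⟨ψ, _, hψ2⟩ := h_univ κ B t k hk ρ
  rw [hψ2, h7, map_zero]

end Vale.Agent.P002R
end

section

/-!
# P002R: integral representations that are irreducible on the surface group
-/

namespace Vale.Agent.P002R

open Matrix

variable {m n r : ℕ}

/-- Integral (up to scalars) framed representations whose restriction to the surface group is
absolutely irreducible. -/
def DTop {R : Type*} [CommRing R] (φ : R →+* ℂ) (J : Fin n → (Mat r ℂ)ˣ) :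
    Set (FF (m + 1) n →* (Mat r ℂ)ˣ) :=
  {x | x ∈ DFr φ J ∧
    Algebra.adjoin ℂ {M : Mat r ℂ | ∃ w ∈ Fc (m + 1) n, M = (x w : Mat r ℂ)} = ⊤}

theorem mem_GR_of_Fc {g : ℕ} {R : Type*} [CommRing R] {φ : R →+* ℂ} {J : Fin n → (Mat r ℂ)ˣ}
    {x : FF g n →* (Mat r ℂ)ˣ} (hx : x ∈ DFr φ J) {w : FF g n} (hw : w ∈ Fc g n) :
    x w ∈ GR r φ := by
  have h : Fc g n ≤ (GR r φ).comap x := by
    rw [Fc, Subgroup.closure_le]
    rintro w (⟨k, rfl⟩ | ⟨j, rfl⟩)
    · exact hx.2.2.1 k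
    · exact hx.2.2.2 j
  exact h hw

theorem gC_mem_Fc {g : ℕ} (j : Fin n) : (gC j : FF g n) ∈ Fc g n :=
  Subgroup.subset_closure (Or.inr ⟨j, rfl⟩)

theorem DFr_adm {g : ℕ} {R : Type*} [CommRing R] {φ : R →+* ℂ} {J : Fin n → (Mat r ℂ)ˣ}
    {τ : FF g n ≃* FF g n} (h1 : Adm τ)
    {y : FF g n →* (Mat r ℂ)ˣ} (hy : y ∈ DFr φ J) : y.comp τ.toMonoidHom ∈ DFr φ J := by
  refine ⟨?_, fun j => ?_, fun k => ?_, fun j => ?_⟩
  · change y (τ (relator g n)) = 1
    rw [h1.rel]
    exact hy.1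
  · change y (τ (gE j)) = J j
    rw [h1.he]
    exact hy.2.1 j
  · exact mem_GR_of_Fc hy (h1.hab k)
  · exact mem_GR_of_Fc hy (h1.map_Fc (gC_mem_Fc j))

theorem DTop_adm {R : Type*} [CommRing R] (φ : R →+* ℂ) (J : Fin n → (Mat r ℂ)ˣ)
    (τ : FF (m + 1) n ≃* FF (m + 1) n) (h1 : Adm τ) (h2 : Adm τ.symm)
    (y : FF (m + 1) n →* (Mat r ℂ)ˣ) (hy : y ∈ DTop φ J) : y.comp τ.toMonoidHom ∈ DTop φ J := by
  refine ⟨DFr_adm h1 hy.1, ?_⟩
  rw [← hy.2]
  congr 1
  ext M
  constructor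
  · rintro ⟨w, hw, rfl⟩
    exact ⟨τ w, h1.map_Fc hw, rfl⟩
  · rintro ⟨w, hw, rfl⟩
    refine ⟨τ.symm w, h2.map_Fc hw, ?_⟩
    change (y w : Mat r ℂ) = (y (τ (τ.symm w)) : Mat r ℂ)
    rw [MulEquiv.apply_symm_apply]

/-- irreducible implies SS -/
theorem SS_of_adjoin {G : Type*} [Group G] (x : G →* (Mat r ℂ)ˣ)
    (h : Algebra.adjoin ℂ (Set.range fun w => (x w : Mat r ℂ)) = ⊤) : SS x := by
  intro W hW
  have hall : ∀ M : Mat r ℂ, ∀ v ∈ W, M *ᵥ v ∈ W := by
    intro M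
    have hM : M ∈ Algebra.adjoin ℂ (Set.range fun w => (x w : Mat r ℂ)) := by
      rw [h]
      trivial
    induction hM using Algebra.adjoin_induction with
    | mem M hM =>
      obtain ⟨w, rfl⟩ := hM
      exact hW w
    | algebraMap c =>
      intro v hv
      rw [Algebra.algebraMap_eq_smul_one, smul_mulVec, one_mulVec]
      exact W.smul_mem c hv
    | add M N _ _ hM hN =>
      intro v hv
      rw [add_mulVec]
      exact W.add_mem (hM v hv) (hN v hv)
    | mul M N _ _ hM hN =>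
      intro v hv
      rw [← mulVec_mulVec]
      exact hM _ (hN v hv)
  by_cases hbot : W = ⊥
  · subst hbot
    exact ⟨⊤, fun _ _ _ => trivial, isCompl_bot_top⟩
  · obtain ⟨v, hv, hv0⟩ := (Submodule.ne_bot_iff W).1 hbot
    have htop : W = ⊤ := by
      rw [eq_top_iff]
      intro u _
      obtain ⟨i, hi⟩ : ∃ i, v i ≠ 0 := by
        by_contra hcon
        push Not at hcon
        exact hv0 (funext hcon)
      have h1 : (Matrix.of fun a b => if b = i then u a * (v i)⁻¹ else 0 : Mat r ℂ) *ᵥ v = u := by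
        ext a
        simp only [mulVec, dotProduct, Matrix.of_apply, ite_mul, zero_mul, Finset.sum_ite_eq',
          Finset.mem_univ, if_true]
        rw [mul_assoc, inv_mul_cancel₀ hi, mul_one]
      rw [← h1]
      exact hall _ v hv
    subst htop
    exact ⟨⊥, fun _ v hv => by
      rw [Submodule.mem_bot] at hv
      rw [hv, mulVec_zero]
      exact Submodule.zero_mem _, isCompl_top_bot⟩

/-- A matrix with distinct eigenvalues and a matrix all of whose entries in the eigenbasis are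
nonzero generate the matrix algebra. -/
theorem adjoin_top_of_pair (A : Subalgebra ℂ (Mat r ℂ)) (U : (Mat r ℂ)ˣ) (α : Fin r → ℂ)
    (hα : Function.Injective α)
    (hD : (U : Mat r ℂ) * diagonal α * ((U⁻¹ : (Mat r ℂ)ˣ) : Mat r ℂ) ∈ A)
    (X : Mat r ℂ) (hX : X ∈ A)
    (hXe : ∀ i j, (((U⁻¹ : (Mat r ℂ)ˣ) : Mat r ℂ) * X * (U : Mat r ℂ)) i j ≠ 0) : A = ⊤ := by
  -- the conjugated algebra
  obtain ⟨B, hB⟩ : ∃ B : Subalgebra ℂ (Mat r ℂ), ∀ M, M ∈ B ↔
      (U : Mat r ℂ) * M * ((U⁻¹ : (Mat r ℂ)ˣ) : Mat r ℂ) ∈ A := by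
    refine ⟨{ carrier := {M | (U : Mat r ℂ) * M * ((U⁻¹ : (Mat r ℂ)ˣ) : Mat r ℂ) ∈ A}
              mul_mem' := ?_, add_mem' := ?_, algebraMap_mem' := ?_ }, fun M => Iff.rfl⟩
    · intro M N hM hN
      have := A.mul_mem hM hN
      have h2 : (U : Mat r ℂ) * M * ((U⁻¹ : (Mat r ℂ)ˣ) : Mat r ℂ) *
          ((U : Mat r ℂ) * N * ((U⁻¹ : (Mat r ℂ)ˣ) : Mat r ℂ)) =
          (U : Mat r ℂ) * (M * N) * ((U⁻¹ : (Mat r ℂ)ˣ) : Mat r ℂ) := by
        have h3 : ((U⁻¹ : (Mat r ℂ)ˣ) : Mat r ℂ) * (U : Mat r ℂ) = 1 := Units.inv_mul U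
        calc _ = (U : Mat r ℂ) * M * (((U⁻¹ : (Mat r ℂ)ˣ) : Mat r ℂ) * (U : Mat r ℂ)) * N *
            ((U⁻¹ : (Mat r ℂ)ˣ) : Mat r ℂ) := by noncomm_ring
          _ = _ := by rw [h3, mul_one]; noncomm_ring
      rw [h2] at this
      exact this
    · intro M N hM hN
      have := A.add_mem hM hN
      rw [← Matrix.add_mul, ← Matrix.mul_add] at this
      exact this
    · intro c
      have h3 : (U : Mat r ℂ) * ((U⁻¹ : (Mat r ℂ)ˣ) : Mat r ℂ) = 1 := Units.mul_inv U
      change (U : Mat r ℂ) * (algebraMap ℂ (Mat r ℂ) c) * ((U⁻¹ : (Mat r ℂ)ˣ) : Mat r ℂ) ∈ A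
      rw [← Algebra.commutes, mul_assoc, h3, mul_one]
      exact A.algebraMap_mem c
  have hDB : (diagonal α : Mat r ℂ) ∈ B := (hB _).2 hD
  have hXB : ((U⁻¹ : (Mat r ℂ)ˣ) : Mat r ℂ) * X * (U : Mat r ℂ) ∈ B := by
    rw [hB]
    have h3 : (U : Mat r ℂ) * ((U⁻¹ : (Mat r ℂ)ˣ) : Mat r ℂ) = 1 := Units.mul_inv U
    have : (U : Mat r ℂ) * (((U⁻¹ : (Mat r ℂ)ˣ) : Mat r ℂ) * X * (U : Mat r ℂ)) *
        ((U⁻¹ : (Mat r ℂ)ˣ) : Mat r ℂ) = X := by
      calc _ = ((U : Mat r ℂ) * ((U⁻¹ : (Mat r ℂ)ˣ) : Mat r ℂ)) * X *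
          ((U : Mat r ℂ) * ((U⁻¹ : (Mat r ℂ)ˣ) : Mat r ℂ)) := by noncomm_ring
        _ = X := by rw [h3, one_mul, mul_one]
    rw [this]
    exact hX
  have hs : ∀ i, Matrix.single i i (1 : ℂ) ∈ B := by
    intro i
    have h1 := P002.single_mem_adjoin α hα i
    refine (Algebra.adjoin_le ?_) h1
    rintro _ rfl
    exact hDB
  have hij : ∀ i j, Matrix.single i j (1 : ℂ) ∈ B := by
    intro i j
    obtain ⟨Y, hY⟩ : ∃ Y, Y = ((U⁻¹ : (Mat r ℂ)ˣ) : Mat r ℂ) * X * (U : Mat r ℂ) := ⟨_, rfl⟩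
    have hYij : Y i j ≠ 0 := by
      rw [hY]
      exact hXe i j
    rw [← hY] at hXB
    have : Matrix.single i j (1 : ℂ) = (Y i j)⁻¹ •
        (Matrix.single i i (1 : ℂ) * Y * Matrix.single j j 1) := by
      rw [Matrix.single_mul_mul_single, Matrix.smul_single]
      simp [hYij]
    rw [this]
    exact B.smul_mem (B.mul_mem (B.mul_mem (hs i) hXB) (hs j)) _
  have hBtop : ∀ M, M ∈ B := by
    intro M
    rw [matrix_eq_sum_single M]
    refine Subalgebra.sum_mem _ fun i _ => Subalgebra.sum_mem _ fun j _ => ?_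
    have : Matrix.single i j (M i j) = M i j • Matrix.single i j (1 : ℂ) := by
      rw [Matrix.smul_single, smul_eq_mul, mul_one]
    rw [this]
    exact Subalgebra.smul_mem _ (hij i j) _
  rw [eq_top_iff]
  intro M _
  have h3 : (U : Mat r ℂ) * ((U⁻¹ : (Mat r ℂ)ˣ) : Mat r ℂ) = 1 := Units.mul_inv U
  have h4 := (hB _).1 (hBtop (((U⁻¹ : (Mat r ℂ)ˣ) : Mat r ℂ) * M * (U : Mat r ℂ)))
  have : (U : Mat r ℂ) * (((U⁻¹ : (Mat r ℂ)ˣ) : Mat r ℂ) * M * (U : Mat r ℂ)) *
      ((U⁻¹ : (Mat r ℂ)ˣ) : Mat r ℂ) = M := by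
    calc _ = ((U : Mat r ℂ) * ((U⁻¹ : (Mat r ℂ)ˣ) : Mat r ℂ)) * M *
        ((U : Mat r ℂ) * ((U⁻¹ : (Mat r ℂ)ˣ) : Mat r ℂ)) := by noncomm_ring
      _ = M := by rw [h3, one_mul, mul_one]
  rw [this] at h4
  exact h4

theorem inl_last_mem (m n : ℕ) (w : Gen (m + 1) n) (hw : w ≠ Sum.inl (Fin.last m, false)) :
    FreeGroup.of w ∈ Fprime m n := of_mem_Fprime hw

/-- Complex representations with arbitrary integral `a_m` and `b_m ↦ 1` are in `DTop` if the matrix
`a_m` is generic. -/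
theorem flow_mem_DTop {R : Type*} [CommRing R] (φ : R →+* ℂ) (J : Fin n → (Mat r ℂ)ˣ)
    (ρ : FF (m + 1) n →* (Mat r ℂ)ˣ) (hρ : ρ ∈ DFr φ J) (hb : ρ (gB (Fin.last m)) = 1)
    (w₀ : FF (m + 1) n) (hw₀ : w₀ ∈ Fc (m + 1) n) (hw₀' : w₀ ∈ Fprime m n)
    (U : (Mat r ℂ)ˣ) (α : Fin r → ℂ) (hα : Function.Injective α)
    (hq : (ρ w₀ : Mat r ℂ) = (U : Mat r ℂ) * diagonal α * ((U⁻¹ : (Mat r ℂ)ˣ) : Mat r ℂ))
    (B : (Mat r ℂ)ˣ) (hB : B ∈ GR r φ)
    (hBe : ∀ i j, (((U⁻¹ : (Mat r ℂ)ˣ) : Mat r ℂ) * B * (U : Mat r ℂ)) i j ≠ 0)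
    (y : FF (m + 1) n →* (Mat r ℂ)ˣ)
    (hy : ∀ k : Gen (m + 1) n, k ≠ Sum.inl (Fin.last m, false) →
      y (FreeGroup.of k) = ρ (FreeGroup.of k)) (hyB : y (gA (Fin.last m)) = B) :
    y ∈ DTop φ J := by
  have hF : ∀ w ∈ Fprime m n, y w = ρ w := fun w hw => eq_on_Fprime y ρ hy hw
  have hyb : y (gB (Fin.last m)) = 1 := by rw [hF _ (gB_mem _), hb]
  have hH : ∀ i, y (hcomm i) = ρ (hcomm i) := by
    intro i
    refine Fin.lastCases ?_ (fun i => ?_) i
    · rw [hcomm, map_mul, map_mul, map_mul, map_inv, map_inv, hyb, map_mul, map_mul, map_mul,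
        map_inv, map_inv, hb]
      simp
    · exact hF _ (bw_mem (Sum.inr i))
  have hDFr : y ∈ DFr φ J := by
    refine ⟨?_, fun j => ?_, fun k => ?_, fun j => ?_⟩
    · rw [← hρ.1, relator, map_mul, map_mul, map_list_prod, map_list_prod, map_list_prod,
        map_list_prod, List.map_ofFn, List.map_ofFn, List.map_ofFn, List.map_ofFn]
      congr 3
      · funext j
        exact hF _ (gC_mem j)
      · funext i
        exact hH i
    · have h1 : (gE j : FF (m + 1) n) ∈ Fprime m n := of_mem_Fprime (by simp)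
      rw [hF _ h1]
      exact hρ.2.1 j
    · by_cases hk : (Sum.inl k : Gen (m + 1) n) = Sum.inl (Fin.last m, false)
      · rw [hk]
        change y (gA (Fin.last m)) ∈ _
        rw [hyB]
        exact hB
      · rw [hF _ (of_mem_Fprime hk)]
        exact hρ.2.2.1 k
    · rw [hF _ (gC_mem j)]
      exact hρ.2.2.2 j
  refine ⟨hDFr, ?_⟩
  refine adjoin_top_of_pair _ U α hα ?_ (B : Mat r ℂ) ?_ hBe
  · refine Algebra.subset_adjoin ⟨w₀, hw₀, ?_⟩
    rw [hF _ hw₀', hq]
  · refine Algebra.subset_adjoin ⟨gA (Fin.last m), Subgroup.subset_closure (Or.inl ⟨_, rfl⟩), ?_⟩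
    rw [hyB]

theorem gD_eq_one_add (ρ : FF (m + 1) n →* (Mat r ℂ)ˣ) (T : Type*) [CommRing T] [Algebra ℂ T]
    (j : Fin n) :
    ((baseChange (algebraMap ℂ T) ρ (gD j) : (Mat r T)ˣ) : Mat r T) =
      1 + (1 : T) • ((ρ (gD j) : Mat r ℂ) - 1).map (algebraMap ℂ T) := by
  rw [baseChange_apply, one_smul]
  ext a b
  simp only [Matrix.map_apply, Matrix.add_apply, Matrix.sub_apply, map_sub]
  rw [Matrix.one_apply, Matrix.one_apply]
  split <;> simp

/-- The polynomial at `t = 1`. -/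
noncomputable def atOne (a : MvPolynomial (VarH n r) ℂ) : MvPolynomial (Fin r × Fin r) ℂ :=
  MvPolynomial.aeval (Sum.elim (fun q : Fin r × Fin r =>
    (MvPolynomial.X q : MvPolynomial (Fin r × Fin r) ℂ)) fun _ => 1) a

theorem aeval_atOne (a : MvPolynomial (VarH n r) ℂ) {T : Type*} [CommRing T] [Algebra ℂ T]
    (v : Fin r × Fin r → T) :
    MvPolynomial.aeval v (atOne a) = MvPolynomial.aeval (Sum.elim v fun _ => (1 : T)) a := by
  unfold atOne
  induction a using MvPolynomial.induction_on with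
  | C x => simp
  | add f g hf hg => simp only [map_add, hf, hg]
  | mul_X f p hf =>
    rw [map_mul, map_mul, map_mul, hf]
    congr 1
    rcases p with p | j <;> simp

theorem inZ_top {R : Type*} [CommRing R] (φ : R →+* ℂ) (J : Fin n → (Mat r ℂ)ˣ)
    (ρ : FF (m + 1) n →* (Mat r ℂ)ˣ) (hρ : ρ ∈ DFr φ J) (hb : ρ (gB (Fin.last m)) = 1)
    (w₀ : FF (m + 1) n) (hw₀ : w₀ ∈ Fc (m + 1) n) (hw₀' : w₀ ∈ Fprime m n)
    (U : (Mat r ℂ)ˣ) (α : Fin r → ℂ) (hα : Function.Injective α)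
    (hq : (ρ w₀ : Mat r ℂ) = (U : Mat r ℂ) * diagonal α * ((U⁻¹ : (Mat r ℂ)ˣ) : Mat r ℂ))
    {S : Type*} [CommRing S] [Algebra ℂ S] (z : (Mat r S)ˣ) :
    InZ (DTop φ J) (flow (baseChange (algebraMap ℂ S) ρ) (Sum.inl (Fin.last m, false)) z) := by
  intro f hf
  obtain ⟨κ, hκ⟩ : ∃ κ : Fin n → Mat r ℂ, κ = fun j => (ρ (gD j) : Mat r ℂ) - 1 := ⟨_, rfl⟩
  obtain ⟨N, a, ha⟩ := IsLocalization.Away.surj (hdel κ)
    (evalW (baseRep ρ (hMu κ) (hKu κ)) f)
  have hbc : ∀ w, baseChange (algebraMap ℂ ℂ) ρ w = ρ w := by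
    intro w
    ext a b
    rw [baseChange_apply]
    rfl
  -- the genericity polynomial
  obtain ⟨GM, hGM⟩ : ∃ GM : Mat r (MvPolynomial (Fin r × Fin r) ℂ), GM =
      (((U⁻¹ : (Mat r ℂ)ˣ) : Mat r ℂ).map MvPolynomial.C :
        Mat r (MvPolynomial (Fin r × Fin r) ℂ)) * mvPolynomialX (Fin r) (Fin r) ℂ *
        ((U : Mat r ℂ).map MvPolynomial.C : Mat r (MvPolynomial (Fin r × Fin r) ℂ)) := ⟨_, rfl⟩
  obtain ⟨G, hG⟩ : ∃ G : MvPolynomial (Fin r × Fin r) ℂ, G = ∏ i, ∏ j, GM i j := ⟨_, rfl⟩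
  have hGMe : ∀ (v : Fin r × Fin r → ℂ) (i j : Fin r), MvPolynomial.eval v (GM i j) =
      (((U⁻¹ : (Mat r ℂ)ˣ) : Mat r ℂ) * (Matrix.of fun a b => v (a, b)) * (U : Mat r ℂ)) i j := by
    intro v i j
    rw [hGM]
    simp only [Matrix.mul_apply, map_sum, map_mul, Matrix.map_apply, MvPolynomial.eval_C,
      mvPolynomialX_apply, MvPolynomial.eval_X, Matrix.of_apply]
  have hGe : ∀ v : Fin r × Fin r → ℂ, MvPolynomial.eval v G = ∏ i, ∏ j,
      (((U⁻¹ : (Mat r ℂ)ˣ) : Mat r ℂ) * (Matrix.of fun a b => v (a, b)) * (U : Mat r ℂ)) i j := by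
    intro v
    rw [hG, map_prod]
    refine Finset.prod_congr rfl fun i _ => ?_
    rw [map_prod]
    exact Finset.prod_congr rfl fun j _ => hGMe v i j
  have hG0 : G ≠ 0 := by
    rw [hG, Finset.prod_ne_zero_iff]
    intro i _
    rw [Finset.prod_ne_zero_iff]
    intro j _ h0
    have h1 := congrArg (MvPolynomial.eval fun p : Fin r × Fin r =>
      ((U : Mat r ℂ) * Matrix.single i j (1 : ℂ) * ((U⁻¹ : (Mat r ℂ)ˣ) : Mat r ℂ)) p.1 p.2) h0
    rw [map_zero, hGMe] at h1
    have h2 : (((U⁻¹ : (Mat r ℂ)ˣ) : Mat r ℂ) * ((U : Mat r ℂ) * Matrix.single i j (1 : ℂ) *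
        ((U⁻¹ : (Mat r ℂ)ˣ) : Mat r ℂ)) * (U : Mat r ℂ)) i j = 0 := h1
    have h3 : ((U⁻¹ : (Mat r ℂ)ˣ) : Mat r ℂ) * (U : Mat r ℂ) = 1 := Units.inv_mul U
    have h4 : ((U⁻¹ : (Mat r ℂ)ˣ) : Mat r ℂ) * ((U : Mat r ℂ) * Matrix.single i j (1 : ℂ) *
        ((U⁻¹ : (Mat r ℂ)ˣ) : Mat r ℂ)) * (U : Mat r ℂ) = Matrix.single i j (1 : ℂ) := by
      calc _ = (((U⁻¹ : (Mat r ℂ)ˣ) : Mat r ℂ) * (U : Mat r ℂ)) * Matrix.single i j (1 : ℂ) *
          (((U⁻¹ : (Mat r ℂ)ˣ) : Mat r ℂ) * (U : Mat r ℂ)) := by noncomm_ring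
        _ = _ := by rw [h3, one_mul, mul_one]
    rw [h4] at h2
    simp at h2
  have key : atOne a * G = 0 := by
    apply Vale.Agent.P002.scaledSL_dense
    intro c X
    rw [map_mul]
    by_cases h0 : MvPolynomial.eval (fun p => (c : ℂ) * ((X.1 p.1 p.2 : ℤ) : ℂ)) G = 0
    · rw [h0, mul_zero]
    · obtain ⟨B, hB⟩ : ∃ B : (Mat r ℂ)ˣ, B =
          scalarU c * slU φ (Matrix.SpecialLinearGroup.map (Int.castRingHom R) X) := ⟨_, rfl⟩
      have hGR : B ∈ GR r φ := ⟨c, _, hB⟩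
      have hBv : ∀ a b, (B : Mat r ℂ) a b = (c : ℂ) * ((X.1 a b : ℤ) : ℂ) := by
        intro a b
        rw [hB, Units.val_mul]
        change ((algebraMap ℂ (Mat r ℂ) (c : ℂ)) *
            (slU φ (Matrix.SpecialLinearGroup.map (Int.castRingHom R) X) : Mat r ℂ)) a b = _
        rw [← Algebra.smul_def, Matrix.smul_apply, smul_eq_mul]
        congr 1
        change φ (Int.castRingHom R (X.1 a b)) = _
        simp
      have hBm : (Matrix.of fun a b => (c : ℂ) * ((X.1 a b : ℤ) : ℂ)) = (B : Mat r ℂ) := by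
        ext a b
        rw [Matrix.of_apply, hBv]
      have hBe : ∀ i j, (((U⁻¹ : (Mat r ℂ)ˣ) : Mat r ℂ) * B * (U : Mat r ℂ)) i j ≠ 0 := by
        rw [hGe] at h0
        simp only [hBm] at h0
        intro i j h1
        exact h0 (Finset.prod_eq_zero (Finset.mem_univ i)
          (Finset.prod_eq_zero (Finset.mem_univ j) h1))
      have hmem : baseRep ρ B (fun j => ρ (gD j)) ∈ DTop φ J := by
        refine flow_mem_DTop φ J ρ hρ hb w₀ hw₀ hw₀' U α hα hq B hGR hBe _ (fun k hk => ?_) ?_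
        · rcases k with i | ⟨j, b⟩
          · rw [baseRep_inl, if_neg (by
              intro h
              exact hk (by rw [h])), hbc]
          · cases b
            · exact baseRep_gD ρ B _ j
            · have := baseRep_gE ρ B (fun j => ρ (gD j)) j
              rw [hbc] at this
              exact this
        · rw [gA, baseRep_inl, if_pos rfl]
      have h1 := hf _ hmem
      obtain ⟨ψ, hψ1, hψ2⟩ := h_univ κ B (fun _ => (1 : ℂ)) (fun j => ρ (gD j)) (fun j => by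
        have := gD_eq_one_add ρ ℂ j
        rw [hbc] at this
        rw [this, hκ]) ρ
      rw [hψ2] at h1
      have h2 := congrArg ψ ha
      rw [map_mul, h1, zero_mul, hψ1, ← aeval_atOne] at h2
      have h3 : MvPolynomial.eval (fun p => (c : ℂ) * ((X.1 p.1 p.2 : ℤ) : ℂ)) (atOne a) = 0 := by
        rw [h2, MvPolynomial.aeval_def, Algebra.algebraMap_self, ← MvPolynomial.eval₂_id]
        congr 1
        funext q
        exact (hBv q.1 q.2).symm
      rw [h3, zero_mul]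
  have ha0 : atOne a = 0 := (mul_eq_zero.1 key).resolve_right hG0
  -- the `S`-point
  obtain ⟨B, hB⟩ : ∃ B : (Mat r S)ˣ, B = baseChange (algebraMap ℂ S) ρ (gA (Fin.last m)) * z :=
    ⟨_, rfl⟩
  have hx : flow (baseChange (algebraMap ℂ S) ρ) (Sum.inl (Fin.last m, false)) z =
      baseRep ρ B (fun j => baseChange (algebraMap ℂ S) ρ (gD j)) := by
    refine FreeGroup.ext_hom _ _ fun k => ?_
    rw [flow_of]
    rcases k with i | ⟨j, b⟩
    · rw [baseRep_inl]
      by_cases hi : i = (Fin.last m, false)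
      · subst hi
        rw [if_pos rfl, if_pos rfl, hB]
        rfl
      · rw [if_neg hi, if_neg (by
          intro h
          exact hi (Sum.inl_injective h))]
    · rw [if_neg (by simp)]
      cases b
      · exact (baseRep_gD ρ B (fun j => baseChange (algebraMap ℂ S) ρ (gD j)) j).symm
      · exact (baseRep_gE ρ B (fun j => baseChange (algebraMap ℂ S) ρ (gD j)) j).symm
  rw [hx]
  obtain ⟨ψ, hψ1, hψ2⟩ := h_univ κ B (fun _ => (1 : S))
    (fun j => baseChange (algebraMap ℂ S) ρ (gD j)) (fun j => by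
      rw [gD_eq_one_add ρ S j, hκ]) ρ
  rw [hψ2]
  have h2 := congrArg ψ ha
  rw [map_mul, hψ1, ← aeval_atOne, ha0, map_zero, map_pow] at h2
  have hu : IsUnit (ψ (algebraMap (MvPolynomial (VarH n r) ℂ) (HU κ) (hdel κ)) ^ N) :=
    ((IsLocalization.Away.algebraMap_isUnit (hdel κ)).map ψ).pow N
  exact (hu.mul_left_eq_zero).mp h2

end Vale.Agent.P002R
end

section

/-! Existence of base points, for all classes and only one nontrivial handle. -/

namespace Vale.Agent.P002R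

open Matrix

section Prelim2

variable {R : Type*} [CommRing R] {r : ℕ}

theorem exists_comm_tri (t : Fin r → R) (Δ : R) (w : Mat r R)
    (hw : ∀ i j, i < j → w i j * (t j - t i) = Δ) (E : Mat r R) (hE : SUp E) :
    ∃ v : Mat r R, (∀ i j, j < i → v i j = 0) ∧ (∀ i, v i i = 1) ∧
      v * diagonal t = (1 + Δ • E) * diagonal t * v := by
  obtain ⟨v, hv⟩ := fixed_point (E * diagonal t) w (hE.mul_diag t)
  have hlow : ∀ i j, j < i → v i j = 0 := by
    intro i j hij
    rw [hv, if_neg (not_lt.mpr hij.le), Matrix.one_apply_ne hij.ne', add_zero]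
  have hdiag : ∀ i, v i i = 1 := by
    intro i
    rw [hv, if_neg (lt_irrefl i), Matrix.one_apply_eq, add_zero]
  refine ⟨v, hlow, hdiag, ?_⟩
  ext i j
  have h1 : ((1 + Δ • E) * diagonal t * v) i j = t i * v i j +
      Δ * ((E * diagonal t) * v) i j := by
    rw [Matrix.add_mul, Matrix.one_mul, Matrix.smul_mul, Matrix.add_mul, Matrix.smul_mul,
      Matrix.add_apply, Matrix.smul_apply, smul_eq_mul, Matrix.diagonal_mul]
  rw [h1, Matrix.mul_diagonal]
  rcases lt_trichotomy i j with h | h | h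
  · have h2 := hv i j
    rw [if_pos h, Matrix.one_apply_ne h.ne, zero_add] at h2
    have h3 : v i j * (t j - t i) = Δ * ((E * diagonal t) * v) i j := by
      rw [h2, ← hw i j h]
      ring
    linear_combination h3
  · subst h
    have h2 : ((E * diagonal t) * v) i i = 0 := by
      rw [Matrix.mul_apply]
      apply Finset.sum_eq_zero
      intro k _
      by_cases hik : i < k
      · rw [hlow k i hik, mul_zero]
      · rw [(hE.mul_diag t) i k hik, zero_mul]
    rw [h2]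
    ring
  · have h2 : ((E * diagonal t) * v) i j = 0 := by
      rw [Matrix.mul_apply]
      apply Finset.sum_eq_zero
      intro k _
      by_cases hik : i < k
      · rw [hlow k j (h.trans hik), mul_zero]
      · rw [(hE.mul_diag t) i k hik, zero_mul]
    rw [h2, hlow i j h]
    ring

/-- the discriminant -/
def discT (t : Fin r → R) : R :=
  ∏ p ∈ Finset.univ.filter (fun p : Fin r × Fin r => p.1 < p.2), (t p.2 - t p.1)

/-- the discriminant with one factor removed -/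
def discwT (t : Fin r → R) : Mat r R := Matrix.of fun i j =>
  ∏ p ∈ (Finset.univ.filter (fun p : Fin r × Fin r => p.1 < p.2)).erase (i, j), (t p.2 - t p.1)

theorem discwT_mul (t : Fin r → R) (i j : Fin r) (h : i < j) :
    discwT t i j * (t j - t i) = discT t := by
  unfold discT discwT
  rw [Matrix.of_apply]
  exact Finset.prod_erase_mul _ (fun p : Fin r × Fin r => t p.2 - t p.1) (by simp [h])

theorem phi_discT_ne (φ : R →+* ℂ) (hφ : Function.Injective φ) (t : Fin r → R)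
    (ht : Function.Injective t) : φ (discT t) ≠ 0 := by
  unfold discT
  rw [map_prod, Finset.prod_ne_zero_iff]
  intro p hp
  rw [Finset.mem_filter] at hp
  rw [map_sub, sub_ne_zero]
  intro h
  exact (ne_of_lt hp.2) (ht (hφ h)).symm

/-- Block upper triangular invertible matrices. -/
def BTr (c : Fin r → Fin r) : Subgroup (Mat r R)ˣ where
  carrier := {x | BlockTriangular (x : Mat r R) c}
  mul_mem' := by
    intro a b ha hb
    exact BlockTriangular.mul ha hb
  one_mem' := blockTriangular_one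
  inv_mem' := by
    intro a ha
    have : Invertible (a : Mat r R) := a.invertible
    have h := blockTriangular_inv_of_blockTriangular (show BlockTriangular (a : Mat r R) c from ha)
    rwa [← Matrix.coe_units_inv] at h

theorem mem_BTr {c : Fin r → Fin r} {x : (Mat r R)ˣ} :
    x ∈ BTr c ↔ BlockTriangular (x : Mat r R) c := Iff.rfl

theorem PhiU_mem_BTr (φ : R →+* ℂ) {c : Fin r → Fin r} {x : (Mat r R)ˣ} (hx : x ∈ BTr c) :
    PhiU φ x ∈ BTr c := by
  intro i j hij
  rw [PhiU_coe, Matrix.map_apply, (mem_BTr.1 hx) hij, map_zero]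

theorem mem_BTr_of_upper {c : Fin r → Fin r} (hc : Monotone c) {x : (Mat r R)ˣ}
    (hx : ∀ i j, j < i → (x : Mat r R) i j = 0) : x ∈ BTr c := by
  intro i j hij
  apply hx
  by_contra h
  exact absurd (hc (not_lt.1 h)) (not_le.2 hij)

/-- A diagonal unit. -/
def diagU (x : Fin r → Rˣ) : (Mat r R)ˣ where
  val := diagonal fun i => (x i : R)
  inv := diagonal fun i => ((x i)⁻¹ : Rˣ)
  val_inv := by
    rw [diagonal_mul_diagonal]
    have : (fun i => (x i : R) * ((x i)⁻¹ : Rˣ)) = fun _ => 1 := by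
      funext i
      rw [← Units.val_mul, mul_inv_cancel, Units.val_one]
    rw [this, diagonal_one]
  inv_val := by
    rw [diagonal_mul_diagonal]
    have : (fun i => (((x i)⁻¹ : Rˣ) : R) * (x i : R)) = fun _ => 1 := by
      funext i
      rw [← Units.val_mul, inv_mul_cancel, Units.val_one]
    rw [this, diagonal_one]

/-- A permutation unit: the entry `(i, j)` is one if `i = π j`. -/
def permU (π : Equiv.Perm (Fin r)) : (Mat r R)ˣ where
  val := (1 : Mat r R).submatrix id π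
  inv := (1 : Mat r R).submatrix π id
  val_inv := by
    ext i j
    rw [Matrix.mul_apply, Finset.sum_eq_single (π.symm i)]
    · change (1 : Mat r R) i (π (π.symm i)) * (1 : Mat r R) (π (π.symm i)) j = _
      rw [Equiv.apply_symm_apply, one_apply_eq, one_mul]
    · intro k _ hk
      change (1 : Mat r R) i (π k) * _ = _
      rw [one_apply_ne, zero_mul]
      rintro rfl
      exact hk (Equiv.symm_apply_apply _ _).symm
    · intro h; exact absurd (Finset.mem_univ _) h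
  inv_val := by
    ext i j
    rw [Matrix.mul_apply, Finset.sum_eq_single (π i)]
    · change (1 : Mat r R) (π i) (π i) * (1 : Mat r R) (π i) (π j) = _
      rw [one_apply_eq, one_mul, one_apply, one_apply]
      simp only [π.injective.eq_iff]
    · intro k _ hk
      change (1 : Mat r R) (π i) k * _ = _
      rw [one_apply_ne, zero_mul]
      exact fun h => hk h.symm
    · intro h; exact absurd (Finset.mem_univ _) h

theorem permU_apply (π : Equiv.Perm (Fin r)) (i j : Fin r) :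
    (permU π : (Mat r R)ˣ).val i j = if i = π j then 1 else 0 := by
  change (1 : Mat r R) i (π j) = _
  rw [one_apply]

theorem permU_inv_apply (π : Equiv.Perm (Fin r)) (i j : Fin r) :
    ((permU π)⁻¹ : (Mat r R)ˣ).val i j = if π i = j then 1 else 0 := by
  change (1 : Mat r R) (π i) j = _
  rw [one_apply]

theorem permU_mem_BTr {c : Fin r → Fin r} (π : Equiv.Perm (Fin r)) (hc : ∀ i, c (π i) = c i) :
    (permU π : (Mat r R)ˣ) ∈ BTr c := by
  intro i j hij
  rw [permU_apply, if_neg]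
  rintro rfl
  rw [hc] at hij
  exact lt_irrefl _ hij

theorem permU_diagU (π : Equiv.Perm (Fin r)) (x t : Fin r → Rˣ) (h : ∀ i, t (π i) = x i) :
    (permU π : (Mat r R)ˣ) * diagU x = diagU t * permU π := by
  apply Units.ext
  ext i j
  rw [Units.val_mul, Units.val_mul]
  change ((permU π : (Mat r R)ˣ).val * diagonal fun i => (x i : R)) i j =
    ((diagonal fun i => (t i : R)) * (permU π : (Mat r R)ˣ).val) i j
  rw [mul_diagonal, diagonal_mul, permU_apply]
  by_cases hij : i = π j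
  · rw [if_pos hij, one_mul, mul_one, hij, h]
  · rw [if_neg hij, zero_mul, mul_zero]

theorem det_permU (π : Equiv.Perm (Fin r)) :
    ((permU π : (Mat r R)ˣ) : Mat r R).det ^ 2 = 1 := by
  change ((1 : Mat r R).submatrix id π).det ^ 2 = 1
  rw [Matrix.det_permute', Matrix.det_one, mul_one]
  rcases Int.units_eq_one_or (Equiv.Perm.sign π) with h | h
  · rw [h]; simp
  · rw [h]; simp

end Prelim2

section Tor2

variable {R : Type*} [CommRing R] {r : ℕ}

/-- the multiplicatively independent units -/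
def tB (r : ℕ) (u : Rˣ) (b : Fin r) : Rˣ := u ^ (r * (2 * r + 4) ^ (b : ℕ))

theorem phi_tB_pow (φ : R →+* ℂ) (u : Rˣ) (N : ℕ) (b : Fin r) :
    φ (tB r u b : R) ^ N = φ (u : R) ^ (r * N * (2 * r + 4) ^ (b : ℕ)) := by
  rw [tB, Units.val_pow_eq_pow_val, map_pow, ← pow_mul]
  congr 1
  ring

theorem tB_pow_inj (φ : R →+* ℂ) (u : Rˣ) (hu : ∀ k : ℕ, 0 < k → φ (u : R) ^ k ≠ 1) (hr : 1 ≤ r)
    (N : ℕ) (hN : 0 < N) (b b' : Fin r) (h : (tB r u b) ^ N = (tB r u b') ^ N) : b = b' := by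
  have h1 := congrArg (fun x : Rˣ => φ (x : R)) h
  simp only [Units.val_pow_eq_pow_val, map_pow] at h1
  rw [phi_tB_pow, phi_tB_pow] at h1
  have h2 := phi_pow_inj φ u hu h1
  have h3 := Nat.eq_of_mul_eq_mul_left (Nat.mul_pos hr hN) h2
  exact Fin.ext (Nat.pow_right_injective (by omega) h3)

theorem sum_base_pow_inj (D : ℕ) (e e' : Fin r → ℕ) (he : ∑ i, e i ≤ D) (he' : ∑ i, e' i ≤ D)
    (h : ∑ i : Fin r, e i * (D + 1) ^ (i : ℕ) = ∑ i : Fin r, e' i * (D + 1) ^ (i : ℕ)) :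
    e = e' := by
  rcases Nat.eq_zero_or_pos D with hD | hD
  · subst hD
    have h0 : ∀ e : Fin r → ℕ, ∑ i, e i ≤ 0 → ∀ i, e i = 0 := by
      intro e he i
      have := Finset.single_le_sum (f := e) (fun i _ => Nat.zero_le _) (Finset.mem_univ i)
      omega
    funext i
    rw [h0 e he, h0 e' he']
  have key : ∀ e : Fin r → ℕ, ∑ i : Fin r, e i * (D + 1) ^ (i : ℕ) =
      Nat.ofDigits (D + 1) (List.ofFn e) := by
    intro e
    rw [Nat.ofDigits_eq_sum_mapIdx]
    have h1 : (List.mapIdx (fun i a => a * (D + 1) ^ i) (List.ofFn e)) =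
        List.ofFn fun i : Fin r => e i * (D + 1) ^ (i : ℕ) := by
      apply List.ext_getElem
      · simp
      · intro n h1 h2
        simp
    rw [h1, List.sum_ofFn]
  rw [key, key] at h
  have hlt : ∀ e : Fin r → ℕ, ∑ i, e i ≤ D → ∀ l ∈ List.ofFn e, l < D + 1 := by
    intro e he l hl
    rw [List.mem_ofFn] at hl
    obtain ⟨i, rfl⟩ := hl
    have := Finset.single_le_sum (f := e) (fun i _ => Nat.zero_le _) (Finset.mem_univ i)
    omega
  have h3 := Nat.ofDigits_inj_of_len_eq (b := D + 1) (by omega) (by simp) (hlt e he)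
    (hlt e' he') h
  exact List.ofFn_injective h3

theorem free_tB (φ : R →+* ℂ) (u : Rˣ) (hu : ∀ k : ℕ, 0 < k → φ (u : R) ^ k ≠ 1) (hr : 1 ≤ r)
    (N : ℕ) (hN : 0 < N) :
    FreeUpTo (2 * r + 3) fun b : Fin r => φ ((tB r u b)⁻¹ : Rˣ) ^ N := by
  intro e e' hee hD h
  have hφu : φ (u : R) ≠ 0 := (u.isUnit.map φ).ne_zero
  have h1 : ∀ b : Fin r, φ ((tB r u b)⁻¹ : Rˣ) ^ N =
      (φ (u : R) ^ (r * N * (2 * r + 4) ^ (b : ℕ)))⁻¹ := by
    intro b
    rw [← phi_tB_pow φ u N b]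
    apply eq_inv_of_mul_eq_one_left
    rw [← mul_pow, ← map_mul, ← Units.val_mul, inv_mul_cancel, Units.val_one, map_one, one_pow]
  have hprod : ∀ e : Fin r → ℕ, ∏ i, (φ ((tB r u i)⁻¹ : Rˣ) ^ N) ^ e i =
      (φ (u : R) ^ (r * N * ∑ i : Fin r, e i * (2 * r + 4) ^ (i : ℕ)))⁻¹ := by
    intro e
    simp only [h1, inv_pow, ← pow_mul, Finset.prod_inv_distrib]
    rw [Finset.prod_pow_eq_pow_sum, Finset.mul_sum]
    congr 2
    refine Finset.sum_congr rfl fun i _ => ?_
    ring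
  rw [hprod, hprod, _root_.inv_inj] at h
  have h2 := phi_pow_inj φ u hu h
  have h3 := Nat.eq_of_mul_eq_mul_left (Nat.mul_pos hr hN) h2
  exact sum_base_pow_inj (2 * r + 3) e e' hD (by rw [← hee]; exact hD) h3

end Tor2

section Data2

variable {R : Type*} [CommRing R] {r n : ℕ}

theorem exists_data2 (φ : R →+* ℂ) (hφ : Function.Injective φ) (N : ℕ) (hN : 0 < N)
    (hμ : ∀ z : ℂ, z ^ N = 1 → z ∈ Set.range φ) (C : (Mat r ℂ)ˣ)
    (hC : IsNilpotent ((C : Mat r ℂ) ^ N - 1)) :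
    ∃ δ : Fin r → Rˣ, (∀ i, δ i ^ N = 1) ∧ ∀ (σ : Equiv.Perm (Fin r)) (Δ : R), φ Δ ≠ 0 →
      ∃ J : (Mat r R)ˣ, IsJ Δ (fun i => (δ (σ i) : R)) (J : Mat r R) ∧ IsConj C (PhiU φ J) := by
  obtain ⟨d, hd, h⟩ := exists_jordan_perm (C : Mat r ℂ) N hC
  have hlift : ∀ i, ∃ δ : Rˣ, φ (δ : R) = d i ∧ δ ^ N = 1 := by
    intro i
    obtain ⟨γ, hγ⟩ := hμ (d i) (hd i)
    have h2 : γ ^ N = 1 := by
      apply hφ
      rw [map_pow, hγ, hd, map_one]
    obtain ⟨c, rfl⟩ := IsUnit.of_pow_eq_one h2 (by omega)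
    refine ⟨c, hγ, ?_⟩
    apply Units.ext
    rw [Units.val_pow_eq_pow_val, h2, Units.val_one]
  choose δ hδ1 hδ2 using hlift
  refine ⟨δ, hδ2, fun σ Δ hΔ => ?_⟩
  obtain ⟨ν, hν, h⟩ := h σ
  have hJ : IsJ Δ (fun i => (δ (σ i) : R)) (diagonal (fun i => (δ (σ i) : R)) +
      Δ • ν.map (Int.castRingHom R)) := by
    refine ⟨ν.map (Int.castRingHom R), ?_, rfl⟩
    intro i j hij
    rw [Matrix.map_apply, hν i j hij, map_zero]
  have hu : IsUnit (diagonal (fun i => (δ (σ i) : R)) + Δ • ν.map (Int.castRingHom R)) := by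
    rw [Matrix.isUnit_iff_isUnit_det, hJ.det, ← Units.coe_prod]
    exact Units.isUnit _
  obtain ⟨J, hJ'⟩ := hu
  refine ⟨J, by rw [hJ']; exact hJ, ?_⟩
  obtain ⟨P, hP⟩ := h (φ Δ) hΔ
  rw [isConj_comm, isConj_iff]
  refine ⟨P, ?_⟩
  apply Units.ext
  rw [Units.val_mul, Units.val_mul, PhiU_coe, hJ', hP]
  congr 2
  ext i j
  simp only [Matrix.map_apply, Matrix.add_apply, Matrix.smul_apply, smul_eq_mul, map_add,
    map_mul]
  congr 1
  · by_cases hij : i = j
    · subst hij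
      simp [hδ1]
    · simp [Matrix.diagonal_apply_ne _ hij]
  · congr 1
    simp

theorem finish2 {k : ℕ} (φ : R →+* ℂ) (hφ : Function.Injective φ) (C : Fin n → (Mat r ℂ)ˣ)
    (J : Fin n → (Mat r R)ˣ) (hJ : ∀ j, IsConj (C j) (PhiU φ (J j)))
    (hJdet : ∀ j, ∃ c : Rˣ, (J j : Mat r R).det = (c : R) ^ r)
    (x t : Fin r → Rˣ) (V : (Mat r R)ˣ) (π : Equiv.Perm (Fin r)) (c : Fin r → Fin r)
    (hX : ∃ c : Rˣ, ((diagU x : (Mat r R)ˣ) : Mat r R).det = (c : R) ^ r)
    (hVP : ∃ c : Rˣ, ((V * permU π : (Mat r R)ˣ) : Mat r R).det = (c : R) ^ r)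
    (ht : ∀ i, t (π i) = x i) (htinj : Function.Injective fun i => (t i : R))
    (hc : Monotone c) (hcπ : ∀ i, c (π i) = c i)
    (hcc : ∀ a b, c a = c b → ∃ k : ℕ, (π ^ k) a = b)
    (hJt : ∀ j i i', i' < i → (J j : Mat r R) i i' = 0)
    (hVt : ∀ i i', i' < i → (V : Mat r R) i i' = 0) (hVd : ∀ i, (V : Mat r R) i i = 1)
    (N : ℕ) (τ : Fin r → ℂ) (hτ : ∀ i, φ ((t i)⁻¹ : Rˣ) ^ N = τ (c i))
    (hfree : FreeUpTo (2 * r + 3) τ)
    (hprod : (List.ofFn fun j => J j).prod *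
      (diagU x * (V * permU π) * (diagU x)⁻¹ * (V * permU π)⁻¹) = 1) :
    ∃ J : Fin n → (Mat r ℂ)ˣ, (∀ j, IsConj (C j) (J j)) ∧ ∃ ρ ∈ DFr (g := k + 1 + 1) φ J,
      ρ (gB (Fin.last (k + 1))) = 1 ∧ (∀ j, ρ (gD j) = 1) ∧
        ∃ (q₀ : Loop (k + 1) n) (U : (Mat r ℂ)ˣ) (α : Fin r → ℂ) (c : Fin r → Fin r) (M : ℕ)
          (τ : Fin r → ℂ), BlockData (fun q => ρ (loopW q)) q₀ U α c M τ := by
  obtain ⟨a, ha⟩ : ∃ a : Fin (k + 1 + 1) → (Mat r R)ˣ, a = Fin.cons (diagU x) fun _ => 1 :=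
    ⟨_, rfl⟩
  obtain ⟨b, hb⟩ : ∃ b : Fin (k + 1 + 1) → (Mat r R)ˣ, b = Fin.cons (V * permU π) fun _ => 1 :=
    ⟨_, rfl⟩
  let ρ : FF (k + 1 + 1) n →* (Mat r ℂ)ˣ := FreeGroup.lift fun k =>
    match k with
    | Sum.inl (i, false) => PhiU φ (a i)
    | Sum.inl (i, true) => PhiU φ (b i)
    | Sum.inr (_, false) => 1
    | Sum.inr (j, true) => PhiU φ (J j)
  have hA : ∀ i, ρ (gA i) = PhiU φ (a i) := fun i => FreeGroup.lift_apply_of
  have hB : ∀ i, ρ (gB i) = PhiU φ (b i) := fun i => FreeGroup.lift_apply_of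
  have hD : ∀ j, ρ (gD j) = 1 := fun i => FreeGroup.lift_apply_of
  have hE : ∀ j, ρ (gE j) = PhiU φ (J j) := fun i => FreeGroup.lift_apply_of
  have hC : ∀ j, ρ (gC j) = PhiU φ (J j) := by
    intro j
    rw [gC_eqn, map_mul, map_mul, map_inv, hD, hE, one_mul, inv_one, mul_one]
  have hH : ∀ i, ρ (hcomm i) = PhiU φ (a i * b i * (a i)⁻¹ * (b i)⁻¹) := by
    intro i
    rw [hcomm_eqn, map_mul, map_mul, map_mul, map_inv, map_inv, hA, hB, map_mul, map_mul, map_mul,
      map_inv, map_inv]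
  have ha0 : a 0 = diagU x := by rw [ha]; rfl
  have hb0 : b 0 = V * permU π := by rw [hb]; rfl
  have hasucc : ∀ i : Fin (k + 1), a i.succ = 1 := fun i => by rw [ha]; rfl
  have hbsucc : ∀ i : Fin (k + 1), b i.succ = 1 := fun i => by rw [hb]; rfl
  have hone : ∃ c : Rˣ, ((1 : (Mat r R)ˣ) : Mat r R).det = (c : R) ^ r := ⟨1, by simp⟩
  -- all values are block triangular
  have hall : ∀ w, ρ w ∈ BTr c := by
    have h1 : (⊤ : Subgroup (FF (k + 1 + 1) n)) ≤ (BTr c).comap ρ := by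
      rw [← FreeGroup.closure_range_of, Subgroup.closure_le]
      have hPi : (permU π : (Mat r R)ˣ) ∈ BTr c := permU_mem_BTr π hcπ
      have hV : V ∈ BTr c := mem_BTr_of_upper hc hVt
      have hXc : (diagU x : (Mat r R)ˣ) ∈ BTr c := mem_BTr_of_upper hc fun i j hij =>
        diagonal_apply_ne _ hij.ne'
      rintro _ ⟨(⟨i, b'⟩ | ⟨j, b'⟩), rfl⟩
      · cases b' with
        | false =>
          have h2 := hA i
          rw [gA_eqn] at h2
          rw [SetLike.mem_coe, Subgroup.mem_comap, h2]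
          refine PhiU_mem_BTr φ ?_
          refine Fin.cases ?_ (fun i => ?_) i
          · rw [ha0]; exact hXc
          · rw [hasucc]; exact one_mem _
        | true =>
          have h2 := hB i
          rw [gB_eqn] at h2
          rw [SetLike.mem_coe, Subgroup.mem_comap, h2]
          refine PhiU_mem_BTr φ ?_
          refine Fin.cases ?_ (fun i => ?_) i
          · rw [hb0]; exact mul_mem hV hPi
          · rw [hbsucc]; exact one_mem _
      · cases b' with
        | false =>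
          have h2 := hD j
          rw [gD_eqn] at h2
          rw [SetLike.mem_coe, Subgroup.mem_comap, h2]
          exact one_mem _
        | true =>
          have h2 := hE j
          rw [gE_eqn] at h2
          rw [SetLike.mem_coe, Subgroup.mem_comap, h2]
          exact PhiU_mem_BTr φ (mem_BTr_of_upper hc (hJt j))
    intro w
    exact h1 (Subgroup.mem_top w)
  obtain ⟨q₀, hq₀⟩ : ∃ q₀ : Loop (k + 1) n, q₀ = Sum.inr (0, false) := ⟨_, rfl⟩
  obtain ⟨q₁, hq₁⟩ : ∃ q₁ : Loop (k + 1) n, q₁ = Sum.inr (0, true) := ⟨_, rfl⟩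
  obtain ⟨κ, hκ⟩ : ∃ κ, κ = ρ (kap q₀) := ⟨_, rfl⟩
  have hκ₁ : ρ (kap q₁) = κ := by
    rw [hκ, hq₀, hq₁]
    rfl
  obtain ⟨W, hW⟩ : ∃ W, W = PhiU φ V := ⟨_, rfl⟩
  have hWc : W ∈ BTr c := by
    rw [hW]
    exact PhiU_mem_BTr φ (mem_BTr_of_upper hc hVt)
  have hUc : κ⁻¹ * W ∈ BTr c := mul_mem (inv_mem (by rw [hκ]; exact hall _)) hWc
  have hP₀ : ρ (loopW q₀) = (κ⁻¹ * W) * PhiU φ ((diagU t)⁻¹) * (κ⁻¹ * W)⁻¹ := by
    have h1 : loopW q₀ = (kap q₀)⁻¹ * (gB (0 : Fin (k + 1)).castSucc *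
        (gA (0 : Fin (k + 1)).castSucc)⁻¹ * (gB (0 : Fin (k + 1)).castSucc)⁻¹) * kap q₀ := by
      rw [hq₀]; rfl
    have h2 : ρ (gB (0 : Fin (k + 1)).castSucc) = PhiU φ (V * permU π) := by
      rw [Fin.castSucc_zero, hB, hb0]
    have h3 : ρ (gA (0 : Fin (k + 1)).castSucc) = PhiU φ (diagU x) := by
      rw [Fin.castSucc_zero, hA, ha0]
    have h4 : (V * permU π) * (diagU x)⁻¹ * (V * permU π)⁻¹ = V * (diagU t)⁻¹ * V⁻¹ := by
      have h5 := permU_diagU π x t ht
      have h6 : permU π * (diagU x)⁻¹ = (diagU t : (Mat r R)ˣ)⁻¹ * permU π := by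
        rw [mul_inv_eq_iff_eq_mul, mul_assoc, h5, inv_mul_cancel_left]
      rw [mul_assoc V, h6, _root_.mul_inv_rev]
      group
    rw [h1, map_mul, map_mul, map_mul, map_mul, map_inv, map_inv, map_inv, h2, h3, ← hκ,
      ← map_inv (PhiU φ), ← map_inv (PhiU φ), ← map_mul, ← map_mul, h4, map_mul, map_mul,
      map_inv (PhiU φ) V, ← hW, _root_.mul_inv_rev, inv_inv]
    simp only [mul_assoc]
  refine ⟨fun j => PhiU φ (J j), hJ, ρ, ⟨?_, hE, ?_, ?_⟩, ?_, hD, q₀, κ⁻¹ * W,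
    fun i => φ ((t i)⁻¹ : Rˣ), c, N, τ, ⟨?_, ?_, ?_, ?_, hτ, hfree⟩⟩
  · rw [relator_eqn, map_mul, map_list_prod, map_list_prod, List.map_ofFn, List.map_ofFn]
    have e1 : (⇑ρ ∘ fun j : Fin n => gC j) = fun j => PhiU φ (J j) := funext hC
    have e2 : (⇑ρ ∘ fun i : Fin (k + 1 + 1) => hcomm i) =
        fun i => PhiU φ (a i * b i * (a i)⁻¹ * (b i)⁻¹) := funext hH
    rw [e1, e2]
    have h1 := congrArg (PhiU φ) hprod
    rw [map_mul, map_list_prod, List.map_ofFn, map_one] at h1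
    rw [List.ofFn_succ, List.prod_cons, ha0, hb0]
    simp only [hasucc, hbsucc, mul_one, inv_one, map_one, List.ofFn_const, List.prod_replicate,
      one_pow]
    exact h1
  · rintro ⟨i, b'⟩
    cases b' with
    | false =>
      have h2 := hA i
      rw [gA_eqn] at h2
      rw [h2]
      refine Fin.cases ?_ (fun i => ?_) i
      · rw [ha0]
        obtain ⟨c', hc'⟩ := hX
        exact PhiU_mem_GR φ _ c' hc'
      · rw [hasucc, map_one]; exact one_mem _
    | true =>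
      have h2 := hB i
      rw [gB_eqn] at h2
      rw [h2]
      refine Fin.cases ?_ (fun i => ?_) i
      · rw [hb0]
        obtain ⟨c', hc'⟩ := hVP
        exact PhiU_mem_GR φ _ c' hc'
      · rw [hbsucc, map_one]; exact one_mem _
  · intro j
    rw [hC]
    obtain ⟨c', hc'⟩ := hJdet j
    exact PhiU_mem_GR φ _ c' hc'
  · have h1 : Fin.last (k + 1) = (Fin.last k).succ := rfl
    rw [hB, h1, hbsucc, map_one]
  · rw [hP₀, Units.val_mul, Units.val_mul]
    congr 2
    rw [PhiU_coe]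
    change (diagonal fun i => (((t i)⁻¹ : Rˣ) : R)).map φ = _
    ext i j
    by_cases hij : i = j
    · subst hij; simp
    · simp [Matrix.diagonal_apply_ne _ hij]
  · intro i j hij
    apply htinj
    have h1 : (t i)⁻¹ = (t j)⁻¹ := Units.ext (hφ hij)
    simp only [inv_injective h1]
  · intro q i j hij
    exact (mem_BTr.1 (mul_mem (mul_mem (inv_mem hUc) (hall _)) hUc)) hij
  · -- the blocks are irreducible
    have hP₁ : (κ⁻¹ * W)⁻¹ * ρ (loopW q₁) * (κ⁻¹ * W) = PhiU φ (V⁻¹ * (permU π)⁻¹) := by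
      have h1 : loopW q₁ = (kap q₁)⁻¹ * (gB (0 : Fin (k + 1)).castSucc)⁻¹ * kap q₁ := by
        rw [hq₁]; rfl
      have h2 : ρ (gB (0 : Fin (k + 1)).castSucc) = PhiU φ (V * permU π) := by
        rw [Fin.castSucc_zero, hB, hb0]
      rw [h1, map_mul, map_mul, map_inv, map_inv, h2, hκ₁, map_mul, map_mul, map_inv (PhiU φ) V,
        map_inv (PhiU φ), ← hW]
      group
    have hVinv : ∀ i, ((V⁻¹ : (Mat r R)ˣ) : Mat r R) i i = 1 := by
      intro i
      have hV1 : V ∈ BTr (id : Fin r → Fin r) := mem_BTr_of_upper monotone_id hVt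
      have hV2 : V⁻¹ ∈ BTr (id : Fin r → Fin r) := inv_mem hV1
      have h1 : ((V : Mat r R) * ((V⁻¹ : (Mat r R)ˣ) : Mat r R)) i i = 1 := by
        rw [← Units.val_mul, mul_inv_cancel, Units.val_one, one_apply_eq]
      rw [Matrix.mul_apply, Finset.sum_eq_single i, hVd, one_mul] at h1
      · exact h1
      · intro l _ hl
        rcases lt_or_gt_of_ne hl with h | h
        · rw [hVt i l h, zero_mul]
        · rw [(mem_BTr.1 hV2) (show id i < id l from h), mul_zero]
      · intro h; exact absurd (Finset.mem_univ _) h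
    have hstep : ∀ i, (((κ⁻¹ * W)⁻¹ * ρ (loopW q₁) * (κ⁻¹ * W) : (Mat r ℂ)ˣ) : Mat r ℂ)
        i (π i) ≠ 0 := by
      intro i
      rw [hP₁, PhiU_coe, Matrix.map_apply, Units.val_mul, Matrix.mul_apply,
        Finset.sum_eq_single i, permU_inv_apply, if_pos rfl, hVinv, mul_one, map_one]
      · exact one_ne_zero
      · intro l _ hl
        rw [permU_inv_apply, if_neg, mul_zero]
        exact fun h => hl (π.injective h)
      · intro h; exact absurd (Finset.mem_univ _) h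
    intro i j hij
    obtain ⟨l, hl⟩ := hcc i j hij
    subst hl
    clear hij
    induction l with
    | zero => exact Relation.ReflTransGen.refl
    | succ l ih =>
      refine ih.tail ⟨q₁, ?_⟩
      rw [pow_succ', Equiv.Perm.mul_apply]
      exact hstep _

/-- TASK A' : existence of base points for all classes. -/
theorem exists_base2 {m : ℕ} (φ : R →+* ℂ) (hφ : Function.Injective φ) (u : Rˣ)
    (hu : ∀ k : ℕ, 0 < k → φ (u : R) ^ k ≠ 1) (hr : 1 ≤ r) (N : ℕ) (hN : 0 < N)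
    (hμ : ∀ z : ℂ, z ^ (2 * N * r) = 1 → z ∈ Set.range φ)
    (C : Fin n → (Mat r ℂ)ˣ) (hC : ∀ j, IsNilpotent ((C j : Mat r ℂ) ^ N - 1))
    (hdet : ∏ j, (C j : Mat r ℂ).det = 1) (hm : 1 ≤ m) :
    ∃ J : Fin n → (Mat r ℂ)ˣ, (∀ j, IsConj (C j) (J j)) ∧ ∃ ρ ∈ DFr (g := m + 1) φ J,
      ρ (gB (Fin.last m)) = 1 ∧ (∀ j, ρ (gD j) = 1) ∧
        ∃ (q₀ : Loop m n) (U : (Mat r ℂ)ˣ) (α : Fin r → ℂ) (c : Fin r → Fin r) (M : ℕ)
          (τ : Fin r → ℂ), BlockData (fun q => ρ (loopW q)) q₀ U α c M τ := by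
  obtain ⟨k, rfl⟩ : ∃ k, m = k + 1 := ⟨m - 1, by omega⟩
  have hroot : ∀ z : R, z ^ (2 * N) = 1 → ∃ c : Rˣ, z = (c : R) ^ r := fun z hz =>
    exists_root φ hφ hr (2 * N) (by omega) hμ z hz
  have hμ' : ∀ z : ℂ, z ^ N = 1 → z ∈ Set.range φ := by
    intro z hz
    apply hμ
    rw [mul_comm 2 N, mul_assoc, pow_mul, hz, one_pow]
  have hpowN : ∀ c : Rˣ, c ^ N = 1 → c ^ (2 * N) = 1 := by
    intro c hc
    rw [mul_comm, pow_mul, hc, one_pow]
  choose δ hδ hJex using fun j => exists_data2 φ hφ N hN hμ' (C j) (hC j)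
  let p : Fin r → Rˣ := fun i => ∏ j, δ j i
  have hp1 : ∀ i, p i ^ N = 1 := by
    intro i
    simp only [p]
    rw [← Finset.prod_pow]
    exact Finset.prod_eq_one fun j _ => hδ j i
  have hpprod : ∏ i, p i = 1 := by
    apply Units.ext
    apply hφ
    rw [Units.val_one, map_one, ← hdet]
    simp only [p]
    rw [Finset.prod_comm, Units.coe_prod, map_prod]
    refine Finset.prod_congr rfl fun j _ => ?_
    obtain ⟨J, hJ1, hJ2⟩ := hJex j 1 1 (by rw [map_one]; exact one_ne_zero)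
    obtain ⟨X, hX⟩ := isConj_iff.mp hJ2
    have h1 : ((PhiU φ J : (Mat r ℂ)ˣ) : Mat r ℂ).det = (C j : Mat r ℂ).det := by
      rw [← hX, Units.val_mul, Units.val_mul, Matrix.det_mul, Matrix.det_mul, mul_right_comm,
        ← Matrix.det_mul, ← Units.val_mul, mul_inv_cancel, Units.val_one, Matrix.det_one, one_mul]
    rw [← h1, PhiU_coe]
    have h2 : φ ((J : Mat r R).det) = ((J : Mat r R).map φ).det := RingHom.map_det φ _
    rw [← h2, hJ1.det, Units.coe_prod]
    rfl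
  obtain ⟨σ, π, y, c, hy, hc, hcπ, hcc, hyinj, hyN⟩ := exists_order p hpprod
  have hyN := hyN N hp1
  let x : Fin r → Rˣ := fun i => tB r u (c i) * y i
  let t : Fin r → Rˣ := fun i => x (π.symm i)
  have htπ : ∀ i, t (π i) = x i := fun i => by
    simp only [t, Equiv.symm_apply_apply]
  have htd : ∀ i, t i = p (σ i) * x i := by
    intro i
    obtain ⟨a, rfl⟩ := π.surjective i
    rw [htπ]
    simp only [x]
    rw [hcπ, hy a]
    ac_rfl
  have hxinj : Function.Injective x := by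
    intro i j hij
    have h1 : (tB r u (c i)) ^ N = (tB r u (c j)) ^ N := by
      have h2 := congrArg (fun z : Rˣ => z ^ N) hij
      simp only [x, mul_pow, hyN, mul_one] at h2
      exact h2
    have h3 := tB_pow_inj φ u hu hr N hN _ _ h1
    simp only [x, h3] at hij
    exact hyinj i j h3 (mul_left_cancel hij)
  have htinj : Function.Injective fun i => (t i : R) := by
    intro i j hij
    exact π.symm.injective (hxinj (Units.ext hij))
  obtain ⟨Δ, hΔdef⟩ : ∃ Δ, Δ = discT fun i => (t i : R) := ⟨_, rfl⟩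
  have hΔ : φ Δ ≠ 0 := by
    rw [hΔdef]
    exact phi_discT_ne φ hφ _ htinj
  choose J hJ hconj using fun j => hJex j σ Δ hΔ
  -- the product of the boundary matrices
  have hP := IsJ.list (Δ := Δ) (fun j i => (δ j (σ i) : R)) (fun j => (J j : Mat r R)) hJ
    (List.finRange n)
  obtain ⟨E, hE, hPE⟩ := hP
  have hp : ((List.finRange n).map fun j i => (δ j (σ i) : R)).prod = fun i => (p (σ i) : R) := by
    rw [← List.ofFn_eq_map, List.prod_ofFn]
    funext i
    rw [Finset.prod_apply, ← Units.coe_prod]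
  rw [hp] at hPE
  have hprodJ : (((List.ofFn fun j => J j).prod : (Mat r R)ˣ) : Mat r R) =
      diagonal (fun i => (p (σ i) : R)) + Δ • E := by
    rw [← hPE, ← List.ofFn_eq_map, ← Units.coeHom_apply, map_list_prod, List.map_ofFn]
    rfl
  -- the triangular part
  obtain ⟨V, hVlow, hVdiag, hV⟩ := exists_comm_tri (fun i => (t i : R)) Δ
    (discwT fun i => (t i : R)) (fun i j hij => by rw [hΔdef]; exact discwT_mul _ i j hij)
    (E * diagonal fun i => (((p (σ i))⁻¹ : Rˣ) : R)) (hE.mul_diag _)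
  have hVdet : V.det = 1 := by
    rw [Matrix.det_of_isUpperTriangular]
    · simp [hVdiag]
    · intro i j hij
      exact hVlow i j hij
  obtain ⟨VU, hVU⟩ := exists_unit_of_det (Y := V) (by rw [hVdet]; exact isUnit_one)
  have hprodX : (((List.ofFn fun j => J j).prod * diagU x : (Mat r R)ˣ) : Mat r R) =
      (1 + Δ • (E * diagonal fun i => (((p (σ i))⁻¹ : Rˣ) : R))) * diagonal fun i => (t i : R) := by
    rw [Units.val_mul, hprodJ]
    change (diagonal (fun i => (p (σ i) : R)) + Δ • E) * (diagonal fun i => (x i : R)) = _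
    rw [Matrix.add_mul, Matrix.add_mul, Matrix.one_mul, Matrix.smul_mul, Matrix.smul_mul,
      Matrix.mul_assoc, diagonal_mul_diagonal, diagonal_mul_diagonal]
    congr 3
    · funext i
      rw [htd]
      exact (Units.val_mul _ _).symm
    · congr 1
      funext i
      rw [htd, ← Units.val_mul, inv_mul_cancel_left]
  have hmain : (List.ofFn fun j => J j).prod *
      (diagU x * (VU * permU π) * (diagU x)⁻¹ * (VU * permU π)⁻¹) = 1 := by
    have h1 : (List.ofFn fun j => J j).prod * diagU x * VU = VU * diagU t := by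
      apply Units.ext
      rw [Units.val_mul, hprodX, hVU, Units.val_mul, hVU]
      exact hV.symm
    have h2 := permU_diagU π x t htπ
    calc (List.ofFn fun j => J j).prod *
          (diagU x * (VU * permU π) * (diagU x)⁻¹ * (VU * permU π)⁻¹) =
        ((List.ofFn fun j => J j).prod * diagU x * VU) * permU π * (diagU x)⁻¹ *
          (VU * permU π)⁻¹ := by simp only [mul_assoc]
      _ = VU * (diagU t * permU π) * (diagU x)⁻¹ * (VU * permU π)⁻¹ := by
          rw [h1]; simp only [mul_assoc]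
      _ = 1 := by rw [← h2]; group
  refine finish2 φ hφ C J hconj ?_ x t VU π c ?_ ?_ htπ htinj hc hcπ hcc ?_ ?_ ?_ N _ ?_
    (free_tB φ u hu hr N hN) hmain
  · intro j
    apply hroot
    rw [(hJ j).det, ← Finset.prod_pow]
    refine Finset.prod_eq_one fun i _ => ?_
    rw [← Units.val_pow_eq_pow_val, hpowN _ (hδ j _), Units.val_one]
  · change ∃ c : Rˣ, (diagonal fun i => (x i : R)).det = (c : R) ^ r
    rw [Matrix.det_diagonal, ← Units.coe_prod]
    simp only [x]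
    rw [Finset.prod_mul_distrib]
    obtain ⟨c₁, hc₁⟩ : ∃ c₁ : Rˣ, ∏ i, tB r u (c i) = c₁ ^ r := by
      refine ⟨u ^ ∑ i : Fin r, (2 * r + 4) ^ ((c i : Fin r) : ℕ), ?_⟩
      unfold tB
      rw [Finset.prod_pow_eq_pow_sum, ← pow_mul, ← Finset.mul_sum, mul_comm]
    obtain ⟨c₂, hc₂⟩ := hroot ((∏ i, y i : Rˣ) : R) (by
      rw [← Units.val_pow_eq_pow_val, ← Finset.prod_pow,
        Finset.prod_eq_one fun i _ => hpowN _ (hyN i), Units.val_one])
    refine ⟨c₁ * c₂, ?_⟩
    rw [Units.val_mul, hc₁, hc₂, Units.val_mul, mul_pow, Units.val_pow_eq_pow_val]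
  · apply hroot
    rw [Units.val_mul, Matrix.det_mul, hVU, hVdet, one_mul, pow_mul, det_permU, one_pow]
  · intro j i i' hij
    obtain ⟨F, hF, hJF⟩ := hJ j
    rw [hJF, Matrix.add_apply, Matrix.smul_apply, diagonal_apply_ne _ hij.ne',
      hF i i' (not_lt.2 hij.le), smul_zero, add_zero]
  · intro i i' hij
    rw [hVU]; exact hVlow i i' hij
  · intro i
    rw [hVU]; exact hVdiag i
  · intro i
    obtain ⟨a, rfl⟩ := π.surjective i
    rw [htπ, hcπ, ← map_pow, ← map_pow, ← Units.val_pow_eq_pow_val, ← Units.val_pow_eq_pow_val]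
    simp only [x, mul_inv, mul_pow, inv_pow, hyN, inv_one, mul_one]

end Data2

end Vale.Agent.P002R
end

section

/-! TASK G3: existence of base points, general coefficients. -/

namespace Vale.Agent.P002R

open Matrix

section JordanE

variable {r : ℕ}

/-- Jordan form with prescribed order of the eigenvalues: the eigenvalues `d` can be rearranged by
an arbitrary permutation. -/
theorem exists_jordan_permE (C : Mat r ℂ) :
    ∃ d : Fin r → ℂ, (∀ i, C.charpoly.IsRoot (d i)) ∧ ∀ σ : Equiv.Perm (Fin r),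
      ∃ ν : Matrix (Fin r) (Fin r) ℤ, (∀ i j, ¬ i < j → ν i j = 0) ∧
        ∀ c : ℂ, c ≠ 0 → ∃ P : (Mat r ℂ)ˣ,
          C = (P : Mat r ℂ) * (diagonal (fun i => d (σ i)) + c • ν.map (Int.castRingHom ℂ)) *
            ((P⁻¹ : (Mat r ℂ)ˣ) : Mat r ℂ) := by
  classical
  obtain ⟨ι, _, _, b, d, pre, h, hb, hpre⟩ :=
    exists_jordan_auxC r (Fin r → ℂ) (Matrix.mulVecLin C) (by simp)
  have hcard : Fintype.card ι = r := by
    rw [← Module.finrank_eq_card_basis b]
    simp
  let e₀ : ι ≃ Fin r := Fintype.equivFinOfCardEq hcard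
  have main : ∀ e₁ : ι ≃ Fin r, ∃ ν : Matrix (Fin r) (Fin r) ℤ, (∀ i j, ¬ i < j → ν i j = 0) ∧
      ∀ N₀ : ℂ, N₀ ≠ 0 → ∃ P : (Mat r ℂ)ˣ,
        C = (P : Mat r ℂ) * (diagonal (fun k => d (e₁.symm k)) +
          N₀ • ν.map (Int.castRingHom ℂ)) * ((P⁻¹ : (Mat r ℂ)ˣ) : Mat r ℂ) := by
    intro e₁
    obtain ⟨e, he1, he2⟩ := exists_stable d h e₁
    obtain ⟨ν, hν1, hν2⟩ := jordan_of_enum b d pre h hb (fun i j hp => (hpre i j hp).1) e
      (fun i j hp => he2 i j (hpre i j hp).2.symm (by rw [(hpre i j hp).1]; exact Nat.lt_succ_self _))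
    refine ⟨ν, hν1, ?_⟩
    simp only [he1] at hν2
    exact hν2
  refine ⟨fun k => d (e₀.symm k), fun i => ?_, fun σ => main (e₀.trans σ.symm)⟩
  obtain ⟨ν, hν1, hν2⟩ := main e₀
  obtain ⟨P, hP⟩ := hν2 1 one_ne_zero
  have h1 : C.charpoly = ∏ i, (Polynomial.X - Polynomial.C (d (e₀.symm i))) := by
    rw [hP, one_smul]
    exact charpoly_conj_aux P _ ν hν1
  rw [h1]
  simp only [Polynomial.IsRoot.def, Polynomial.eval_prod]
  apply Finset.prod_eq_zero (Finset.mem_univ i)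
  simp

end JordanE

section DataE

variable {R : Type*} [CommRing R] {r n : ℕ} {E : Subgroup ℂˣ}

/-- The units of the ring which lie in `E`. -/
def HE (φ : R →+* ℂ) (E : Subgroup ℂˣ) : Subgroup Rˣ := E.comap (Units.map (φ : R →* ℂ))

theorem mem_HE {φ : R →+* ℂ} {x : Rˣ} : x ∈ HE φ E ↔ Units.map (φ : R →* ℂ) x ∈ E := Iff.rfl

theorem exists_mem_HE (φ : R →+* ℂ) (hc : CoefOK φ E r) (hr : 1 ≤ r) (ε : ℂˣ) (hε : ε ∈ E) :
    ∃ δ ∈ HE φ E, φ (δ : R) = (ε : ℂ) := by
  obtain ⟨γ, hγ⟩ := hc.root 1 one_pos hr ε (by rw [pow_one]; exact hε)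
  obtain ⟨γ', hγ'⟩ := hc.root 1 one_pos hr ε⁻¹ (by rw [pow_one]; exact E.inv_mem hε)
  have h2 : γ * γ' = 1 := by
    apply hc.inj
    rw [map_mul, hγ, hγ', map_one, ← Units.val_mul, mul_inv_cancel, Units.val_one]
  refine ⟨⟨γ, γ', h2, by rw [mul_comm]; exact h2⟩, ?_, hγ⟩
  rw [mem_HE]
  have h3 : Units.map (φ : R →* ℂ) ⟨γ, γ', h2, by rw [mul_comm]; exact h2⟩ = ε :=
    Units.ext hγ
  rw [h3]
  exact hε

theorem exists_rootHE (φ : R →+* ℂ) (hc : CoefOK φ E r) (hr : 1 ≤ r) (z : Rˣ)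
    (hz : z ∈ HE φ E) : ∃ c : Rˣ, (z : R) = (c : R) ^ r :=
  exists_rootE φ hc.weak hr (z : R) ⟨_, mem_HE.1 hz, rfl⟩

theorem exists_dataE (φ : R →+* ℂ) (hc : CoefOK φ E r) (hr : 1 ≤ r) (C : (Mat r ℂ)ˣ)
    (hC : EigIn E (C : Mat r ℂ)) :
    ∃ δ : Fin r → Rˣ, (∀ i, δ i ∈ HE φ E) ∧ ∀ (σ : Equiv.Perm (Fin r)) (Δ : R), φ Δ ≠ 0 →
      ∃ J : (Mat r R)ˣ, IsJ Δ (fun i => (δ (σ i) : R)) (J : Mat r R) ∧ IsConj C (PhiU φ J) := by
  obtain ⟨d, hd, h⟩ := exists_jordan_permE (C : Mat r ℂ)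
  have hlift : ∀ i, ∃ δ : Rˣ, φ (δ : R) = d i ∧ δ ∈ HE φ E := by
    intro i
    obtain ⟨ε, hε, hε'⟩ := hC (d i) (hd i)
    obtain ⟨δ, hδ, hδ'⟩ := exists_mem_HE φ hc hr ε hε
    exact ⟨δ, by rw [hδ', hε'], hδ⟩
  choose δ hδ1 hδ2 using hlift
  refine ⟨δ, hδ2, fun σ Δ hΔ => ?_⟩
  obtain ⟨ν, hν, h⟩ := h σ
  have hJ : IsJ Δ (fun i => (δ (σ i) : R)) (diagonal (fun i => (δ (σ i) : R)) +
      Δ • ν.map (Int.castRingHom R)) := by
    refine ⟨ν.map (Int.castRingHom R), ?_, rfl⟩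
    intro i j hij
    rw [Matrix.map_apply, hν i j hij, map_zero]
  have hu : IsUnit (diagonal (fun i => (δ (σ i) : R)) + Δ • ν.map (Int.castRingHom R)) := by
    rw [Matrix.isUnit_iff_isUnit_det, hJ.det, ← Units.coe_prod]
    exact Units.isUnit _
  obtain ⟨J, hJ'⟩ := hu
  refine ⟨J, by rw [hJ']; exact hJ, ?_⟩
  obtain ⟨P, hP⟩ := h (φ Δ) hΔ
  rw [isConj_comm, isConj_iff]
  refine ⟨P, ?_⟩
  apply Units.ext
  rw [Units.val_mul, Units.val_mul, PhiU_coe, hJ', hP]
  congr 2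
  ext i j
  simp only [Matrix.map_apply, Matrix.add_apply, Matrix.smul_apply, smul_eq_mul, map_add,
    map_mul]
  congr 1
  · by_cases hij : i = j
    · subst hij
      simp [hδ1]
    · simp [Matrix.diagonal_apply_ne _ hij]
  · congr 1
    simp

theorem uE_inj (φ : R →+* ℂ) (u : Rˣ) (hu : ∀ k : ℕ, 0 < k → Units.map (φ : R →* ℂ) u ^ k ∉ E)
    (a b : ℕ) (h : u ^ a * (u ^ b)⁻¹ ∈ HE φ E) : a = b := by
  have aux : ∀ a b : ℕ, a < b → u ^ b * (u ^ a)⁻¹ ∉ HE φ E := by
    intro a b hab h1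
    obtain ⟨d, hd, rfl⟩ : ∃ d, 0 < d ∧ b = a + d := ⟨b - a, by omega, by omega⟩
    apply hu d hd
    rw [pow_add, mul_comm (u ^ a), mul_inv_cancel_right, mem_HE, map_pow] at h1
    exact h1
  rcases lt_trichotomy a b with h1 | h1 | h1
  · refine absurd ((HE φ E).inv_mem h) ?_
    rw [mul_inv, inv_inv, mul_comm]
    exact aux a b h1
  · exact h1
  · exact absurd h (aux b a h1)

theorem tB_inj_mod (φ : R →+* ℂ) (u : Rˣ)
    (hu : ∀ k : ℕ, 0 < k → Units.map (φ : R →* ℂ) u ^ k ∉ E) (hr : 1 ≤ r)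
    (b b' : Fin r) (h : tB r u b * (tB r u b')⁻¹ ∈ HE φ E) : b = b' := by
  unfold tB at h
  have h2 := uE_inj φ u hu _ _ h
  have h3 := Nat.eq_of_mul_eq_mul_left hr h2
  exact Fin.ext (Nat.pow_right_injective (by omega) h3)

theorem prod_tB_pow (u : Rˣ) (e : Fin r → ℕ) :
    ∏ i, (tB r u i) ^ e i = u ^ (r * ∑ i : Fin r, e i * (2 * r + 4) ^ (i : ℕ)) := by
  unfold tB
  simp only [← pow_mul]
  rw [Finset.prod_pow_eq_pow_sum, Finset.mul_sum]
  congr 1
  refine Finset.sum_congr rfl fun i _ => ?_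
  ring

theorem freeMod_tB (φ : R →+* ℂ) (u : Rˣ)
    (hu : ∀ k : ℕ, 0 < k → Units.map (φ : R →* ℂ) u ^ k ∉ E) (hr : 1 ≤ r) :
    FreeMod E (2 * r + 3) fun b : Fin r => φ ((tB r u b)⁻¹ : Rˣ) := by
  intro e e' hee hD h
  obtain ⟨ε, hε, h⟩ := h
  have hprod : ∀ e : Fin r → ℕ, ∏ i, (φ ((tB r u i)⁻¹ : Rˣ)) ^ e i =
      ((Units.map (φ : R →* ℂ) (∏ i, (tB r u i) ^ e i)⁻¹ : ℂˣ) : ℂ) := by
    intro e
    rw [← Finset.prod_inv_distrib, map_prod, Units.coe_prod]
    refine Finset.prod_congr rfl fun i _ => ?_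
    rw [← inv_pow, map_pow, Units.val_pow_eq_pow_val]
    rfl
  rw [hprod, hprod] at h
  have h1 : Units.map (φ : R →* ℂ) (∏ i, (tB r u i) ^ e i)⁻¹ =
      ε * Units.map (φ : R →* ℂ) (∏ i, (tB r u i) ^ e' i)⁻¹ := Units.ext h
  have h2 : (∏ i, (tB r u i) ^ e' i) * (∏ i, (tB r u i) ^ e i)⁻¹ ∈ HE φ E := by
    rw [mem_HE, map_mul, h1, mul_left_comm, ← map_mul, mul_inv_cancel, map_one, mul_one]
    exact hε
  rw [prod_tB_pow, prod_tB_pow] at h2
  have h3 := uE_inj φ u hu _ _ h2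
  have h4 := Nat.eq_of_mul_eq_mul_left hr h3
  exact (sum_base_pow_inj (2 * r + 3) e' e (by rw [← hee]; exact hD) hD h4).symm

theorem finishE {k : ℕ} (φ : R →+* ℂ) (hφ : Function.Injective φ) (E : Subgroup ℂˣ) (C : Fin n → (Mat r ℂ)ˣ)
    (J : Fin n → (Mat r R)ˣ) (hJ : ∀ j, IsConj (C j) (PhiU φ (J j)))
    (hJdet : ∀ j, ∃ c : Rˣ, (J j : Mat r R).det = (c : R) ^ r)
    (x t : Fin r → Rˣ) (V : (Mat r R)ˣ) (π : Equiv.Perm (Fin r)) (c : Fin r → Fin r)
    (hX : ∃ c : Rˣ, ((diagU x : (Mat r R)ˣ) : Mat r R).det = (c : R) ^ r)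
    (hVP : ∃ c : Rˣ, ((V * permU π : (Mat r R)ˣ) : Mat r R).det = (c : R) ^ r)
    (ht : ∀ i, t (π i) = x i) (htinj : Function.Injective fun i => (t i : R))
    (hc : Monotone c) (hcπ : ∀ i, c (π i) = c i)
    (hcc : ∀ a b, c a = c b → ∃ k : ℕ, (π ^ k) a = b)
    (hJt : ∀ j i i', i' < i → (J j : Mat r R) i i' = 0)
    (hVt : ∀ i i', i' < i → (V : Mat r R) i i' = 0) (hVd : ∀ i, (V : Mat r R) i i = 1)
    (τ : Fin r → ℂ) (hτ : ∀ i, ∃ ε ∈ E, φ ((t i)⁻¹ : Rˣ) = τ (c i) * (ε : ℂ))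
    (hfree : FreeMod E (2 * r + 3) τ)
    (hprod : (List.ofFn fun j => J j).prod *
      (diagU x * (V * permU π) * (diagU x)⁻¹ * (V * permU π)⁻¹) = 1) :
    ∃ J : Fin n → (Mat r ℂ)ˣ, (∀ j, IsConj (C j) (J j)) ∧ ∃ ρ ∈ DFr (g := k + 1 + 1) φ J,
      ρ (gB (Fin.last (k + 1))) = 1 ∧ (∀ j, ρ (gD j) = 1) ∧
        ∃ (q₀ : Loop (k + 1) n) (U : (Mat r ℂ)ˣ) (α : Fin r → ℂ) (c : Fin r → Fin r)
          (τ : Fin r → ℂ), BlockDataE E (fun q => ρ (loopW q)) q₀ U α c τ := by
  obtain ⟨a, ha⟩ : ∃ a : Fin (k + 1 + 1) → (Mat r R)ˣ, a = Fin.cons (diagU x) fun _ => 1 :=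
    ⟨_, rfl⟩
  obtain ⟨b, hb⟩ : ∃ b : Fin (k + 1 + 1) → (Mat r R)ˣ, b = Fin.cons (V * permU π) fun _ => 1 :=
    ⟨_, rfl⟩
  let ρ : FF (k + 1 + 1) n →* (Mat r ℂ)ˣ := FreeGroup.lift fun k =>
    match k with
    | Sum.inl (i, false) => PhiU φ (a i)
    | Sum.inl (i, true) => PhiU φ (b i)
    | Sum.inr (_, false) => 1
    | Sum.inr (j, true) => PhiU φ (J j)
  have hA : ∀ i, ρ (gA i) = PhiU φ (a i) := fun i => FreeGroup.lift_apply_of
  have hB : ∀ i, ρ (gB i) = PhiU φ (b i) := fun i => FreeGroup.lift_apply_of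
  have hD : ∀ j, ρ (gD j) = 1 := fun i => FreeGroup.lift_apply_of
  have hEE : ∀ j, ρ (gE j) = PhiU φ (J j) := fun i => FreeGroup.lift_apply_of
  have hC : ∀ j, ρ (gC j) = PhiU φ (J j) := by
    intro j
    rw [gC_eqn, map_mul, map_mul, map_inv, hD, hEE, one_mul, inv_one, mul_one]
  have hH : ∀ i, ρ (hcomm i) = PhiU φ (a i * b i * (a i)⁻¹ * (b i)⁻¹) := by
    intro i
    rw [hcomm_eqn, map_mul, map_mul, map_mul, map_inv, map_inv, hA, hB, map_mul, map_mul, map_mul,
      map_inv, map_inv]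
  have ha0 : a 0 = diagU x := by rw [ha]; rfl
  have hb0 : b 0 = V * permU π := by rw [hb]; rfl
  have hasucc : ∀ i : Fin (k + 1), a i.succ = 1 := fun i => by rw [ha]; rfl
  have hbsucc : ∀ i : Fin (k + 1), b i.succ = 1 := fun i => by rw [hb]; rfl
  have hone : ∃ c : Rˣ, ((1 : (Mat r R)ˣ) : Mat r R).det = (c : R) ^ r := ⟨1, by simp⟩
  -- all values are block triangular
  have hall : ∀ w, ρ w ∈ BTr c := by
    have h1 : (⊤ : Subgroup (FF (k + 1 + 1) n)) ≤ (BTr c).comap ρ := by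
      rw [← FreeGroup.closure_range_of, Subgroup.closure_le]
      have hPi : (permU π : (Mat r R)ˣ) ∈ BTr c := permU_mem_BTr π hcπ
      have hV : V ∈ BTr c := mem_BTr_of_upper hc hVt
      have hXc : (diagU x : (Mat r R)ˣ) ∈ BTr c := mem_BTr_of_upper hc fun i j hij =>
        diagonal_apply_ne _ hij.ne'
      rintro _ ⟨(⟨i, b'⟩ | ⟨j, b'⟩), rfl⟩
      · cases b' with
        | false =>
          have h2 := hA i
          rw [gA_eqn] at h2
          rw [SetLike.mem_coe, Subgroup.mem_comap, h2]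
          refine PhiU_mem_BTr φ ?_
          refine Fin.cases ?_ (fun i => ?_) i
          · rw [ha0]; exact hXc
          · rw [hasucc]; exact one_mem _
        | true =>
          have h2 := hB i
          rw [gB_eqn] at h2
          rw [SetLike.mem_coe, Subgroup.mem_comap, h2]
          refine PhiU_mem_BTr φ ?_
          refine Fin.cases ?_ (fun i => ?_) i
          · rw [hb0]; exact mul_mem hV hPi
          · rw [hbsucc]; exact one_mem _
      · cases b' with
        | false =>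
          have h2 := hD j
          rw [gD_eqn] at h2
          rw [SetLike.mem_coe, Subgroup.mem_comap, h2]
          exact one_mem _
        | true =>
          have h2 := hEE j
          rw [gE_eqn] at h2
          rw [SetLike.mem_coe, Subgroup.mem_comap, h2]
          exact PhiU_mem_BTr φ (mem_BTr_of_upper hc (hJt j))
    intro w
    exact h1 (Subgroup.mem_top w)
  obtain ⟨q₀, hq₀⟩ : ∃ q₀ : Loop (k + 1) n, q₀ = Sum.inr (0, false) := ⟨_, rfl⟩
  obtain ⟨q₁, hq₁⟩ : ∃ q₁ : Loop (k + 1) n, q₁ = Sum.inr (0, true) := ⟨_, rfl⟩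
  obtain ⟨κ, hκ⟩ : ∃ κ, κ = ρ (kap q₀) := ⟨_, rfl⟩
  have hκ₁ : ρ (kap q₁) = κ := by
    rw [hκ, hq₀, hq₁]
    rfl
  obtain ⟨W, hW⟩ : ∃ W, W = PhiU φ V := ⟨_, rfl⟩
  have hWc : W ∈ BTr c := by
    rw [hW]
    exact PhiU_mem_BTr φ (mem_BTr_of_upper hc hVt)
  have hUc : κ⁻¹ * W ∈ BTr c := mul_mem (inv_mem (by rw [hκ]; exact hall _)) hWc
  have hP₀ : ρ (loopW q₀) = (κ⁻¹ * W) * PhiU φ ((diagU t)⁻¹) * (κ⁻¹ * W)⁻¹ := by
    have h1 : loopW q₀ = (kap q₀)⁻¹ * (gB (0 : Fin (k + 1)).castSucc *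
        (gA (0 : Fin (k + 1)).castSucc)⁻¹ * (gB (0 : Fin (k + 1)).castSucc)⁻¹) * kap q₀ := by
      rw [hq₀]; rfl
    have h2 : ρ (gB (0 : Fin (k + 1)).castSucc) = PhiU φ (V * permU π) := by
      rw [Fin.castSucc_zero, hB, hb0]
    have h3 : ρ (gA (0 : Fin (k + 1)).castSucc) = PhiU φ (diagU x) := by
      rw [Fin.castSucc_zero, hA, ha0]
    have h4 : (V * permU π) * (diagU x)⁻¹ * (V * permU π)⁻¹ = V * (diagU t)⁻¹ * V⁻¹ := by
      have h5 := permU_diagU π x t ht
      have h6 : permU π * (diagU x)⁻¹ = (diagU t : (Mat r R)ˣ)⁻¹ * permU π := by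
        rw [mul_inv_eq_iff_eq_mul, mul_assoc, h5, inv_mul_cancel_left]
      rw [mul_assoc V, h6, _root_.mul_inv_rev]
      group
    rw [h1, map_mul, map_mul, map_mul, map_mul, map_inv, map_inv, map_inv, h2, h3, ← hκ,
      ← map_inv (PhiU φ), ← map_inv (PhiU φ), ← map_mul, ← map_mul, h4, map_mul, map_mul,
      map_inv (PhiU φ) V, ← hW, _root_.mul_inv_rev, inv_inv]
    simp only [mul_assoc]
  refine ⟨fun j => PhiU φ (J j), hJ, ρ, ⟨?_, hEE, ?_, ?_⟩, ?_, hD, q₀, κ⁻¹ * W,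
    fun i => φ ((t i)⁻¹ : Rˣ), c, τ, ⟨?_, ?_, ?_, ?_, hτ, hfree⟩⟩
  · rw [relator_eqn, map_mul, map_list_prod, map_list_prod, List.map_ofFn, List.map_ofFn]
    have e1 : (⇑ρ ∘ fun j : Fin n => gC j) = fun j => PhiU φ (J j) := funext hC
    have e2 : (⇑ρ ∘ fun i : Fin (k + 1 + 1) => hcomm i) =
        fun i => PhiU φ (a i * b i * (a i)⁻¹ * (b i)⁻¹) := funext hH
    rw [e1, e2]
    have h1 := congrArg (PhiU φ) hprod
    rw [map_mul, map_list_prod, List.map_ofFn, map_one] at h1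
    rw [List.ofFn_succ, List.prod_cons, ha0, hb0]
    simp only [hasucc, hbsucc, mul_one, inv_one, map_one, List.ofFn_const, List.prod_replicate,
      one_pow]
    exact h1
  · rintro ⟨i, b'⟩
    cases b' with
    | false =>
      have h2 := hA i
      rw [gA_eqn] at h2
      rw [h2]
      refine Fin.cases ?_ (fun i => ?_) i
      · rw [ha0]
        obtain ⟨c', hc'⟩ := hX
        exact PhiU_mem_GR φ _ c' hc'
      · rw [hasucc, map_one]; exact one_mem _
    | true =>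
      have h2 := hB i
      rw [gB_eqn] at h2
      rw [h2]
      refine Fin.cases ?_ (fun i => ?_) i
      · rw [hb0]
        obtain ⟨c', hc'⟩ := hVP
        exact PhiU_mem_GR φ _ c' hc'
      · rw [hbsucc, map_one]; exact one_mem _
  · intro j
    rw [hC]
    obtain ⟨c', hc'⟩ := hJdet j
    exact PhiU_mem_GR φ _ c' hc'
  · have h1 : Fin.last (k + 1) = (Fin.last k).succ := rfl
    rw [hB, h1, hbsucc, map_one]
  · rw [hP₀, Units.val_mul, Units.val_mul]
    congr 2
    rw [PhiU_coe]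
    change (diagonal fun i => (((t i)⁻¹ : Rˣ) : R)).map φ = _
    ext i j
    by_cases hij : i = j
    · subst hij; simp
    · simp [Matrix.diagonal_apply_ne _ hij]
  · intro i j hij
    apply htinj
    have h1 : (t i)⁻¹ = (t j)⁻¹ := Units.ext (hφ hij)
    simp only [inv_injective h1]
  · intro q i j hij
    exact (mem_BTr.1 (mul_mem (mul_mem (inv_mem hUc) (hall _)) hUc)) hij
  · -- the blocks are irreducible
    have hP₁ : (κ⁻¹ * W)⁻¹ * ρ (loopW q₁) * (κ⁻¹ * W) = PhiU φ (V⁻¹ * (permU π)⁻¹) := by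
      have h1 : loopW q₁ = (kap q₁)⁻¹ * (gB (0 : Fin (k + 1)).castSucc)⁻¹ * kap q₁ := by
        rw [hq₁]; rfl
      have h2 : ρ (gB (0 : Fin (k + 1)).castSucc) = PhiU φ (V * permU π) := by
        rw [Fin.castSucc_zero, hB, hb0]
      rw [h1, map_mul, map_mul, map_inv, map_inv, h2, hκ₁, map_mul, map_mul, map_inv (PhiU φ) V,
        map_inv (PhiU φ), ← hW]
      group
    have hVinv : ∀ i, ((V⁻¹ : (Mat r R)ˣ) : Mat r R) i i = 1 := by
      intro i
      have hV1 : V ∈ BTr (id : Fin r → Fin r) := mem_BTr_of_upper monotone_id hVt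
      have hV2 : V⁻¹ ∈ BTr (id : Fin r → Fin r) := inv_mem hV1
      have h1 : ((V : Mat r R) * ((V⁻¹ : (Mat r R)ˣ) : Mat r R)) i i = 1 := by
        rw [← Units.val_mul, mul_inv_cancel, Units.val_one, one_apply_eq]
      rw [Matrix.mul_apply, Finset.sum_eq_single i, hVd, one_mul] at h1
      · exact h1
      · intro l _ hl
        rcases lt_or_gt_of_ne hl with h | h
        · rw [hVt i l h, zero_mul]
        · rw [(mem_BTr.1 hV2) (show id i < id l from h), mul_zero]
      · intro h; exact absurd (Finset.mem_univ _) h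
    have hstep : ∀ i, (((κ⁻¹ * W)⁻¹ * ρ (loopW q₁) * (κ⁻¹ * W) : (Mat r ℂ)ˣ) : Mat r ℂ)
        i (π i) ≠ 0 := by
      intro i
      rw [hP₁, PhiU_coe, Matrix.map_apply, Units.val_mul, Matrix.mul_apply,
        Finset.sum_eq_single i, permU_inv_apply, if_pos rfl, hVinv, mul_one, map_one]
      · exact one_ne_zero
      · intro l _ hl
        rw [permU_inv_apply, if_neg, mul_zero]
        exact fun h => hl (π.injective h)
      · intro h; exact absurd (Finset.mem_univ _) h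
    intro i j hij
    obtain ⟨l, hl⟩ := hcc i j hij
    subst hl
    clear hij
    induction l with
    | zero => exact Relation.ReflTransGen.refl
    | succ l ih =>
      refine ih.tail ⟨q₁, ?_⟩
      rw [pow_succ', Equiv.Perm.mul_apply]
      exact hstep _

/-- TASK G3 : existence of base points, general coefficients. -/
theorem exists_baseE {m n : ℕ} {R : Type*} [CommRing R] (φ : R →+* ℂ) (E : Subgroup ℂˣ)
    (hc : CoefOK φ E r) (hr : 1 ≤ r)
    (C : Fin n → (Mat r ℂ)ˣ) (hC : ∀ j, EigIn E (C j : Mat r ℂ))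
    (hdet : ∏ j, (C j : Mat r ℂ).det = 1) (hm : 1 ≤ m) :
    ∃ J : Fin n → (Mat r ℂ)ˣ, (∀ j, IsConj (C j) (J j)) ∧ ∃ ρ ∈ DFr (g := m + 1) φ J,
      ρ (gB (Fin.last m)) = 1 ∧ (∀ j, ρ (gD j) = 1) ∧
        ∃ (q₀ : Loop m n) (U : (Mat r ℂ)ˣ) (α : Fin r → ℂ) (c : Fin r → Fin r)
          (τ : Fin r → ℂ), BlockDataE E (fun q => ρ (loopW q)) q₀ U α c τ := by
  obtain ⟨k, rfl⟩ : ∃ k, m = k + 1 := ⟨m - 1, by omega⟩
  have hφ := hc.inj
  obtain ⟨u, hu⟩ := hc.unit
  choose δ hδ hJex using fun j => exists_dataE φ hc hr (C j) (hC j)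
  let p : Fin r → Rˣ := fun i => ∏ j, δ j i
  have hp1 : ∀ i, p i ∈ HE φ E := fun i => Subgroup.prod_mem _ fun j _ => hδ j i
  have hpprod : ∏ i, p i = 1 := by
    apply Units.ext
    apply hφ
    rw [Units.val_one, map_one, ← hdet]
    simp only [p]
    rw [Finset.prod_comm, Units.coe_prod, map_prod]
    refine Finset.prod_congr rfl fun j _ => ?_
    obtain ⟨J, hJ1, hJ2⟩ := hJex j 1 1 (by rw [map_one]; exact one_ne_zero)
    obtain ⟨X, hX⟩ := isConj_iff.mp hJ2
    have h1 : ((PhiU φ J : (Mat r ℂ)ˣ) : Mat r ℂ).det = (C j : Mat r ℂ).det := by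
      rw [← hX, Units.val_mul, Units.val_mul, Matrix.det_mul, Matrix.det_mul, mul_right_comm,
        ← Matrix.det_mul, ← Units.val_mul, mul_inv_cancel, Units.val_one, Matrix.det_one, one_mul]
    rw [← h1, PhiU_coe]
    have h2 : φ ((J : Mat r R).det) = ((J : Mat r R).map φ).det := RingHom.map_det φ _
    rw [← h2, hJ1.det, Units.coe_prod]
    rfl
  let p' : Fin r → HE φ E := fun i => ⟨p i, hp1 i⟩
  have hp' : ∏ i, p' i = 1 := by
    apply Subtype.ext
    rw [Subgroup.val_finsetProd]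
    exact hpprod
  obtain ⟨σ, π, y', c, hy', hcm, hcπ, hcc, hyinj', -⟩ := exists_order p' hp'
  let y : Fin r → Rˣ := fun i => (y' i : Rˣ)
  have hyE : ∀ i, y i ∈ HE φ E := fun i => (y' i).2
  have hy : ∀ a, y a = p (σ (π a)) * y (π a) := fun a => congrArg Subtype.val (hy' a)
  have hyinj : ∀ a b, c a = c b → y a = y b → a = b := fun a b h1 h2 =>
    hyinj' a b h1 (Subtype.ext h2)
  let x : Fin r → Rˣ := fun i => tB r u (c i) * y i
  let t : Fin r → Rˣ := fun i => x (π.symm i)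
  have htπ : ∀ i, t (π i) = x i := fun i => by
    simp only [t, Equiv.symm_apply_apply]
  have htd : ∀ i, t i = p (σ i) * x i := by
    intro i
    obtain ⟨a, rfl⟩ := π.surjective i
    rw [htπ]
    simp only [x]
    rw [hcπ, hy a]
    ac_rfl
  have hxinj : Function.Injective x := by
    intro i j hij
    have h1 : tB r u (c i) * (tB r u (c j))⁻¹ ∈ HE φ E := by
      have h2 : tB r u (c i) * (tB r u (c j))⁻¹ = y j * (y i)⁻¹ := by
        rw [mul_inv_eq_iff_eq_mul, mul_right_comm, eq_mul_inv_iff_mul_eq, mul_comm (y j)]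
        exact hij
      rw [h2]
      exact mul_mem (hyE j) (inv_mem (hyE i))
    have h3 := tB_inj_mod φ u hu hr _ _ h1
    simp only [x, h3] at hij
    exact hyinj i j h3 (mul_left_cancel hij)
  have htinj : Function.Injective fun i => (t i : R) := by
    intro i j hij
    exact π.symm.injective (hxinj (Units.ext hij))
  obtain ⟨Δ, hΔdef⟩ : ∃ Δ, Δ = discT fun i => (t i : R) := ⟨_, rfl⟩
  have hΔ : φ Δ ≠ 0 := by
    rw [hΔdef]
    exact phi_discT_ne φ hφ _ htinj
  choose J hJ hconj using fun j => hJex j σ Δ hΔ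
  -- the product of the boundary matrices
  have hP := IsJ.list (Δ := Δ) (fun j i => (δ j (σ i) : R)) (fun j => (J j : Mat r R)) hJ
    (List.finRange n)
  obtain ⟨F, hF, hPF⟩ := hP
  have hp : ((List.finRange n).map fun j i => (δ j (σ i) : R)).prod = fun i => (p (σ i) : R) := by
    rw [← List.ofFn_eq_map, List.prod_ofFn]
    funext i
    rw [Finset.prod_apply, ← Units.coe_prod]
  rw [hp] at hPF
  have hprodJ : (((List.ofFn fun j => J j).prod : (Mat r R)ˣ) : Mat r R) =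
      diagonal (fun i => (p (σ i) : R)) + Δ • F := by
    rw [← hPF, ← List.ofFn_eq_map, ← Units.coeHom_apply, map_list_prod, List.map_ofFn]
    rfl
  -- the triangular part
  obtain ⟨V, hVlow, hVdiag, hV⟩ := exists_comm_tri (fun i => (t i : R)) Δ
    (discwT fun i => (t i : R)) (fun i j hij => by rw [hΔdef]; exact discwT_mul _ i j hij)
    (F * diagonal fun i => (((p (σ i))⁻¹ : Rˣ) : R)) (hF.mul_diag _)
  have hVdet : V.det = 1 := by
    rw [Matrix.det_of_isUpperTriangular]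
    · simp [hVdiag]
    · intro i j hij
      exact hVlow i j hij
  obtain ⟨VU, hVU⟩ := exists_unit_of_det (Y := V) (by rw [hVdet]; exact isUnit_one)
  have hprodX : (((List.ofFn fun j => J j).prod * diagU x : (Mat r R)ˣ) : Mat r R) =
      (1 + Δ • (F * diagonal fun i => (((p (σ i))⁻¹ : Rˣ) : R))) * diagonal fun i => (t i : R) := by
    rw [Units.val_mul, hprodJ]
    change (diagonal (fun i => (p (σ i) : R)) + Δ • F) * (diagonal fun i => (x i : R)) = _
    rw [Matrix.add_mul, Matrix.add_mul, Matrix.one_mul, Matrix.smul_mul, Matrix.smul_mul,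
      Matrix.mul_assoc, diagonal_mul_diagonal, diagonal_mul_diagonal]
    congr 3
    · funext i
      rw [htd]
      exact (Units.val_mul _ _).symm
    · congr 1
      funext i
      rw [htd, ← Units.val_mul, inv_mul_cancel_left]
  have hmain : (List.ofFn fun j => J j).prod *
      (diagU x * (VU * permU π) * (diagU x)⁻¹ * (VU * permU π)⁻¹) = 1 := by
    have h1 : (List.ofFn fun j => J j).prod * diagU x * VU = VU * diagU t := by
      apply Units.ext
      rw [Units.val_mul, hprodX, hVU, Units.val_mul, hVU]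
      exact hV.symm
    have h2 := permU_diagU π x t htπ
    calc (List.ofFn fun j => J j).prod *
          (diagU x * (VU * permU π) * (diagU x)⁻¹ * (VU * permU π)⁻¹) =
        ((List.ofFn fun j => J j).prod * diagU x * VU) * permU π * (diagU x)⁻¹ *
          (VU * permU π)⁻¹ := by simp only [mul_assoc]
      _ = VU * (diagU t * permU π) * (diagU x)⁻¹ * (VU * permU π)⁻¹ := by
          rw [h1]; simp only [mul_assoc]
      _ = 1 := by rw [← h2]; group
  refine finishE φ hφ E C J hconj ?_ x t VU π c ?_ ?_ htπ htinj hcm hcπ hcc ?_ ?_ ?_ _ ?_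
    (freeMod_tB φ u hu hr) hmain
  · intro j
    obtain ⟨c', hc'⟩ := exists_rootHE φ hc hr (∏ i, δ j (σ i))
      (Subgroup.prod_mem _ fun i _ => hδ j _)
    refine ⟨c', ?_⟩
    rw [(hJ j).det, ← Units.coe_prod]
    exact hc'
  · change ∃ c : Rˣ, (diagonal fun i => (x i : R)).det = (c : R) ^ r
    rw [Matrix.det_diagonal, ← Units.coe_prod]
    simp only [x]
    rw [Finset.prod_mul_distrib]
    obtain ⟨c₁, hc₁⟩ : ∃ c₁ : Rˣ, ∏ i, tB r u (c i) = c₁ ^ r := by
      refine ⟨u ^ ∑ i : Fin r, (2 * r + 4) ^ ((c i : Fin r) : ℕ), ?_⟩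
      unfold tB
      rw [Finset.prod_pow_eq_pow_sum, ← pow_mul, ← Finset.mul_sum, mul_comm]
    obtain ⟨c₂, hc₂⟩ := exists_rootHE φ hc hr (∏ i, y i) (Subgroup.prod_mem _ fun i _ => hyE i)
    refine ⟨c₁ * c₂, ?_⟩
    rw [Units.val_mul, hc₁, hc₂, Units.val_mul, mul_pow, Units.val_pow_eq_pow_val]
  · apply exists_rootE φ hc.weak hr
    have h1 : ((VU * permU π : (Mat r R)ˣ) : Mat r R).det ^ 2 = 1 := by
      rw [Units.val_mul, Matrix.det_mul, hVU, hVdet, one_mul, det_permU]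
    have h2 : φ ((VU * permU π : (Mat r R)ˣ) : Mat r R).det ^ 2 = 1 := by
      rw [← map_pow, h1, map_one]
    rw [sq] at h2
    rcases mul_self_eq_one_iff.1 h2 with h | h
    · exact ⟨1, E.one_mem, by rw [h, Units.val_one]⟩
    · exact ⟨-1, hc.neg, by rw [h, Units.val_neg, Units.val_one]⟩
  · intro j i i' hij
    obtain ⟨F, hF, hJF⟩ := hJ j
    rw [hJF, Matrix.add_apply, Matrix.smul_apply, diagonal_apply_ne _ hij.ne',
      hF i i' (not_lt.2 hij.le), smul_zero, add_zero]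
  · intro i i' hij
    rw [hVU]; exact hVlow i i' hij
  · intro i
    rw [hVU]; exact hVdiag i
  · intro i
    obtain ⟨a, rfl⟩ := π.surjective i
    rw [htπ, hcπ]
    refine ⟨Units.map (φ : R →* ℂ) (y a)⁻¹, E.inv_mem (hyE a) |> fun h => by rwa [map_inv], ?_⟩
    simp only [x, mul_inv, Units.val_mul, map_mul]
    rfl

end DataE

end Vale.Agent.P002R
end

section

/-!
# P002: triangular matrices whose eigenvalue differences are units
-/

namespace Vale.Agent.P002R

open Matrix Polynomial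

variable {S : Type*} [CommRing S] {r : ℕ}

theorem aeval_upT {A : Mat r S} (hA : UpT A) (p : Polynomial S) :
    UpT (aeval A p) ∧ ∀ i, (aeval A p) i i = p.eval (A i i) := by
  induction p using Polynomial.induction_on' with
  | add p q hp hq =>
    refine ⟨fun i j hij => ?_, fun i => ?_⟩
    · rw [map_add, Matrix.add_apply, hp.1 i j hij, hq.1 i j hij, add_zero]
    · rw [map_add, Matrix.add_apply, hp.2, hq.2, Polynomial.eval_add]
  | monomial n a =>
    have h1 : UpT (A ^ n) ∧ ∀ i, (A ^ n) i i = A i i ^ n := by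
      induction n with
      | zero =>
        refine ⟨by rw [pow_zero]; exact upT_one, fun i => ?_⟩
        rw [pow_zero, pow_zero, Matrix.one_apply_eq]
      | succ n ih =>
        refine ⟨by rw [pow_succ]; exact ih.1.mul hA, fun i => ?_⟩
        rw [pow_succ, ih.1.mul_diag hA, ih.2, pow_succ]
    have h2 : aeval A (monomial n a) = a • A ^ n := by
      rw [Polynomial.aeval_monomial, ← Algebra.smul_def]
    refine ⟨fun i j hij => ?_, fun i => ?_⟩
    · rw [h2, Matrix.smul_apply, h1.1 i j hij, smul_zero]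
    · rw [h2, Matrix.smul_apply, h1.2, smul_eq_mul, Polynomial.eval_monomial]

theorem aeval_loT {A : Mat r S} (hA : LoT A) (p : Polynomial S) :
    LoT (aeval A p) ∧ ∀ i, (aeval A p) i i = p.eval (A i i) := by
  induction p using Polynomial.induction_on' with
  | add p q hp hq =>
    refine ⟨fun i j hij => ?_, fun i => ?_⟩
    · rw [map_add, Matrix.add_apply, hp.1 i j hij, hq.1 i j hij, add_zero]
    · rw [map_add, Matrix.add_apply, hp.2, hq.2, Polynomial.eval_add]
  | monomial n a =>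
    have h1 : LoT (A ^ n) ∧ ∀ i, (A ^ n) i i = A i i ^ n := by
      induction n with
      | zero =>
        refine ⟨by rw [pow_zero]; exact loT_one, fun i => ?_⟩
        rw [pow_zero, pow_zero, Matrix.one_apply_eq]
      | succ n ih =>
        refine ⟨by rw [pow_succ]; exact ih.1.mul hA, fun i => ?_⟩
        rw [pow_succ, ih.1.mul_diag hA, ih.2, pow_succ]
    have h2 : aeval A (monomial n a) = a • A ^ n := by
      rw [Polynomial.aeval_monomial, ← Algebra.smul_def]
    refine ⟨fun i j hij => ?_, fun i => ?_⟩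
    · rw [h2, Matrix.smul_apply, h1.1 i j hij, smul_zero]
    · rw [h2, Matrix.smul_apply, h1.2, smul_eq_mul, Polynomial.eval_monomial]

/-- Lagrange polynomials. -/
theorem exists_lag (d : Fin r → S) (hd : ∀ i j, i ≠ j → IsUnit (d i - d j)) (j : Fin r) :
    ∃ (p : Polynomial S) (c : S), (X - C (d j)) * p = C c * ∏ i, (X - C (d i)) ∧
      p.eval (d j) = 1 := by
  have h1 : ∀ i, ∃ u : S, i ≠ j → u * (d j - d i) = 1 := by
    intro i
    by_cases hij : i = j
    · exact ⟨0, fun h => absurd hij h⟩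
    · obtain ⟨u, hu⟩ := hd j i (Ne.symm hij)
      exact ⟨((u⁻¹ : Sˣ) : S), fun _ => by rw [← hu, Units.inv_mul]⟩
  choose u hu using h1
  refine ⟨∏ i ∈ Finset.univ.erase j, (C (u i) * (X - C (d i))), ∏ i ∈ Finset.univ.erase j, u i,
    ?_, ?_⟩
  · rw [Finset.prod_mul_distrib, map_prod, mul_left_comm,
      Finset.mul_prod_erase Finset.univ (fun i => (X - C (d i))) (Finset.mem_univ j)]
  · rw [Polynomial.eval_prod]
    refine Finset.prod_eq_one fun i hi => ?_
    rw [Polynomial.eval_mul, Polynomial.eval_C, Polynomial.eval_sub, Polynomial.eval_X,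
      Polynomial.eval_C]
    exact hu i (Finset.ne_of_mem_erase hi)

/-- Annihilation. -/
theorem mul_aeval_lag {A : Mat r S} {d : Fin r → S}
    (hch : A.charpoly = ∏ i, (X - C (d i))) {j : Fin r} {p : Polynomial S} {c : S}
    (hp : (X - C (d j)) * p = C c * ∏ i, (X - C (d i))) :
    A * aeval A p = d j • aeval A p := by
  have h1 := congrArg (aeval A) hp
  rw [map_mul, map_mul, ← hch, Matrix.aeval_self_charpoly, mul_zero, map_sub, aeval_X, aeval_C,
    sub_mul, sub_eq_zero, ← Algebra.smul_def] at h1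
  exact h1

theorem exists_diag_upT {A : Mat r S} (hA : UpT A)
    (hd : ∀ i j, i ≠ j → IsUnit (A i i - A j j)) :
    ∃ P : Mat r S, UpT P ∧ (∀ i, P i i = 1) ∧ A * P = P * diagonal fun i => A i i := by
  choose p c hp1 hp2 using fun j => exists_lag (fun i => A i i) hd j
  have hch : A.charpoly = ∏ i, (X - C (A i i)) :=
    Matrix.charpoly_of_isUpperTriangular A fun i j h => hA i j h
  refine ⟨Matrix.of fun i j => (aeval A (p j)) i j, fun i j hij => ?_, fun i => ?_, ?_⟩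
  · rw [Matrix.of_apply]
    exact (aeval_upT hA (p j)).1 i j hij
  · rw [Matrix.of_apply, (aeval_upT hA (p i)).2, hp2]
  · ext i j
    rw [Matrix.mul_diagonal, Matrix.of_apply, Matrix.mul_apply]
    have h1 := congrFun (congrFun (mul_aeval_lag hch (hp1 j)) i) j
    rw [Matrix.smul_apply, smul_eq_mul, Matrix.mul_apply] at h1
    rw [mul_comm, ← h1]
    rfl

theorem exists_diag_loT {A : Mat r S} (hA : LoT A)
    (hd : ∀ i j, i ≠ j → IsUnit (A i i - A j j)) :
    ∃ P : Mat r S, LoT P ∧ (∀ i, P i i = 1) ∧ A * P = P * diagonal fun i => A i i := by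
  choose p c hp1 hp2 using fun j => exists_lag (fun i => A i i) hd j
  have hch : A.charpoly = ∏ i, (X - C (A i i)) := by
    rw [← Matrix.charpoly_transpose,
      Matrix.charpoly_of_isUpperTriangular Aᵀ fun i j h => hA.transpose i j h]
    rfl
  refine ⟨Matrix.of fun i j => (aeval A (p j)) i j, fun i j hij => ?_, fun i => ?_, ?_⟩
  · rw [Matrix.of_apply]
    exact (aeval_loT hA (p j)).1 i j hij
  · rw [Matrix.of_apply, (aeval_loT hA (p i)).2, hp2]
  · ext i j
    rw [Matrix.mul_diagonal, Matrix.of_apply, Matrix.mul_apply]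
    have h1 := congrFun (congrFun (mul_aeval_lag hch (hp1 j)) i) j
    rw [Matrix.smul_apply, smul_eq_mul, Matrix.mul_apply] at h1
    rw [mul_comm, ← h1]
    rfl

/-- Diagonalizable matrices with distinct eigenvalues have cyclic vectors. -/
theorem cyc_of_diag {A P : Mat r ℂ} {d : Fin r → ℂ} (hP : IsUnit P) (h : A * P = P * diagonal d)
    (hd : Function.Injective d) : P002G.Cyc A (P *ᵥ fun _ => 1) := by
  rw [P002G.cyc_iff]
  have h1 : ∀ k : ℕ, A ^ k * P = P * diagonal fun i => d i ^ k := by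
    intro k
    induction k with
    | zero => simp
    | succ k ih =>
      rw [pow_succ, mul_assoc, h, ← mul_assoc, ih, mul_assoc, Matrix.diagonal_mul_diagonal]
      congr 2
  have h2 : P002.kry A (P *ᵥ fun _ => 1) = P * Matrix.vandermonde d := by
    ext i j
    rw [P002.kry, Matrix.of_apply, Matrix.mulVec_mulVec, h1, Matrix.mul_apply, Matrix.mulVec,
      dotProduct]
    refine Finset.sum_congr rfl fun k _ => ?_
    rw [Matrix.mul_diagonal, Matrix.vandermonde_apply, mul_one]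
  rw [h2]
  refine hP.mul ?_
  rw [Matrix.isUnit_iff_isUnit_det, isUnit_iff_ne_zero]
  exact Matrix.det_vandermonde_ne_zero_iff.2 hd

end Vale.Agent.P002R
end
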