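import Mathlib
import Vale.Agent.P002.Bdl.B9
import Vale.Agent.P002.Bdl.B4
import Vale.Agent.P002.Bdl.B2
import Vale.Agent.P002.Bdl.B5
import Vale.Agent.P002.Bdl.B10
import Vale.Agent.P002.Bdl.B11
import Vale.Agent.P002.Bdl.B1

set_option linter.all false

section

/-!
# The local theorem
-/

namespace Vale.Agent.P002R

open Matrix

variable {g m n r : ℕ}

/-- Derivations with prescribed values on the generators. -/
theorem exists_der {κ : Type*} (x : FreeGroup κ →* (Mat r ℂ)ˣ) (u : κ → Mat r ℂ) :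
    ∃ E : FreeGroup κ → Mat r ℂ, IsDer x E ∧ ∀ k, E (FreeGroup.of k) = u k := by
  have hY : ∀ k, ∃ y : (Mat r (PowerSeries ℂ))ˣ, (y : Mat r (PowerSeries ℂ)) =
      lin1 (x (FreeGroup.of k) : Mat r ℂ) (u k) := by
    intro k
    have : IsUnit (lin1 (x (FreeGroup.of k) : Mat r ℂ) (u k)) := by
      apply isUnit_of_const
      rw [lin1_const]
      exact (x (FreeGroup.of k)).isUnit
    exact this
  choose Y hY using hY
  have h0 : rep0 (FreeGroup.lift Y) = x := by
    apply FreeGroup.ext_hom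
    intro k
    ext1
    rw [rep0, baseChange_apply, FreeGroup.lift_apply_of, hY, lin1_const]
  refine ⟨der1 (FreeGroup.lift Y), ?_, fun k => ?_⟩
  · rw [← h0]; exact isDer_der1 _
  · rw [der1, FreeGroup.lift_apply_of, hY, lin1_one]

theorem IsDer.sub {κ : Type*} {x : FreeGroup κ →* (Mat r ℂ)ˣ} {E E' : FreeGroup κ → Mat r ℂ}
    (hE : IsDer x E) (hE' : IsDer x E') : IsDer x (fun w => E w - E' w) := by
  intro w w'
  simp only [hE w w', hE' w w', Matrix.sub_mul, Matrix.mul_sub]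
  abel

/-! ### The functional -/

theorem Lam_add (x : FF (m + 1) n →* (Mat r ℂ)ˣ) (q : Loop m n) (ε ε' : Mat r ℂ)
    (k : Gen (m + 1) n) : Lam x q (ε + ε') k = Lam x q ε k + Lam x q ε' k := by
  rcases q with j | ⟨i, b⟩
  · simp only [Lam]
    split_ifs
    · noncomm_ring
    · simp
  · cases b
    · simp only [Lam]
      split_ifs
      · noncomm_ring
      · simp
    · simp only [Lam]
      split_ifs
      · noncomm_ring
      · noncomm_ring
      · simp

theorem Lam_smul (x : FF (m + 1) n →* (Mat r ℂ)ˣ) (q : Loop m n) (c : ℂ) (ε : Mat r ℂ)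
    (k : Gen (m + 1) n) : Lam x q (c • ε) k = c • Lam x q ε k := by
  rcases q with j | ⟨i, b⟩
  · simp only [Lam]
    split_ifs
    · simp
    · simp
  · cases b
    · simp only [Lam]
      split_ifs
      · simp
      · simp
    · simp only [Lam]
      split_ifs
      · simp
      · simp [smul_sub]
      · simp

theorem exists_trace_repr (ψ : Mat r ℂ →ₗ[ℂ] ℂ) : ∃ R : Mat r ℂ, ∀ ε, ψ ε = trace (R * ε) := by
  refine ⟨Matrix.of fun i j => ψ (Matrix.single j i 1), fun ε => ?_⟩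
  conv_lhs => rw [Matrix.matrix_eq_sum_single ε]
  simp only [map_sum, Matrix.trace, Matrix.diag_apply, Matrix.mul_apply, Matrix.of_apply]
  rw [Finset.sum_comm]
  refine Finset.sum_congr rfl fun i _ => Finset.sum_congr rfl fun j _ => ?_
  have : Matrix.single j i (ε j i) = (ε j i) • Matrix.single j i (1 : ℂ) := by
    rw [Matrix.smul_single, smul_eq_mul, mul_one]
  rw [this, map_smul, smul_eq_mul, mul_comm]

theorem sum_Del (x : FF (m + 1) n →* (Mat r ℂ)ˣ) (s : Gen (m + 1) n → Mat r ℂ)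
    (R : Loop m n → Mat r ℂ)
    (hR : ∀ q ε, ∑ k, trace (s k * Lam x q ε k) = trace (R q * ε)) (Z : Mat r ℂ)
    (p : List (Loop m n)) :
    ∑ k, trace (s k * Del x Z k p) =
      trace ((((x (wordL p * gA (Fin.last m)))⁻¹ : (Mat r ℂ)ˣ) : Mat r ℂ) *
        theta (fun q => x (loopW q)) R p * (x (wordL p * gA (Fin.last m)) : Mat r ℂ) * Z) := by
  induction p with
  | nil => simp [Del, theta]
  | cons q p ih =>
    simp only [Del, Matrix.mul_add, Matrix.trace_add, Finset.sum_add_distrib, hR, ih, theta]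
    have e1 : x (wordL (q :: p) * gA (Fin.last m)) =
        x (loopW q) * x (wordL p * gA (Fin.last m)) := by
      rw [wordL, mul_assoc, map_mul]
    obtain ⟨Y, hY⟩ : ∃ Y, Y = x (wordL p * gA (Fin.last m)) := ⟨_, rfl⟩
    obtain ⟨P, hP⟩ : ∃ P, P = x (loopW q) := ⟨_, rfl⟩
    rw [e1, ← hY, ← hP]
    have e2 : (((P * Y)⁻¹ : (Mat r ℂ)ˣ) : Mat r ℂ) = ((Y⁻¹ : (Mat r ℂ)ˣ) : Mat r ℂ) *
        ((P⁻¹ : (Mat r ℂ)ˣ) : Mat r ℂ) := by
      rw [_root_.mul_inv_rev, Units.val_mul]
    have e3 : ((P⁻¹ : (Mat r ℂ)ˣ) : Mat r ℂ) * (P : Mat r ℂ) = 1 := by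
      rw [← Units.val_mul, inv_mul_cancel, Units.val_one]
    rw [e2, Units.val_mul]
    have e4 : trace (R q * ((P : Mat r ℂ) * (Y : Mat r ℂ) * Z *
        (((Y⁻¹ : (Mat r ℂ)ˣ) : Mat r ℂ) * ((P⁻¹ : (Mat r ℂ)ˣ) : Mat r ℂ)))) =
        trace (((Y⁻¹ : (Mat r ℂ)ˣ) : Mat r ℂ) * ((P⁻¹ : (Mat r ℂ)ˣ) : Mat r ℂ) * R q *
          ((P : Mat r ℂ) * (Y : Mat r ℂ)) * Z) := by
      rw [← Matrix.mul_assoc, Matrix.trace_mul_comm]
      simp only [Matrix.mul_assoc]
    rw [e4, ← Matrix.trace_add]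
    congr 1
    have e5 : ((Y⁻¹ : (Mat r ℂ)ˣ) : Mat r ℂ) * ((P⁻¹ : (Mat r ℂ)ˣ) : Mat r ℂ) *
        ((P : Mat r ℂ) * theta (fun q => x (loopW q)) R p * ((P⁻¹ : (Mat r ℂ)ˣ) : Mat r ℂ)) *
          ((P : Mat r ℂ) * (Y : Mat r ℂ)) =
        ((Y⁻¹ : (Mat r ℂ)ˣ) : Mat r ℂ) * theta (fun q => x (loopW q)) R p * (Y : Mat r ℂ) := by
      calc _ = ((Y⁻¹ : (Mat r ℂ)ˣ) : Mat r ℂ) * ((((P⁻¹ : (Mat r ℂ)ˣ) : Mat r ℂ) *
          (P : Mat r ℂ)) * theta (fun q => x (loopW q)) R p *
            ((((P⁻¹ : (Mat r ℂ)ˣ) : Mat r ℂ) * (P : Mat r ℂ)) * (Y : Mat r ℂ))) := by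
            simp only [Matrix.mul_assoc]
        _ = _ := by rw [e3, Matrix.one_mul, Matrix.one_mul, Matrix.mul_assoc]
    rw [Matrix.add_mul, Matrix.add_mul, e5]

/-! ### Realized tangent vectors -/

/-- The tangent vectors which are 1-jets of formal arcs in the closure of `D`. -/
def RealSet {κ : Type*} (D : Set (FreeGroup κ →* (Mat r ℂ)ˣ)) (ρ : FreeGroup κ →* (Mat r ℂ)ˣ) :
    Set (κ → Mat r ℂ) :=
  {u | ∃ x : FreeGroup κ →* (Mat r (PowerSeries ℂ))ˣ, InZ D x ∧ rep0 x = ρ ∧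
    ∀ k, der1 x (FreeGroup.of k) = u k}

theorem isUnit_one_add (T : Mat r (PowerSeries ℂ)) (τ : ℂ) :
    IsUnit (1 + (PowerSeries.X * PowerSeries.C (R := ℂ) τ) • T) := by
  apply isUnit_of_const
  have : (1 + (PowerSeries.X * PowerSeries.C (R := ℂ) τ) • T).map
      PowerSeries.constantCoeff = 1 := by
    ext i j
    by_cases h : i = j
    · subst h; simp
    · simp [Matrix.one_apply_ne h]
  rw [this]
  exact isUnit_one

theorem jet_one_add (T : Mat r (PowerSeries ℂ)) (τ : ℂ) :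
    (1 + (PowerSeries.X * PowerSeries.C (R := ℂ) τ) • T).map (PowerSeries.coeff 1) =
      τ • T.map PowerSeries.constantCoeff := by
  ext i j
  by_cases h : i = j
  · subst h
    simp [mul_assoc, PowerSeries.coeff_one]
  · simp [Matrix.one_apply_ne h, mul_assoc]

theorem jet0_one_add (T : Mat r (PowerSeries ℂ)) (τ : ℂ) :
    (1 + (PowerSeries.X * PowerSeries.C (R := ℂ) τ) • T).map
      PowerSeries.constantCoeff = 1 := by
  ext i j
  by_cases h : i = j
  · subst h; simp
  · simp [Matrix.one_apply_ne h]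

/-- One step: adding a flow. -/
theorem realSet_flow {κ : Type*} [DecidableEq κ] (D : Set (FreeGroup κ →* (Mat r ℂ)ˣ))
    (ρ : FreeGroup κ →* (Mat r ℂ)ˣ) (kA kB : κ)
    (hDt : ∀ y ∈ D, ∀ n : ℤ, y.comp (twist kB kA n) ∈ D) (σ : FreeGroup κ ≃* FreeGroup κ)
    (hD1 : ∀ y ∈ D, y.comp σ.toMonoidHom ∈ D) (hD2 : ∀ y ∈ D, y.comp σ.symm.toMonoidHom ∈ D)
    (hgen : AlgebraicIndependent ℤ fun p : Fin r × Fin r =>
      (ρ (σ (FreeGroup.of kA)) : Mat r ℂ) p.1 p.2) (e : ℕ)
    (Δ : FreeGroup κ → Mat r ℂ) (hΔ : IsDer (ρ.comp σ.toMonoidHom) Δ)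
    (hΔk : ∀ k, Δ (FreeGroup.of k) = if k = kB then (ρ (σ (FreeGroup.of kB)) : Mat r ℂ) *
      (ρ (σ (FreeGroup.of kA)) : Mat r ℂ) ^ e else 0)
    (u : κ → Mat r ℂ) (hu : u ∈ RealSet D ρ) (τ : ℂ) :
    (fun k => u k + τ • Δ (σ.symm (FreeGroup.of k))) ∈ RealSet D ρ := by
  obtain ⟨x, hx1, hx2, hx3⟩ := hu
  obtain ⟨y, hy⟩ : ∃ y, y = x.comp σ.toMonoidHom := ⟨_, rfl⟩
  have hy1 : InZ D y := by rw [hy]; exact hx1.comp' _ hD1
  have hy0 : rep0 y = ρ.comp σ.toMonoidHom := by rw [hy, ← hx2]; rfl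
  obtain ⟨T, hT⟩ : ∃ T : Mat r (PowerSeries ℂ), T = (y (FreeGroup.of kA) : Mat r (PowerSeries ℂ)) :=
    ⟨_, rfl⟩
  have hT0 : T.map PowerSeries.constantCoeff = (ρ (σ (FreeGroup.of kA)) : Mat r ℂ) := by
    have := congrArg (fun z : FreeGroup κ →* (Mat r ℂ)ˣ => (z (FreeGroup.of kA) : Mat r ℂ)) hy0
    rw [hT]
    exact this
  have hTalg := P002.generic_lift (PowerSeries.constantCoeff (R := ℂ)) T
    (by rw [hT0]; exact hgen)
  obtain ⟨z, hz⟩ := isUnit_one_add (T ^ e) τ
  have hzadj : (z : Mat r (PowerSeries ℂ)) ∈ Algebra.adjoin (PowerSeries ℂ) {T} := by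
    rw [hz]
    refine Subalgebra.add_mem _ (Subalgebra.one_mem _) (Subalgebra.smul_mem _ ?_ _)
    exact Subalgebra.pow_mem _ (Algebra.subset_adjoin (Set.mem_singleton _)) e
  have hflow : InZ D (flow y kB z) := by
    apply InZ.flow hDt hy1 (l := kA)
    · rw [← hT]; exact hTalg
    · rw [← hT]; exact hzadj
  have hz0 : (z : Mat r (PowerSeries ℂ)).map PowerSeries.constantCoeff = 1 := by
    rw [hz, jet0_one_add]
  have hz1 : (z : Mat r (PowerSeries ℂ)).map (PowerSeries.coeff 1) =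
      τ • (ρ (σ (FreeGroup.of kA)) : Mat r ℂ) ^ e := by
    rw [hz, jet_one_add]
    congr 1
    have : (T ^ e).map PowerSeries.constantCoeff = (T.map PowerSeries.constantCoeff) ^ e :=
      map_pow (RingHom.mapMatrix (PowerSeries.constantCoeff (R := ℂ))) T e
    rw [this, hT0]
  have hf0 : rep0 (flow y kB z) = ρ.comp σ.toMonoidHom := by
    rw [← hy0]
    apply FreeGroup.ext_hom
    intro k
    ext1
    rw [rep0, baseChange_apply, rep0, baseChange_apply, flow_of]
    split_ifs with h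
    · rw [Units.val_mul, Matrix.map_mul, hz0, Matrix.mul_one, h]
    · rfl
  have hder : der1 (flow y kB z) = fun w => der1 y w + τ • Δ w := by
    have h1 : IsDer (ρ.comp σ.toMonoidHom) (der1 (flow y kB z)) := by
      rw [← hf0]; exact isDer_der1 _
    have h2 : IsDer (ρ.comp σ.toMonoidHom) (der1 y) := by rw [← hy0]; exact isDer_der1 _
    refine IsDer.ext h1 (h2.add (hΔ.smul τ)) fun k => ?_
    rw [hΔk]
    rw [der1, flow_of]
    split_ifs with h
    · rw [Units.val_mul, map_coeff_one_mul, hz0, hz1, Matrix.mul_one, h]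
      have h3 : (y (FreeGroup.of kB) : Mat r (PowerSeries ℂ)).map PowerSeries.constantCoeff =
          (ρ (σ (FreeGroup.of kB)) : Mat r ℂ) := by
        have := congrArg (fun z : FreeGroup κ →* (Mat r ℂ)ˣ => (z (FreeGroup.of kB) : Mat r ℂ)) hy0
        exact this
      rw [h3, Matrix.mul_smul]
      rfl
    · rw [smul_zero, add_zero]
      rfl
  refine ⟨(flow y kB z).comp σ.symm.toMonoidHom, hflow.comp' _ hD2, ?_, fun k => ?_⟩
  · have h1 : rep0 ((flow y kB z).comp σ.symm.toMonoidHom) =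
        (rep0 (flow y kB z)).comp σ.symm.toMonoidHom := rfl
    rw [h1, hf0]
    ext1 k
    change ρ (σ (σ.symm (FreeGroup.of k))) = ρ (FreeGroup.of k)
    rw [MulEquiv.apply_symm_apply]
  · change der1 (flow y kB z) (σ.symm (FreeGroup.of k)) =
      u k + τ • Δ (σ.symm (FreeGroup.of k))
    rw [hder, ← hx3 k]
    have h2 : der1 y (σ.symm (FreeGroup.of k)) = der1 x (FreeGroup.of k) := by
      rw [hy]
      change der1 x (σ (σ.symm (FreeGroup.of k))) = _
      rw [MulEquiv.apply_symm_apply]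
    simp only [h2]

/-- Start arcs: moving the value at the generator `kA`. -/
theorem realSet_start {κ : Type*} [DecidableEq κ] (D : Set (FreeGroup κ →* (Mat r ℂ)ˣ))
    (ρ : FreeGroup κ →* (Mat r ℂ)ˣ) (kA : κ)
    (hbase : ∀ z : (Mat r (PowerSeries ℂ))ˣ,
      InZ D (flow (baseChange (algebraMap ℂ (PowerSeries ℂ)) ρ) kA z)) (α : Mat r ℂ) :
    (fun k => if k = kA then α else 0) ∈ RealSet D ρ := by
  obtain ⟨Y, hY⟩ : ∃ y : (Mat r (PowerSeries ℂ))ˣ, (y : Mat r (PowerSeries ℂ)) =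
      lin1 (ρ (FreeGroup.of kA) : Mat r ℂ) α := by
    have : IsUnit (lin1 (ρ (FreeGroup.of kA) : Mat r ℂ) α) := by
      apply isUnit_of_const
      rw [lin1_const]
      exact (ρ (FreeGroup.of kA)).isUnit
    exact this
  obtain ⟨x, hx⟩ : ∃ x, x = baseChange (algebraMap ℂ (PowerSeries ℂ)) ρ := ⟨_, rfl⟩
  have hxk : ∀ k, (flow x kA ((x (FreeGroup.of kA))⁻¹ * Y)) (FreeGroup.of k) =
      if k = kA then Y else x (FreeGroup.of k) := by
    intro k
    rw [flow_of]
    split_ifs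
    · rw [mul_inv_cancel_left]
    · rfl
  refine ⟨flow x kA ((x (FreeGroup.of kA))⁻¹ * Y), ?_, ?_, ?_⟩
  · rw [hx]; exact hbase _
  · apply FreeGroup.ext_hom
    intro k
    ext1
    rw [rep0, baseChange_apply, hxk]
    split_ifs with h
    · rw [hY, lin1_const, h]
    · rw [hx, baseChange_apply]
      ext i j
      simp
  · intro k
    change _ = if k = kA then α else 0
    rw [der1, hxk]
    by_cases h : k = kA
    · rw [if_pos h, if_pos h, hY, lin1_one]
    · rw [if_neg h, if_neg h, hx, baseChange_apply]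
      ext i j
      rw [Matrix.map_apply, Matrix.map_apply, ← PowerSeries.C_eq_algebraMap, PowerSeries.coeff_C]
      simp

/-! ### The Dehn twist along the last handle is admissible -/

theorem twist_relator (z : ℤ) :
    twist (Sum.inl (Fin.last m, true)) (Sum.inl (Fin.last m, false)) z (relator (m + 1) n) =
      relator (m + 1) n := by
  have hd : ∀ j : Fin n, twist (Sum.inl (Fin.last m, true)) (Sum.inl (Fin.last m, false)) z
      (gC j : FF (m + 1) n) = gC j := by
    intro j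
    simp [gC, gD, gE, twist_of]
  have hh : ∀ i : Fin (m + 1), twist (Sum.inl (Fin.last m, true))
      (Sum.inl (Fin.last m, false)) z (hcomm i : FF (m + 1) n) = hcomm i := by
    intro i
    by_cases hi : i = Fin.last m
    · subst hi
      simp only [hcomm, gA, gB, map_mul, map_inv, twist_of, if_true]
      simp only [Sum.inl.injEq, Prod.mk.injEq, true_and, Bool.false_eq_true, if_false]
      group
    · simp [hcomm, gA, gB, twist_of, hi]
  unfold relator
  have e1 : (⇑(twist (Sum.inl (Fin.last m, true)) (Sum.inl (Fin.last m, false)) z) ∘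
      fun j : Fin n => (gC j : FF (m + 1) n)) = fun j => gC j := funext hd
  have e2 : (⇑(twist (Sum.inl (Fin.last m, true)) (Sum.inl (Fin.last m, false)) z) ∘
      fun i : Fin (m + 1) => (hcomm i : FF (m + 1) n)) = fun i => hcomm i := funext hh
  rw [map_mul, map_list_prod, map_list_prod, List.map_ofFn, List.map_ofFn, e1, e2]

theorem dehn_adm (h : (Sum.inl (Fin.last m, true) : Gen (m + 1) n) ≠
    Sum.inl (Fin.last m, false)) (z : ℤ) : Adm (dehn h z) where
  rel := twist_relator z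
  he j := by
    change twist (Sum.inl (Fin.last m, true)) (Sum.inl (Fin.last m, false)) z (gE j) = gE j
    simp [gE, twist_of]
  hd j := by
    refine ⟨1, one_mem _, ?_⟩
    change twist (Sum.inl (Fin.last m, true)) (Sum.inl (Fin.last m, false)) z (gD j) = _
    simp [gD, twist_of]
  hab k := by
    change twist (Sum.inl (Fin.last m, true)) (Sum.inl (Fin.last m, false)) z
      (FreeGroup.of (Sum.inl k)) ∈ Fc (m + 1) n
    rw [twist_of]
    have hmem : ∀ k' : Fin (m + 1) × Bool, (FreeGroup.of (Sum.inl k') : FF (m + 1) n) ∈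
        Fc (m + 1) n := fun k' => Subgroup.subset_closure (Or.inl ⟨k', rfl⟩)
    split_ifs
    · exact mul_mem (hmem _) (Subgroup.zpow_mem _ (hmem _) z)
    · exact hmem _

theorem dehn_symm_adm (h : (Sum.inl (Fin.last m, true) : Gen (m + 1) n) ≠
    Sum.inl (Fin.last m, false)) (z : ℤ) : Adm (dehn h z).symm := by
  have h1 : (dehn h z).symm = dehn h (-z) := by
    ext w
    change twist _ _ (-z) w = twist _ _ (-z) w
    rfl
  rw [h1]
  exact dehn_adm h (-z)

/-- LOCAL THEOREM: all tangent vectors at the base point are realized. -/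
theorem all_realized
    (D : Set (FF (m + 1) n →* (Mat r ℂ)ˣ))
    (hadm : ∀ τ : FF (m + 1) n ≃* FF (m + 1) n, Adm τ → Adm τ.symm →
      ∀ y ∈ D, y.comp τ.toMonoidHom ∈ D)
    (ρ : FF (m + 1) n →* (Mat r ℂ)ˣ) (hρB : ρ (gB (Fin.last m)) = 1)
    (hρrel : ρ (relator (m + 1) n) = 1)
    (hbase : ∀ z : (Mat r (PowerSeries ℂ))ˣ,
      InZ D (flow (baseChange (algebraMap ℂ (PowerSeries ℂ)) ρ) (Sum.inl (Fin.last m, false)) z))
    (hgen : ∀ p : List (Loop m n), AlgebraicIndependent ℤ fun q : Fin r × Fin r =>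
      (ρ (wordL p * gA (Fin.last m)) : Mat r ℂ) q.1 q.2)
    (hdual : DualProp (fun q : Loop m n => ρ (loopW q)) (ρ (gA (Fin.last m))))
    (E : FF (m + 1) n → Mat r ℂ) (hE : IsDer ρ E) (hEe : ∀ j, E (gE j) = 0)
    (hErel : E (relator (m + 1) n) = 0) :
    (fun k => E (FreeGroup.of k)) ∈ RealSet D ρ := by
  classical
  -- slides
  have hsl : ∀ q : Loop m n, ∃ σ : FF (m + 1) n ≃* FF (m + 1) n, IsSlide q σ :=
    fun q => exists_slide q
  choose σ hσ using hsl
  obtain ⟨kA, hkA⟩ : ∃ kA : Gen (m + 1) n, kA = Sum.inl (Fin.last m, false) := ⟨_, rfl⟩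
  obtain ⟨kB, hkB⟩ : ∃ kB : Gen (m + 1) n, kB = Sum.inl (Fin.last m, true) := ⟨_, rfl⟩
  have hAB : kB ≠ kA := by rw [hkA, hkB]; simp
  have hgA : (gA (Fin.last m) : FF (m + 1) n) = FreeGroup.of kA := by rw [hkA]; rfl
  have hgB : (gB (Fin.last m) : FF (m + 1) n) = FreeGroup.of kB := by rw [hkB]; rfl
  have hDt : ∀ y ∈ D, ∀ z : ℤ, y.comp (twist kB kA z) ∈ D := by
    intro y hy z
    subst hkA hkB
    exact hadm (dehn hAB z) (dehn_adm hAB z) (dehn_symm_adm hAB z) y hy
  -- the vectors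
  have hv : ∀ (p : List (Loop m n)) (e : ℕ), ∃ Δ : FF (m + 1) n → Mat r ℂ,
      IsDer (ρ.comp (slp σ p).toMonoidHom) Δ ∧ ∀ k, Δ (FreeGroup.of k) =
        if k = kB then (ρ (wordL p * gA (Fin.last m)) : Mat r ℂ) ^ e else 0 :=
    fun p e => exists_der _ _
  choose Δ hΔ hΔk using hv
  let v : List (Loop m n) × ℕ → Gen (m + 1) n → Mat r ℂ :=
    fun c k => Δ c.1 c.2 ((slp σ c.1).symm (FreeGroup.of k))
  have hslA : ∀ p, ρ (slp σ p (FreeGroup.of kA)) = ρ (wordL p * gA (Fin.last m)) := by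
    intro p
    rw [← hgA, slp_gA hσ ρ hρB p, map_mul]
  have hslB : ∀ p, ρ (slp σ p (FreeGroup.of kB)) = 1 := by
    intro p
    rw [← hgB, slp_gB hσ, hρB]
  -- adding the vectors `v`
  have hstep : ∀ w ∈ Submodule.span ℂ (Set.range v), ∀ u ∈ RealSet D ρ, ∀ τ : ℂ,
      u + τ • w ∈ RealSet D ρ := by
    intro w hw
    induction hw using Submodule.span_induction with
    | mem w hw =>
      obtain ⟨⟨p, e⟩, rfl⟩ := hw
      intro u hu τ
      refine realSet_flow D ρ kA kB hDt (slp σ p) (hadm _ (slp_adm hσ p) (slp_symm_adm hσ p))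
        (hadm _ (slp_symm_adm hσ p) (slp_adm hσ p)) ?_ e (Δ p e) (hΔ p e) ?_ u hu τ
      · simp only [hslA]; exact hgen p
      · intro k
        rw [hΔk, hslA, hslB, Units.val_one, Matrix.one_mul]
    | zero => intro u hu τ; simpa using hu
    | add a b _ _ ha hb =>
      intro u hu τ
      rw [smul_add, ← add_assoc]
      exact hb _ (ha u hu τ) τ
    | smul c a _ ha =>
      intro u hu τ
      rw [smul_smul]
      exact ha u hu (τ * c)
  have hstart := realSet_start D ρ kA (by rw [hkA]; exact hbase)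
  obtain ⟨u, hu⟩ : ∃ u : Gen (m + 1) n → Mat r ℂ, u = fun k => E (FreeGroup.of k) := ⟨_, rfl⟩
  -- the space of realized vectors
  let N₁ : Submodule ℂ (Gen (m + 1) n → Mat r ℂ) :=
    LinearMap.range (LinearMap.single ℂ (fun _ : Gen (m + 1) n => Mat r ℂ) kA)
  let N : Submodule ℂ (Gen (m + 1) n → Mat r ℂ) := N₁ ⊔ Submodule.span ℂ (Set.range v)
  have hmem : u ∈ N := by
    by_contra hcon
    obtain ⟨φ, hφu, hφN⟩ := Submodule.exists_dual_map_eq_bot_of_notMem hcon inferInstance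
    have hφ0 : ∀ w ∈ N, φ w = 0 := by
      intro w hw
      have : φ w ∈ N.map φ := Submodule.mem_map_of_mem hw
      rw [hφN] at this
      simpa using this
    -- representation of the functional
    have hs : ∀ k, ∃ s : Mat r ℂ, ∀ ε, (φ ∘ₗ
        (LinearMap.single ℂ (fun _ : Gen (m + 1) n => Mat r ℂ) k)) ε = trace (s * ε) :=
      fun k => exists_trace_repr _
    choose s hs using hs
    have hφs : ∀ w : Gen (m + 1) n → Mat r ℂ, φ w = ∑ k, trace (s k * w k) := by
      intro w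
      have h1 : w = ∑ k, LinearMap.single ℂ (fun _ : Gen (m + 1) n => Mat r ℂ) k (w k) := by
        simp only [LinearMap.coe_single]
        rw [Finset.univ_sum_single]
      conv_lhs => rw [h1]
      rw [map_sum]
      exact Finset.sum_congr rfl fun k _ => by rw [← hs k (w k)]; rfl
    have hsA : s kA = 0 := by
      have h1 : ∀ ε : Mat r ℂ, trace (s kA * ε) = 0 := by
        intro ε
        rw [← hs kA ε]
        exact hφ0 _ (Submodule.mem_sup_left ⟨ε, rfl⟩)
      ext i j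
      have h2 := h1 (Matrix.single j i 1)
      rw [Matrix.trace_mul_single] at h2
      simpa using h2
    -- the matrices R
    have hR : ∀ q : Loop m n, ∃ R : Mat r ℂ, ∀ ε, ∑ k, trace (s k * Lam ρ q ε k) =
        trace (R * ε) := by
      intro q
      obtain ⟨R, hR⟩ := exists_trace_repr
        ({ toFun := fun ε => ∑ k, trace (s k * Lam ρ q ε k)
           map_add' := fun ε ε' => by
            simp only [Lam_add, Matrix.mul_add, Matrix.trace_add, Finset.sum_add_distrib]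
           map_smul' := fun c ε => by
            simp only [Lam_smul, Matrix.mul_smul, Matrix.trace_smul, RingHom.id_apply,
              Finset.smul_sum] } : Mat r ℂ →ₗ[ℂ] ℂ)
      exact ⟨R, hR⟩
    choose R hR using hR
    have hH : ∀ p : List (Loop m n), ∀ e : ℕ, 1 ≤ e →
        trace ((s kB + theta (fun q => ρ (loopW q)) R p) *
          ((wP (fun q => ρ (loopW q)) p * ρ (gA (Fin.last m)) : (Mat r ℂ)ˣ) : Mat r ℂ) ^ e)
            = 0 := by
      intro p e _
      have h1 : φ (v (p, e)) = 0 :=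
        hφ0 _ (Submodule.mem_sup_right (Submodule.subset_span ⟨(p, e), rfl⟩))
      obtain ⟨T, hT⟩ : ∃ T, T = ρ (wordL p * gA (Fin.last m)) := ⟨_, rfl⟩
      have h2 : ∀ k, trace (s k * v (p, e) k) =
          (if k = kB then trace (s kB * (T : Mat r ℂ) ^ e) else 0) +
            trace (s k * Del ρ ((T : Mat r ℂ) ^ e) k p) := by
        intro k
        by_cases hk : k = kA
        · rw [hk, hsA, Matrix.zero_mul, Matrix.zero_mul, Matrix.trace_zero, if_neg hAB.symm,
            zero_add]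
        · have h3 := der_slp hσ ρ hρB p (Δ p e) (hΔ p e) k (by rw [← hkA]; exact hk)
          have h4 : Δ p e (gB (Fin.last m)) = (T : Mat r ℂ) ^ e := by
            rw [hgB, hΔk, if_pos rfl, hT]
          change trace (s k * Δ p e ((slp σ p).symm (FreeGroup.of k))) = _
          rw [h3, h4, Matrix.mul_add, Matrix.trace_add, hΔk]
          by_cases hkB' : k = kB
          · rw [if_pos hkB', if_pos hkB', hkB', hT]
          · rw [if_neg hkB', if_neg hkB', Matrix.mul_zero, Matrix.trace_zero]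
      rw [hφs] at h1
      simp only [h2, Finset.sum_add_distrib, Finset.sum_ite_eq', Finset.mem_univ, if_true] at h1
      rw [sum_Del ρ s R hR, ← hT] at h1
      rw [wP_wordL, ← map_mul, ← hT, Matrix.add_mul, Matrix.trace_add, ← h1]
      have h5 : (T : Mat r ℂ) * (T : Mat r ℂ) ^ e * ((T⁻¹ : (Mat r ℂ)ˣ) : Mat r ℂ) =
          (T : Mat r ℂ) ^ e := by
        rw [← pow_succ', pow_succ, Matrix.mul_assoc, ← Units.val_mul, mul_inv_cancel,
          Units.val_one, Matrix.mul_one]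
      have h6 : trace (((T⁻¹ : (Mat r ℂ)ˣ) : Mat r ℂ) * theta (fun q => ρ (loopW q)) R p *
          (T : Mat r ℂ) * (T : Mat r ℂ) ^ e) =
            trace (theta (fun q => ρ (loopW q)) R p * (T : Mat r ℂ) ^ e) := by
        rw [Matrix.mul_assoc, Matrix.mul_assoc, Matrix.trace_mul_comm, Matrix.mul_assoc, h5]
      rw [h6]
    obtain ⟨η, hη1, hη2⟩ := hdual R (s kB) hH
    have hid := identify ρ hρrel hρB s η (by rw [← hkA]; exact hsA)
      (by rw [← hkB]; exact hη2) (fun q ε => by rw [hR, hη1]) E hE hEe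
    apply hφu
    rw [hφs, hu]
    simp only
    rw [hid, hErel, Matrix.mul_zero, Matrix.trace_zero]
  obtain ⟨w₁, ⟨α', rfl⟩, w₂, hw₂, hw⟩ := Submodule.mem_sup.1 hmem
  rw [← hu, ← hw]
  have h1 : (LinearMap.single ℂ (fun _ : Gen (m + 1) n => Mat r ℂ) kA) α' ∈ RealSet D ρ := by
    have h2 := hstart α'
    have h3 : (fun k => if k = kA then α' else 0) =
        (LinearMap.single ℂ (fun _ : Gen (m + 1) n => Mat r ℂ) kA) α' := by
      funext k
      rw [LinearMap.coe_single]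
      by_cases hk : k = kA
      · subst hk; simp
      · simp [hk]
    rwa [h3] at h2
  have h4 := hstep w₂ hw₂ _ h1 1
  rwa [one_smul] at h4

/-- LOCAL THEOREM, with the dual property as a hypothesis. -/
theorem local_theorem_dual
    (D : Set (FF (m + 1) n →* (Mat r ℂ)ˣ)) (J : Fin n → (Mat r ℂ)ˣ)
    (hrel : ∀ y ∈ D, y (relator (m + 1) n) = 1) (hJ : ∀ y ∈ D, ∀ j, y (gE j) = J j)
    (hadm : ∀ τ : FF (m + 1) n ≃* FF (m + 1) n, Adm τ → Adm τ.symm →
      ∀ y ∈ D, y.comp τ.toMonoidHom ∈ D)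
    (ρ : FF (m + 1) n →* (Mat r ℂ)ˣ) (hρB : ρ (gB (Fin.last m)) = 1)
    (hρrel : ρ (relator (m + 1) n) = 1) (hρJ : ∀ j, ρ (gE j) = J j)
    (hbase : ∀ z : (Mat r (PowerSeries ℂ))ˣ,
      InZ D (flow (baseChange (algebraMap ℂ (PowerSeries ℂ)) ρ) (Sum.inl (Fin.last m, false)) z))
    (hgen : ∀ p : List (Loop m n), AlgebraicIndependent ℤ fun q : Fin r × Fin r =>
      (ρ (wordL p * gA (Fin.last m)) : Mat r ℂ) q.1 q.2)
    (hdual : DualProp (fun q : Loop m n => ρ (loopW q)) (ρ (gA (Fin.last m))))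
    (f : MvPolynomial (FF (m + 1) n × Fin r × Fin r) ℂ) (hf : ∀ y ∈ D, evalW y f = 0) :
    ∃ h : MvPolynomial (Gen (m + 1) n × Bool × Fin r × Fin r) ℂ,
      evalP (fun k => ρ (FreeGroup.of k)) h ≠ 0 ∧
      ∀ X : Gen (m + 1) n → (Mat r ℂ)ˣ, (∀ j, X (Sum.inr (j, true)) = J j) →
        FreeGroup.lift X (relator (m + 1) n) = 1 →
        evalP X h * evalW (FreeGroup.lift X) f = 0 := by
  let W : Option (Fin n) → FF (m + 1) n := fun o => o.elim (relator (m + 1) n) gE
  let M : Option (Fin n) → Mat r ℂ := fun o => o.elim 1 fun j => (J j : Mat r ℂ)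
  have hW : ∀ x : FF (m + 1) n →* (Mat r ℂ)ˣ, (∀ o, (x (W o) : Mat r ℂ) = M o) ↔
      (x (relator (m + 1) n) = 1 ∧ ∀ j, x (gE j) = J j) := by
    intro x
    constructor
    · intro h
      exact ⟨Units.ext (h none), fun j => Units.ext (h (some j))⟩
    · rintro ⟨h1, h2⟩ (_ | j)
      · change (x (relator (m + 1) n) : Mat r ℂ) = 1
        rw [h1]; rfl
      · change (x (gE j) : Mat r ℂ) = J j
        rw [h2]
  obtain ⟨h, hh1, hh2⟩ := arc_application W M D (fun y hy => (hW y).2 ⟨hrel y hy, hJ y hy⟩) ρ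
    ((hW ρ).2 ⟨hρrel, hρJ⟩) (fun E hE hEW => by
      obtain ⟨x, hx1, hx2, hx3⟩ := all_realized D hadm ρ hρB hρrel hbase hgen hdual E hE
        (fun j => hEW (some j)) (hEW none)
      exact ⟨x, hx1, hx2, hx3⟩) f hf
  refine ⟨h, hh1, fun X hX hrelX => hh2 X ((hW _).2 ⟨hrelX, fun j => ?_⟩)⟩
  rw [gE, FreeGroup.lift_apply_of, hX]

/-- LOCAL THEOREM. -/
theorem local_theorem
    (D : Set (FF (m + 1) n →* (Mat r ℂ)ˣ)) (J : Fin n → (Mat r ℂ)ˣ)
    (hrel : ∀ y ∈ D, y (relator (m + 1) n) = 1) (hJ : ∀ y ∈ D, ∀ j, y (gE j) = J j)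
    (hadm : ∀ τ : FF (m + 1) n ≃* FF (m + 1) n, Adm τ → Adm τ.symm →
      ∀ y ∈ D, y.comp τ.toMonoidHom ∈ D)
    (ρ : FF (m + 1) n →* (Mat r ℂ)ˣ) (hρB : ρ (gB (Fin.last m)) = 1)
    (hρrel : ρ (relator (m + 1) n) = 1) (hρJ : ∀ j, ρ (gE j) = J j)
    (hbase : ∀ z : (Mat r (PowerSeries ℂ))ˣ,
      InZ D (flow (baseChange (algebraMap ℂ (PowerSeries ℂ)) ρ) (Sum.inl (Fin.last m, false)) z))
    (hgen : ∀ p : List (Loop m n), AlgebraicIndependent ℤ fun q : Fin r × Fin r =>
      (ρ (wordL p * gA (Fin.last m)) : Mat r ℂ) q.1 q.2)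
    (q₀ : Loop m n) (U : (Mat r ℂ)ˣ) (α : Fin r → ℂ) (hα : Reg3 α)
    (hq₀ : (ρ (loopW q₀) : Mat r ℂ) =
      (U : Mat r ℂ) * diagonal α * ((U⁻¹ : (Mat r ℂ)ˣ) : Mat r ℂ))
    (hA : Gen3 ((U⁻¹ * ρ (gA (Fin.last m)) * U : (Mat r ℂ)ˣ) : Mat r ℂ))
    (f : MvPolynomial (FF (m + 1) n × Fin r × Fin r) ℂ) (hf : ∀ y ∈ D, evalW y f = 0) :
    ∃ h : MvPolynomial (Gen (m + 1) n × Bool × Fin r × Fin r) ℂ,
      evalP (fun k => ρ (FreeGroup.of k)) h ≠ 0 ∧
      ∀ X : Gen (m + 1) n → (Mat r ℂ)ˣ, (∀ j, X (Sum.inr (j, true)) = J j) →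
        FreeGroup.lift X (relator (m + 1) n) = 1 →
        evalP X h * evalW (FreeGroup.lift X) f = 0 :=
  local_theorem_dual D J hrel hJ hadm ρ hρB hρrel hρJ hbase hgen
    (fun R Q H => dual3 (fun q : Loop m n => ρ (loopW q)) R Q (ρ (gA (Fin.last m))) q₀ U α hα hq₀
      hA (fun p k h1 _ => H p k h1)) f hf

end Vale.Agent.P002R
end

section

/-!
# The dual lemma for block data, part D: consequences of the limit conditions
-/

namespace Vale.Agent.P002R

open Matrix

variable {r : ℕ}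

/-- The bilinear functional. -/
def T2 (V B u v : Mat r ℂ) : ℂ := trace (V * u * (B * v))

theorem add_pow_of_mul_zero {x y : Mat r ℂ} (h1 : x * y = 0) (h2 : y * x = 0) (s : ℕ) :
    (x + y) ^ (s + 1) = x ^ (s + 1) + y ^ (s + 1) := by
  induction s with
  | zero => simp
  | succ s ih =>
    rw [pow_succ, ih, add_mul, mul_add, mul_add, pow_succ x s, mul_assoc _ x y, h1,
      pow_succ y s, mul_assoc _ y x, h2, mul_zero, mul_zero, add_zero, zero_add]
    rw [← pow_succ x s, ← pow_succ y s, ← pow_succ, ← pow_succ]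

/-- Separation of the bidegrees. -/
theorem T2_separate (V B x y : Mat r ℂ) (h1 : x * y = 0) (h2 : y * x = 0) (k : ℕ)
    (h : ∀ a : ℂ, ∑ l ∈ Finset.range k, T2 V B ((a • x + y) ^ (l + 1)) ((a • x + y) ^ (k - l)) = 0)
    (s : ℕ) (hs1 : 1 ≤ s) (hsk : s ≤ k) :
    T2 V B (x ^ s) (y ^ (k + 1 - s)) + T2 V B (y ^ (k + 1 - s)) (x ^ s) = 0 := by
  have hpow : ∀ (a : ℂ) (s : ℕ), 1 ≤ s → (a • x + y) ^ s = a ^ s • x ^ s + y ^ s := by
    intro a s hs
    obtain ⟨s, rfl⟩ : ∃ s', s = s' + 1 := ⟨s - 1, by omega⟩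
    rw [add_pow_of_mul_zero (by rw [Matrix.smul_mul, h1, smul_zero])
      (by rw [Matrix.mul_smul, h2, smul_zero]), smul_pow]
  obtain ⟨p, hp⟩ : ∃ p : Polynomial ℂ, p = ∑ l ∈ Finset.range k,
    (Polynomial.monomial (k + 1) (T2 V B (x ^ (l + 1)) (x ^ (k - l))) +
      Polynomial.monomial (l + 1) (T2 V B (x ^ (l + 1)) (y ^ (k - l))) +
      Polynomial.monomial (k - l) (T2 V B (y ^ (l + 1)) (x ^ (k - l))) +
      Polynomial.monomial 0 (T2 V B (y ^ (l + 1)) (y ^ (k - l)))) := ⟨_, rfl⟩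
  have hp0 : p = 0 := by
    apply Polynomial.funext
    intro a
    rw [Polynomial.eval_zero, ← h a, hp, Polynomial.eval_finsetSum]
    refine Finset.sum_congr rfl fun l hl => ?_
    have hl' := Finset.mem_range.1 hl
    simp only [Polynomial.eval_add, Polynomial.eval_monomial]
    rw [hpow a (l + 1) (by omega), hpow a (k - l) (by omega)]
    have e : a ^ (k + 1) = a ^ (l + 1) * a ^ (k - l) := by
      rw [← pow_add]; congr 1; omega
    unfold T2
    simp only [mul_add, add_mul, Matrix.mul_smul, Matrix.smul_mul, trace_add, trace_smul,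
      smul_eq_mul, smul_smul, pow_zero]
    rw [e]
    ring
  have h3 := congrArg (fun q : Polynomial ℂ => q.coeff s) hp0
  simp only [hp, Polynomial.coeff_zero, Polynomial.finsetSum_coeff, Polynomial.coeff_add,
    Polynomial.coeff_monomial, Finset.sum_add_distrib] at h3
  have e1 : (∑ l ∈ Finset.range k, if k + 1 = s then T2 V B (x ^ (l + 1)) (x ^ (k - l)) else 0) =
      0 := Finset.sum_eq_zero fun l _ => if_neg (by omega)
  have e4 : (∑ l ∈ Finset.range k, if 0 = s then T2 V B (y ^ (l + 1)) (y ^ (k - l)) else 0) =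
      0 := Finset.sum_eq_zero fun l _ => if_neg (by omega)
  have e2 : (∑ l ∈ Finset.range k, if l + 1 = s then T2 V B (x ^ (l + 1)) (y ^ (k - l)) else 0) =
      T2 V B (x ^ s) (y ^ (k + 1 - s)) := by
    rw [Finset.sum_eq_single (s - 1)]
    · rw [if_pos (by omega)]
      congr 2
      · omega
      · omega
    · intro l _ hl
      exact if_neg (by omega)
    · intro hl
      exact absurd (Finset.mem_range.2 (by omega)) hl
  have e3 : (∑ l ∈ Finset.range k, if k - l = s then T2 V B (y ^ (l + 1)) (x ^ (k - l)) else 0) =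
      T2 V B (y ^ (k + 1 - s)) (x ^ s) := by
    rw [Finset.sum_eq_single (k - s)]
    · rw [if_pos (by omega)]
      congr 2
      · omega
      · omega
    · intro l hl hl'
      have := Finset.mem_range.1 hl
      exact if_neg (by omega)
    · intro hl
      exact absurd (Finset.mem_range.2 (by omega)) hl
  rw [e1, e2, e3, e4] at h3
  linear_combination h3

theorem eb_comm_BD {c : Fin r → Fin r} {X : Mat r ℂ} (hX : BD c X) (b : Fin r) :
    eb c b * X = X * eb c b := by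
  ext i j
  rw [eb, diagonal_mul, mul_diagonal]
  by_cases h : c i = c j
  · rw [h, mul_comm]
  · rw [hX i j h]; ring

theorem eb_idem (c : Fin r → Fin r) (b : Fin r) : eb c b * eb c b = eb c b := by
  rw [eb, diagonal_mul_diagonal]
  congr 1
  funext i
  split_ifs <;> simp

theorem eb_mul_pow {c : Fin r → Fin r} {X : Mat r ℂ} (hX : BD c X) (b : Fin r) (s : ℕ) :
    (eb c b * X) ^ (s + 1) = eb c b * X ^ (s + 1) := by
  induction s with
  | zero => simp
  | succ s ih =>
    rw [pow_succ, ih, pow_succ X (s + 1)]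
    calc eb c b * X ^ (s + 1) * (eb c b * X) = eb c b * (X ^ (s + 1) * eb c b) * X := by
          simp only [mul_assoc]
      _ = (eb c b * eb c b) * X ^ (s + 1) * X := by
          rw [← eb_comm_BD (hX.pow _)]; simp only [mul_assoc]
      _ = _ := by rw [eb_idem]; simp only [mul_assoc]

section

variable {L : Type*} (P : L → (Mat r ℂ)ˣ)

/-- The bidegree relations. -/
theorem LimOK.bideg {P : L → (Mat r ℂ)ˣ} {c : Fin r → Fin r} {D : ℕ} {μ B : Mat r ℂ}
    (hL : LimOK P c D μ B) (p : List L) {b b' : Fin r} (hb : b ≠ b') (s t : ℕ) (hs : 1 ≤ s)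
    (ht : 1 ≤ t) (hst : s + t ≤ D) :
    T2 (μᵀ ⊙ B) B (eb c b * blkD c (wP P p : Mat r ℂ) ^ s)
      (eb c b' * blkD c (wP P p : Mat r ℂ) ^ t) +
    T2 (μᵀ ⊙ B) B (eb c b' * blkD c (wP P p : Mat r ℂ) ^ t)
      (eb c b * blkD c (wP P p : Mat r ℂ) ^ s) = 0 := by
  obtain ⟨X, hX⟩ : ∃ X, X = blkD c (wP P p : Mat r ℂ) := ⟨_, rfl⟩
  have hXBD : BD c X := by rw [hX]; exact BD.blkD c _
  rw [← hX]
  have h12 : (eb c b * X) * (eb c b' * X) = 0 := by
    calc (eb c b * X) * (eb c b' * X) = eb c b * (X * eb c b') * X := by simp only [mul_assoc]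
      _ = (eb c b * eb c b') * X * X := by rw [← eb_comm_BD hXBD]; simp only [mul_assoc]
      _ = 0 := by rw [eb_mul_eb hb, zero_mul, zero_mul]
  have h21 : (eb c b' * X) * (eb c b * X) = 0 := by
    calc (eb c b' * X) * (eb c b * X) = eb c b' * (X * eb c b) * X := by simp only [mul_assoc]
      _ = (eb c b' * eb c b) * X * X := by rw [← eb_comm_BD hXBD]; simp only [mul_assoc]
      _ = 0 := by rw [eb_mul_eb hb.symm, zero_mul, zero_mul]
  have h := T2_separate (μᵀ ⊙ B) B (eb c b * X) (eb c b' * X) h12 h21 (s + t - 1) (by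
    intro a
    have h1 := hL.two p (s + t - 1) (by omega) (fun d => if d = b then a else if d = b' then 1 else 0)
    rw [← hX] at h1
    have h2 : (diagonal fun i => if c i = b then a else if c i = b' then (1 : ℂ) else 0) * X =
        a • (eb c b * X) + eb c b' * X := by
      rw [eb, eb, ← Matrix.smul_mul, ← add_mul, ← diagonal_smul, diagonal_add]
      congr 2
      funext i
      simp only [Pi.smul_apply, smul_eq_mul]
      by_cases h3 : c i = b
      · rw [if_pos h3, if_pos h3, if_neg (fun h4 => hb (h3.symm.trans h4))]; ring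
      · rw [if_neg h3, if_neg h3]; ring
    rw [h2] at h1
    rw [← h1]
    unfold Gk T2
    refine Finset.sum_congr rfl fun l _ => ?_
    rw [zero_smul, add_zero, one_mul, pow_succ']
    simp only [mul_assoc]) s hs (by omega)
  have e : s + t - 1 + 1 - s = t := by omega
  rw [e] at h
  obtain ⟨s, rfl⟩ : ∃ s', s = s' + 1 := ⟨s - 1, by omega⟩
  obtain ⟨t, rfl⟩ : ∃ t', t = t' + 1 := ⟨t - 1, by omega⟩
  rwa [eb_mul_pow hXBD, eb_mul_pow hXBD] at h

theorem vander_zero {α : Fin r → ℂ} (hα : Function.Injective α) (h0 : ∀ i, α i ≠ 0)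
    (v : Fin r → ℂ) (h : ∀ s : ℕ, 1 ≤ s → s ≤ r → ∑ i, v i * α i ^ s = 0) (i : Fin r) :
    v i = 0 := by
  have h1 := Matrix.eq_zero_of_forall_pow_sum_mul_pow_eq_zero (v := fun i => v i * α i) hα (by
    intro s
    rw [← h (s + 1) (by omega) (by have := s.2; omega)]
    refine Finset.sum_congr rfl fun j _ => ?_
    rw [pow_succ]; ring)
  have h2 := congrFun h1 i
  simp only [Pi.zero_apply] at h2
  exact (mul_eq_zero.1 h2).resolve_right (h0 i)

/-- Antisymmetry. -/
theorem LimOK.anti {P : L → (Mat r ℂ)ˣ} {c : Fin r → Fin r} {D : ℕ} {μ B : Mat r ℂ}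
    (hL : LimOK P c D μ B) (hD : 2 * r ≤ D) (q₀ : L) (α : Fin r → ℂ)
    (hα : Function.Injective α) (hq₀ : (P q₀ : Mat r ℂ) = diagonal α) (i j : Fin r)
    (hij : c i ≠ c j) : B i j * B j i * (μ i j + μ j i) = 0 := by
  have h0 := alpha_ne_zero P q₀ α hq₀
  have hX : blkD c (wP P [q₀] : Mat r ℂ) = diagonal α := by
    rw [wP, wP, mul_one, hq₀]
    ext a b
    rw [blkD, Matrix.of_apply]
    split_ifs with h
    · rfl
    · exact (BD.diagonal c α a b h).symm
  obtain ⟨b, hb⟩ : ∃ b, b = c i := ⟨_, rfl⟩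
  obtain ⟨b', hb'⟩ : ∃ b', b' = c j := ⟨_, rfl⟩
  have hbb : b ≠ b' := by rw [hb, hb']; exact hij
  have key : ∀ s t : ℕ, 1 ≤ s → s ≤ r → 1 ≤ t → t ≤ r →
      ∑ i, (∑ j, (if c i = b then (if c j = b' then B i j * B j i * (μ i j + μ j i) else 0) else 0) *
        α j ^ t) * α i ^ s = 0 := by
    intro s t hs hs' ht ht'
    have h1 := hL.bideg [q₀] hbb s t hs ht (by omega)
    rw [hX, diagonal_pow, diagonal_pow, eb, eb, diagonal_mul_diagonal, diagonal_mul_diagonal] at h1
    have h2 : ∀ u v : Fin r → ℂ, T2 (μᵀ ⊙ B) B (diagonal u) (diagonal v) =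
        ∑ i, ∑ j, μ i j * B j i * B i j * u i * v j := by
      intro u v
      have h3 := trace_diag_mul (μᵀ ⊙ B) B u v
      unfold T2
      rw [mul_assoc, ← mul_assoc (diagonal u), h3]
      refine Finset.sum_congr rfl fun i _ => Finset.sum_congr rfl fun j _ => ?_
      rw [Matrix.hadamard_apply, Matrix.transpose_apply]
    rw [h2, h2] at h1
    rw [Finset.sum_comm (f := fun i j => μ i j * B j i * B i j *
      ((if c i = b' then (1 : ℂ) else 0) * (α ^ t) i) *
      ((if c j = b then (1 : ℂ) else 0) * (α ^ s) j))] at h1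
    rw [← Finset.sum_add_distrib] at h1
    refine Eq.trans ?_ h1
    refine Finset.sum_congr rfl fun i _ => ?_
    rw [Finset.sum_mul, ← Finset.sum_add_distrib]
    refine Finset.sum_congr rfl fun j _ => ?_
    simp only [Pi.pow_apply]
    by_cases h4 : c i = b
    · by_cases h5 : c j = b'
      · simp only [h4, h5, if_true]; ring
      · simp only [h4, h5, if_true, if_false]; ring
    · simp only [h4, if_false]; ring
  have h1 : ∀ t : ℕ, 1 ≤ t → t ≤ r → ∑ j', (if c i = b then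
      (if c j' = b' then B i j' * B j' i * (μ i j' + μ j' i) else 0) else 0) * α j' ^ t = 0 :=
    fun t ht ht' => vander_zero hα h0 (fun i => ∑ j, (if c i = b then
      (if c j = b' then B i j * B j i * (μ i j + μ j i) else 0) else 0) * α j ^ t)
      (fun s hs hs' => key s t hs hs' ht ht') i
  have h2 := vander_zero hα h0 _ h1 j
  rwa [if_pos hb.symm, if_pos hb'.symm] at h2

/-- A functional which vanishes at the positive powers of an invertible matrix. -/
theorem functional_one (X : Mat r ℂ) (hX : X.det ≠ 0) (f : Mat r ℂ →ₗ[ℂ] ℂ)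
    (h : ∀ t : ℕ, 1 ≤ t → t ≤ r → f (X ^ t) = 0) : f 1 = 0 := by
  rcases Nat.eq_zero_or_pos r with hr | hr
  · subst hr
    have : (1 : Mat 0 ℂ) = 0 := Subsingleton.elim _ _
    rw [this, map_zero]
  have h1 := Matrix.aeval_self_charpoly X
  have h2 : f (Polynomial.aeval X X.charpoly) = X.charpoly.coeff 0 * f 1 := by
    rw [Polynomial.aeval_eq_sum_range, map_sum, Finset.sum_range_succ', Finset.sum_eq_zero]
    · rw [zero_add, map_smul, pow_zero, smul_eq_mul]
    · intro t ht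
      have ht' := Finset.mem_range.1 ht
      rw [Matrix.charpoly_natDegree_eq_dim, Fintype.card_fin] at ht'
      rw [map_smul, h (t + 1) (by omega) (by omega), smul_zero]
  rw [h1, map_zero] at h2
  have h3 : X.charpoly.coeff 0 ≠ 0 := by
    intro h4
    apply hX
    rw [Matrix.det_eq_sign_charpoly_coeff, h4, mul_zero]
  exact (mul_eq_zero.1 h2.symm).resolve_left h3

theorem det_blkD {c : Fin r → Fin r} {X : Mat r ℂ} (hX : ∀ i j, c j < c i → X i j = 0) :
    (blkD c X).det = X.det := by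
  have h1 : BlockTriangular X c := fun i j h => hX i j h
  have h2 : BlockTriangular (blkD c X) c := fun i j h => by
    rw [blkD, Matrix.of_apply, if_neg (ne_of_gt h)]
  rw [h1.det, h2.det]
  refine Finset.prod_congr rfl fun k _ => ?_
  congr 1
  ext ⟨i, hi⟩ ⟨j, hj⟩
  simp [toSquareBlock, toSquareBlockProp, blkD, hi, hj]

/-- The linear relations between two blocks. -/
theorem LimOK.rel {P : L → (Mat r ℂ)ˣ} {c : Fin r → Fin r} {D : ℕ} {μ B : Mat r ℂ}
    (hL : LimOK P c D μ B) (hD : r + 1 ≤ D) (q₀ : L) (α : Fin r → ℂ)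
    (hα : Function.Injective α) (hq₀ : (P q₀ : Mat r ℂ) = diagonal α)
    (htri : ∀ q i j, c j < c i → (P q : Mat r ℂ) i j = 0) (i j b' : Fin r)
    (hij : c i = c j) (hib : c i ≠ b') (p : List L) (hp : (wP P p : Mat r ℂ) i j ≠ 0) :
    ∑ l, (if c l = b' then B j l * B l i * (μ i l + μ l j) else 0) = 0 := by
  obtain ⟨b, hb⟩ : ∃ b, b = c i := ⟨_, rfl⟩
  have hbb : b ≠ b' := by rw [hb]; exact hib
  have h1 : ∀ p : List L, T2 (μᵀ ⊙ B) B (eb c b * blkD c (wP P p : Mat r ℂ)) (eb c b') +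
      T2 (μᵀ ⊙ B) B (eb c b') (eb c b * blkD c (wP P p : Mat r ℂ)) = 0 := by
    intro p
    obtain ⟨X, hX⟩ : ∃ X, X = blkD c (wP P p : Mat r ℂ) := ⟨_, rfl⟩
    have hdet : X.det ≠ 0 := by
      rw [hX, det_blkD (wP_tri P c htri p)]
      have := (wP P p).isUnit
      rw [Matrix.isUnit_iff_isUnit_det, isUnit_iff_ne_zero] at this
      exact this
    have h2 := functional_one X hdet
      { toFun := fun Z => T2 (μᵀ ⊙ B) B (eb c b * X) (eb c b' * Z) +
          T2 (μᵀ ⊙ B) B (eb c b' * Z) (eb c b * X)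
        map_add' := fun Z Z' => by
          unfold T2
          simp only [mul_add, add_mul, trace_add]
          ring
        map_smul' := fun a Z => by
          unfold T2
          simp only [Matrix.mul_smul, Matrix.smul_mul, trace_smul, smul_eq_mul, RingHom.id_apply]
          ring } (by
        intro t ht ht'
        have h3 := hL.bideg p hbb 1 t le_rfl ht (by omega)
        rw [← hX, pow_one] at h3
        exact h3)
    simp only [LinearMap.coe_mk, AddHom.coe_mk, mul_one] at h2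
    rw [← hX]
    exact h2
  obtain ⟨W, hW⟩ : ∃ W : Mat r ℂ, W = B * eb c b' * (μᵀ ⊙ B) + (μᵀ ⊙ B) * eb c b' * B := ⟨_, rfl⟩
  have h2 : ∀ p : List L, trace (W * (eb c b * blkD c (wP P p : Mat r ℂ))) = 0 := by
    intro p
    rw [← h1 p, hW, add_mul, trace_add]
    unfold T2
    congr 1
    · rw [Matrix.trace_mul_comm ((μᵀ ⊙ B) * (eb c b * blkD c (wP P p : Mat r ℂ))) (B * eb c b')]
      simp only [mul_assoc]
    · simp only [mul_assoc]
  have h3 := double_interp hα (fun i j => W j i * (eb c b * blkD c (wP P p : Mat r ℂ)) i j) (by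
    intro n n'
    have h4 := h2 (List.replicate n q₀ ++ (p ++ List.replicate n' q₀))
    rw [wP_append, wP_append, Units.val_mul, Units.val_mul, wP_replicate P q₀ α hq₀,
      wP_replicate P q₀ α hq₀] at h4
    have h5 : eb c b * blkD c ((diagonal fun i => α i ^ n) * ((wP P p : Mat r ℂ) *
        diagonal fun i => α i ^ n')) = (diagonal fun i => α i ^ n) *
        (eb c b * blkD c (wP P p : Mat r ℂ)) * (diagonal fun i => α i ^ n') := by
      ext i j
      rw [eb, diagonal_mul, mul_diagonal, diagonal_mul, diagonal_mul, blkD, blkD, Matrix.of_apply,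
        Matrix.of_apply, diagonal_mul, mul_diagonal]
      split_ifs <;> ring
    rw [h5, trace_diag_mul] at h4
    exact h4) i j
  have h4 : (eb c b * blkD c (wP P p : Mat r ℂ)) i j = (wP P p : Mat r ℂ) i j := by
    rw [eb, diagonal_mul, blkD, Matrix.of_apply, if_pos hb.symm, if_pos hij, one_mul]
  simp only [h4] at h3
  have h5 := (mul_eq_zero.1 h3).resolve_right hp
  rw [hW, Matrix.add_apply, eb, Matrix.mul_assoc, Matrix.mul_assoc, Matrix.mul_apply,
    Matrix.mul_apply, ← Finset.sum_add_distrib] at h5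
  refine Eq.trans ?_ h5
  refine Finset.sum_congr rfl fun l _ => ?_
  rw [diagonal_mul, diagonal_mul, Matrix.hadamard_apply, Matrix.hadamard_apply,
    Matrix.transpose_apply, Matrix.transpose_apply]
  split_ifs <;> ring

end

end Vale.Agent.P002R
end

section

/-!
# The dual lemma for block data, part F: a rigid linear system
-/

namespace Vale.Agent.P002R

/-- A positive definite system. -/
theorem posdef_zero {k : ℕ} (s : ℕ → ℝ) (hs : ∀ l, 0 < s l) (z : Fin k → ℂ)
    (h : ∀ i : Fin k, ∑ j : Fin k, (z i + z j) / ((s i + s j : ℝ) : ℂ) = 0) (i : Fin k) :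
    z i = 0 := by
  have h1 : ∑ i : Fin k, ∑ j : Fin k, (starRingEnd ℂ (z i)) * ((z i + z j) / ((s i + s j : ℝ) : ℂ)) = 0 := by
    apply Finset.sum_eq_zero
    intro i _
    rw [← Finset.mul_sum, h, mul_zero]
  have h2 : ∑ i : Fin k, ∑ j : Fin k, (starRingEnd ℂ (z j)) * ((z i + z j) / ((s i + s j : ℝ) : ℂ)) = 0 := by
    rw [Finset.sum_comm, ← h1]
    refine Finset.sum_congr rfl fun i _ => Finset.sum_congr rfl fun j _ => ?_
    rw [add_comm (z j), add_comm (s j)]
  have h3 : ∑ i : Fin k, ∑ j : Fin k, Complex.normSq (z i + z j) / (s i + s j) = 0 := by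
    have h4 : ((∑ i : Fin k, ∑ j : Fin k, Complex.normSq (z i + z j) / (s i + s j) : ℝ) : ℂ) = 0 := by
      push_cast
      have h5 := congrArg₂ (· + ·) h1 h2
      simp only [← Finset.sum_add_distrib, add_zero] at h5
      rw [← h5]
      refine Finset.sum_congr rfl fun i _ => Finset.sum_congr rfl fun j _ => ?_
      rw [← Complex.mul_conj, map_add]
      push_cast
      ring
    exact_mod_cast h4
  have hnn : ∀ i j : Fin k, 0 ≤ Complex.normSq (z i + z j) / (s i + s j) := fun i j =>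
    div_nonneg (Complex.normSq_nonneg _) (add_pos (hs _) (hs _)).le
  have h4 := (Finset.sum_eq_zero_iff_of_nonneg (fun i _ => Finset.sum_nonneg fun j _ => hnn i j)).1
    h3 i (Finset.mem_univ _)
  have h5 := (Finset.sum_eq_zero_iff_of_nonneg (fun j _ => hnn i j)).1 h4 i (Finset.mem_univ _)
  rw [div_eq_zero_iff] at h5
  rcases h5 with h5 | h5
  · rw [Complex.normSq_eq_zero] at h5
    have : (2 : ℂ) * z i = 0 := by rw [two_mul]; exact h5
    simpa using this
  · exact absurd h5 (add_pos (hs _) (hs _)).ne'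

theorem sum_expand {k : ℕ} (i j : ℕ) (hij : i ≠ j) (a b : ℂ) (f : Fin k → ℂ) :
    ∑ l : Fin k, (1 + if (l : ℕ) = j then a else 0) * (1 - if (l : ℕ) = i then b else 0) * f l =
      ∑ l : Fin k, f l + (if h : j < k then a * f ⟨j, h⟩ else 0) -
        (if h : i < k then b * f ⟨i, h⟩ else 0) := by
  have h1 : ∀ (j : ℕ) (a : ℂ), ∑ l : Fin k, (if (l : ℕ) = j then a else 0) * f l =
      if h : j < k then a * f ⟨j, h⟩ else 0 := by
    intro j a
    split_ifs with h
    · rw [Finset.sum_eq_single (⟨j, h⟩ : Fin k)]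
      · simp
      · intro l _ hl
        have : (l : ℕ) ≠ j := fun h' => hl (Fin.ext h')
        simp [this]
      · simp
    · apply Finset.sum_eq_zero
      intro l _
      have : (l : ℕ) ≠ j := fun h' => h (h' ▸ l.2)
      simp [this]
  rw [← h1 j a, ← h1 i b, ← Finset.sum_add_distrib, ← Finset.sum_sub_distrib]
  refine Finset.sum_congr rfl fun l _ => ?_
  by_cases h2 : (l : ℕ) = j
  · have h3 : (l : ℕ) ≠ i := fun h => hij (h.symm.trans h2)
    simp only [h2, if_true, if_neg (fun h => hij (h.symm) : ¬ j = i)]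
    ring
  · simp only [h2, if_false]
    ring

/-- The rigid linear system. -/
theorem rigid_system {k k' : ℕ} (hk : k ≤ k') (s : ℕ → ℝ) (hs : ∀ l, 0 < s l)
    (hinj : Function.Injective s) (M : Fin k → Fin k' → ℂ)
    (hb : ∀ i j : Fin k, i ≠ j → ∑ l : Fin k', (1 + if (l : ℕ) = j then (s j : ℂ) else 0) *
      (1 - if (l : ℕ) = i then (s i : ℂ) else 0) * (M j l - M i l) = 0)
    (ha : ∀ i j : Fin k', i ≠ j → ∑ l : Fin k, (1 + if (l : ℕ) = j then (s j : ℂ) else 0) *
      (1 - if (l : ℕ) = i then (s i : ℂ) else 0) * (M l j - M l i) = 0) :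
    ∀ i j i' j', M i j = M i' j' := by
  have hsc : ∀ l, (s l : ℂ) ≠ 0 := fun l => by exact_mod_cast (hs l).ne'
  have hssc : ∀ l l', (s l : ℂ) + (s l' : ℂ) ≠ 0 := fun l l' => by
    exact_mod_cast (add_pos (hs l) (hs l')).ne'
  obtain ⟨e, he⟩ : ∃ e : Fin k → Fin k', e = Fin.castLE hk := ⟨_, rfl⟩
  have hev : ∀ i : Fin k, ((e i : Fin k') : ℕ) = i := fun i => by rw [he]; rfl
  have hemk : ∀ (i : Fin k) (h : (i : ℕ) < k'), (⟨i, h⟩ : Fin k') = e i := fun i h =>
    Fin.ext (hev i).symm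
  have hne : ∀ {N : ℕ} {i j : Fin N}, i ≠ j → (i : ℕ) ≠ j := fun h h' => h (Fin.ext h')
  -- the equations
  have hb' : ∀ i j : Fin k, i ≠ j → ∑ l, (M j l - M i l) + (s j : ℂ) * (M j (e j) - M i (e j)) -
      (s i : ℂ) * (M j (e i) - M i (e i)) = 0 := by
    intro i j hij
    have h1 := hb i j hij
    rw [sum_expand (i : ℕ) (j : ℕ) (hne hij)] at h1
    rw [dif_pos (lt_of_lt_of_le j.2 hk), dif_pos (lt_of_lt_of_le i.2 hk), hemk, hemk] at h1
    exact h1
  have ha' : ∀ i j : Fin k, i ≠ j → ∑ l, (M l (e j) - M l (e i)) +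
      (s j : ℂ) * (M j (e j) - M j (e i)) - (s i : ℂ) * (M i (e j) - M i (e i)) = 0 := by
    intro i j hij
    have hij' : e i ≠ e j := fun h => hij (Fin.ext (by rw [← hev i, ← hev j, h]))
    have h1 := ha (e i) (e j) hij'
    simp only [hev] at h1
    rw [sum_expand (i : ℕ) (j : ℕ) (hne hij)] at h1
    rw [dif_pos j.2, dif_pos i.2] at h1
    exact h1
  have ha'' : ∀ (i : Fin k) (j : Fin k'), k ≤ (j : ℕ) → ∑ l, (M l j - M l (e i)) -
      (s i : ℂ) * (M i j - M i (e i)) = 0 ∧ ∑ l, (M l (e i) - M l j) +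
      (s i : ℂ) * (M i (e i) - M i j) = 0 := by
    intro i j hj
    have hij' : e i ≠ j := fun h => by
      have := hev i
      rw [h] at this
      have := i.2
      omega
    have hij : (i : ℕ) ≠ (j : ℕ) := by have := i.2; omega
    have h1 := ha (e i) j hij'
    have h2 := ha j (e i) hij'.symm
    simp only [hev] at h1 h2
    rw [sum_expand (i : ℕ) (j : ℕ) hij] at h1
    rw [sum_expand (j : ℕ) (i : ℕ) hij.symm] at h2
    rw [dif_pos i.2, dif_neg (by omega)] at h1
    rw [dif_pos i.2, dif_neg (by omega)] at h2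
    constructor
    · rw [← h1]; simp
    · rw [← h2]; simp
  -- symmetry
  have hneg : ∀ {N : ℕ} (f g : Fin N → ℂ), ∑ l, (f l - g l) = -∑ l, (g l - f l) := by
    intro N f g
    rw [← Finset.sum_neg_distrib]
    exact Finset.sum_congr rfl fun l _ => by ring
  have hsym : ∀ i j : Fin k, M i (e j) = M j (e i) := by
    intro i j
    by_cases hij : i = j
    · rw [hij]
    have b1 := hb' i j hij
    have b2 := hb' j i (Ne.symm hij)
    have a1 := ha' i j hij
    have a2 := ha' j i (Ne.symm hij)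
    rw [hneg (fun l => M i l) (fun l => M j l)] at b2
    rw [hneg (fun l => M l (e i)) (fun l => M l (e j))] at a2
    have hs' : (s j : ℂ) - (s i : ℂ) ≠ 0 := by
      rw [sub_ne_zero]
      intro h
      exact hne hij (hinj (by exact_mod_cast h)).symm
    have : ((s j : ℂ) - (s i : ℂ)) * (M i (e j) - M j (e i)) = 0 := by
      linear_combination -(1 / 2 : ℂ) * b1 - (1 / 2 : ℂ) * b2 + (1 / 2 : ℂ) * a1 +
        (1 / 2 : ℂ) * a2
    rcases mul_eq_zero.1 this with h | h
    · exact absurd h hs'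
    · exact sub_eq_zero.1 h
  have hmean : ∀ i j : Fin k, ((s i : ℂ) + (s j : ℂ)) * M i (e j) =
      (s i : ℂ) * M i (e i) + (s j : ℂ) * M j (e j) := by
    intro i j
    by_cases hij : i = j
    · rw [hij]; ring
    have b1 := hb' i j hij
    have b2 := hb' j i (Ne.symm hij)
    rw [hneg (fun l => M i l) (fun l => M j l)] at b2
    have h1 := hsym i j
    linear_combination -(1 / 2 : ℂ) * b1 - (1 / 2 : ℂ) * b2 + (s i : ℂ) * h1
  have hcol : ∀ i j : Fin k, ∑ l, M l (e i) = ∑ l, M l (e j) := by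
    intro i j
    by_cases hij : i = j
    · rw [hij]
    have a1 := ha' i j hij
    have h1 := hsym i j
    have h2 := hmean i j
    rw [Finset.sum_sub_distrib] at a1
    linear_combination -a1 - h2 + (s j : ℂ) * h1
  have hfar : ∀ (i : Fin k) (j : Fin k'), k ≤ (j : ℕ) → M i j = M i (e i) := by
    intro i j hj
    obtain ⟨h1, h2⟩ := ha'' i j hj
    rw [hneg] at h2
    have h3 : (s i : ℂ) * (M i j - M i (e i)) = 0 := by
      linear_combination -(1 / 2 : ℂ) * h1 - (1 / 2 : ℂ) * h2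
    rcases mul_eq_zero.1 h3 with h | h
    · exact absurd h (hsc _)
    · exact sub_eq_zero.1 h
  -- the diagonal is constant
  have hdiag : ∀ i : Fin k, M i (e i) = (∑ l, M l (e i)) / k := by
    intro i
    have hk0 : (k : ℂ) ≠ 0 := by
      have := i.2
      exact_mod_cast (by omega : k ≠ 0)
    obtain ⟨C, hC⟩ : ∃ C, C = ∑ l, M l (e i) := ⟨_, rfl⟩
    have hCj : ∀ j, ∑ l, M l (e j) = C := fun j => by rw [hC]; exact hcol j i
    have hz := posdef_zero s hs (fun j => (s j : ℂ) * M j (e j) - C / k * s j) (by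
      intro j
      have h1 : ∀ l : Fin k, ((s j : ℂ) * M j (e j) - C / k * s j +
          ((s l : ℂ) * M l (e l) - C / k * s l)) / ((s j + s l : ℝ) : ℂ) = M l (e j) - C / k := by
        intro l
        have h2 := hmean l j
        have h3 := hssc j l
        push_cast
        rw [div_eq_iff h3]
        linear_combination -h2
      rw [Finset.sum_congr rfl fun l _ => h1 l, Finset.sum_sub_distrib, hCj, Finset.sum_const,
        Finset.card_univ, Fintype.card_fin, nsmul_eq_mul, mul_div_cancel₀ _ hk0, sub_self]) i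
    rw [← hC]
    have h4 : (s i : ℂ) * (M i (e i) - C / k) = 0 := by
      linear_combination hz
    rcases mul_eq_zero.1 h4 with h | h
    · exact absurd h (hsc _)
    · exact sub_eq_zero.1 h
  have hall : ∀ (i : Fin k) (j : Fin k'), M i j = (∑ l, M l (e i)) / k := by
    intro i j
    by_cases hj : (j : ℕ) < k
    · have hje : j = e ⟨j, hj⟩ := Fin.ext (hev ⟨j, hj⟩).symm
      rw [hje]
      have h1 := hmean i ⟨j, hj⟩
      have h2 := hdiag i
      have h3 := hdiag ⟨j, hj⟩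
      rw [hcol _ i] at h3
      rw [h2, h3] at h1
      have h4 := hssc i (⟨j, hj⟩ : Fin k)
      apply mul_left_cancel₀ h4
      rw [h1]
      ring
    · rw [hfar i j (by omega), hdiag]
  intro i j i' j'
  rw [hall, hall, hcol i i']

end Vale.Agent.P002R
end

section

/-!
# The dual lemma for block data, part E: the special matrix `B`
-/

namespace Vale.Agent.P002R

open Matrix

variable {r : ℕ}

/-- Size of a block. -/
def bk (c : Fin r → Fin r) (b : Fin r) : ℕ := Fintype.card {i : Fin r // c i = b}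

/-- Enumeration of a block. -/
noncomputable def be (c : Fin r → Fin r) (b : Fin r) : {i : Fin r // c i = b} ≃ Fin (bk c b) :=
  Fintype.equivFin _

/-- Labels. -/
noncomputable def lab (c : Fin r → Fin r) (i : Fin r) : ℕ := (be c (c i) ⟨i, rfl⟩ : ℕ)

/-- The element of a block with a given label. -/
noncomputable def bi (c : Fin r → Fin r) (b : Fin r) (l : Fin (bk c b)) : Fin r :=
  ((be c b).symm l : {i : Fin r // c i = b})

theorem c_bi (c : Fin r → Fin r) (b : Fin r) (l : Fin (bk c b)) : c (bi c b l) = b :=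
  ((be c b).symm l).2

theorem lab_bi (c : Fin r → Fin r) (b : Fin r) (l : Fin (bk c b)) : lab c (bi c b l) = l := by
  have h : ∀ (i : Fin r) (b : Fin r) (h : c i = b), lab c i = (be c b ⟨i, h⟩ : ℕ) := by
    rintro i b rfl
    rfl
  rw [h (bi c b l) b (c_bi c b l)]
  have : (⟨bi c b l, c_bi c b l⟩ : {i : Fin r // c i = b}) = (be c b).symm l := rfl
  rw [this, Equiv.apply_symm_apply]

theorem exists_bi (c : Fin r → Fin r) (b : Fin r) (i : Fin r) (h : c i = b) :
    ∃ l, bi c b l = i := ⟨be c b ⟨i, h⟩, by rw [bi, Equiv.symm_apply_apply]⟩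

theorem bi_injective (c : Fin r → Fin r) (b : Fin r) : Function.Injective (bi c b) := by
  intro l l' h
  exact (be c b).symm.injective (Subtype.ext h)

theorem sum_block (c : Fin r → Fin r) (b : Fin r) (f : Fin r → ℂ) :
    ∑ l, (if c l = b then f l else 0) = ∑ l : Fin (bk c b), f (bi c b l) := by
  rw [← Finset.sum_filter]
  symm
  apply Finset.sum_bij (fun l _ => bi c b l)
  · intro l _
    simp [c_bi]
  · intro l _ l' _ h
    exact bi_injective c b h
  · intro i hi
    obtain ⟨l, hl⟩ := exists_bi c b i (Finset.mem_filter.1 hi).2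
    exact ⟨l, Finset.mem_univ _, hl⟩
  · intro l _
    rfl

/-- The weights. -/
noncomputable def sw (l : ℕ) : ℝ := 1 / ((l : ℝ) + 2)

theorem sw_pos (l : ℕ) : 0 < sw l := by
  unfold sw
  positivity

theorem sw_le (l : ℕ) : sw l ≤ 1 / 2 := by
  unfold sw
  apply one_div_le_one_div_of_le (by norm_num)
  have : (0 : ℝ) ≤ l := Nat.cast_nonneg l
  linarith

theorem sw_injective : Function.Injective sw := by
  intro l l' h
  unfold sw at h
  have h1 : (l : ℝ) + 2 = (l' : ℝ) + 2 := by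
    have := congrArg (fun x : ℝ => x⁻¹) h
    simpa using this
  have : (l : ℝ) = l' := by linarith
  exact_mod_cast this

/-- The weight of a pair. -/
noncomputable def wt (c : Fin r → Fin r) (i j : Fin r) : ℝ :=
  if lab c i = lab c j then sw (lab c i) else 0

theorem wt_nonneg (c : Fin r → Fin r) (i j : Fin r) : 0 ≤ wt c i j := by
  unfold wt
  split_ifs
  · exact (sw_pos _).le
  · exact le_rfl

theorem wt_le (c : Fin r → Fin r) (i j : Fin r) : wt c i j ≤ 1 / 2 := by
  unfold wt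
  split_ifs
  · exact sw_le _
  · norm_num

theorem wt_symm (c : Fin r → Fin r) (i j : Fin r) : wt c i j = wt c j i := by
  unfold wt
  by_cases h : lab c i = lab c j
  · rw [if_pos h, if_pos h.symm, h]
  · rw [if_neg h, if_neg (Ne.symm h)]

/-- The special matrix (real entries). -/
noncomputable def Br (c : Fin r → Fin r) (i j : Fin r) : ℝ :=
  if c i < c j then 4 * (1 + wt c i j) else if c j < c i then 1 - wt c i j else 1

/-- The special matrix. -/
noncomputable def Bsp (c : Fin r → Fin r) : Mat r ℂ := Matrix.of fun i j => (Br c i j : ℂ)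

theorem Br_pos (c : Fin r → Fin r) (i j : Fin r) : 0 < Br c i j := by
  have h1 := wt_nonneg c i j
  have h2 := wt_le c i j
  unfold Br
  split_ifs
  · linarith
  · linarith
  · norm_num

theorem Br_lt {c : Fin r → Fin r} {i j : Fin r} (h : c i < c j) :
    Br c i j = 4 * (1 + wt c i j) := by
  unfold Br
  rw [if_pos h]

theorem Br_gt {c : Fin r → Fin r} {i j : Fin r} (h : c j < c i) : Br c i j = 1 - wt c i j := by
  unfold Br
  rw [if_neg (not_lt.2 h.le), if_pos h]

section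

variable {L : Type*} {P : L → (Mat r ℂ)ˣ} {c : Fin r → Fin r} {D : ℕ} {μ : Mat r ℂ}

theorem LimOK.anti' (hL : LimOK P c D μ (Bsp c)) (hD : 2 * r ≤ D) (q₀ : L) (α : Fin r → ℂ)
    (hα : Function.Injective α) (hq₀ : (P q₀ : Mat r ℂ) = diagonal α) (i j : Fin r) :
    μ i j = - μ j i := by
  by_cases h : c i = c j
  · rw [hL.zero i j h, hL.zero j i h.symm, neg_zero]
  · have h1 := hL.anti hD q₀ α hα hq₀ i j h
    have h2 : Bsp c i j * Bsp c j i ≠ 0 := by
      rw [Bsp, Matrix.of_apply, Matrix.of_apply, ← Complex.ofReal_mul]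
      exact_mod_cast (mul_pos (Br_pos c i j) (Br_pos c j i)).ne'
    have h3 := (mul_eq_zero.1 h1).resolve_left h2
    linear_combination h3

/-- One half of the hypotheses of the rigid system. -/
theorem LimOK.half (hL : LimOK P c D μ (Bsp c)) (hD : 2 * r ≤ D) (hD' : r + 1 ≤ D) (q₀ : L)
    (α : Fin r → ℂ) (hα : Function.Injective α) (hq₀ : (P q₀ : Mat r ℂ) = diagonal α)
    (htri : ∀ q i j, c j < c i → (P q : Mat r ℂ) i j = 0)
    (hconn : ∀ i j, c i = c j → ∃ p, (wP P p : Mat r ℂ) i j ≠ 0) (b b' : Fin r) (hb : b ≠ b')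
    (i j : Fin (bk c b)) (_hij : i ≠ j) :
    ∑ l : Fin (bk c b'), (1 + if (l : ℕ) = j then (sw j : ℂ) else 0) *
      (1 - if (l : ℕ) = i then (sw i : ℂ) else 0) *
        (μ (bi c b j) (bi c b' l) - μ (bi c b i) (bi c b' l)) = 0 := by
  have hrel : ∀ i j : Fin (bk c b), ∑ l : Fin (bk c b'), Bsp c (bi c b j) (bi c b' l) *
      Bsp c (bi c b' l) (bi c b i) * (μ (bi c b i) (bi c b' l) - μ (bi c b j) (bi c b' l)) = 0 := by
    intro i j
    obtain ⟨p, hp⟩ := hconn (bi c b i) (bi c b j) (by rw [c_bi c, c_bi c])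
    have h1 := hL.rel hD' q₀ α hα hq₀ htri (bi c b i) (bi c b j) b' (by rw [c_bi c, c_bi c])
      (by rw [c_bi c]; exact hb) p hp
    rw [sum_block c b' (fun l => Bsp c (bi c b j) l * Bsp c l (bi c b i) *
      (μ (bi c b i) l + μ l (bi c b j)))] at h1
    refine Eq.trans ?_ h1
    refine Finset.sum_congr rfl fun l _ => ?_
    rw [hL.anti' hD q₀ α hα hq₀ (bi c b' l) (bi c b j)]
    ring
  have hw : ∀ (i : Fin (bk c b)) (l : Fin (bk c b')), ((wt c (bi c b i) (bi c b' l) : ℝ) : ℂ) =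
      if (l : ℕ) = i then (sw i : ℂ) else 0 := by
    intro i l
    unfold wt
    rw [lab_bi, lab_bi]
    by_cases h : (l : ℕ) = i
    · rw [if_pos h.symm, if_pos h]
    · rw [if_neg (Ne.symm h), if_neg h]; simp
  have hw' : ∀ (i : Fin (bk c b)) (l : Fin (bk c b')), ((wt c (bi c b' l) (bi c b i) : ℝ) : ℂ) =
      if (l : ℕ) = i then (sw i : ℂ) else 0 := by
    intro i l
    rw [wt_symm, hw]
  rcases lt_or_gt_of_ne hb with hlt | hlt
  · have h1 := hrel i j
    have h2 : ∀ l : Fin (bk c b'), Bsp c (bi c b j) (bi c b' l) *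
      Bsp c (bi c b' l) (bi c b i) * (μ (bi c b i) (bi c b' l) - μ (bi c b j) (bi c b' l)) =
      -4 * ((1 + if (l : ℕ) = j then (sw j : ℂ) else 0) *
      (1 - if (l : ℕ) = i then (sw i : ℂ) else 0) *
        (μ (bi c b j) (bi c b' l) - μ (bi c b i) (bi c b' l))) := by
      intro l
      rw [Bsp, Matrix.of_apply, Matrix.of_apply,
        Br_lt (by rw [c_bi c, c_bi c]; exact hlt : c (bi c b j) < c (bi c b' l)),
        Br_gt (by rw [c_bi c, c_bi c]; exact hlt : c (bi c b i) < c (bi c b' l))]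
      rw [← hw j l, ← hw' i l]
      push_cast
      ring
    rw [Finset.sum_congr rfl fun l _ => h2 l, ← Finset.mul_sum] at h1
    exact (mul_eq_zero.1 h1).resolve_left (by norm_num)
  · have h1 := hrel j i
    have h2 : ∀ l : Fin (bk c b'), Bsp c (bi c b i) (bi c b' l) *
      Bsp c (bi c b' l) (bi c b j) * (μ (bi c b j) (bi c b' l) - μ (bi c b i) (bi c b' l)) =
      4 * ((1 + if (l : ℕ) = j then (sw j : ℂ) else 0) *
      (1 - if (l : ℕ) = i then (sw i : ℂ) else 0) *
        (μ (bi c b j) (bi c b' l) - μ (bi c b i) (bi c b' l))) := by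
      intro l
      rw [Bsp, Matrix.of_apply, Matrix.of_apply,
        Br_gt (by rw [c_bi c, c_bi c]; exact hlt : c (bi c b' l) < c (bi c b i)),
        Br_lt (by rw [c_bi c, c_bi c]; exact hlt : c (bi c b' l) < c (bi c b j))]
      rw [← hw i l, ← hw' j l]
      push_cast
      ring
    rw [Finset.sum_congr rfl fun l _ => h2 l, ← Finset.mul_sum] at h1
    exact (mul_eq_zero.1 h1).resolve_left (by norm_num)

/-- `μ` is constant on pairs of blocks. -/
theorem LimOK.const (hL : LimOK P c D μ (Bsp c)) (hD : 2 * r ≤ D) (hD' : r + 1 ≤ D) (q₀ : L)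
    (α : Fin r → ℂ) (hα : Function.Injective α) (hq₀ : (P q₀ : Mat r ℂ) = diagonal α)
    (htri : ∀ q i j, c j < c i → (P q : Mat r ℂ) i j = 0)
    (hconn : ∀ i j, c i = c j → ∃ p, (wP P p : Mat r ℂ) i j ≠ 0) (i j i' j' : Fin r)
    (hi : c i = c i') (hj : c j = c j') : μ i j = μ i' j' := by
  by_cases hij : c i = c j
  · rw [hL.zero i j hij, hL.zero i' j' (by rw [← hi, ← hj, hij])]
  have hanti := hL.anti' hD q₀ α hα hq₀
  have key : ∀ b b' : Fin r, b ≠ b' → bk c b ≤ bk c b' → ∀ (i i' : Fin (bk c b))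
      (j j' : Fin (bk c b')), μ (bi c b i) (bi c b' j) = μ (bi c b i') (bi c b' j') := by
    intro b b' hb hk i i' j j'
    apply rigid_system hk sw sw_pos sw_injective (fun i j => μ (bi c b i) (bi c b' j))
    · intro i j hij
      exact hL.half hD hD' q₀ α hα hq₀ htri hconn b b' hb i j hij
    · intro i j hij
      have h1 := hL.half hD hD' q₀ α hα hq₀ htri hconn b' b hb.symm i j hij
      rw [← neg_eq_zero, ← Finset.sum_neg_distrib] at h1
      refine Eq.trans ?_ h1
      refine Finset.sum_congr rfl fun l _ => ?_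
      rw [hanti (bi c b' j) (bi c b l), hanti (bi c b' i) (bi c b l)]
      ring
  obtain ⟨l₁, h1⟩ := exists_bi c (c i) i rfl
  obtain ⟨l₂, h2⟩ := exists_bi c (c i) i' hi.symm
  obtain ⟨l₃, h3⟩ := exists_bi c (c j) j rfl
  obtain ⟨l₄, h4⟩ := exists_bi c (c j) j' hj.symm
  rcases le_total (bk c (c i)) (bk c (c j)) with hk | hk
  · have := key (c i) (c j) hij hk l₁ l₂ l₃ l₄
    rwa [h1, h2, h3, h4] at this
  · have := key (c j) (c i) (Ne.symm hij) hk l₃ l₄ l₁ l₂
    rw [h1, h2, h3, h4] at this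
    rw [hanti i j, hanti i' j', this]

theorem Tri_eq (B : Mat r ℂ) (b₁ b₂ b₃ : Fin r) :
    Tri μ B (eb c b₁) (eb c b₂) (eb c b₃) =
      ∑ k, ∑ i, ∑ j, (if c k = b₃ then (1 : ℂ) else 0) * (if c i = b₁ then (1 : ℂ) else 0) *
        (if c j = b₂ then (1 : ℂ) else 0) * (μ i k * (B k i * B i j * B j k)) := by
  unfold Tri
  rw [Matrix.trace]
  refine Finset.sum_congr rfl fun k _ => ?_
  rw [Matrix.diag_apply, eb, eb, eb, mul_diagonal]
  have h1 : ((μᵀ ⊙ B) * (diagonal fun i => if c i = b₁ then (1 : ℂ) else 0) * B *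
      (diagonal fun i => if c i = b₂ then (1 : ℂ) else 0) * B) k k =
      ∑ i, ∑ j, (μᵀ ⊙ B) k i * (if c i = b₁ then (1 : ℂ) else 0) * B i j *
        (if c j = b₂ then (1 : ℂ) else 0) * B j k := by
    rw [Matrix.mul_apply, Finset.sum_comm]
    refine Finset.sum_congr rfl fun j _ => ?_
    rw [mul_diagonal, Matrix.mul_apply, Finset.sum_mul, Finset.sum_mul]
    refine Finset.sum_congr rfl fun i _ => ?_
    rw [mul_diagonal]
  rw [h1, Finset.sum_mul]
  refine Finset.sum_congr rfl fun i _ => ?_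
  rw [Finset.sum_mul]
  refine Finset.sum_congr rfl fun j _ => ?_
  rw [Matrix.hadamard_apply, Matrix.transpose_apply]
  ring

end

end Vale.Agent.P002R
end

section

/-!
# The dual lemma for block data, part G: the cocycle relation between three blocks
-/

namespace Vale.Agent.P002R

open Matrix

variable {r : ℕ}

theorem Tri_ones (B : Mat r ℂ) (U₁ U₂ U₃ : Mat r ℂ) :
    Tri (Matrix.of fun _ _ => 1) B U₁ U₂ U₃ = trace (B * U₁ * B * U₂ * B * U₃) := by
  unfold Tri
  have : (Matrix.of fun _ _ => (1 : ℂ) : Mat r ℂ)ᵀ ⊙ B = B := by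
    ext i j
    rw [Matrix.hadamard_apply, Matrix.transpose_apply, Matrix.of_apply, one_mul]
  rw [this]

theorem trace_cyc (B e₁ e₂ e₃ : Mat r ℂ) : trace (B * e₂ * B * e₃ * B * e₁) =
    trace (B * e₁ * B * e₂ * B * e₃) := by
  have h : B * e₁ * B * e₂ * B * e₃ = (B * e₁) * (B * e₂ * B * e₃) := by simp only [mul_assoc]
  rw [h, Matrix.trace_mul_comm (B * e₁) (B * e₂ * B * e₃)]
  simp only [mul_assoc]

theorem beta_diff_pos {c : Fin r → Fin r} (i j k : Fin r) (h1 : c i < c j) (h2 : c j < c k) :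
    0 < Br c k i * Br c i j * Br c j k - Br c j i * Br c i k * Br c k j := by
  have h3 : c i < c k := h1.trans h2
  rw [Br_gt h3, Br_lt h1, Br_lt h2, Br_gt h1, Br_lt h3, Br_gt h2]
  have a0 := wt_nonneg c i j
  have a1 := wt_le c i j
  have b0 := wt_nonneg c j k
  have b1 := wt_le c j k
  have d0 := wt_nonneg c i k
  have d1 := wt_le c i k
  rw [wt_symm c k i, wt_symm c j i, wt_symm c k j]
  obtain ⟨a, ha⟩ : ∃ a, a = wt c i j := ⟨_, rfl⟩
  obtain ⟨b, hb⟩ : ∃ b, b = wt c j k := ⟨_, rfl⟩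
  obtain ⟨d, hd⟩ : ∃ d, d = wt c i k := ⟨_, rfl⟩
  rw [← ha] at a0 a1 ⊢
  rw [← hb] at b0 b1 ⊢
  rw [← hd] at d0 d1 ⊢
  have e1 : 1 ≤ (1 + a) * (1 + b) := by nlinarith [mul_nonneg a0 b0]
  have e2 : (1 / 2 : ℝ) ≤ (1 - d) * ((1 + a) * (1 + b)) := by nlinarith
  have e3 : (1 - a) * (1 - b) ≤ 1 := by nlinarith [mul_nonneg a0 b0]
  have e4 : 0 ≤ (1 - a) * (1 - b) := mul_nonneg (by linarith) (by linarith)
  have e5 : (1 + d) * ((1 - a) * (1 - b)) ≤ 3 / 2 := by nlinarith
  nlinarith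

theorem beta_ne {c : Fin r → Fin r} (i₀ j₀ k₀ : Fin r) (h1 : c i₀ < c j₀) (h2 : c j₀ < c k₀) :
    trace (Bsp c * eb c (c i₀) * Bsp c * eb c (c j₀) * Bsp c * eb c (c k₀)) ≠
      trace (Bsp c * eb c (c i₀) * Bsp c * eb c (c k₀) * Bsp c * eb c (c j₀)) := by
  intro h
  rw [← Tri_ones, ← Tri_ones, Tri_eq, Tri_eq] at h
  -- reorder the second sum
  have hre : ∀ F : Fin r → Fin r → Fin r → ℂ, ∑ k, ∑ i, ∑ j, F k i j = ∑ j, ∑ i, ∑ k, F k i j := by
    intro F
    calc ∑ k, ∑ i, ∑ j, F k i j = ∑ k, ∑ j, ∑ i, F k i j :=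
          Finset.sum_congr rfl fun k _ => Finset.sum_comm
      _ = ∑ j, ∑ k, ∑ i, F k i j := Finset.sum_comm
      _ = ∑ j, ∑ i, ∑ k, F k i j := Finset.sum_congr rfl fun k _ => Finset.sum_comm
  rw [hre (fun k i j => (if c k = c j₀ then (1 : ℂ) else 0) * (if c i = c i₀ then (1 : ℂ) else 0) *
        (if c j = c k₀ then (1 : ℂ) else 0) * ((Matrix.of fun _ _ => 1 : Mat r ℂ) i k *
          (Bsp c k i * Bsp c i j * Bsp c j k)))] at h
  have h3 : ∑ k, ∑ i, ∑ j, (if c k = c k₀ then (if c i = c i₀ then (if c j = c j₀ then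
      (Br c k i * Br c i j * Br c j k - Br c j i * Br c i k * Br c k j) else 0) else 0) else 0) =
        0 := by
    rw [← sub_eq_zero, ← Finset.sum_sub_distrib] at h
    have h4 : ((∑ k, ∑ i, ∑ j, (if c k = c k₀ then (if c i = c i₀ then (if c j = c j₀ then
      (Br c k i * Br c i j * Br c j k - Br c j i * Br c i k * Br c k j) else 0) else 0) else 0) :
        ℝ) : ℂ) = 0 := by
      push_cast
      refine Eq.trans ?_ h
      refine Finset.sum_congr rfl fun k _ => ?_
      rw [← Finset.sum_sub_distrib]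
      refine Finset.sum_congr rfl fun i _ => ?_
      rw [← Finset.sum_sub_distrib]
      refine Finset.sum_congr rfl fun j _ => ?_
      simp only [Matrix.of_apply, Bsp]
      by_cases hk : c k = c k₀
      · by_cases hi : c i = c i₀
        · by_cases hj : c j = c j₀
          · simp only [hk, hi, hj, if_true]
            push_cast
            ring
          · simp only [hk, hi, hj, if_true, if_false]
            push_cast
            ring
        · simp only [hk, hi, if_true, if_false]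
          push_cast
          ring
      · simp only [hk, if_false]
        push_cast
        ring
    exact_mod_cast h4
  have hnn : ∀ k i j, 0 ≤ (if c k = c k₀ then (if c i = c i₀ then (if c j = c j₀ then
      (Br c k i * Br c i j * Br c j k - Br c j i * Br c i k * Br c k j) else 0) else 0) else 0) := by
    intro k i j
    split_ifs with hk hi hj
    · exact (beta_diff_pos i j k (by rw [hi, hj]; exact h1) (by rw [hj, hk]; exact h2)).le
    · exact le_rfl
    · exact le_rfl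
    · exact le_rfl
  have h5 := (Finset.sum_eq_zero_iff_of_nonneg (fun k _ => Finset.sum_nonneg fun i _ =>
    Finset.sum_nonneg fun j _ => hnn k i j)).1 h3 k₀ (Finset.mem_univ _)
  have h6 := (Finset.sum_eq_zero_iff_of_nonneg (fun i _ =>
    Finset.sum_nonneg fun j _ => hnn k₀ i j)).1 h5 i₀ (Finset.mem_univ _)
  have h7 := (Finset.sum_eq_zero_iff_of_nonneg (fun j _ => hnn k₀ i₀ j)).1 h6 j₀
    (Finset.mem_univ _)
  rw [if_pos rfl, if_pos rfl, if_pos rfl] at h7
  exact (beta_diff_pos i₀ j₀ k₀ h1 h2).ne' h7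

section

variable {L : Type*} {P : L → (Mat r ℂ)ˣ} {c : Fin r → Fin r} {D : ℕ} {μ : Mat r ℂ}

theorem Tri_const (B : Mat r ℂ)
    (hc : ∀ i j i' j', c i = c i' → c j = c j' → μ i j = μ i' j') (i₁ k₃ : Fin r) (b₂ : Fin r) :
    Tri μ B (eb c (c i₁)) (eb c b₂) (eb c (c k₃)) =
      μ i₁ k₃ * trace (B * eb c (c i₁) * B * eb c b₂ * B * eb c (c k₃)) := by
  have h1 : eb c (c k₃) * (μᵀ ⊙ B) * eb c (c i₁) = μ i₁ k₃ • (eb c (c k₃) * B * eb c (c i₁)) := by
    ext k i
    rw [Matrix.smul_apply, eb, eb, mul_diagonal, mul_diagonal, diagonal_mul, diagonal_mul,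
      Matrix.hadamard_apply, Matrix.transpose_apply, smul_eq_mul]
    by_cases hk : c k = c k₃
    · by_cases hi : c i = c i₁
      · rw [hc i k i₁ k₃ hi hk]
        ring
      · rw [if_neg hi]; ring
    · rw [if_neg hk]; ring
  have h2 : ∀ V : Mat r ℂ, trace (V * eb c (c i₁) * B * eb c b₂ * B * eb c (c k₃)) =
      trace (eb c (c k₃) * V * eb c (c i₁) * (B * eb c b₂ * B)) := by
    intro V
    rw [Matrix.trace_mul_comm (V * eb c (c i₁) * B * eb c b₂ * B)]
    simp only [mul_assoc]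
  unfold Tri
  rw [h2, h2, h1, Matrix.smul_mul, trace_smul, smul_eq_mul]

/-- The cocycle relation for three different blocks in increasing order. -/
theorem LimOK.sorted (hL : LimOK P c D μ (Bsp c)) (hanti : ∀ i j, μ i j = -μ j i)
    (hc : ∀ i j i' j', c i = c i' → c j = c j' → μ i j = μ i' j') (i j k : Fin r)
    (h1 : c i < c j) (h2 : c j < c k) : μ i j + μ j k + μ k i = 0 := by
  have h3 := hL.three (c i) (c j) (c k) h1.ne h2.ne (h1.trans h2).ne
  unfold Six at h3
  rw [Tri_const (Bsp c) hc, Tri_const (Bsp c) hc, Tri_const (Bsp c) hc, Tri_const (Bsp c) hc,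
    Tri_const (Bsp c) hc, Tri_const (Bsp c) hc] at h3
  have e1 := trace_cyc (Bsp c) (eb c (c i)) (eb c (c j)) (eb c (c k))
  have e2 := trace_cyc (Bsp c) (eb c (c j)) (eb c (c k)) (eb c (c i))
  have e3 := trace_cyc (Bsp c) (eb c (c i)) (eb c (c k)) (eb c (c j))
  have e4 := trace_cyc (Bsp c) (eb c (c k)) (eb c (c j)) (eb c (c i))
  have hne := beta_ne (c := c) i j k h1 h2
  obtain ⟨β₁, hβ₁⟩ : ∃ β, β = trace (Bsp c * eb c (c i) * Bsp c * eb c (c j) * Bsp c * eb c (c k)) :=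
    ⟨_, rfl⟩
  obtain ⟨β₂, hβ₂⟩ : ∃ β, β = trace (Bsp c * eb c (c i) * Bsp c * eb c (c k) * Bsp c * eb c (c j)) :=
    ⟨_, rfl⟩
  rw [← hβ₁, ← hβ₂] at hne
  rw [e2, e1] at h3
  rw [e1] at e2
  rw [e4, e3] at h3
  rw [← hβ₁, ← hβ₂] at h3
  have h4 : (μ i j + μ j k + μ k i) * (β₂ - β₁) = 0 := by
    rw [hanti i k, hanti j i, hanti k j] at h3
    linear_combination h3
  rcases mul_eq_zero.1 h4 with h | h
  · exact h
  · exact absurd (sub_eq_zero.1 h).symm hne

/-- The cocycle relation. -/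
theorem LimOK.cocycle (hL : LimOK P c D μ (Bsp c)) (hD : 2 * r ≤ D) (hD' : r + 1 ≤ D) (q₀ : L)
    (α : Fin r → ℂ) (hα : Function.Injective α) (hq₀ : (P q₀ : Mat r ℂ) = diagonal α)
    (htri : ∀ q i j, c j < c i → (P q : Mat r ℂ) i j = 0)
    (hconn : ∀ i j, c i = c j → ∃ p, (wP P p : Mat r ℂ) i j ≠ 0) (i j k : Fin r) :
    μ i k = μ i j + μ j k := by
  have hanti := hL.anti' hD q₀ α hα hq₀
  have hc := hL.const hD hD' q₀ α hα hq₀ htri hconn
  have hs := hL.sorted hanti hc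
  by_cases hij : c i = c j
  · rw [hL.zero i j hij, zero_add]
    exact hc i k j k hij rfl
  by_cases hjk : c j = c k
  · rw [hL.zero j k hjk, add_zero]
    exact hc i k i j rfl hjk.symm
  by_cases hik : c i = c k
  · rw [hL.zero i k hik, hc j k j i rfl hik.symm, hanti j i]
    ring
  have key : μ i j + μ j k + μ k i = 0 := by
    rcases lt_or_gt_of_ne hij with h1 | h1 <;> rcases lt_or_gt_of_ne hjk with h2 | h2 <;>
      rcases lt_or_gt_of_ne hik with h3 | h3
    · exact hs i j k h1 h2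
    · exact absurd (h1.trans h2) (not_lt.2 h3.le)
    · have := hs i k j h3 h2
      rw [hanti i k, hanti k j, hanti j i] at this
      linear_combination -this
    · have := hs k i j h3 h1
      linear_combination this
    · have := hs j i k h1 h3
      rw [hanti j i, hanti i k, hanti k j] at this
      linear_combination -this
    · have := hs j k i h2 h3
      linear_combination this
    · exact absurd (h2.trans h1) (not_lt.2 h3.le)
    · have := hs k j i h2 h1
      rw [hanti k j, hanti j i, hanti i k] at this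
      linear_combination -this
  rw [hanti k i] at key
  linear_combination -key

end

end Vale.Agent.P002R
end

section

/-!
# The dual lemma for block data, part H: existence of generic matrices with the dual property
-/

namespace Vale.Agent.P002R

open Matrix Filter Topology

variable {r : ℕ}

section

variable {L : Type*} (P : L → (Mat r ℂ)ˣ)

/-- Connectedness of the blocks gives words with nonzero entries. -/
theorem exists_word (q₀ : L) (α : Fin r → ℂ) (hα : Function.Injective α)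
    (hq₀ : (P q₀ : Mat r ℂ) = diagonal α) (i j : Fin r)
    (h : Relation.ReflTransGen (fun i j => ∃ q, (P q : Mat r ℂ) i j ≠ 0) i j) :
    ∃ p, (wP P p : Mat r ℂ) i j ≠ 0 := by
  induction h with
  | refl => exact ⟨[], by rw [wP, Units.val_one, Matrix.one_apply_eq]; exact one_ne_zero⟩
  | @tail j k _ hjk ih =>
    obtain ⟨p, hp⟩ := ih
    obtain ⟨q, hq⟩ := hjk
    by_contra hcon
    push Not at hcon
    have h1 := single_interp hα (fun l => (wP P p : Mat r ℂ) i l * (P q : Mat r ℂ) l k) (by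
      intro n
      have h2 := hcon (p ++ (List.replicate n q₀ ++ [q]))
      rw [wP_append, wP_append, Units.val_mul, Units.val_mul, wP_replicate P q₀ α hq₀,
        Matrix.mul_apply] at h2
      refine Eq.trans ?_ h2
      refine Finset.sum_congr rfl fun l _ => ?_
      rw [diagonal_mul]
      have : wP P [q] = P q := by simp [wP]
      rw [this]
      ring) j
    exact mul_ne_zero hp hq h1

/-- The coboundary of `η`. -/
def cobM (η : Fin r → ℂ) : Mat r ℂ := Matrix.of fun i j => η i - η j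

theorem Phi_cob (k : ℕ) (A X : Mat r ℂ) (η : Fin r → ℂ) : Phi k (cobM η) A X = 0 := by
  have h1 : cobM η ⊙ X = diagonal η * X - X * diagonal η := by
    ext i j
    rw [Matrix.hadamard_apply, cobM, Matrix.of_apply, Matrix.sub_apply, diagonal_mul, mul_diagonal]
    ring
  have h2 : (cobM η)ᵀ ⊙ A = A * diagonal η - diagonal η * A := by
    ext i j
    rw [Matrix.hadamard_apply, Matrix.transpose_apply, cobM, Matrix.of_apply, Matrix.sub_apply,
      diagonal_mul, mul_diagonal]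
    ring
  have e1 : trace (X * diagonal η * A * (X * A) ^ k) = trace (diagonal η * A * X * (A * X) ^ k) := by
    have h3 : (X * A) ^ k * X = X * (A * X) ^ k := pow_shift A X k
    calc trace (X * diagonal η * A * (X * A) ^ k) = trace (X * (diagonal η * A * (X * A) ^ k)) := by
          simp only [mul_assoc]
      _ = trace (diagonal η * A * ((X * A) ^ k * X)) := by
          rw [Matrix.trace_mul_comm]; simp only [mul_assoc]
      _ = _ := by rw [h3]; simp only [mul_assoc]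
  have e2 : trace (A * diagonal η * X * (A * X) ^ k) = trace (diagonal η * X * A * (X * A) ^ k) := by
    have h3 : (A * X) ^ k * A = A * (X * A) ^ k := pow_shift X A k
    calc trace (A * diagonal η * X * (A * X) ^ k) = trace (A * (diagonal η * X * (A * X) ^ k)) := by
          simp only [mul_assoc]
      _ = trace (diagonal η * X * ((A * X) ^ k * A)) := by
          rw [Matrix.trace_mul_comm]; simp only [mul_assoc]
      _ = _ := by rw [h3]; simp only [mul_assoc]
  unfold Phi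
  rw [h1, h2, sub_mul, sub_mul, sub_mul, sub_mul, trace_sub, trace_sub, e1, e2]
  ring

theorem Phi_add (k : ℕ) (A X μ ν : Mat r ℂ) : Phi k (μ + ν) A X = Phi k μ A X + Phi k ν A X := by
  have h1 : ∀ Y : Mat r ℂ, (μ + ν) ⊙ Y = μ ⊙ Y + ν ⊙ Y := by
    intro Y
    ext i j
    simp only [Matrix.hadamard_apply, Matrix.add_apply]
    ring
  have h2 : ∀ Y : Mat r ℂ, (μ + ν)ᵀ ⊙ Y = μᵀ ⊙ Y + νᵀ ⊙ Y := by
    intro Y
    ext i j
    simp only [Matrix.hadamard_apply, Matrix.add_apply, Matrix.transpose_apply]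
    ring
  unfold Phi
  rw [h1, h2]
  simp only [add_mul, trace_add]
  ring

theorem Phi_smul (k : ℕ) (A X μ : Mat r ℂ) (a : ℂ) : Phi k (a • μ) A X = a * Phi k μ A X := by
  have h1 : ∀ Y : Mat r ℂ, (a • μ) ⊙ Y = a • (μ ⊙ Y) := by
    intro Y
    ext i j
    simp only [Matrix.hadamard_apply, Matrix.smul_apply, smul_eq_mul]
    ring
  have h2 : ∀ Y : Mat r ℂ, (a • μ)ᵀ ⊙ Y = a • (μᵀ ⊙ Y) := by
    intro Y
    ext i j
    simp only [Matrix.hadamard_apply, Matrix.smul_apply, Matrix.transpose_apply, smul_eq_mul]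
    ring
  unfold Phi
  rw [h1, h2]
  simp only [Matrix.smul_mul, trace_smul, smul_eq_mul]
  ring

theorem MuOK.sub_cob {P : L → (Mat r ℂ)ˣ} {A μ : Mat r ℂ} (h : MuOK P A μ) (η : Fin r → ℂ) :
    MuOK P A (μ - cobM η) := by
  constructor
  · intro p p' i j k h1 h2
    have := h.1 p p' i j k h1 h2
    simp only [Matrix.sub_apply, cobM, Matrix.of_apply, this]
    ring
  · intro p k
    have h1 : μ - cobM η = μ + (-1 : ℂ) • cobM η := by
      rw [neg_one_smul, sub_eq_add_neg]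
    rw [h1, Phi_add, Phi_smul, Phi_cob, h.2 p k]
    ring

theorem MuOK.smul {P : L → (Mat r ℂ)ˣ} {A μ : Mat r ℂ} (h : MuOK P A μ) (a : ℂ) :
    MuOK P A (a • μ) := by
  constructor
  · intro p p' i j k h1 h2
    have := h.1 p p' i j k h1 h2
    simp only [Matrix.smul_apply, smul_eq_mul, this]
    ring
  · intro p k
    rw [Phi_smul, h.2 p k, mul_zero]

/-- Normalization. -/
theorem MuOK.normalize {P : L → (Mat r ℂ)ˣ} {A μ : Mat r ℂ} (h : MuOK P A μ)
    (hne : ¬ ∃ η : Fin r → ℂ, ∀ i j, μ i j = η i - η j) (c rep : Fin r → Fin r)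
    (hrep : ∀ i, c (rep i) = c i) (hrep' : ∀ i j, c i = c j → rep i = rep j) (i₀ : Fin r)
    (hconn : ∀ i j, c i = c j → ∃ p, (wP P p : Mat r ℂ) i j ≠ 0) :
    ∃ f : Fin r → Fin r → ℂ, MuOK P A (Matrix.of f) ∧ (∀ i j, c i = c j → f i j = 0) ∧
      (∀ i, f (rep i) i₀ = 0) ∧ ‖f‖ = 1 := by
  have hrr : ∀ i, rep (rep i) = rep i := fun i => hrep' _ _ (hrep i)
  have hcoc : ∀ i j k, c i = c j → c j = c k → μ i k = μ i j + μ j k := by
    intro i j k hij hjk
    obtain ⟨p, hp⟩ := hconn i j hij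
    obtain ⟨p', hp'⟩ := hconn j k hjk
    exact h.1 p p' i j k hp hp'
  have h1 := h.sub_cob fun i => μ i (rep i)
  obtain ⟨μ₁, hμ₁⟩ : ∃ μ₁, μ₁ = μ - cobM fun i => μ i (rep i) := ⟨_, rfl⟩
  have hz1 : ∀ i j, c i = c j → μ₁ i j = 0 := by
    intro i j hij
    have h2 := hcoc i j (rep j) hij (hrep j).symm
    rw [hμ₁, Matrix.sub_apply, cobM, Matrix.of_apply, hrep' i j hij, h2]
    ring
  rw [← hμ₁] at h1
  have h2 := h1.sub_cob fun i => μ₁ (rep i) i₀
  obtain ⟨μ₂, hμ₂⟩ : ∃ μ₂, μ₂ = μ₁ - cobM fun i => μ₁ (rep i) i₀ := ⟨_, rfl⟩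
  have hz2 : ∀ i j, c i = c j → μ₂ i j = 0 := by
    intro i j hij
    rw [hμ₂, Matrix.sub_apply, cobM, Matrix.of_apply, hrep' i j hij, hz1 i j hij]
    ring
  have hz3 : ∀ i, μ₂ (rep i) i₀ = 0 := by
    intro i
    rw [hμ₂, Matrix.sub_apply, cobM, Matrix.of_apply, hrr, hz1 (rep i₀) i₀ (hrep i₀)]
    ring
  rw [← hμ₂] at h2
  obtain ⟨f, hf⟩ : ∃ f : Fin r → Fin r → ℂ, f = fun i j => μ₂ i j := ⟨_, rfl⟩
  have hfμ : Matrix.of f = μ₂ := by rw [hf]; rfl
  have hf0 : f ≠ 0 := by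
    intro h0
    apply hne
    refine ⟨fun i => μ i (rep i) + μ₁ (rep i) i₀, fun i j => ?_⟩
    have h3 : μ₂ i j = 0 := by
      have := congrFun (congrFun h0 i) j
      rw [hf] at this
      exact this
    rw [hμ₂, Matrix.sub_apply, cobM, Matrix.of_apply] at h3
    have h4 : μ₁ i j = μ i j - (μ i (rep i) - μ j (rep j)) := by
      rw [hμ₁, Matrix.sub_apply, cobM, Matrix.of_apply]
    rw [h4] at h3
    linear_combination h3
  have hn : ‖f‖ ≠ 0 := norm_ne_zero_iff.2 hf0
  refine ⟨((‖f‖⁻¹ : ℝ) : ℂ) • f, ?_, ?_, ?_, ?_⟩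
  · have : Matrix.of (((‖f‖⁻¹ : ℝ) : ℂ) • f) = ((‖f‖⁻¹ : ℝ) : ℂ) • μ₂ := by
      rw [← hfμ]; rfl
    rw [this]
    exact h2.smul _
  · intro i j hij
    have : f i j = 0 := by rw [hf]; exact hz2 i j hij
    simp [this]
  · intro i
    have : f (rep i) i₀ = 0 := by rw [hf]; exact hz3 i
    simp [this]
  · rw [norm_smul, Complex.norm_real, norm_inv, norm_norm, inv_mul_cancel₀ hn]

/-- Generic matrices near `1 + ε B`. -/
theorem exists_generic_near (K₀ : Subfield ℂ) [Countable K₀] (B : Mat r ℂ) (n : ℕ) :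
    ∃ (A : (Mat r ℂ)ˣ) (B' : Mat r ℂ),
      AlgebraicIndependent K₀ (fun p : Fin r × Fin r => (A : Mat r ℂ) p.1 p.2) ∧
      (A : Mat r ℂ) = 1 + (((n : ℂ) + 1)⁻¹) • B' ∧
      ∀ i j, ‖B' i j - B i j‖ < 1 / ((n : ℝ) + 1) := by
  have hn : (0 : ℝ) < (n : ℝ) + 1 := by positivity
  have hnc : ((n : ℂ) + 1) ≠ 0 := by exact_mod_cast hn.ne'
  obtain ⟨t, ht1, ht2⟩ := P002.exists_dense_algIndep K₀ inferInstance
    (fun p : Fin r × Fin r => Metric.ball ((1 + (((n : ℂ) + 1)⁻¹) • B) p.1 p.2)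
      (1 / ((n : ℝ) + 1) / ((n : ℝ) + 1))) (fun p => Metric.isOpen_ball)
    (fun p => Metric.nonempty_ball.2 (by positivity))
  obtain ⟨A', hA'⟩ : ∃ A' : Mat r ℂ, A' = Matrix.of fun i j => t (i, j) := ⟨_, rfl⟩
  have hgen : AlgebraicIndependent K₀ (fun p : Fin r × Fin r => A' p.1 p.2) := by
    rw [hA']; exact ht2
  have hu : IsUnit A' := by
    rw [Matrix.isUnit_iff_isUnit_det, isUnit_iff_ne_zero]
    intro h
    have h1 : (MvPolynomial.aeval fun p : Fin r × Fin r => A' p.1 p.2)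
        (det (mvPolynomialX (Fin r) (Fin r) K₀)) = 0 := by
      rw [AlgHom.map_det, mvPolynomialX_mapMatrix_aeval, h]
    exact det_mvPolynomialX_ne_zero (Fin r) K₀ (hgen (h1.trans (map_zero _).symm))
  obtain ⟨A, hA⟩ := hu
  refine ⟨A, ((n : ℂ) + 1) • (A' - 1), by rw [hA]; exact hgen, ?_, fun i j => ?_⟩
  · rw [hA, smul_smul, inv_mul_cancel₀ hnc, one_smul]
    abel
  · have h1 := ht1 (i, j)
    rw [Metric.mem_ball, dist_eq_norm] at h1
    have h2 : (((n : ℂ) + 1) • (A' - 1)) i j - B i j =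
        ((n : ℂ) + 1) * (t (i, j) - (1 + (((n : ℂ) + 1)⁻¹) • B) (i, j).1 (i, j).2) := by
      simp only [Matrix.smul_apply, Matrix.sub_apply, Matrix.add_apply, smul_eq_mul, hA',
        Matrix.of_apply]
      field_simp
      ring
    rw [h2, norm_mul]
    have h3 : ‖((n : ℂ) + 1)‖ = (n : ℝ) + 1 := by
      have : ((n : ℂ) + 1) = (((n : ℝ) + 1 : ℝ) : ℂ) := by push_cast; rfl
      rw [this, Complex.norm_real, Real.norm_of_nonneg hn.le]
    rw [h3]
    calc ((n : ℝ) + 1) * ‖t (i, j) - (1 + (((n : ℂ) + 1)⁻¹) • B) (i, j).1 (i, j).2‖ <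
          ((n : ℝ) + 1) * (1 / ((n : ℝ) + 1) / ((n : ℝ) + 1)) := mul_lt_mul_of_pos_left h1 hn
      _ = 1 / ((n : ℝ) + 1) := by field_simp

/-- The main lemma when `P q₀` is diagonal. -/
theorem exists_dual_diag (K₀ : Subfield ℂ) [Countable K₀] (hr : 1 ≤ r) (q₀ : L) (α : Fin r → ℂ)
    (hα : Function.Injective α) (hq₀ : (P q₀ : Mat r ℂ) = diagonal α) (c : Fin r → Fin r)
    (htri : ∀ q i j, c j < c i → (P q : Mat r ℂ) i j = 0)
    (hconn : ∀ i j, c i = c j →
      Relation.ReflTransGen (fun i j => ∃ q, (P q : Mat r ℂ) i j ≠ 0) i j)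
    (M : ℕ) (τ : Fin r → ℂ) (hpow : ∀ i, α i ^ M = τ (c i)) (hτ : FreeUpTo (2 * r + 3) τ) :
    ∃ A : (Mat r ℂ)ˣ, AlgebraicIndependent K₀ (fun p : Fin r × Fin r => (A : Mat r ℂ) p.1 p.2) ∧
      DualProp P A := by
  classical
  have hconn' : ∀ i j, c i = c j → ∃ p, (wP P p : Mat r ℂ) i j ≠ 0 := fun i j hij =>
    exists_word P q₀ α hα hq₀ i j (hconn i j hij)
  choose A B hA hAB hB using exists_generic_near K₀ (Bsp c)
  by_contra hcon
  push Not at hcon
  have hnot : ∀ n, ¬ DualProp P (A n) := fun n => hcon (A n) (hA n)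
  let i₀ : Fin r := ⟨0, hr⟩
  have : Nonempty (Fin r) := ⟨i₀⟩
  let rep : Fin r → Fin r := fun i => Function.invFun c (c i)
  have hrep : ∀ i, c (rep i) = c i := fun i => Function.invFun_eq ⟨i, rfl⟩
  have hrep' : ∀ i j, c i = c j → rep i = rep j := fun i j h => by simp only [rep, h]
  have hmu : ∀ n, ∃ f : Fin r → Fin r → ℂ, MuOK P (A n : Mat r ℂ) (Matrix.of f) ∧
      (∀ i j, c i = c j → f i j = 0) ∧ (∀ i, f (rep i) i₀ = 0) ∧ ‖f‖ = 1 := by
    intro n
    by_contra hcon2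
    apply hnot n
    apply dual_of_mu P (A n) q₀ α hα hq₀ (generic_gen3 (hA n)).1
    intro μ hμ
    by_contra hne
    exact hcon2 (hμ.normalize hne c rep hrep hrep' i₀ hconn')
  choose f hf1 hf2 hf3 hf4 using hmu
  obtain ⟨f', hf', φ, hφ, hlim⟩ := (isCompact_sphere (0 : Fin r → Fin r → ℂ) 1).tendsto_subseq
    (x := f) (fun n => by rw [mem_sphere_zero_iff_norm]; exact hf4 n)
  rw [mem_sphere_zero_iff_norm] at hf'
  have hlim' : Tendsto (fun n => (Matrix.of (f (φ n)) : Mat r ℂ)) atTop (𝓝 (Matrix.of f')) := hlim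
  have hε0 : Tendsto (fun n : ℕ => (((n : ℂ) + 1)⁻¹)) atTop (𝓝 0) := by
    have h1 : Tendsto (fun n : ℕ => ‖(((n : ℂ) + 1)⁻¹)‖) atTop (𝓝 0) := by
      have h2 : (fun n : ℕ => ‖(((n : ℂ) + 1)⁻¹)‖) = fun n : ℕ => 1 / ((n : ℝ) + 1) := by
        funext n
        have : ((n : ℂ) + 1) = (((n : ℝ) + 1 : ℝ) : ℂ) := by push_cast; rfl
        rw [norm_inv, this, Complex.norm_real, Real.norm_of_nonneg (by positivity), one_div]
      rw [h2]
      exact tendsto_one_div_add_atTop_nhds_zero_nat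
    exact tendsto_zero_iff_norm_tendsto_zero.2 h1
  have hBlim : Tendsto B atTop (𝓝 (Bsp c)) := by
    refine tendsto_pi_nhds.2 fun i => tendsto_pi_nhds.2 fun j => ?_
    rw [tendsto_iff_norm_sub_tendsto_zero]
    exact squeeze_zero (fun n => norm_nonneg _) (fun n => (hB n i j).le)
      tendsto_one_div_add_atTop_nhds_zero_nat
  have hL := limOK_of_seq P c (2 * r + 3) (by omega) (fun n => Matrix.of (f (φ n)))
    (fun n => B (φ n)) (fun n => ((((φ n : ℕ) : ℂ) + 1)⁻¹))
    (fun n => inv_ne_zero (by exact_mod_cast Nat.succ_ne_zero (φ n))) (Matrix.of f') (Bsp c) hlim'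
    (hBlim.comp hφ.tendsto_atTop) (hε0.comp hφ.tendsto_atTop) (fun n i j hij => hf2 (φ n) i j hij)
    (fun n p k hk δ => by
      have := Phi_block P (A (φ n) : Mat r ℂ) (Matrix.of (f (φ n))) q₀ α hq₀ c htri M (2 * r + 3) τ
        hpow hτ (hf1 (φ n)).2 p k hk δ
      rw [hAB] at this
      exact this)
  have hcoc := hL.cocycle (by omega) (by omega) q₀ α hα hq₀ htri hconn'
  have hz : ∀ i, f' i i₀ = 0 := by
    intro i
    have h1 := hcoc i (rep i) i₀
    have h2 : f' i (rep i) = 0 := hL.zero i (rep i) (hrep i).symm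
    have h3 : f' (rep i) i₀ = 0 := by
      have h4 : Tendsto (fun n => f (φ n) (rep i) i₀) atTop (𝓝 (f' (rep i) i₀)) :=
        tendsto_pi_nhds.1 (tendsto_pi_nhds.1 hlim (rep i)) i₀
      have h5 : (fun n => f (φ n) (rep i) i₀) = fun _ => 0 := funext fun n => hf3 (φ n) i
      rw [h5] at h4
      exact tendsto_nhds_unique h4 tendsto_const_nhds
    simp only [Matrix.of_apply] at h1
    rw [h1, h2, h3, add_zero]
  have hf0 : f' = 0 := by
    funext i j
    have h1 := hcoc i j i₀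
    simp only [Matrix.of_apply] at h1
    rw [hz, hz] at h1
    rw [Pi.zero_apply, Pi.zero_apply]
    linear_combination -h1
  rw [hf0, norm_zero] at hf'
  exact zero_ne_one hf'

end

/-- Conjugation invariance of the dual property. -/
theorem DualProp.conj {L : Type*} (P : L → (Mat r ℂ)ˣ) (A U : (Mat r ℂ)ˣ)
    (h : DualProp (fun q => U⁻¹ * P q * U) (U⁻¹ * A * U)) : DualProp P A := by
  intro R Q H
  have hU1 : (U : Mat r ℂ) * iv U = 1 := U.mul_inv
  obtain ⟨P', hP'⟩ : ∃ P' : L → (Mat r ℂ)ˣ, P' = fun q => U⁻¹ * P q * U := ⟨_, rfl⟩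
  obtain ⟨R', hR'⟩ : ∃ R' : L → Mat r ℂ, R' = fun q => iv U * R q * (U : Mat r ℂ) := ⟨_, rfl⟩
  obtain ⟨Q', hQ'⟩ : ∃ Q' : Mat r ℂ, Q' = iv U * Q * (U : Mat r ℂ) := ⟨_, rfl⟩
  obtain ⟨A', hA'⟩ : ∃ A' : (Mat r ℂ)ˣ, A' = U⁻¹ * A * U := ⟨_, rfl⟩
  rw [← hP', ← hA'] at h
  have hP'q : ∀ q, P' q = U⁻¹ * P q * U := fun q => by rw [hP']
  have hR'q : ∀ q, R' q = iv U * R q * (U : Mat r ℂ) := fun q => by rw [hR']
  have e1 : ∀ q, (P' q : Mat r ℂ) = iv U * (P q : Mat r ℂ) * (U : Mat r ℂ) := fun q => by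
    rw [hP'q]; simp [iv]
  have e2 : ∀ q, iv (P' q) = iv U * iv (P q) * (U : Mat r ℂ) := fun q => by
    rw [hP'q]; simp [iv, mul_assoc]
  have hwP' : ∀ p, wP P' p = U⁻¹ * wP P p * U := by
    intro p
    induction p with
    | nil => simp [wP]
    | cons q p ih =>
      rw [wP, wP, ih, hP'q]
      group
  have hth' : ∀ p, theta P' R' p = iv U * theta P R p * (U : Mat r ℂ) := by
    intro p
    induction p with
    | nil => simp [theta]
    | cons q p ih =>
      rw [theta, theta]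
      change R' q + (P' q : Mat r ℂ) * theta P' R' p * iv (P' q) =
        iv U * (R q + (P q : Mat r ℂ) * theta P R p * iv (P q)) * (U : Mat r ℂ)
      rw [ih, e1, e2, hR'q, mul_add, add_mul]
      congr 1
      calc _ = iv U * (P q : Mat r ℂ) * ((U : Mat r ℂ) * iv U) * theta P R p *
            ((U : Mat r ℂ) * iv U) * iv (P q) * (U : Mat r ℂ) := by simp only [mul_assoc]
        _ = _ := by rw [hU1, mul_one, mul_one]; simp only [mul_assoc]
  have hpow : ∀ (M : (Mat r ℂ)ˣ) (k : ℕ), ((U⁻¹ * M * U : (Mat r ℂ)ˣ) : Mat r ℂ) ^ k =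
      iv U * (M : Mat r ℂ) ^ k * (U : Mat r ℂ) := by
    intro M k
    induction k with
    | zero => simp
    | succ k ih =>
      rw [pow_succ, ih, pow_succ]
      have e1 : ((U⁻¹ * M * U : (Mat r ℂ)ˣ) : Mat r ℂ) = iv U * (M : Mat r ℂ) * (U : Mat r ℂ) := by
        simp [iv]
      rw [e1]
      calc _ = iv U * (M : Mat r ℂ) ^ k * ((U : Mat r ℂ) * iv U) * (M : Mat r ℂ) *
            (U : Mat r ℂ) := by simp only [mul_assoc]
        _ = _ := by rw [hU1, mul_one]; simp only [mul_assoc]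
  obtain ⟨η, h1, h2⟩ := h R' Q' (by
      intro p k hk1
      have e1 : wP P' p * A' = U⁻¹ * (wP P p * A) * U := by
        rw [hwP', hA']; group
      rw [e1, hth', hpow]
      have e2 : (Q' + iv U * theta P R p * (U : Mat r ℂ)) *
          (iv U * ((wP P p * A : (Mat r ℂ)ˣ) : Mat r ℂ) ^ k * (U : Mat r ℂ)) =
          iv U * ((Q + theta P R p) * ((wP P p * A : (Mat r ℂ)ˣ) : Mat r ℂ) ^ k) *
            (U : Mat r ℂ) := by
        have e3 : Q' + iv U * theta P R p * (U : Mat r ℂ) = iv U * (Q + theta P R p) *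
            (U : Mat r ℂ) := by
          rw [hQ', mul_add, add_mul]
        rw [e3]
        calc _ = iv U * (Q + theta P R p) * ((U : Mat r ℂ) * iv U) *
              ((wP P p * A : (Mat r ℂ)ˣ) : Mat r ℂ) ^ k * (U : Mat r ℂ) := by
              simp only [mul_assoc]
          _ = _ := by rw [hU1, mul_one]; simp only [mul_assoc]
      rw [e2, mul_assoc, Matrix.trace_mul_comm, mul_assoc, hU1, mul_one]
      exact H p k hk1)
  refine ⟨(U : Mat r ℂ) * η * iv U, ?_, ?_⟩
  · intro q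
    have h3 := h1 q
    have h4 : R q = (U : Mat r ℂ) * R' q * iv U := by
      rw [hR'q]
      calc R q = ((U : Mat r ℂ) * iv U) * R q * ((U : Mat r ℂ) * iv U) := by
            rw [hU1, one_mul, mul_one]
        _ = _ := by simp only [mul_assoc]
    change R q = _ - (P q : Mat r ℂ) * _ * iv (P q)
    change R' q = _ - (P' q : Mat r ℂ) * _ * iv (P' q) at h3
    rw [h4, h3, e1, e2, mul_sub, sub_mul]
    congr 1
    calc _ = ((U : Mat r ℂ) * iv U) * (P q : Mat r ℂ) * (U : Mat r ℂ) * η * iv U * iv (P q) *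
          ((U : Mat r ℂ) * iv U) := by simp only [mul_assoc]
      _ = _ := by rw [hU1, one_mul, mul_one]; simp only [mul_assoc, iv]
  · have e2 : iv A' = iv U * iv A * (U : Mat r ℂ) := by rw [hA']; simp [iv, mul_assoc]
    have e1 : (A' : Mat r ℂ) = iv U * (A : Mat r ℂ) * (U : Mat r ℂ) := by rw [hA']; simp [iv]
    have h4 : Q = (U : Mat r ℂ) * Q' * iv U := by
      rw [hQ']
      calc Q = ((U : Mat r ℂ) * iv U) * Q * ((U : Mat r ℂ) * iv U) := by
            rw [hU1, one_mul, mul_one]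
        _ = _ := by simp only [mul_assoc]
    change Q = iv A * _ * (A : Mat r ℂ) - _
    change Q' = iv A' * _ * (A' : Mat r ℂ) - _ at h2
    rw [h4, h2, e1, e2, mul_sub, sub_mul]
    congr 1
    calc _ = ((U : Mat r ℂ) * iv U) * iv A * (U : Mat r ℂ) * η * iv U * (A : Mat r ℂ) *
          ((U : Mat r ℂ) * iv U) := by simp only [mul_assoc]
      _ = _ := by rw [hU1, one_mul, mul_one]; simp only [mul_assoc, iv]

/-- BLOCK DUAL LEMMA. -/
theorem exists_dual {L : Type*} (K₀ : Subfield ℂ) [Countable K₀] (hr : 1 ≤ r)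
    (P : L → (Mat r ℂ)ˣ) (q₀ : L) (U : (Mat r ℂ)ˣ) (α : Fin r → ℂ) (c : Fin r → Fin r) (M : ℕ)
    (τ : Fin r → ℂ) (hB : BlockData P q₀ U α c M τ)
    (hU : ∀ i j, (U : Mat r ℂ) i j ∈ K₀) (hU' : ∀ i j, ((U⁻¹ : (Mat r ℂ)ˣ) : Mat r ℂ) i j ∈ K₀) :
    ∃ A : (Mat r ℂ)ˣ, AlgebraicIndependent K₀ (fun p : Fin r × Fin r => (A : Mat r ℂ) p.1 p.2) ∧
      DualProp P A := by
  have hU2 : ((U⁻¹ : (Mat r ℂ)ˣ) : Mat r ℂ) * (U : Mat r ℂ) = 1 := U.inv_mul
  obtain ⟨A', h1, h2⟩ := exists_dual_diag (fun q => U⁻¹ * P q * U) K₀ hr q₀ α hB.inj (by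
    simp only [Units.val_mul, hB.diag]
    calc _ = (((U⁻¹ : (Mat r ℂ)ˣ) : Mat r ℂ) * (U : Mat r ℂ)) * diagonal α *
          (((U⁻¹ : (Mat r ℂ)ˣ) : Mat r ℂ) * (U : Mat r ℂ)) := by simp only [mul_assoc]
      _ = _ := by rw [hU2, one_mul, mul_one]) c hB.tri hB.conn M τ hB.pow hB.free
  refine ⟨U * A' * U⁻¹, ?_, ?_⟩
  · have := generic_mul h1 (U : Mat r ℂ) ((U⁻¹ : (Mat r ℂ)ˣ) : Mat r ℂ) hU hU' U.isUnit
      U⁻¹.isUnit
    exact this
  · apply DualProp.conj P _ U
    have : U⁻¹ * (U * A' * U⁻¹) * U = A' := by group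
    rw [this]
    exact h2

end Vale.Agent.P002R
end

section

/-!
# From scaled representations to representations into `SL_r`, for general groups
-/

set_option linter.unusedSectionVars false

namespace Vale.Agent.P002R

open Matrix

variable {κ ι : Type} {r : ℕ}

section

variable [Fintype κ] [Fintype ι]

/-- Multidegree of an exponent with respect to the matrices. -/
noncomputable def mdegG (m : ((κ ⊕ ι) × Fin r × Fin r) →₀ ℕ) : κ ⊕ ι →₀ ℕ :=
  Finsupp.mapDomain Prod.fst m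

theorem evalGG_monomial_twist (x x' : FreeGroup (κ ⊕ ι) →* (Mat r ℂ)ˣ) (t : κ → ℂ)
    (h : ∀ k, (x' (FreeGroup.of (Sum.inl k)) : Mat r ℂ) =
      t k • (x (FreeGroup.of (Sum.inl k)) : Mat r ℂ))
    (h' : ∀ j, (x' (FreeGroup.of (Sum.inr j)) : Mat r ℂ) =
      (x (FreeGroup.of (Sum.inr j)) : Mat r ℂ))
    (m : ((κ ⊕ ι) × Fin r × Fin r) →₀ ℕ) (c : ℂ) :
    evalG x' (MvPolynomial.monomial m c) =
      (∏ k, t k ^ mdegG m (Sum.inl k)) * evalG x (MvPolynomial.monomial m c) := by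
  obtain ⟨t', ht', ht''⟩ : ∃ t' : κ ⊕ ι → ℂ, (∀ k, t' (Sum.inl k) = t k) ∧
      ∀ j, t' (Sum.inr j) = 1 := ⟨Sum.elim t fun _ => 1, fun _ => rfl, fun _ => rfl⟩
  have hh : ∀ k, (x' (FreeGroup.of k) : Mat r ℂ) = t' k • (x (FreeGroup.of k) : Mat r ℂ) := by
    rintro (k | j)
    · rw [h, ht']
    · rw [h', ht'', one_smul]
  unfold evalG
  rw [MvPolynomial.aeval_monomial, MvPolynomial.aeval_monomial]
  have h1 : (m.prod fun p n => ((x' (FreeGroup.of p.1) : Mat r ℂ) p.2.1 p.2.2) ^ n) =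
      (m.prod fun p n => t' p.1 ^ n) *
        m.prod fun p n => ((x (FreeGroup.of p.1) : Mat r ℂ) p.2.1 p.2.2) ^ n := by
    rw [← Finsupp.prod_mul]
    refine Finsupp.prod_congr fun p _ => ?_
    rw [hh, Matrix.smul_apply, smul_eq_mul, mul_pow]
  have h2 : (m.prod fun p n => t' p.1 ^ n) = ∏ k, t k ^ mdegG m (Sum.inl k) := by
    have h3 : ∏ k, t k ^ mdegG m (Sum.inl k) = ∏ k, t' k ^ mdegG m k := by
      rw [Fintype.prod_sum_type]
      simp only [ht', ht'', one_pow, Finset.prod_const_one, mul_one]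
    rw [h3, mdegG, ← Finsupp.prod_fintype (Finsupp.mapDomain Prod.fst m) (fun k n => t' k ^ n)
      (fun k => pow_zero _), Finsupp.prod_mapDomain_index (fun k => pow_zero _)
        (fun k a b => pow_add _ _ _)]
  rw [h1, h2]
  ring

theorem evalGG_eq_sum (x : FreeGroup (κ ⊕ ι) →* (Mat r ℂ)ˣ)
    (f : MvPolynomial ((κ ⊕ ι) × Fin r × Fin r) ℂ) :
    evalG x f = ∑ m ∈ f.support, evalG x (MvPolynomial.monomial m (MvPolynomial.coeff m f)) := by
  conv_lhs => rw [MvPolynomial.as_sum f]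
  rw [map_sum]

/-- Semisimplicity is unchanged under twisting. -/
theorem SS.twistG {G : Type*} [Group G] {x x' : G →* (Mat r ℂ)ˣ} (c : G → ℂ)
    (hc : ∀ w, c w ≠ 0)
    (h : ∀ w, (x' w : Mat r ℂ) = c w • (x w : Mat r ℂ)) (hx : SS x) : SS x' := by
  have key : ∀ W : Submodule ℂ (Fin r → ℂ), (∀ w, ∀ v ∈ W, (x' w : Mat r ℂ) *ᵥ v ∈ W) ↔
      (∀ w, ∀ v ∈ W, (x w : Mat r ℂ) *ᵥ v ∈ W) := by
    intro W
    refine forall_congr' fun w => forall_congr' fun v => forall_congr' fun hv => ?_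
    rw [h, Matrix.smul_mulVec, Submodule.smul_mem_iff _ (hc w)]
  intro W hW
  obtain ⟨W', h1, h2⟩ := hx W ((key W).1 hW)
  exact ⟨W', (key W').2 h1, h2⟩

/-- The determinant of the generic matrix of a generator. -/
noncomputable def detXG (k : κ ⊕ ι) : MvPolynomial ((κ ⊕ ι) × Fin r × Fin r) ℂ :=
  det (Matrix.of fun i j => (MvPolynomial.X (k, i, j) :
    MvPolynomial ((κ ⊕ ι) × Fin r × Fin r) ℂ))

theorem evalGG_detX (x : FreeGroup (κ ⊕ ι) →* (Mat r ℂ)ˣ) (k : κ ⊕ ι) :
    evalG x (detXG k) = (x (FreeGroup.of k) : Mat r ℂ).det := by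
  unfold detXG
  rw [AlgHom.map_det]
  congr 1
  ext i j
  simp [evalG]

theorem coe_scalarU_mulG (c : ℂˣ) (u : (Mat r ℂ)ˣ) :
    ((scalarU c * u : (Mat r ℂ)ˣ) : Mat r ℂ) = (c : ℂ) • (u : Mat r ℂ) := by
  rw [Units.val_mul]
  show algebraMap ℂ (Mat r ℂ) (c : ℂ) * (u : Mat r ℂ) = _
  rw [Algebra.algebraMap_eq_smul_one, Matrix.smul_mul, Matrix.one_mul]

theorem coe_slUG {R : Type*} [CommRing R] (φ : R →+* ℂ) (y : SpecialLinearGroup (Fin r) R) :
    ((slU φ y : (Mat r ℂ)ˣ) : Mat r ℂ) = (y : Mat r R).map φ := rfl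

theorem det_slUG {R : Type*} [CommRing R] (φ : R →+* ℂ) (y : SpecialLinearGroup (Fin r) R) :
    ((slU φ y : (Mat r ℂ)ˣ) : Mat r ℂ).det = 1 := by
  rw [coe_slUG]
  have := (φ.map_det (y : Mat r R))
  rw [Matrix.SpecialLinearGroup.det_coe, map_one] at this
  exact this.symm

/-- Twisting an integral representation by powers of a root of unity. -/
theorem exists_twistG {R : Type*} [CommRing R] (ζ : R) (hζ : ζ ^ r = 1) (hr : 0 < r)
    (y : FreeGroup (κ ⊕ ι) →* SpecialLinearGroup (Fin r) R) (e : κ → ℕ) :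
    ∃ (y' : FreeGroup (κ ⊕ ι) →* SpecialLinearGroup (Fin r) R) (χ : FreeGroup (κ ⊕ ι) →* Rˣ),
      (∀ w, (y' w : Mat r R) = (χ w : R) • (y w : Mat r R)) ∧
        (∀ k, (χ (FreeGroup.of (Sum.inl k)) : R) = ζ ^ e k) ∧
          ∀ j, χ (FreeGroup.of (Sum.inr j)) = 1 := by
  obtain ⟨ζu, hζu⟩ : ∃ ζu : Rˣ, (ζu : R) = ζ := by
    refine ⟨⟨ζ, ζ ^ (r - 1), ?_, ?_⟩, rfl⟩
    · rw [← pow_succ', Nat.sub_add_cancel hr, hζ]
    · rw [← pow_succ, Nat.sub_add_cancel hr, hζ]
  obtain ⟨χ, hχ, hχ'⟩ : ∃ χ : FreeGroup (κ ⊕ ι) →* Rˣ, (∀ k, χ (FreeGroup.of (Sum.inl k)) = ζu ^ e k) ∧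
      ∀ j, χ (FreeGroup.of (Sum.inr j)) = 1 :=
    ⟨FreeGroup.lift (Sum.elim (fun k => ζu ^ e k) fun _ => 1), fun k => FreeGroup.lift_apply_of,
      fun k => FreeGroup.lift_apply_of⟩
  have hχr : ∀ w, (χ w) ^ r = 1 := by
    intro w
    have : (powMonoidHom r).comp χ = 1 := by
      refine FreeGroup.ext_hom _ _ fun k => ?_
      rcases k with k | j
      · rw [MonoidHom.comp_apply, hχ, powMonoidHom_apply, MonoidHom.one_apply, ← pow_mul,
          mul_comm, pow_mul]
        have : ζu ^ r = 1 := by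
          apply Units.ext
          rw [Units.val_pow_eq_pow_val, hζu, hζ, Units.val_one]
        rw [this, one_pow]
      · rw [MonoidHom.comp_apply, hχ', powMonoidHom_apply, MonoidHom.one_apply, one_pow]
    exact DFunLike.congr_fun this w
  have hdet : ∀ w, ((χ w : R) • (y w : Mat r R)).det = 1 := by
    intro w
    rw [det_smul, Fintype.card_fin, Matrix.SpecialLinearGroup.det_coe, mul_one,
      ← Units.val_pow_eq_pow_val, hχr, Units.val_one]
  refine ⟨⟨⟨fun w => ⟨(χ w : R) • (y w : Mat r R), hdet w⟩, ?_⟩, ?_⟩, χ, fun w => rfl,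
    fun k => ?_, hχ'⟩
  · apply Subtype.ext
    show (χ 1 : R) • (y 1 : Mat r R) = 1
    rw [map_one, map_one, Units.val_one, one_smul]
    rfl
  · intro w w'
    apply Subtype.ext
    show (χ (w * w') : R) • (y (w * w') : Mat r R) =
      ((χ w : R) • (y w : Mat r R)) * ((χ w' : R) • (y w' : Mat r R))
    rw [map_mul, map_mul, Units.val_mul, Matrix.SpecialLinearGroup.coe_mul, Matrix.smul_mul,
      Matrix.mul_smul, smul_smul]
  · rw [hχ, Units.val_pow_eq_pow_val, hζu]

/-- A semisimple representation integral up to scalars, with boundary classes of determinant one,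
is a twist of a representation into `SL_r(R)`. -/
theorem exists_descentG {R : Type*} [CommRing R] (φ : R →+* ℂ) (ζ : R) (hζ : ζ ^ r = 1)
    (hζ' : IsPrimitiveRoot (φ ζ) r) (hr : 0 < r)
    (Rel : Set (FreeGroup (κ ⊕ ι))) (C : ι → (Mat r ℂ)ˣ)
    (hC : ∀ j, (C j : Mat r ℂ).det = 1) (y' : FreeGroup (κ ⊕ ι) →* (Mat r ℂ)ˣ)
    (hy' : y' ∈ DG Rel φ C) :
    ∃ (y : FreeGroup (κ ⊕ ι) →* SpecialLinearGroup (Fin r) R) (χ : FreeGroup (κ ⊕ ι) →* ℂˣ),
      (∀ w, y' w = scalarU (χ w) * slU φ (y w)) ∧ ∀ j, χ (FreeGroup.of (Sum.inr j)) = 1 := by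
  have h1 : ∀ k : κ ⊕ ι, ∃ (c : ℂˣ) (s : SpecialLinearGroup (Fin r) R),
      y' (FreeGroup.of k) = scalarU c * slU φ s ∧ ∀ j, k = Sum.inr j → c = 1 := by
    rintro (k | j)
    · obtain ⟨c, s, h⟩ := hy'.2 (Sum.inl k)
      exact ⟨c, s, h, fun j hj => by simp at hj⟩
    · obtain ⟨c, s, h⟩ := hy'.2 (Sum.inr j)
      have hdet : (y' (FreeGroup.of (Sum.inr j)) : Mat r ℂ).det = 1 := by
        obtain ⟨P, hP⟩ := hy'.1.2.1 j
        rw [← hC j]
        have h2 : (y' (FreeGroup.of (Sum.inr j)) : Mat r ℂ) =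
            ((P : (Mat r ℂ)ˣ) * C j * P⁻¹ : (Mat r ℂ)ˣ) := by
          congr 1
          have h4 : (P : (Mat r ℂ)ˣ) * C j = y' (FreeGroup.of (Sum.inr j)) * P := hP
          rw [h4, mul_assoc]
          simp
        have h5 : (((P : (Mat r ℂ)ˣ) * C j * P⁻¹ : (Mat r ℂ)ˣ) : Mat r ℂ).det =
            (((P : (Mat r ℂ)ˣ) : Mat r ℂ) * (C j : Mat r ℂ) *
              ((((P : (Mat r ℂ)ˣ)⁻¹ : (Mat r ℂ)ˣ)) : Mat r ℂ)).det := by
          simp
        rw [h2, h5, det_mul_comm, ← mul_assoc, ← Units.val_mul, inv_mul_cancel, Units.val_one,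
          one_mul]
      have hcr : (c : ℂ) ^ r = 1 := by
        rw [h, coe_scalarU_mulG, det_smul, det_slUG, mul_one, Fintype.card_fin] at hdet
        exact hdet
      have : NeZero r := ⟨hr.ne'⟩
      obtain ⟨e, -, he⟩ := hζ'.eq_pow_of_pow_eq_one hcr
      have hdet' : ((ζ ^ e) • (s : Mat r R)).det = 1 := by
        rw [det_smul, Fintype.card_fin, Matrix.SpecialLinearGroup.det_coe, mul_one, ← pow_mul,
          mul_comm, pow_mul, hζ, one_pow]
      refine ⟨1, ⟨(ζ ^ e) • (s : Mat r R), hdet'⟩, ?_, fun _ _ => rfl⟩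
      rw [map_one, one_mul, h]
      ext1
      rw [coe_scalarU_mulG, coe_slUG]
      show (c : ℂ) • (s : Mat r R).map φ = ((ζ ^ e) • (s : Mat r R)).map φ
      rw [← he]
      ext i j
      simp
  choose c s hcs hc1 using h1
  refine ⟨FreeGroup.lift s, FreeGroup.lift c, ?_, fun j => ?_⟩
  · have : y' = (⟨⟨fun w => scalarU (FreeGroup.lift c w) * slU φ (FreeGroup.lift s w), by simp⟩,
        by
          intro w w'
          show scalarU (FreeGroup.lift c (w * w')) * slU φ (FreeGroup.lift s (w * w')) =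
            (scalarU (FreeGroup.lift c w) * slU φ (FreeGroup.lift s w)) *
              (scalarU (FreeGroup.lift c w') * slU φ (FreeGroup.lift s w'))
          rw [map_mul, map_mul, map_mul, map_mul, mul_assoc, mul_assoc]
          congr 1
          rw [← mul_assoc, ← mul_assoc, scalarU_comm]⟩ : FreeGroup (κ ⊕ ι) →* (Mat r ℂ)ˣ) := by
      refine FreeGroup.ext_hom _ _ fun k => ?_
      show y' (FreeGroup.of k) =
        scalarU (FreeGroup.lift c (FreeGroup.of k)) * slU φ (FreeGroup.lift s (FreeGroup.of k))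
      rw [FreeGroup.lift_apply_of, FreeGroup.lift_apply_of, hcs]
    intro w
    exact DFunLike.congr_fun this w
  · rw [FreeGroup.lift_apply_of]
    exact hc1 _ j rfl

/-- The version for `φ` not necessarily injective. -/
theorem unscaleG' {R : Type*} [CommRing R] (φ : R →+* ℂ) (ζ : R) (hζ : ζ ^ r = 1)
    (hζ' : IsPrimitiveRoot (φ ζ) r) (hr : 0 < r) (Rel : Set (FreeGroup (κ ⊕ ι)))
    (hchar : CharOK Rel) (C : ι → (Mat r ℂ)ˣ) (hC : ∀ j, (C j : Mat r ℂ).det = 1)
    (f : MvPolynomial ((κ ⊕ ι) × Fin r × Fin r) ℂ)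
    (hf : ∀ y : FreeGroup (κ ⊕ ι) →* SpecialLinearGroup (Fin r) R,
      (∀ w ∈ Rel, slU φ (y w) = 1) →
      (∀ j, IsConj (C j) (slU φ (y (FreeGroup.of (Sum.inr j))))) →
      SS ((slU φ).comp y) → evalG ((slU φ).comp y) f = 0)
    (x : FreeGroup (κ ⊕ ι) →* (Mat r ℂ)ˣ) (hdet : ∀ w, (x w : Mat r ℂ).det = 1)
    (hall : ∀ f' : MvPolynomial ((κ ⊕ ι) × Fin r × Fin r) ℂ,
      (∀ y ∈ DG Rel φ C, evalG y f' = 0) → evalG x f' = 0) :
    evalG x f = 0 := by
  classical
  obtain ⟨z, hz⟩ : ∃ z, z = φ ζ := ⟨_, rfl⟩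
  rw [← hz] at hζ'
  have hz0 : z ≠ 0 := hζ'.ne_zero hr.ne'
  -- the components of `f` vanish at integral representations
  have comp : ∀ y : FreeGroup (κ ⊕ ι) →* SpecialLinearGroup (Fin r) R,
      (∀ w ∈ Rel, slU φ (y w) = 1) →
      (∀ j, IsConj (C j) (slU φ (y (FreeGroup.of (Sum.inr j))))) →
      SS ((slU φ).comp y) → ∀ δ : κ → ℕ,
        ∑ m ∈ f.support with (fun k => z ^ mdegG m (Sum.inl k)) = (fun k => z ^ δ k),
          evalG ((slU φ).comp y) (MvPolynomial.monomial m (MvPolynomial.coeff m f)) = 0 := by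
    intro y hy hyC hyS δ
    refine Vale.Agent.P002.fourier_inversion hζ' hr f.support
      (fun m (k : κ) => mdegG m (Sum.inl k)) _ (fun e => ?_) δ
    obtain ⟨y', χ, h1, h2, h2'⟩ := exists_twistG ζ hζ hr y e
    have h3 : ∀ w, (((slU φ).comp y' w : (Mat r ℂ)ˣ) : Mat r ℂ) =
        φ (χ w : R) • (((slU φ).comp y w : (Mat r ℂ)ˣ) : Mat r ℂ) := by
      intro w
      rw [MonoidHom.comp_apply, MonoidHom.comp_apply, coe_slUG, coe_slUG, h1]
      ext i j
      simp
    have hy' : ∀ w ∈ Rel, slU φ (y' w) = 1 := by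
      intro w hw
      have h4 := h3 w
      have h5 := congrArg Units.val (hchar w hw ℂˣ ((Units.map (φ : R →* ℂ)).comp χ) (fun j => by
        rw [MonoidHom.comp_apply, h2', map_one]))
      have h6 : φ (χ w : R) = 1 := h5
      rw [h6, one_smul, MonoidHom.comp_apply, MonoidHom.comp_apply, hy w hw] at h4
      exact Units.ext h4
    have hyC' : ∀ j, slU φ (y' (FreeGroup.of (Sum.inr j))) =
        slU φ (y (FreeGroup.of (Sum.inr j))) := by
      intro j
      have h4 := h3 (FreeGroup.of (Sum.inr j))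
      rw [h2', Units.val_one, map_one, one_smul, MonoidHom.comp_apply,
        MonoidHom.comp_apply] at h4
      exact Units.ext h4
    have hy'S : SS ((slU φ).comp y') :=
      hyS.twistG (fun w => φ (χ w : R)) (fun w => ((χ w).isUnit.map φ).ne_zero) h3
    have h4 := hf y' hy' (fun j => by rw [hyC' j]; exact hyC j) hy'S
    rw [evalGG_eq_sum] at h4
    rw [← h4]
    refine Finset.sum_congr rfl fun m _ => ?_
    rw [evalGG_monomial_twist ((slU φ).comp y) ((slU φ).comp y') (fun k => z ^ e k) ?_ ?_]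
    · intro k
      rw [h3, h2, map_pow, hz]
    · intro j
      rw [h3, h2', Units.val_one, map_one, one_smul]
  -- now the components of `f` vanish at `x`
  have compx : ∀ m₀ ∈ f.support,
      ∑ m ∈ f.support with (fun k => z ^ mdegG m (Sum.inl k)) =
          (fun k : κ => z ^ mdegG m₀ (Sum.inl k)),
        evalG x (MvPolynomial.monomial m (MvPolynomial.coeff m f)) = 0 := by
    intro m₀ hm₀
    obtain ⟨B, hB⟩ : ∃ B : ℕ, ∀ m ∈ f.support, ∀ k : κ, mdegG m (Sum.inl k) ≤ B := by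
      refine ⟨∑ m ∈ f.support, ∑ k : κ, mdegG m (Sum.inl k), fun m hm k => ?_⟩
      exact (Finset.single_le_sum (f := fun k : κ => mdegG m (Sum.inl k))
        (fun _ _ => Nat.zero_le _)
        (Finset.mem_univ k)).trans (Finset.single_le_sum
          (f := fun m => ∑ k : κ, mdegG m (Sum.inl k))
          (fun _ _ => Nat.zero_le _) hm)
    obtain ⟨N, hN⟩ : ∃ N : κ → ℕ, ∀ k, N k = mdegG m₀ (Sum.inl k) + r * B :=
      ⟨_, fun k => rfl⟩
    obtain ⟨q, hq⟩ : ∃ q : (((κ ⊕ ι) × Fin r × Fin r) →₀ ℕ) → κ → ℕ,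
        ∀ m ∈ f.support, (fun k => z ^ mdegG m (Sum.inl k)) =
            (fun k : κ => z ^ mdegG m₀ (Sum.inl k)) →
          ∀ k, N k = mdegG m (Sum.inl k) + r * q m k := by
      have : ∀ m : ((κ ⊕ ι) × Fin r × Fin r) →₀ ℕ, ∀ k : κ, ∃ q : ℕ, m ∈ f.support →
          (fun k => z ^ mdegG m (Sum.inl k)) =
            (fun k : κ => z ^ mdegG m₀ (Sum.inl k)) →
            N k = mdegG m (Sum.inl k) + r * q := by
        intro m k
        by_cases hm : m ∈ f.support ∧ (fun k => z ^ mdegG m (Sum.inl k)) =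
            (fun k : κ => z ^ mdegG m₀ (Sum.inl k))
        · have h1 : z ^ mdegG m (Sum.inl k) = z ^ mdegG m₀ (Sum.inl k) := congrFun hm.2 k
          have h2 : z ^ mdegG m (Sum.inl k) = z ^ N k := by
            rw [h1, hN, pow_add, pow_mul, hζ'.pow_eq_one, one_pow, mul_one]
          have hfin : IsOfFinOrder z := isOfFinOrder_iff_pow_eq_one.2 ⟨r, hr, hζ'.pow_eq_one⟩
          rw [hfin.pow_eq_pow_iff_modEq, ← hζ'.eq_orderOf] at h2
          have h3 : mdegG m (Sum.inl k) ≤ N k := by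
            rw [hN]
            calc mdegG m (Sum.inl k) ≤ B := hB m hm.1 k
              _ ≤ r * B := Nat.le_mul_of_pos_left B hr
              _ ≤ _ := Nat.le_add_left _ _
          obtain ⟨q, hq⟩ := (Nat.modEq_iff_dvd' h3).1 h2
          exact ⟨q, fun _ _ => by omega⟩
        · exact ⟨0, fun h1 h2 => absurd ⟨h1, h2⟩ hm⟩
      choose q hq using this
      exact ⟨q, fun m h1 h2 k => hq m k h1 h2⟩
    -- the homogenized component
    obtain ⟨f', hf'⟩ : ∃ f' : MvPolynomial ((κ ⊕ ι) × Fin r × Fin r) ℂ, f' =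
        ∑ m ∈ f.support with (fun k => z ^ mdegG m (Sum.inl k)) =
            (fun k : κ => z ^ mdegG m₀ (Sum.inl k)),
          MvPolynomial.monomial m (MvPolynomial.coeff m f) *
            ∏ k : κ, detXG (Sum.inl k) ^ q m k := ⟨_, rfl⟩
    have heval : ∀ (x₀ x' : FreeGroup (κ ⊕ ι) →* (Mat r ℂ)ˣ) (t : κ → ℂ),
        (∀ k, (x' (FreeGroup.of (Sum.inl k)) : Mat r ℂ) =
          t k • (x₀ (FreeGroup.of (Sum.inl k)) : Mat r ℂ)) →
        (∀ j, (x' (FreeGroup.of (Sum.inr j)) : Mat r ℂ) =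
          (x₀ (FreeGroup.of (Sum.inr j)) : Mat r ℂ)) →
        (∀ k, (x₀ (FreeGroup.of (Sum.inl k)) : Mat r ℂ).det = 1) →
        evalG x' f' = (∏ k, t k ^ N k) *
          ∑ m ∈ f.support with (fun k => z ^ mdegG m (Sum.inl k)) =
              (fun k : κ => z ^ mdegG m₀ (Sum.inl k)),
            evalG x₀ (MvPolynomial.monomial m (MvPolynomial.coeff m f)) := by
      intro x₀ x' t h1 h1' h2
      rw [hf', map_sum, Finset.mul_sum]
      refine Finset.sum_congr rfl fun m hm => ?_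
      rw [Finset.mem_filter] at hm
      rw [map_mul, map_prod, evalGG_monomial_twist x₀ x' t h1 h1', mul_right_comm]
      congr 1
      rw [← Finset.prod_mul_distrib]
      refine Finset.prod_congr rfl fun k _ => ?_
      rw [map_pow, evalGG_detX, h1, det_smul, h2, mul_one, Fintype.card_fin, ← pow_mul, ← pow_add,
        hq m hm.1 hm.2 k]
    have hx' := hall f' ?_
    · rw [heval x x (fun _ => 1) (fun k => (one_smul _ _).symm) (fun j => rfl)
        (fun k => hdet _)] at hx'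
      simpa using hx'
    · intro y' hy'
      obtain ⟨y, χ, hχ, hχ'⟩ := exists_descentG φ ζ hζ (hz ▸ hζ') hr Rel C hC y' hy'
      have h1 : ∀ w, (y' w : Mat r ℂ) = (χ w : ℂ) • (((slU φ).comp y w : (Mat r ℂ)ˣ) : Mat r ℂ) := by
        intro w
        rw [hχ, coe_scalarU_mulG, MonoidHom.comp_apply]
      have hyS' : SS ((slU φ).comp y) := by
        refine hy'.1.2.2.twistG (fun w => ((χ w)⁻¹ : ℂˣ)) (fun w => Units.ne_zero _) fun w => ?_
        rw [h1, smul_smul, Units.inv_mul, one_smul]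
      have hrel : ∀ w ∈ Rel, slU φ (y w) = 1 := by
        intro w hw
        have h2 := hχ w
        rw [hy'.1.1 w hw, hchar w hw ℂˣ χ hχ', map_one, one_mul] at h2
        exact h2.symm
      have hcj : ∀ j, slU φ (y (FreeGroup.of (Sum.inr j))) = y' (FreeGroup.of (Sum.inr j)) := by
        intro j
        rw [hχ, hχ', map_one, one_mul]
      rw [heval ((slU φ).comp y) y' (fun k => (χ (FreeGroup.of (Sum.inl k)) : ℂ)) (fun k => h1 _)
        (fun j => by rw [MonoidHom.comp_apply, hcj])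
        (fun k => by rw [MonoidHom.comp_apply]; exact det_slUG φ _),
        comp y hrel (fun j => by rw [hcj]; exact hy'.1.2.1 j) hyS'
          (fun k => mdegG m₀ (Sum.inl k)), mul_zero]
  rw [evalGG_eq_sum, ← Finset.sum_fiberwise_of_maps_to
    (g := fun m => (fun k => z ^ mdegG m (Sum.inl k) : κ → ℂ))
    (t := f.support.image fun m => (fun k => z ^ mdegG m (Sum.inl k) : κ → ℂ))
    (fun m hm => Finset.mem_image_of_mem _ hm)]
  refine Finset.sum_eq_zero fun δ hδ => ?_
  rw [Finset.mem_image] at hδ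
  obtain ⟨m₀, hm₀, rfl⟩ := hδ
  exact compx m₀ hm₀

end

/-- From representations which are integral up to scalars to integral ones. -/
theorem unscaleG [Finite κ] [Finite ι] {R : Type*} [CommRing R] (φ : R →+* ℂ)
    (hφ : Function.Injective φ) (ζ : R) (hζ : ζ ^ r = 1)
    (hζ' : IsPrimitiveRoot (φ ζ) r) (hr : 0 < r) (Rel : Set (FreeGroup (κ ⊕ ι)))
    (hchar : CharOK Rel) (C : ι → (Mat r ℂ)ˣ) (hC : ∀ j, (C j : Mat r ℂ).det = 1)
    (f : MvPolynomial ((κ ⊕ ι) × Fin r × Fin r) ℂ)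
    (hf : ∀ y : FreeGroup (κ ⊕ ι) →* SpecialLinearGroup (Fin r) R, (∀ w ∈ Rel, y w = 1) →
      (∀ j, IsConj (C j) (slU φ (y (FreeGroup.of (Sum.inr j))))) →
      SS ((slU φ).comp y) → evalG ((slU φ).comp y) f = 0)
    (x : FreeGroup (κ ⊕ ι) →* (Mat r ℂ)ˣ) (hdet : ∀ w, (x w : Mat r ℂ).det = 1)
    (hall : ∀ f' : MvPolynomial ((κ ⊕ ι) × Fin r × Fin r) ℂ,
      (∀ y ∈ DG Rel φ C, evalG y f' = 0) → evalG x f' = 0) :
    evalG x f = 0 := by
  cases nonempty_fintype κ
  cases nonempty_fintype ι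
  refine unscaleG' φ ζ hζ hζ' hr Rel hchar C hC f (fun y hy => hf y fun w hw => ?_) x hdet hall
  apply Subtype.ext
  have h1 : ((slU φ (y w) : (Mat r ℂ)ˣ) : Mat r ℂ) = 1 := by
    rw [hy w hw, Units.val_one]
  rw [coe_slUG] at h1
  refine Matrix.map_injective hφ ?_
  show (y w : Mat r R).map φ = (1 : Mat r R).map φ
  rw [h1, Matrix.map_one _ (map_zero φ) (map_one φ)]

end Vale.Agent.P002R
end
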