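import Mathlib
import Vale.Agent.P002.Bdl.B2
import Vale.Agent.P002.Bdl.B3
import Vale.Agent.P002.Bdl.B10
import Vale.Agent.P002.Bdl.B6
import Vale.Agent.P002.Bdl.B11
import Vale.Agent.P002.Bdl.B7

set_option linter.all false

section

/-!
# P002, genus 0, one regular class: definitions
-/

namespace Vale.Agent.P002L

open Matrix Vale.Agent.P002R

/-- Upper unitriangular matrices. -/
def UU {S : Type*} [CommRing S] {r : ℕ} (u : Mat r S) : Prop := UpT u ∧ ∀ i, u i i = 1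

/-- Matrices with diagonal entries `l (κ i)`, which are strictly upper triangular with respect to
the labels `κ` off the diagonal. -/
def Kup {S : Type*} [CommRing S] {r : ℕ} (κ : Fin r → ℕ) (l : ℕ → S) (M : Mat r S) : Prop :=
  (∀ i, M i i = l (κ i)) ∧ ∀ i j, i ≠ j → ¬ κ i < κ j → M i j = 0

/-- Exponent of the edge from `b` to `a` at the vertex `v`. -/
def eb {r : ℕ} (a b v : Fin r) : ℤ := (if v = a then 1 else 0) - (if v = b then 1 else 0)

/-- A ring `A` between `R` and `ℂ` such that all complex numbers lift to `A`, the nonzero ones to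
units, and such that the `R`-points of `A` are dense near the given complex point. -/
structure Lifting {R A : Type} [CommRing R] [CommRing A] (φ : R →+* ℂ) (ι : R →+* A)
    (ψ : A →+* ℂ) : Prop where
  comp : ∀ a, ψ (ι a) = φ a
  inj : Function.Injective φ
  surj : ∀ c : ℂ, ∃ a, ψ a = c
  unit : ∀ c : ℂˣ, ∃ a : Aˣ, ψ a = c
  dens : ∀ {σ : Type} (f : MvPolynomial σ ℂ) (a : σ → A),
    (∀ η : A →+* R, (∀ s, η (ι s) = s) → MvPolynomial.eval (fun i => φ (η (a i))) f = 0) →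
    MvPolynomial.eval (fun i => ψ (a i)) f = 0

end Vale.Agent.P002L
end

section

/-!
# P002, genus 0, one regular class: unitriangular matrices, permutations, letters
-/

namespace Vale.Agent.P002L

open Matrix Vale.Agent.P002R

variable {S T : Type*} [CommRing S] [CommRing T] {r : ℕ}

theorem UU.mul {u v : Mat r S} (hu : UU u) (hv : UU v) : UU (u * v) :=
  ⟨hu.1.mul hv.1, fun i => by rw [hu.1.mul_diag hv.1, hu.2, hv.2, mul_one]⟩

theorem uu_one : UU (1 : Mat r S) := ⟨upT_one, fun i => one_apply_eq i⟩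

theorem UU.det {u : Mat r S} (hu : UU u) : u.det = 1 := by
  rw [hu.1.det]
  exact Finset.prod_eq_one fun i _ => hu.2 i

theorem UU.isUnit {u : Mat r S} (hu : UU u) : IsUnit u.det := by
  rw [hu.det]
  exact isUnit_one

theorem UU.map {u : Mat r S} (hu : UU u) (f : S →+* T) : UU (u.map f) :=
  ⟨fun i j h => by rw [map_apply, hu.1 i j h, map_zero], fun i => by
    rw [map_apply, hu.2, map_one]⟩

theorem upT_map {u : Mat r S} (hu : UpT u) (f : S →+* T) : UpT (u.map f) :=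
  fun i j h => by rw [map_apply, hu i j h, map_zero]

theorem upT_inv {A : Mat r S} (hA : UpT A) (h : IsUnit A.det) : UpT A⁻¹ := by
  have := Matrix.invertibleOfIsUnitDet A h
  intro i j h
  exact Matrix.blockTriangular_inv_of_blockTriangular (M := A) (b := id)
    (fun i j h => hA i j h) h

theorem UU.inv {u : Mat r S} (hu : UU u) : UU u⁻¹ := by
  have h1 := upT_inv hu.1 hu.isUnit
  refine ⟨h1, fun i => ?_⟩
  have h2 := hu.1.mul_diag h1 i
  rw [mul_nonsing_inv _ hu.isUnit, one_apply_eq, hu.2, one_mul] at h2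
  exact h2.symm

theorem UU.mul_inv {u : Mat r S} (hu : UU u) : u * u⁻¹ = 1 := mul_nonsing_inv _ hu.isUnit

theorem UU.inv_mul {u : Mat r S} (hu : UU u) : u⁻¹ * u = 1 := nonsing_inv_mul _ hu.isUnit

theorem UU.map_inv {u : Mat r S} (hu : UU u) (f : S →+* T) : (u⁻¹).map f = (u.map f)⁻¹ := by
  symm
  refine Matrix.inv_eq_left_inv ?_
  rw [← Matrix.map_mul, hu.inv_mul, Matrix.map_one _ (map_zero f) (map_one f)]

/-! ### Permutation matrices -/

/-- The permutation matrix `e_j ↦ e_{w j}`. -/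
def pm (w : Equiv.Perm (Fin r)) : Mat r S := Matrix.of fun i j => if i = w j then 1 else 0

theorem pm_apply (w : Equiv.Perm (Fin r)) (i j : Fin r) :
    (pm w : Mat r S) i j = if i = w j then 1 else 0 := rfl

theorem mul_pm (A : Mat r S) (w : Equiv.Perm (Fin r)) (i j : Fin r) :
    (A * (pm w : Mat r S)) i j = A i (w j) := by
  rw [mul_apply, Finset.sum_eq_single (w j)]
  · rw [pm_apply, if_pos rfl, mul_one]
  · intro k _ hk
    rw [pm_apply, if_neg hk, mul_zero]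
  · intro h
    exact absurd (Finset.mem_univ _) h

theorem pm_mul (A : Mat r S) (w : Equiv.Perm (Fin r)) (i j : Fin r) :
    ((pm w : Mat r S) * A) (w i) j = A i j := by
  rw [mul_apply, Finset.sum_eq_single i]
  · rw [pm_apply, if_pos rfl, one_mul]
  · intro k _ hk
    rw [pm_apply, if_neg fun h => hk (w.injective h).symm, zero_mul]
  · intro h
    exact absurd (Finset.mem_univ _) h

theorem pm_mul_pm (w w' : Equiv.Perm (Fin r)) : (pm w * pm w' : Mat r S) = pm (w * w') := by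
  ext i j
  rw [mul_pm, pm_apply, pm_apply, Equiv.Perm.mul_apply]

theorem pm_one : (pm 1 : Mat r S) = 1 := by
  ext i j
  rw [pm_apply, one_apply, Equiv.Perm.one_apply]

theorem pm_map (w : Equiv.Perm (Fin r)) (f : S →+* T) : (pm w : Mat r S).map f = pm w := by
  ext i j
  rw [map_apply, pm_apply, pm_apply]
  split_ifs
  · exact map_one f
  · exact map_zero f

/-- `pm w * A = A' * pm w`. -/
theorem pm_comm {w : Equiv.Perm (Fin r)} {A A' : Mat r S} (h : ∀ i j, A' (w i) (w j) = A i j) :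
    (pm w : Mat r S) * A = A' * (pm w : Mat r S) := by
  ext i j
  obtain ⟨i, rfl⟩ := w.surjective i
  rw [pm_mul, mul_pm, h]

/-! ### Letters -/

/-- The elementary matrix. -/
def xx (a b : Fin r) (z : S) : Mat r S := 1 + Matrix.single a b z

theorem xx_map (a b : Fin r) (z : S) (f : S →+* T) : (xx a b z).map f = xx a b (f z) := by
  ext i j
  simp only [xx, map_apply, Matrix.add_apply, map_add, one_apply, single_apply]
  congr 1
  · split_ifs
    · exact map_one f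
    · exact map_zero f
  · split_ifs
    · rfl
    · exact map_zero f

theorem uu_xx {a b : Fin r} (h : a < b) (z : S) : UU (xx a b z) := by
  refine ⟨fun i j hij => ?_, fun i => ?_⟩
  · rw [xx, Matrix.add_apply, one_apply_ne hij.ne', single_apply, if_neg, add_zero]
    rintro ⟨rfl, rfl⟩
    exact absurd h (not_lt.2 hij.le)
  · rw [xx, Matrix.add_apply, one_apply_eq, single_apply, if_neg, add_zero]
    rintro ⟨rfl, h2⟩
    exact absurd h2 h.ne'

theorem xx_mul_xx {a b : Fin r} (h : a ≠ b) (y z : S) : xx a b y * xx a b z = xx a b (y + z) := by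
  rw [xx, xx, xx, mul_add, mul_one, add_mul, one_mul, single_mul_single_of_ne _ _ _ _ h.symm,
    add_zero, add_assoc, single_add]

theorem xx_zero (a b : Fin r) : xx a b (0 : S) = 1 := by
  rw [xx, single_zero, add_zero]

theorem xx_mul_apply {a b : Fin r} (z : S) (A : Mat r S) (i j : Fin r) :
    (xx a b z * A) i j = A i j + if i = a then z * A b j else 0 := by
  rw [xx, add_mul, one_mul, Matrix.add_apply]
  congr 1
  split_ifs with h
  · rw [h, single_mul_apply_same]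
  · rw [single_mul_apply_of_ne _ _ _ _ _ h]

theorem mul_xx_apply {a b : Fin r} (z : S) (A : Mat r S) (i j : Fin r) :
    (A * xx a b z) i j = A i j + if j = b then A i a * z else 0 := by
  rw [xx, mul_add, mul_one, Matrix.add_apply]
  congr 1
  split_ifs with h
  · rw [h, mul_single_apply_same]
  · rw [mul_single_apply_of_ne _ _ _ _ _ h]

theorem pm_xx (w : Equiv.Perm (Fin r)) (a b : Fin r) (z : S) :
    pm w * xx a b z = xx (w a) (w b) z * pm w := by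
  refine pm_comm fun i j => ?_
  simp only [xx, Matrix.add_apply, one_apply, single_apply, EmbeddingLike.apply_eq_iff_eq]

/-- The diagonal matrix with `y` at `a`, `-1/y` at `b`. -/
def dd (a b : Fin r) (y : Sˣ) : Mat r S :=
  diagonal fun i => if i = a then (y : S) else if i = b then -((y⁻¹ : Sˣ) : S) else 1

theorem pm_dd (w : Equiv.Perm (Fin r)) (a b : Fin r) (y : Sˣ) :
    pm w * dd a b y = dd (w a) (w b) y * pm w := by
  refine pm_comm fun i j => ?_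
  simp only [dd, diagonal_apply, EmbeddingLike.apply_eq_iff_eq]

theorem pm_swap {a b : Fin r} (h : a ≠ b) : (pm (Equiv.swap a b) : Mat r S) =
    1 - single a a 1 - single b b 1 + single a b 1 + single b a 1 := by
  ext i j
  simp only [pm_apply, Matrix.add_apply, Matrix.sub_apply, one_apply, single_apply, Equiv.swap_apply_def]
  by_cases hi : i = a
  · subst hi
    by_cases hj : j = i
    · subst hj
      simp [h, h.symm]
    · by_cases hj' : j = b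
      · subst hj'
        simp [h, h.symm]
      · simp [h, h.symm, hj, hj', Ne.symm hj, Ne.symm hj']
  · by_cases hi' : i = b
    · subst hi'
      by_cases hj : j = a
      · subst hj
        simp [h, h.symm]
      · by_cases hj' : j = i
        · subst hj'
          simp [h, h.symm]
        · simp [h, h.symm, hj, hj', Ne.symm hj, Ne.symm hj']
    · by_cases hj : j = a
      · subst hj
        simp [h, hi, hi', Ne.symm hi, Ne.symm hi']
      · by_cases hj' : j = b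
        · subst hj'
          simp [h, h.symm, hi, hi', hj, Ne.symm hi, Ne.symm hi']
        · simp [hi, hi', hj, hj', Ne.symm hi, Ne.symm hi', Ne.symm hj, Ne.symm hj']

theorem dd_eq {a b : Fin r} (h : a ≠ b) (y : Sˣ) : dd a b y =
    1 - single a a 1 - single b b 1 + single a a (y : S) - single b b ((y⁻¹ : Sˣ) : S) := by
  ext i j
  simp only [dd, diagonal_apply, Matrix.add_apply, Matrix.sub_apply, one_apply, single_apply]
  by_cases hij : i = j
  · subst hij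
    by_cases hi : i = a
    · subst hi
      simp [h, h.symm]
    · by_cases hi' : i = b
      · subst hi'
        simp [h, h.symm]
      · simp [hi, hi', Ne.symm hi, Ne.symm hi']
  · have h1 : ∀ c : Fin r, ¬ (c = i ∧ c = j) := fun c hc => hij (hc.1.symm.trans hc.2)
    simp [hij, h1]

/-- The stay identity. -/
theorem stay_id {a b : Fin r} (h : a ≠ b) (y : Sˣ) : xx a b (y : S) * pm (Equiv.swap a b) =
    xx b a ((y⁻¹ : Sˣ) : S) * dd a b y * xx a b ((y⁻¹ : Sˣ) : S) := by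
  rw [pm_swap h, dd_eq h]
  simp only [xx, mul_add, add_mul, mul_sub, sub_mul, mul_one, one_mul, single_mul_single_same,
    single_mul_single_of_ne _ _ _ _ h, single_mul_single_of_ne _ _ _ _ h.symm, Units.inv_mul,
    Units.mul_inv, add_zero, sub_zero, zero_mul, mul_zero]
  abel

end Vale.Agent.P002L
end

section

/-!
# P002, genus 0, one regular class: simultaneously adapted bases
-/

namespace Vale.Agent.P002L

open Matrix Vale.Agent.P002R

variable {r : ℕ}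

theorem exists_position (c : Mat r ℂ) (s : ℕ) (ξ : ℕ → ℂ)
    (E : ℕ → Submodule ℂ (Fin r → ℂ)) (h0 : E 0 = ⊥) (hs : E s = ⊤) (hmono : Monotone E)
    (hE : ∀ j, ∀ v ∈ E (j + 1), c *ᵥ v - ξ j • v ∈ E j) :
    ∃ (κ : Fin r → ℕ) (u M : Mat r ℂ), UU u ∧ Kup κ ξ M ∧ c * u = u * M ∧ (∀ i, κ i < s) ∧
      ∀ j ≤ s, Module.finrank ℂ (E j) = (Finset.univ.filter fun i => κ i < j).card := by
  classical
  rcases Nat.eq_zero_or_pos r with hr | hr
  · subst hr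
    refine ⟨fun i => i.elim0, 1, 1, uu_one, ⟨fun i => i.elim0, fun i => i.elim0⟩,
      Subsingleton.elim _ _, fun i => i.elim0, fun j _ => ?_⟩
    have : Subsingleton (Fin 0 → ℂ) := inferInstance
    rw [Subsingleton.elim (Finset.univ.filter _ : Finset (Fin 0)) ∅, Finset.card_empty]
    exact Module.finrank_zero_of_subsingleton
  have hs0 : 0 < s := by
    rcases Nat.eq_zero_or_pos s with h | h
    · rw [h, h0] at hs
      have h1 : (Pi.single ⟨0, hr⟩ 1 : Fin r → ℂ) ∈ (⊥ : Submodule ℂ (Fin r → ℂ)) := by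
        rw [hs]; trivial
      rw [Submodule.mem_bot] at h1
      have h2 := congrFun h1 ⟨0, hr⟩
      rw [Pi.single_eq_same] at h2
      exact absurd h2 one_ne_zero
    · exact h
  have hex : ∀ i : Fin r, ∃ j, ∃ v ∈ E (j + 1), v i = 1 ∧ ∀ k, i < k → v k = 0 := by
    intro i
    refine ⟨s - 1, Pi.single i 1, ?_, Pi.single_eq_same _ _, fun k hk => ?_⟩
    · rw [Nat.sub_add_cancel hs0, hs]; trivial
    · exact Pi.single_eq_of_ne hk.ne' _
  obtain ⟨κ, hκ⟩ : ∃ κ : Fin r → ℕ, κ = fun i => Nat.find (hex i) := ⟨_, rfl⟩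
  have hκm : ∀ i j, (∃ v ∈ E (j + 1), v i = 1 ∧ ∀ k, i < k → v k = 0) → κ i ≤ j := by
    intro i j h
    rw [hκ]
    exact Nat.find_min' (hex i) h
  have hκs : ∀ i, κ i < s := by
    intro i
    have h1 := hκm i (s - 1) ⟨Pi.single i 1, by
      rw [Nat.sub_add_cancel hs0, hs]; trivial, Pi.single_eq_same _ _, fun k hk =>
        Pi.single_eq_of_ne hk.ne' _⟩
    omega
  have hf : ∀ i, ∃ v ∈ E (κ i + 1), v i = 1 ∧ ∀ k, i < k → v k = 0 := by
    intro i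
    rw [hκ]
    exact Nat.find_spec (hex i)
  choose f hfE hf1 hf0 using hf
  obtain ⟨u, hu⟩ : ∃ u : Mat r ℂ, u = Matrix.of fun k i => f i k := ⟨_, rfl⟩
  have huU : UU u := by
    rw [hu]
    exact ⟨fun i j h => hf0 j i h, fun i => hf1 i⟩
  have hus : ∀ i, u *ᵥ Pi.single i 1 = f i := by
    intro i
    rw [mulVec_single_one, hu]
    rfl
  have hui : ∀ i, u⁻¹ *ᵥ f i = Pi.single i 1 := by
    intro i
    rw [← hus, mulVec_mulVec, huU.inv_mul, one_mulVec]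
  -- the coordinates of the elements of `E j`
  have key : ∀ j, ∀ n : ℕ, ∀ v ∈ E j, (∀ k : Fin r, n ≤ (k : ℕ) → v k = 0) →
      ∀ i, (u⁻¹ *ᵥ v) i ≠ 0 → κ i < j := by
    intro j n
    induction n with
    | zero =>
      intro v _ hv i hi
      have h1 : v = 0 := funext fun k => hv k (Nat.zero_le _)
      rw [h1, mulVec_zero] at hi
      exact absurd rfl hi
    | succ n ih =>
      intro v hvE hv i hi
      by_cases hn : n < r
      · by_cases ha : v ⟨n, hn⟩ = 0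
        · refine ih v hvE (fun k hk => ?_) i hi
          rcases Nat.eq_or_lt_of_le hk with h | h
          · have h1 : k = ⟨n, hn⟩ := Fin.ext h.symm
            rw [h1]
            exact ha
          · exact hv k h
        · have hκj : κ ⟨n, hn⟩ < j := by
            rcases Nat.eq_zero_or_pos j with hj | hj
            · rw [hj, h0, Submodule.mem_bot] at hvE
              rw [hvE] at ha
              exact absurd rfl ha
            · have h1 := hκm ⟨n, hn⟩ (j - 1) ⟨(v ⟨n, hn⟩)⁻¹ • v, by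
                rw [Nat.sub_add_cancel hj]
                exact (E j).smul_mem _ hvE, by
                rw [Pi.smul_apply, smul_eq_mul, inv_mul_cancel₀ ha], fun k hk => by
                rw [Pi.smul_apply, hv k (by rw [Fin.lt_def] at hk; exact hk), smul_zero]⟩
              omega
          have hfj : f ⟨n, hn⟩ ∈ E j := hmono hκj (hfE ⟨n, hn⟩)
          by_cases hin : i = ⟨n, hn⟩
          · rw [hin]; exact hκj
          · refine ih (v - v ⟨n, hn⟩ • f ⟨n, hn⟩) ((E j).sub_mem hvE ((E j).smul_mem _ hfj))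
              (fun k hk => ?_) i ?_
            · rw [Pi.sub_apply, Pi.smul_apply, smul_eq_mul]
              rcases Nat.eq_or_lt_of_le hk with h | h
              · have h1 : k = ⟨n, hn⟩ := Fin.ext h.symm
                rw [h1, hf1, mul_one, sub_self]
              · rw [hv k h, hf0 ⟨n, hn⟩ k (by rw [Fin.lt_def]; exact h), mul_zero, sub_zero]
            · rw [mulVec_sub, mulVec_smul, hui, Pi.sub_apply, Pi.smul_apply,
                Pi.single_eq_of_ne hin, smul_zero, sub_zero]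
              exact hi
      · exact ih v hvE (fun k hk => absurd (hk.trans_lt k.2) hn) i hi
  have key' : ∀ j, ∀ v ∈ E j, ∀ i, (u⁻¹ *ᵥ v) i ≠ 0 → κ i < j := fun j v hv =>
    key j r v hv fun k hk => absurd k.2 (not_lt.2 hk)
  have hMe : ∀ i, (u⁻¹ * c * u) *ᵥ Pi.single i 1 =
      u⁻¹ *ᵥ (c *ᵥ f i - ξ (κ i) • f i) + ξ (κ i) • Pi.single i 1 := by
    intro i
    rw [mulVec_sub, mulVec_smul, hui, sub_add_cancel, ← mulVec_mulVec, hus, mulVec_mulVec]
  refine ⟨κ, u, u⁻¹ * c * u, huU, ⟨fun i => ?_, fun k i hki hκ' => ?_⟩, ?_, hκs, fun j _ => ?_⟩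
  · have h1 := congrFun (hMe i) i
    rw [mulVec_single_one, col_apply, Pi.add_apply, Pi.smul_apply, Pi.single_eq_same, smul_eq_mul,
      mul_one] at h1
    rw [h1]
    by_contra hne
    refine lt_irrefl _ (key' (κ i) _ (hE (κ i) (f i) (hfE i)) i fun h2 => hne ?_)
    rw [h2, zero_add]
  · have h1 := congrFun (hMe i) k
    rw [mulVec_single_one, col_apply, Pi.add_apply, Pi.smul_apply, Pi.single_eq_of_ne hki,
      smul_zero, add_zero] at h1
    rw [h1]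
    by_contra hne
    exact hκ' (key' (κ i) _ (hE (κ i) (f i) (hfE i)) k hne)
  · rw [← mul_assoc, ← mul_assoc, huU.mul_inv, one_mul]
  · have hspan : E j = Submodule.span ℂ (Set.range fun i : {i // κ i < j} => f i) := by
      apply le_antisymm
      · intro v hv
        have h1 : v = ∑ i, (u⁻¹ *ᵥ v) i • f i := by
          have h2 : v = u *ᵥ (u⁻¹ *ᵥ v) := by
            rw [mulVec_mulVec, huU.mul_inv, one_mulVec]
          conv_lhs => rw [h2]
          funext k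
          rw [Finset.sum_apply, mulVec, dotProduct]
          refine Finset.sum_congr rfl fun i _ => ?_
          rw [Pi.smul_apply, smul_eq_mul, mul_comm]
          congr 1
          rw [hu]
          rfl
        rw [h1]
        refine Submodule.sum_mem _ fun i _ => ?_
        by_cases hi : (u⁻¹ *ᵥ v) i = 0
        · rw [hi, zero_smul]
          exact Submodule.zero_mem _
        · exact Submodule.smul_mem _ _ (Submodule.subset_span ⟨⟨i, key' j v hv i hi⟩, rfl⟩)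
      · rw [Submodule.span_le]
        rintro _ ⟨i, rfl⟩
        exact hmono i.2 (hfE i)
    have hli : LinearIndependent ℂ f := by
      have h1 : LinearIndependent ℂ u.col := by
        rw [Matrix.linearIndependent_cols_iff_isUnit, Matrix.isUnit_iff_isUnit_det]
        exact huU.isUnit
      have h2 : u.col = f := by
        rw [hu]
        rfl
      rwa [h2] at h1
    have hli' : LinearIndependent ℂ fun i : {i // κ i < j} => f i :=
      hli.comp _ Subtype.val_injective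
    rw [hspan, finrank_span_eq_card hli', Fintype.card_subtype]

end Vale.Agent.P002L
end

section

/-!
# Density of integral pairs of rectangular matrices
-/

namespace Vale.Agent.P002G

open Matrix
open Vale.Agent.P002R (UpT LoT upT_one loT_one)

variable {n m p : ℕ} {S R : Type*} [CommRing S] [CommRing R]

/-- New first column. -/
def colC (x0 : Fin m → S) (x : Matrix (Fin m) (Fin p) S) : Matrix (Fin m) (Fin (p + 1)) S :=
  Matrix.of fun i => Fin.cons (x0 i) (x i)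

/-- New first row. -/
def rowC (y0 : Fin m → S) (Y : Matrix (Fin p) (Fin m) S) : Matrix (Fin (p + 1)) (Fin m) S :=
  Matrix.of (Fin.cons y0 Y)

theorem colC_mul_rowC (x0 y0 : Fin m → S) (x : Matrix (Fin m) (Fin p) S)
    (Y : Matrix (Fin p) (Fin m) S) : colC x0 x * rowC y0 Y = vecMulVec x0 y0 + x * Y := by
  ext i j
  rw [Matrix.mul_apply, Fin.sum_univ_succ, Matrix.add_apply, vecMulVec_apply, Matrix.mul_apply]
  rfl

theorem rowC_mul_colC_submatrix (x0 y0 : Fin m → S) (x : Matrix (Fin m) (Fin p) S)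
    (Y : Matrix (Fin p) (Fin m) S) :
    (1 + rowC y0 Y * colC x0 x).submatrix Fin.succ Fin.succ = 1 + Y * x := by
  ext i j
  rw [Matrix.submatrix_apply, Matrix.add_apply, Matrix.add_apply, Matrix.mul_apply,
    Matrix.mul_apply, Matrix.one_apply, Matrix.one_apply]
  simp only [Fin.succ_inj]
  rfl

omit [CommRing S] in
theorem colC_eta (x : Matrix (Fin m) (Fin (p + 1)) S) :
    colC (fun i => x i 0) (Matrix.of fun i j => x i j.succ) = x := by
  ext i j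
  refine Fin.cases ?_ (fun j => ?_) j <;> rfl

omit [CommRing S] in
theorem rowC_eta (Y : Matrix (Fin (p + 1)) (Fin m) S) :
    rowC (Y 0) (Matrix.of fun i j => Y i.succ j) = Y := by
  ext i j
  refine Fin.cases ?_ (fun i => ?_) i <;> rfl

theorem polyMap_colC {V : Type*} [AddCommGroup V] [Module ℂ V] {f : V → Fin m → ℂ}
    {g : V → Matrix (Fin m) (Fin p) ℂ} (hf : PolyMap f) (hg : PolyMap g) :
    PolyMap fun v => colC (f v) (g v) := by
  apply polyMap_matrix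
  intro i j
  refine Fin.cases ?_ (fun j => ?_) j
  · exact hf.coord i
  · exact hg.entry i j

theorem polyMap_rowC {V : Type*} [AddCommGroup V] [Module ℂ V] {f : V → Fin m → ℂ}
    {g : V → Matrix (Fin p) (Fin m) ℂ} (hf : PolyMap f) (hg : PolyMap g) :
    PolyMap fun v => rowC (f v) (g v) := by
  apply polyMap_matrix
  intro i j
  refine Fin.cases ?_ (fun i => ?_) i
  · exact hf.coord j
  · exact hg.entry i j

theorem vecMulVec_mul' (s μ : Fin m → S) (A : Matrix (Fin m) (Fin m) S) :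
    vecMulVec s μ * A = vecMulVec s (μ ᵥ* A) := by
  ext i j
  rw [Matrix.mul_apply, vecMulVec_apply, vecMul, dotProduct, Finset.mul_sum]
  refine Finset.sum_congr rfl fun k _ => ?_
  rw [vecMulVec_apply]
  ring

theorem mul_vecMulVec' (s μ : Fin m → S) (A : Matrix (Fin m) (Fin m) S) :
    A * vecMulVec s μ = vecMulVec (A *ᵥ s) μ := by
  ext i j
  rw [Matrix.mul_apply, vecMulVec_apply, mulVec, dotProduct, Finset.sum_mul]
  refine Finset.sum_congr rfl fun k _ => ?_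
  rw [vecMulVec_apply]
  ring

/-- The integral pairs. -/
def GoodPair (D : R) (x : Matrix (Fin m) (Fin p) R) (Y : Matrix (Fin p) (Fin m) R) : Prop :=
  (∀ i j, D ∣ Y i j) ∧ InC (1 + Y * x) ∧ ∃ V, InC V ∧ V * (1 + x * Y) = 1

/-- Density of the integral pairs. -/
theorem pairs_dense (φ : R →+* ℂ) (u : Rˣ) (hu : ∀ k : ℕ, 0 < k → φ u ^ k ≠ 1) (D : R)
    (hD : ∃ M : ℕ, 0 < M ∧ D ∣ (u : R) ^ M - 1) {m : ℕ} : ∀ {p : ℕ}
    (F : Matrix (Fin m) (Fin p) ℂ × Matrix (Fin p) (Fin m) ℂ → ℂ) (_ : IsPoly F)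
    (_ : ∀ (x : Matrix (Fin m) (Fin p) R) (Y : Matrix (Fin p) (Fin m) R), GoodPair D x Y →
      F (x.map φ, Y.map φ) = 0)
    (x : Matrix (Fin m) (Fin p) ℂ) (Y : Matrix (Fin p) (Fin m) ℂ), F (x, Y) = 0 := by
  intro p
  induction p with
  | zero =>
    intro F _ h x Y
    have h1 := h (Matrix.of fun i j => j.elim0) (Matrix.of fun i j => i.elim0)
      ⟨fun i => i.elim0, ⟨1, 1, upT_one, fun i => i.elim0, loT_one, fun i => i.elim0,
        Matrix.ext fun i => i.elim0⟩, 1, inC_one, by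
          rw [one_mul]
          ext i j
          rw [Matrix.add_apply, Matrix.mul_apply, Finset.univ_eq_empty, Finset.sum_empty,
            add_zero]⟩
    convert h1 using 3
    · ext i j; exact j.elim0
    · ext i j; exact i.elim0
  | succ p ih =>
    intro F hF h x Y
    rw [← colC_eta x, ← rowC_eta Y]
    obtain ⟨x0, hx0⟩ : ∃ x0 : Fin m → ℂ, x0 = fun i => x i 0 := ⟨_, rfl⟩
    obtain ⟨y0, hy0⟩ : ∃ y0 : Fin m → ℂ, y0 = Y 0 := ⟨_, rfl⟩
    rw [← hx0, ← hy0]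
    have hlin1 : PolyMap fun z : Matrix (Fin m) (Fin p) ℂ × Matrix (Fin p) (Fin m) ℂ => z.1 :=
      polyMap_linear (LinearMap.fst ℂ (Matrix (Fin m) (Fin p) ℂ) (Matrix (Fin p) (Fin m) ℂ))
    have hlin2 : PolyMap fun z : Matrix (Fin m) (Fin p) ℂ × Matrix (Fin p) (Fin m) ℂ => z.2 :=
      polyMap_linear (LinearMap.snd ℂ (Matrix (Fin m) (Fin p) ℂ) (Matrix (Fin p) (Fin m) ℂ))
    apply ih (fun z => F (colC x0 z.1, rowC y0 z.2))
      (((polyMap_colC (polyMap_const x0) hlin1).prodMk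
        (polyMap_rowC (polyMap_const y0) hlin2)).comp hF)
    intro a B hab
    obtain ⟨hBD, hH, V, hV, hVK⟩ := hab
    obtain ⟨U, L, hU, hU1, hL, hL1, rfl⟩ := hV
    have hUu := (Matrix.isUnit_iff_isUnit_det _).1 (isUnit_of_upT hU hU1)
    have hLu := (Matrix.isUnit_iff_isUnit_det _).1 (isUnit_of_loT hL hL1)
    -- the linear change of coordinates
    have hm1 : PolyMap fun z : (Fin m → ℂ) × (Fin m → ℂ) => (L⁻¹).map φ *ᵥ z.1 :=
      polyMap_linear ((Matrix.mulVecLin ((L⁻¹).map φ)).comp (LinearMap.fst ℂ (Fin m → ℂ) (Fin m → ℂ)))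
    have hm2 : PolyMap fun z : (Fin m → ℂ) × (Fin m → ℂ) => z.2 ᵥ* (U⁻¹).map φ :=
      polyMap_linear ((Matrix.vecMulLinear ((U⁻¹).map φ)).comp
        (LinearMap.snd ℂ (Fin m → ℂ) (Fin m → ℂ)))
    have key := refl_dense φ u hu D hD
      (fun z => F (colC ((L⁻¹).map φ *ᵥ z.1) (a.map φ), rowC (z.2 ᵥ* (U⁻¹).map φ) (B.map φ)))
      (((polyMap_colC hm1 (polyMap_const _)).prodMk (polyMap_rowC hm2 (polyMap_const _))).comp hF)
      ?_ (L.map φ *ᵥ x0) (y0 ᵥ* U.map φ)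
    · beta_reduce at key
      rw [Matrix.mulVec_mulVec, Matrix.vecMul_vecMul, ← Matrix.map_mul, ← Matrix.map_mul,
        Matrix.nonsing_inv_mul _ hLu, Matrix.mul_nonsing_inv _ hUu, Matrix.map_one φ (map_zero φ)
          (map_one φ), Matrix.one_mulVec,
        Matrix.vecMul_one] at key
      exact key
    · rintro s μ hμ ⟨t, ht, hts⟩
      have h1 := h (colC (L⁻¹ *ᵥ s) a) (rowC (μ ᵥ* U⁻¹) B) ?_
      · convert h1 using 3
        · ext i j
          refine Fin.cases ?_ (fun j => ?_) j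
          · exact (RingHom.map_mulVec φ (L⁻¹) s i).symm
          · rfl
        · ext i j
          refine Fin.cases ?_ (fun i => ?_) i
          · exact (RingHom.map_vecMul φ (U⁻¹) μ j).symm
          · rfl
      · -- the new inverse
        have hK : (U * (1 + vecMulVec t μ) * L) *
            (1 + colC (L⁻¹ *ᵥ s) a * rowC (μ ᵥ* U⁻¹) B) = 1 := by
          have h2 : L⁻¹ * U⁻¹ = 1 + a * B := by
            rw [← Matrix.mul_inv_rev]
            exact Matrix.inv_eq_right_inv hVK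
          rw [colC_mul_rowC, add_comm (vecMulVec _ _), ← add_assoc, ← h2, ← vecMulVec_mul',
            ← mul_vecMulVec']
          have h3 : L * (L⁻¹ * U⁻¹ + L⁻¹ * vecMulVec s μ * U⁻¹) =
              (1 + vecMulVec s μ) * U⁻¹ := by
            rw [Matrix.mul_add, ← Matrix.mul_assoc, ← Matrix.mul_assoc, ← Matrix.mul_assoc,
              Matrix.mul_nonsing_inv _ hLu, Matrix.one_mul, Matrix.one_mul, Matrix.add_mul,
              Matrix.one_mul]
          rw [Matrix.mul_assoc, h3, Matrix.mul_assoc, ← Matrix.mul_assoc (1 + vecMulVec t μ), hts,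
            Matrix.one_mul, Matrix.mul_nonsing_inv _ hUu]
        refine ⟨?_, ?_, _, (ht.mul_up hU hU1).mul_low hL hL1, hK⟩
        · intro i j
          refine Fin.cases ?_ (fun i => ?_) i
          · change D ∣ (μ ᵥ* U⁻¹) j
            rw [vecMul, dotProduct]
            exact Finset.dvd_sum fun k _ => (hμ k).mul_right _
          · exact hBD i j
        · apply InC.bord
          · rw [rowC_mul_colC_submatrix]
            exact hH
          · rw [Matrix.isUnit_iff_isUnit_det, Matrix.det_one_add_mul_comm,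
              ← Matrix.isUnit_iff_isUnit_det]
            exact IsUnit.of_mul_eq_one_right _ hK

end Vale.Agent.P002G
end

section

/-!
# The chart of one eigenvalue
-/

namespace Vale.Agent.P002G

open Matrix
open Vale.Agent.P002R (UpT LoT upT_one loT_one)

variable {n m p : ℕ} {S R : Type*} [CommRing S] [CommRing R]

/-- The chart. -/
def chZ (e : S) (W : Matrix (Fin m) (Fin m) S) (x : Matrix (Fin m) (Fin p) S)
    (Y : Matrix (Fin p) (Fin m) S) : Matrix (Fin (m + p)) (Fin (m + p)) S :=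
  e • (blk 1 (-x) 0 1 * blk W 0 Y 1 * blk 1 x 0 1)

theorem chZ_eq (e : S) (W : Matrix (Fin m) (Fin m) S) (x : Matrix (Fin m) (Fin p) S)
    (Y : Matrix (Fin p) (Fin m) S) :
    chZ e W x Y = e • blk (W - x * Y) ((W - x * Y) * x - x) Y (1 + Y * x) := by
  rw [chZ, blk_mul, blk_mul]
  simp only [Matrix.mul_zero, Matrix.zero_mul, add_zero, zero_add, Matrix.mul_one, Matrix.one_mul,
    Matrix.neg_mul, sub_eq_add_neg]
  rw [add_comm (Y * x) 1]

theorem upT_one_blk (B : Matrix (Fin m) (Fin p) S) : UpT (blk 1 B 0 1) :=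
  upT_blk B upT_one upT_one

theorem one_blk_diag (B : Matrix (Fin m) (Fin p) S) (i : Fin (m + p)) :
    blk (1 : Matrix (Fin m) (Fin m) S) B 0 (1 : Matrix (Fin p) (Fin p) S) i i = 1 := by
  refine Fin.addCases (fun i => ?_) (fun i => ?_) i
  · rw [blk_apply₁₁, Matrix.one_apply_eq]
  · rw [blk_apply₂₂, Matrix.one_apply_eq]

theorem chZ_inC {e : S} (he : IsUnit e) {U L : Matrix (Fin m) (Fin m) S} (hU : UpT U)
    (hU1 : ∀ i, U i i = 1) (hL : LoT L) (hL1 : ∀ i, IsUnit (L i i)) (D : S)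
    (hWD : ∀ i j, j < i → D ∣ (U * L) i j) {x : Matrix (Fin m) (Fin p) S}
    {Y : Matrix (Fin p) (Fin m) S} (h : GoodPair D x Y) :
    InC (chZ e (U * L) (L⁻¹ * x) (Y * L)) ∧
      ∀ i j, j < i → D ∣ chZ e (U * L) (L⁻¹ * x) (Y * L) i j := by
  obtain ⟨hYD, hH, M, hM, hMK⟩ := h
  have hLu := (Matrix.isUnit_iff_isUnit_det _).1 (isUnit_of_loT hL hL1)
  obtain ⟨H, hHe⟩ : ∃ H, H = 1 + Y * x := ⟨_, rfl⟩
  have hHu : IsUnit H := hHe ▸ hH.isUnit
  have hHd := (Matrix.isUnit_iff_isUnit_det _).1 hHu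
  have hYx : Y * L * (L⁻¹ * x) = Y * x := by
    rw [Matrix.mul_assoc, ← Matrix.mul_assoc L, Matrix.mul_nonsing_inv _ hLu, Matrix.one_mul]
  have hYLD : ∀ i j, D ∣ (Y * L) i j := by
    intro i j
    rw [Matrix.mul_apply]
    exact Finset.dvd_sum fun k _ => (hYD i k).mul_right _
  have hmulD : ∀ {a b c : ℕ} (A : Matrix (Fin a) (Fin b) S) (B : Matrix (Fin b) (Fin c) S),
      (∀ i j, D ∣ B i j) → ∀ i j, D ∣ (A * B) i j := by
    intro a b c A B hB i j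
    rw [Matrix.mul_apply]
    exact Finset.dvd_sum fun k _ => (hB k j).mul_left _
  constructor
  · rw [chZ_eq, hYx, ← hHe]
    apply InC.smul _ he
    -- the inverse of `1 + x Y`
    have h1 : M + x * (H⁻¹ * Y) = 1 := by
      have h2 : (M + x * (H⁻¹ * Y)) * (1 + x * Y) = 1 * (1 + x * Y) := by
        rw [Matrix.add_mul, hMK, Matrix.mul_assoc, Matrix.mul_assoc]
        have h3 : Y * (1 + x * Y) = H * Y := by
          rw [hHe, Matrix.mul_add, Matrix.add_mul, Matrix.mul_one, Matrix.one_mul,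
            Matrix.mul_assoc]
        rw [h3, ← Matrix.mul_assoc H⁻¹, Matrix.nonsing_inv_mul _ hHd, Matrix.one_mul,
          Matrix.one_mul]
      have h4 : IsUnit (1 + x * Y) := IsUnit.of_mul_eq_one_right _ hMK
      exact h4.mul_right_cancel h2
    obtain ⟨x', hx'⟩ : ∃ x', x' = L⁻¹ * x := ⟨_, rfl⟩
    have hLx : L * x' = x := by
      rw [hx', ← Matrix.mul_assoc, Matrix.mul_nonsing_inv _ hLu, Matrix.one_mul]
    rw [← hx']
    have h5 : blk (U * L - x' * (Y * L)) ((U * L - x' * (Y * L)) * x' - x') (Y * L) H =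
        blk 1 (U * x * H⁻¹ - x') 0 1 * blk (U * M * L) 0 (Y * L) H := by
      rw [blk_mul]
      simp only [Matrix.mul_zero, Matrix.zero_mul, zero_add, Matrix.one_mul]
      congr 1
      · rw [Matrix.sub_mul, ← add_sub_assoc]
        congr 1
        rw [Matrix.mul_assoc U M L, Matrix.mul_assoc (U * x), Matrix.mul_assoc U x,
          ← Matrix.mul_add]
        congr 1
        rw [← Matrix.mul_assoc H⁻¹, ← Matrix.mul_assoc x, ← Matrix.add_mul, h1, Matrix.one_mul]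
      · rw [Matrix.sub_mul, Matrix.sub_mul, Matrix.mul_assoc (U * x), Matrix.nonsing_inv_mul _ hHd,
          Matrix.mul_one, Matrix.mul_assoc U L x', hLx, sub_sub]
        congr 1
        rw [hHe, Matrix.mul_add, Matrix.mul_one, Matrix.mul_assoc x', Matrix.mul_assoc Y, hLx,
          add_comm]
    rw [h5]
    exact (InC.blk ((hM.mul_up hU hU1).mul_low hL hL1) (hHe ▸ hH) _).mul_up (upT_one_blk _)
      (one_blk_diag _)
  · rw [chZ_eq, hYx]
    intro i j hij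
    rw [Matrix.smul_apply, smul_eq_mul]
    apply Dvd.dvd.mul_left
    revert hij
    refine Fin.addCases (fun i => ?_) (fun i => ?_) i <;>
      refine Fin.addCases (fun j => ?_) (fun j => ?_) j
    · intro hij
      rw [blk_apply₁₁, Matrix.sub_apply]
      refine dvd_sub (hWD i j ?_) (hmulD _ _ hYLD i j)
      rwa [Fin.lt_def, Fin.val_castAdd, Fin.val_castAdd] at hij
    · intro hij
      exfalso
      rw [Fin.lt_def, Fin.val_natAdd, Fin.val_castAdd] at hij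
      have := i.2
      omega
    · intro _
      rw [blk_apply₂₁]
      exact hYLD i j
    · intro hij
      rw [blk_apply₂₂, Matrix.add_apply]
      refine dvd_add ?_ ?_
      · rw [Matrix.one_apply_ne]
        · exact dvd_zero _
        · rintro rfl
          exact lt_irrefl _ hij
      · rw [Matrix.mul_apply]
        exact Finset.dvd_sum fun k _ => (hYD i k).mul_right _

theorem blk_map (φ : S →+* R) (A : Matrix (Fin m) (Fin m) S) (B : Matrix (Fin m) (Fin p) S)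
    (C : Matrix (Fin p) (Fin m) S) (D : Matrix (Fin p) (Fin p) S) :
    (blk A B C D).map φ = blk (A.map φ) (B.map φ) (C.map φ) (D.map φ) := by
  ext i j
  rw [Matrix.map_apply]
  refine Fin.addCases (fun i => ?_) (fun i => ?_) i <;>
    refine Fin.addCases (fun j => ?_) (fun j => ?_) j
  · rw [blk_apply₁₁, blk_apply₁₁, Matrix.map_apply]
  · rw [blk_apply₁₂, blk_apply₁₂, Matrix.map_apply]
  · rw [blk_apply₂₁, blk_apply₂₁, Matrix.map_apply]
  · rw [blk_apply₂₂, blk_apply₂₂, Matrix.map_apply]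

theorem chZ_map (φ : S →+* R) (e : S) (W : Matrix (Fin m) (Fin m) S)
    (x : Matrix (Fin m) (Fin p) S) (Y : Matrix (Fin p) (Fin m) S) :
    (chZ e W x Y).map φ = chZ (φ e) (W.map φ) (x.map φ) (Y.map φ) := by
  rw [chZ_eq, chZ_eq]
  ext i j
  rw [Matrix.map_apply, Matrix.smul_apply, Matrix.smul_apply, smul_eq_mul, smul_eq_mul, map_mul,
    ← Matrix.map_apply (f := φ), blk_map, Matrix.map_sub φ (map_sub φ), Matrix.map_sub φ (map_sub φ),
    Matrix.map_mul, Matrix.map_mul, Matrix.map_add φ (map_add φ), Matrix.map_mul,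
    Matrix.map_one φ (map_zero φ) (map_one φ), Matrix.map_sub φ (map_sub φ), Matrix.map_mul]

/-! ### Polynomial maps -/

section poly

variable {V W : Type*} [AddCommGroup V] [Module ℂ V] [AddCommGroup W] [Module ℂ W]

theorem PolyMap.lin {W' : Type*} [AddCommGroup W'] [Module ℂ W'] {f : V → W} (h : PolyMap f)
    (l : W →ₗ[ℂ] W') : PolyMap fun v => l (f v) := fun l' => h (l'.comp l)

theorem PolyMap.add {f g : V → W} (hf : PolyMap f) (hg : PolyMap g) :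
    PolyMap fun v => f v + g v := fun l =>
  ((hf l).add (hg l)).congr fun _ => (map_add l _ _).symm

theorem PolyMap.sub {f g : V → W} (hf : PolyMap f) (hg : PolyMap g) :
    PolyMap fun v => f v - g v := fun l =>
  ((hf l).sub (hg l)).congr fun _ => (map_sub l _ _).symm

theorem PolyMap.const_smul {f : V → W} (hf : PolyMap f) (c : ℂ) : PolyMap fun v => c • f v :=
  fun l => ((isPoly_const c).mul (hf l)).congr fun v => by rw [map_smul, smul_eq_mul]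

theorem polyMap_blk {A : V → Matrix (Fin m) (Fin m) ℂ} {B : V → Matrix (Fin m) (Fin p) ℂ}
    {C : V → Matrix (Fin p) (Fin m) ℂ} {D : V → Matrix (Fin p) (Fin p) ℂ} (hA : PolyMap A)
    (hB : PolyMap B) (hC : PolyMap C) (hD : PolyMap D) :
    PolyMap fun v => blk (A v) (B v) (C v) (D v) := by
  apply polyMap_matrix
  intro i j
  refine Fin.addCases (fun i => ?_) (fun i => ?_) i <;>
    refine Fin.addCases (fun j => ?_) (fun j => ?_) j
  · simp only [blk_apply₁₁]; exact hA.entry i j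
  · simp only [blk_apply₁₂]; exact hB.entry i j
  · simp only [blk_apply₂₁]; exact hC.entry i j
  · simp only [blk_apply₂₂]; exact hD.entry i j

theorem polyMap_chZ {A : V → Matrix (Fin m) (Fin m) ℂ} {x : V → Matrix (Fin m) (Fin p) ℂ}
    {Y : V → Matrix (Fin p) (Fin m) ℂ} (hA : PolyMap A) (hx : PolyMap x) (hY : PolyMap Y)
    (e : ℂ) : PolyMap fun v => chZ e (A v) (x v) (Y v) := by
  have h1 : ∀ v, e • blk (A v - x v * Y v) ((A v - x v * Y v) * x v - x v) (Y v)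
      (1 + Y v * x v) = chZ e (A v) (x v) (Y v) := fun v => (chZ_eq _ _ _ _).symm
  have h2 : PolyMap fun v => e • blk (A v - x v * Y v) ((A v - x v * Y v) * x v - x v) (Y v)
      (1 + Y v * x v) := by
    have h3 := hA.sub (IsPoly.matrix_mul hx hY)
    exact (polyMap_blk h3 ((IsPoly.matrix_mul h3 hx).sub hx) hY
      ((polyMap_const 1).add (IsPoly.matrix_mul hY hx))).const_smul e
  intro l
  exact (h2 l).congr fun v => congrArg l (h1 v)

end poly

/-! ### Determinants, decompositions -/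

theorem det_blk (A : Matrix (Fin m) (Fin m) S) (C : Matrix (Fin p) (Fin m) S)
    (D : Matrix (Fin p) (Fin p) S) : (blk A 0 C D).det = A.det * D.det := by
  rw [blk, Matrix.det_submatrix_equiv_self, Matrix.det_fromBlocks_zero₁₂]

theorem det_blk' (A : Matrix (Fin m) (Fin m) S) (B : Matrix (Fin m) (Fin p) S)
    (D : Matrix (Fin p) (Fin p) S) : (blk A B 0 D).det = A.det * D.det := by
  rw [blk, Matrix.det_submatrix_equiv_self, Matrix.det_fromBlocks_zero₂₁]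

omit [CommRing S] in
theorem blk_eta (G : Matrix (Fin (m + p)) (Fin (m + p)) S) :
    G = blk (Matrix.of fun i j => G (Fin.castAdd p i) (Fin.castAdd p j))
      (Matrix.of fun i j => G (Fin.castAdd p i) (Fin.natAdd m j))
      (Matrix.of fun i j => G (Fin.natAdd m i) (Fin.castAdd p j))
      (Matrix.of fun i j => G (Fin.natAdd m i) (Fin.natAdd m j)) := by
  ext i j
  refine Fin.addCases (fun i => ?_) (fun i => ?_) i <;>
    refine Fin.addCases (fun j => ?_) (fun j => ?_) j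
  · rw [blk_apply₁₁]; rfl
  · rw [blk_apply₁₂]; rfl
  · rw [blk_apply₂₁]; rfl
  · rw [blk_apply₂₂]; rfl

/-- Block decomposition. -/
theorem exists_decomp (G : Matrix (Fin (m + p)) (Fin (m + p)) S) (hG : IsUnit G)
    (h : IsUnit (Matrix.of fun i j => G (Fin.natAdd m i) (Fin.natAdd m j) :
      Matrix (Fin p) (Fin p) S).det) :
    ∃ (x : Matrix (Fin m) (Fin p) S) (a : Matrix (Fin m) (Fin m) S)
      (s : Matrix (Fin p) (Fin m) S) (t : Matrix (Fin p) (Fin p) S), IsUnit a ∧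
      G = blk 1 (-x) 0 1 * blk a 0 s t := by
  obtain ⟨t, ht⟩ : ∃ t : Matrix (Fin p) (Fin p) S,
      t = Matrix.of fun i j => G (Fin.natAdd m i) (Fin.natAdd m j) := ⟨_, rfl⟩
  obtain ⟨s, hs⟩ : ∃ s : Matrix (Fin p) (Fin m) S,
      s = Matrix.of fun i j => G (Fin.natAdd m i) (Fin.castAdd p j) := ⟨_, rfl⟩
  obtain ⟨b, hb⟩ : ∃ b : Matrix (Fin m) (Fin p) S,
      b = Matrix.of fun i j => G (Fin.castAdd p i) (Fin.natAdd m j) := ⟨_, rfl⟩
  obtain ⟨c, hc⟩ : ∃ c : Matrix (Fin m) (Fin m) S,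
      c = Matrix.of fun i j => G (Fin.castAdd p i) (Fin.castAdd p j) := ⟨_, rfl⟩
  have hGe : G = blk c b s t := by
    rw [hc, hb, hs, ht]
    exact blk_eta G
  rw [← ht] at h
  have h1 : G = blk 1 (-(-(b * t⁻¹))) 0 1 * blk (c - b * t⁻¹ * s) 0 s t := by
    rw [hGe, blk_mul]
    simp only [Matrix.mul_zero, Matrix.zero_mul, zero_add, Matrix.one_mul, neg_neg]
    congr 1
    · rw [sub_add_cancel]
    · rw [Matrix.mul_assoc, Matrix.nonsing_inv_mul _ h, Matrix.mul_one]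
  refine ⟨_, _, _, _, ?_, h1⟩
  rw [Matrix.isUnit_iff_isUnit_det]
  have h2 := (Matrix.isUnit_iff_isUnit_det _).1 hG
  rw [h1, Matrix.det_mul, det_blk', det_blk, Matrix.det_one, Matrix.det_one, one_mul,
    one_mul] at h2
  exact isUnit_of_mul_isUnit_left h2

theorem conj_chZ (e : S) (W0 : Matrix (Fin m) (Fin m) S) (Y0 : Matrix (Fin p) (Fin m) S)
    (x : Matrix (Fin m) (Fin p) S) (a : Matrix (Fin m) (Fin m) S) (ha : IsUnit a)
    (s : Matrix (Fin p) (Fin m) S) (t : Matrix (Fin p) (Fin p) S) :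
    (blk 1 (-x) 0 1 * blk a 0 s t) * (e • blk W0 0 Y0 1) =
      chZ e (a * W0 * a⁻¹) x ((s * W0 + t * Y0 - s) * a⁻¹) * (blk 1 (-x) 0 1 * blk a 0 s t) := by
  have had := (Matrix.isUnit_iff_isUnit_det _).1 ha
  have h1 : blk (1 : Matrix (Fin m) (Fin m) S) x 0 (1 : Matrix (Fin p) (Fin p) S) *
      blk 1 (-x) 0 1 = 1 := by
    rw [blk_mul]
    simp only [Matrix.mul_zero, Matrix.zero_mul, add_zero, zero_add, Matrix.one_mul,
      Matrix.mul_one, neg_add_cancel]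
    exact blk_one
  have h2 : blk a 0 s t * blk W0 0 Y0 1 =
      blk (a * W0 * a⁻¹) 0 ((s * W0 + t * Y0 - s) * a⁻¹) 1 * blk a 0 s t := by
    rw [blk_mul, blk_mul]
    simp only [Matrix.mul_zero, Matrix.zero_mul, add_zero, zero_add, Matrix.one_mul,
      Matrix.mul_one]
    rw [Matrix.mul_assoc (a * W0), Matrix.mul_assoc _ a⁻¹ a, Matrix.nonsing_inv_mul _ had,
      Matrix.mul_one, Matrix.mul_one, sub_add_cancel]
  rw [chZ, Matrix.mul_smul, Matrix.smul_mul]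
  congr 1
  calc blk 1 (-x) 0 1 * blk a 0 s t * blk W0 0 Y0 1
      = blk 1 (-x) 0 1 * (blk a 0 s t * blk W0 0 Y0 1) := Matrix.mul_assoc _ _ _
    _ = blk 1 (-x) 0 1 * blk (a * W0 * a⁻¹) 0 ((s * W0 + t * Y0 - s) * a⁻¹) 1 * 1 *
        blk a 0 s t := by rw [h2, Matrix.mul_one]; exact (Matrix.mul_assoc _ _ _).symm
    _ = _ := by rw [← h1]; simp only [Matrix.mul_assoc]

end Vale.Agent.P002G
end

section

/-!
# P002, genus 0, one regular class: steps
-/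

namespace Vale.Agent.P002L

open Matrix Vale.Agent.P002R

section general

variable {S T : Type*} [CommRing S] [CommRing T] {r : ℕ}

theorem swap_conj_apply (a b : Fin r) (v : Mat r S) (i j : Fin r) :
    ((pm (Equiv.swap a b) : Mat r S) * v * (pm (Equiv.swap a b) : Mat r S)) i j =
      v (Equiv.swap a b i) (Equiv.swap a b j) := by
  rw [mul_pm]
  conv_lhs => rw [← Equiv.swap_apply_self a b i]
  rw [pm_mul]

theorem swap_lt {a b : Fin r} (hab : (b : ℕ) = a + 1) {i j : Fin r} (h : j < i) :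
    Equiv.swap a b j < Equiv.swap a b i ∨ (i = b ∧ j = a) := by
  rw [Equiv.swap_apply_def, Equiv.swap_apply_def]
  rw [Fin.lt_def] at h
  split_ifs <;> simp only [Fin.lt_def, Fin.ext_iff] at * <;> omega

theorem pm_swap_sq (a b : Fin r) :
    (pm (Equiv.swap a b) : Mat r S) * pm (Equiv.swap a b) = 1 := by
  rw [pm_mul_pm, Equiv.swap_mul_self, pm_one]

theorem uu_swap {a b : Fin r} (hab : (b : ℕ) = a + 1) {v : Mat r S} (hv : UU v)
    (h0 : v a b = 0) : UU ((pm (Equiv.swap a b) : Mat r S) * v * (pm (Equiv.swap a b) : Mat r S)) := by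
  refine ⟨fun i j hij => ?_, fun i => ?_⟩
  · rw [swap_conj_apply]
    rcases swap_lt hab hij with h | ⟨rfl, rfl⟩
    · exact hv.1 _ _ h
    · rw [Equiv.swap_apply_right, Equiv.swap_apply_left, h0]
  · rw [swap_conj_apply, hv.2]

/-- The new right factor after the letter `xx a b z * pm (swap a b)`. -/
def pushV (a b : Fin r) (z : S) (v : Mat r S) : Mat r S :=
  (pm (Equiv.swap a b) : Mat r S) * (xx a b (-(v a b + z)) * v * xx a b z) * pm (Equiv.swap a b)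

theorem pushV_map (a b : Fin r) (z : S) (v : Mat r S) (f : S →+* T) :
    (pushV a b z v).map f = pushV a b (f z) (v.map f) := by
  rw [pushV, pushV, Matrix.map_mul, Matrix.map_mul, Matrix.map_mul, Matrix.map_mul, pm_map,
    xx_map, xx_map, map_neg, map_add, map_apply]

theorem uu_pushV {a b : Fin r} (hab : (b : ℕ) = a + 1) {v : Mat r S} (hv : UU v) (z : S) :
    UU (pushV a b z v) := by
  have hlt : a < b := by rw [Fin.lt_def]; omega
  refine uu_swap hab (((uu_xx hlt _).mul hv).mul (uu_xx hlt _)) ?_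
  rw [mul_xx_apply, if_pos rfl, xx_mul_apply, if_pos rfl, xx_mul_apply, if_pos rfl, hv.2 b,
    hv.1 b a hlt, hv.2 a]
  ring

theorem push_eq {a b : Fin r} (hab : (b : ℕ) = a + 1) (z : S) (v : Mat r S) :
    v * (xx a b z * pm (Equiv.swap a b)) =
      xx a b (v a b + z) * pm (Equiv.swap a b) * pushV a b z v := by
  have hne : a ≠ b := fun h => by rw [h] at hab; omega
  rw [pushV]
  have h1 : xx a b (v a b + z) * pm (Equiv.swap a b) *
      ((pm (Equiv.swap a b) : Mat r S) * (xx a b (-(v a b + z)) * v * xx a b z) *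
        pm (Equiv.swap a b)) = xx a b (v a b + z) * (pm (Equiv.swap a b) * pm (Equiv.swap a b)) *
        (xx a b (-(v a b + z)) * v * xx a b z) * pm (Equiv.swap a b) := by
    simp only [mul_assoc]
  rw [h1, pm_swap_sq, mul_one]
  have h2 : xx a b (v a b + z) * (xx a b (-(v a b + z)) * v * xx a b z) *
      (pm (Equiv.swap a b) : Mat r S) =
      (xx a b (v a b + z) * xx a b (-(v a b + z))) * v * (xx a b z * pm (Equiv.swap a b)) := by
    simp only [mul_assoc]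
  rw [h2, xx_mul_xx hne, add_neg_cancel, xx_zero, one_mul]

theorem Kup.xx_mul {κ : Fin r → ℕ} {l : ℕ → S} {M : Mat r S} (hM : Kup κ l M) {a b : Fin r}
    (h : κ a < κ b) (z : S) : Kup κ l (xx a b z * M) := by
  have hne : a ≠ b := fun h' => by rw [h'] at h; exact lt_irrefl _ h
  refine ⟨fun i => ?_, fun i j hij hκ => ?_⟩
  · rw [xx_mul_apply, hM.1]
    split_ifs with h1
    · rw [h1, hM.2 b a hne.symm (not_lt.2 h.le), mul_zero, add_zero]
    · rw [add_zero]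
  · rw [xx_mul_apply, hM.2 i j hij hκ, zero_add]
    split_ifs with h1
    · subst h1
      by_cases hbj : b = j
      · rw [← hbj] at hκ
        exact absurd h hκ
      · rw [hM.2 b j hbj (fun h' => hκ (h.trans h')), mul_zero]
    · rfl

theorem Kup.mul_xx {κ : Fin r → ℕ} {l : ℕ → S} {M : Mat r S} (hM : Kup κ l M) {a b : Fin r}
    (h : κ a < κ b) (z : S) : Kup κ l (M * xx a b z) := by
  have hne : a ≠ b := fun h' => by rw [h'] at h; exact lt_irrefl _ h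
  refine ⟨fun i => ?_, fun i j hij hκ => ?_⟩
  · rw [mul_xx_apply, hM.1]
    split_ifs with h1
    · rw [h1, hM.2 b a hne.symm (not_lt.2 h.le), zero_mul, add_zero]
    · rw [add_zero]
  · rw [mul_xx_apply, hM.2 i j hij hκ, zero_add]
    split_ifs with h1
    · subst h1
      by_cases hia : i = a
      · rw [hia] at hκ
        exact absurd h hκ
      · rw [hM.2 i a hia (fun h' => hκ (h'.trans h)), zero_mul]
    · rfl

theorem Kup.swap {κ : Fin r → ℕ} {l : ℕ → S} {M : Mat r S} (hM : Kup κ l M) (a b : Fin r) :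
    Kup (κ ∘ Equiv.swap a b) l
      ((pm (Equiv.swap a b) : Mat r S) * M * (pm (Equiv.swap a b) : Mat r S)) := by
  refine ⟨fun i => ?_, fun i j hij hκ => ?_⟩
  · rw [swap_conj_apply, hM.1]
    rfl
  · rw [swap_conj_apply]
    exact hM.2 _ _ (fun h => hij ((Equiv.swap a b).injective h)) hκ

theorem Kup.map {κ : Fin r → ℕ} {l : ℕ → S} {M : Mat r S} (hM : Kup κ l M) (f : S →+* T) :
    Kup κ (fun j => f (l j)) (M.map f) :=
  ⟨fun i => by rw [map_apply, hM.1], fun i j h h' => by rw [map_apply, hM.2 i j h h', map_zero]⟩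

end general

variable {R A : Type} [CommRing R] [CommRing A] {φ : R →+* ℂ} {ι : R →+* A} {ψ : A →+* ℂ} {r : ℕ}

/-- One step: from the state `(w, v₀)` to `(w', v₀')` through an element of the family `F`; the
units on the edges may be lifted arbitrarily. -/
def Step (ι : R →+* A) (ψ : A →+* ℂ) (w : Equiv.Perm (Fin r)) (v₀ : Mat r ℂ) (F : Mat r A → Prop)
    (w' : Equiv.Perm (Fin r)) (v₀' : Mat r ℂ) : Prop :=
  ∃ (J : Type) (_ : Fintype J) (s t : J → Fin r) (y : J → ℂˣ) (ε : Fin r → Rˣ),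
    ∀ v : Mat r A, UU v → v.map ψ = v₀ → ∀ z : J → Aˣ, (∀ j, ψ (z j) = y j) →
      ∃ g, F g ∧ ∃ b v' : Mat r A, UpT b ∧
        (∀ i, b i i = ι (ε i) * ((∏ j, z j ^ eb (s j) (t j) i : Aˣ) : A)) ∧
        UU v' ∧ v'.map ψ = v₀' ∧ (pm w : Mat r A) * v * g = b * pm w' * v'

theorem Step.mono {w w' : Equiv.Perm (Fin r)} {v₀ v₀' : Mat r ℂ} {F F' : Mat r A → Prop}
    (h : Step ι ψ w v₀ F w' v₀') (hF : ∀ g, F g → F' g) : Step ι ψ w v₀ F' w' v₀' := by
  obtain ⟨J, hJ, s, t, y, ε, h⟩ := h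
  refine ⟨J, hJ, s, t, y, ε, fun v hv hv0 z hz => ?_⟩
  obtain ⟨g, hg, h'⟩ := h v hv hv0 z hz
  exact ⟨g, hF g hg, h'⟩

theorem Step.comp {w w' w'' : Equiv.Perm (Fin r)} {v₀ v₀' v₀'' : Mat r ℂ} {F F' : Mat r A → Prop}
    (h : Step ι ψ w v₀ F w' v₀') (h' : Step ι ψ w' v₀' F' w'' v₀'') :
    Step ι ψ w v₀ (fun g => ∃ g₁ g₂, F g₁ ∧ F' g₂ ∧ g = g₁ * g₂) w'' v₀'' := by
  obtain ⟨J, hJ, s, t, y, ε, h⟩ := h
  obtain ⟨J', hJ', s', t', y', ε', h'⟩ := h'
  refine ⟨J ⊕ J', inferInstance, Sum.elim s s', Sum.elim t t', Sum.elim y y',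
    fun i => ε i * ε' i, fun v hv hv0 z hz => ?_⟩
  obtain ⟨g, hg, b, v', hb, hbd, hv', hv0', he⟩ := h v hv hv0 (fun j => z (Sum.inl j)) fun j =>
    hz (Sum.inl j)
  obtain ⟨g', hg', b', v'', hb', hbd', hv'', hv0'', he'⟩ := h' v' hv' hv0'
    (fun j => z (Sum.inr j)) fun j => hz (Sum.inr j)
  refine ⟨g * g', ⟨g, g', hg, hg', rfl⟩, b * b', v'', hb.mul hb', fun i => ?_, hv'', hv0'', ?_⟩
  · rw [hb.mul_diag hb', hbd, hbd', Fintype.prod_sum_type]
    simp only [Sum.elim_inl, Sum.elim_inr, Units.val_mul, map_mul]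
    ring
  · rw [← mul_assoc, he, mul_assoc b, mul_assoc b, he']
    simp only [mul_assoc]

end Vale.Agent.P002L
end

section

/-! TASK G6b: products of groups. -/

namespace Vale.Agent.P002R

open Matrix

section Kron

variable {r r₁ r₂ : ℕ} {S T : Type*} [CommRing S] [CommRing T]

/-- Tensor product of matrices. -/
noncomputable def kr (e : Fin r₁ × Fin r₂ ≃ Fin r) (A : Mat r₁ S) (B : Mat r₂ S) : Mat r S :=
  Matrix.reindex e e (Matrix.kroneckerMap (· * ·) A B)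

theorem kr_apply (e : Fin r₁ × Fin r₂ ≃ Fin r) (A : Mat r₁ S) (B : Mat r₂ S)
    (p q : Fin r₁ × Fin r₂) : kr e A B (e p) (e q) = A p.1 q.1 * B p.2 q.2 := by
  simp [kr, Matrix.kroneckerMap_apply]

theorem kr_mul (e : Fin r₁ × Fin r₂ ≃ Fin r) (A A' : Mat r₁ S) (B B' : Mat r₂ S) :
    kr e A B * kr e A' B' = kr e (A * A') (B * B') := by
  unfold kr
  rw [Matrix.mul_kronecker_mul, Matrix.reindex_apply, Matrix.reindex_apply, Matrix.reindex_apply,
    Matrix.submatrix_mul_equiv]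

theorem kr_one (e : Fin r₁ × Fin r₂ ≃ Fin r) : kr e (1 : Mat r₁ S) (1 : Mat r₂ S) = 1 := by
  unfold kr
  rw [Matrix.one_kronecker_one, Matrix.reindex_apply, Matrix.submatrix_one_equiv]

theorem kr_map (e : Fin r₁ × Fin r₂ ≃ Fin r) (A : Mat r₁ S) (B : Mat r₂ S) (θ : S →+* T) :
    (kr e A B).map θ = kr e (A.map θ) (B.map θ) := by
  ext i j
  obtain ⟨p, rfl⟩ := e.surjective i
  obtain ⟨q, rfl⟩ := e.surjective j
  rw [Matrix.map_apply, kr_apply, kr_apply, map_mul, Matrix.map_apply, Matrix.map_apply]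

theorem det_kr (e : Fin r₁ × Fin r₂ ≃ Fin r) (A : Mat r₁ S) (B : Mat r₂ S) :
    (kr e A B).det = A.det ^ r₂ * B.det ^ r₁ := by
  unfold kr
  rw [Matrix.det_reindex_self, Matrix.det_kronecker, Fintype.card_fin, Fintype.card_fin]

/-- The inclusion of the first factor. -/
noncomputable def krL (e : Fin r₁ × Fin r₂ ≃ Fin r) : Mat r₁ ℂ →ₐ[ℂ] Mat r ℂ where
  toFun A := kr e A 1
  map_one' := kr_one e
  map_mul' A A' := by rw [kr_mul, one_mul]
  map_zero' := by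
    ext i j
    obtain ⟨p, rfl⟩ := e.surjective i
    obtain ⟨q, rfl⟩ := e.surjective j
    rw [kr_apply]
    simp
  map_add' A A' := by
    ext i j
    obtain ⟨p, rfl⟩ := e.surjective i
    obtain ⟨q, rfl⟩ := e.surjective j
    rw [Matrix.add_apply, kr_apply, kr_apply, kr_apply, Matrix.add_apply, add_mul]
  commutes' c := by
    ext i j
    obtain ⟨p, rfl⟩ := e.surjective i
    obtain ⟨q, rfl⟩ := e.surjective j
    rw [kr_apply, Algebra.algebraMap_eq_smul_one, Algebra.algebraMap_eq_smul_one,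
      Matrix.smul_apply, Matrix.smul_apply, smul_mul_assoc, ← kr_apply, kr_one]

/-- The inclusion of the second factor. -/
noncomputable def krR (e : Fin r₁ × Fin r₂ ≃ Fin r) : Mat r₂ ℂ →ₐ[ℂ] Mat r ℂ where
  toFun B := kr e 1 B
  map_one' := kr_one e
  map_mul' A A' := by rw [kr_mul, one_mul]
  map_zero' := by
    ext i j
    obtain ⟨p, rfl⟩ := e.surjective i
    obtain ⟨q, rfl⟩ := e.surjective j
    rw [kr_apply]
    simp
  map_add' A A' := by
    ext i j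
    obtain ⟨p, rfl⟩ := e.surjective i
    obtain ⟨q, rfl⟩ := e.surjective j
    rw [Matrix.add_apply, kr_apply, kr_apply, kr_apply, Matrix.add_apply, mul_add]
  commutes' c := by
    ext i j
    obtain ⟨p, rfl⟩ := e.surjective i
    obtain ⟨q, rfl⟩ := e.surjective j
    rw [kr_apply, Algebra.algebraMap_eq_smul_one, Algebra.algebraMap_eq_smul_one,
      Matrix.smul_apply, Matrix.smul_apply, mul_smul_comm, ← kr_apply, kr_one]

theorem krL_apply (e : Fin r₁ × Fin r₂ ≃ Fin r) (A : Mat r₁ ℂ) : krL e A = kr e A 1 := rfl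

theorem krR_apply (e : Fin r₁ × Fin r₂ ≃ Fin r) (B : Mat r₂ ℂ) : krR e B = kr e 1 B := rfl

/-- The inclusion of the first factor on units. -/
noncomputable def krU₁ (e : Fin r₁ × Fin r₂ ≃ Fin r) : (Mat r₁ ℂ)ˣ →* (Mat r ℂ)ˣ :=
  Units.map (krL e : Mat r₁ ℂ →* Mat r ℂ)

/-- The inclusion of the second factor on units. -/
noncomputable def krU₂ (e : Fin r₁ × Fin r₂ ≃ Fin r) : (Mat r₂ ℂ)ˣ →* (Mat r ℂ)ˣ :=
  Units.map (krR e : Mat r₂ ℂ →* Mat r ℂ)

theorem krU₁_coe (e : Fin r₁ × Fin r₂ ≃ Fin r) (A : (Mat r₁ ℂ)ˣ) :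
    (krU₁ e A : Mat r ℂ) = kr e (A : Mat r₁ ℂ) 1 := rfl

theorem krU₂_coe (e : Fin r₁ × Fin r₂ ≃ Fin r) (B : (Mat r₂ ℂ)ˣ) :
    (krU₂ e B : Mat r ℂ) = kr e 1 (B : Mat r₂ ℂ) := rfl

theorem krU_comm (e : Fin r₁ × Fin r₂ ≃ Fin r) (A : (Mat r₁ ℂ)ˣ) (B : (Mat r₂ ℂ)ˣ) :
    Commute (krU₁ e A) (krU₂ e B) := by
  apply Units.ext
  rw [Units.val_mul, Units.val_mul, krU₁_coe, krU₂_coe, kr_mul, kr_mul, one_mul, mul_one, one_mul,
    mul_one]

theorem krU₁_inj (e : Fin r₁ × Fin r₂ ≃ Fin r) (h : 0 < r₂) (A : (Mat r₁ ℂ)ˣ)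
    (hA : krU₁ e A = 1) : A = 1 := by
  apply Units.ext
  have h1 := congrArg (fun u : (Mat r ℂ)ˣ => (u : Mat r ℂ)) hA
  simp only [krU₁_coe, Units.val_one] at h1
  ext i j
  have h2 := congrFun (congrFun h1 (e (i, ⟨0, h⟩))) (e (j, ⟨0, h⟩))
  rw [← kr_one e, kr_apply, kr_apply] at h2
  simpa using h2

theorem krU₂_inj (e : Fin r₁ × Fin r₂ ≃ Fin r) (h : 0 < r₁) (B : (Mat r₂ ℂ)ˣ)
    (hB : krU₂ e B = 1) : B = 1 := by
  apply Units.ext
  have h1 := congrArg (fun u : (Mat r ℂ)ˣ => (u : Mat r ℂ)) hB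
  simp only [krU₂_coe, Units.val_one] at h1
  ext i j
  have h2 := congrFun (congrFun h1 (e (⟨0, h⟩, i))) (e (⟨0, h⟩, j))
  rw [← kr_one e, kr_apply, kr_apply] at h2
  simpa using h2

theorem EigIn.kr₁ {E : Subgroup ℂˣ} {e : Fin r₁ × Fin r₂ ≃ Fin r} (h : 0 < r₂) {A : Mat r₁ ℂ}
    (hA : EigIn E (kr e A (1 : Mat r₂ ℂ))) : EigIn E A := by
  intro z hz
  apply hA z
  rw [Polynomial.IsRoot.def, Matrix.eval_charpoly] at hz ⊢
  have h1 : Matrix.scalar (Fin r) z - kr e A (1 : Mat r₂ ℂ) =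
      kr e (Matrix.scalar (Fin r₁) z - A) (1 : Mat r₂ ℂ) := by
    have h2 : ∀ (k : ℕ), Matrix.scalar (Fin k) z = algebraMap ℂ (Mat k ℂ) z := fun k => rfl
    rw [h2, h2, ← krL_apply, ← krL_apply, map_sub, AlgHom.commutes]
  rw [h1, det_kr, hz, zero_pow h.ne', zero_mul]

theorem EigIn.kr₂ {E : Subgroup ℂˣ} {e : Fin r₁ × Fin r₂ ≃ Fin r} (h : 0 < r₁) {B : Mat r₂ ℂ}
    (hB : EigIn E (kr e (1 : Mat r₁ ℂ) B)) : EigIn E B := by
  intro z hz
  apply hB z
  rw [Polynomial.IsRoot.def, Matrix.eval_charpoly] at hz ⊢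
  have h1 : Matrix.scalar (Fin r) z - kr e (1 : Mat r₁ ℂ) B =
      kr e (1 : Mat r₁ ℂ) (Matrix.scalar (Fin r₂) z - B) := by
    have h2 : ∀ (k : ℕ), Matrix.scalar (Fin k) z = algebraMap ℂ (Mat k ℂ) z := fun k => rfl
    rw [h2, h2, ← krR_apply, ← krR_apply, map_sub, AlgHom.commutes]
  rw [h1, det_kr, hz, zero_pow h.ne', mul_zero]

theorem krU₁_mem_GR {R : Type*} [CommRing R] (φ : R →+* ℂ) (e : Fin r₁ × Fin r₂ ≃ Fin r)
    {A : (Mat r₁ ℂ)ˣ} (hA : A ∈ GR r₁ φ) : krU₁ e A ∈ GR r φ := by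
  obtain ⟨c, z, rfl⟩ := hA
  obtain ⟨z', hz'⟩ : ∃ z' : SpecialLinearGroup (Fin r) R, (z' : Mat r R) = kr e (z : Mat r₁ R) 1 :=
    ⟨⟨kr e (z : Mat r₁ R) 1, by rw [det_kr, z.det_coe, Matrix.det_one, one_pow, one_pow, one_mul]⟩,
      rfl⟩
  refine ⟨c, z', ?_⟩
  apply Units.ext
  rw [krU₁_coe, scalarU_mul_coe, scalarU_mul_coe, slU_coe, slU_coe, hz', kr_map, ← krL_apply,
    map_smul, krL_apply]
  congr 2
  ext i j
  by_cases h : i = j
  · subst h; simp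
  · simp [Matrix.one_apply_ne h]

theorem krU₂_mem_GR {R : Type*} [CommRing R] (φ : R →+* ℂ) (e : Fin r₁ × Fin r₂ ≃ Fin r)
    {B : (Mat r₂ ℂ)ˣ} (hB : B ∈ GR r₂ φ) : krU₂ e B ∈ GR r φ := by
  obtain ⟨c, z, rfl⟩ := hB
  obtain ⟨z', hz'⟩ : ∃ z' : SpecialLinearGroup (Fin r) R, (z' : Mat r R) = kr e 1 (z : Mat r₂ R) :=
    ⟨⟨kr e 1 (z : Mat r₂ R), by rw [det_kr, z.det_coe, Matrix.det_one, one_pow, one_pow, one_mul]⟩,
      rfl⟩
  refine ⟨c, z', ?_⟩
  apply Units.ext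
  rw [krU₂_coe, scalarU_mul_coe, scalarU_mul_coe, slU_coe, slU_coe, hz', kr_map, ← krR_apply,
    map_smul, krR_apply]
  congr 2
  ext i j
  by_cases h : i = j
  · subst h; simp
  · simp [Matrix.one_apply_ne h]

theorem kr_top (e : Fin r₁ × Fin r₂ ≃ Fin r) (A : Subalgebra ℂ (Mat r ℂ))
    (h₁ : ∀ M : Mat r₁ ℂ, kr e M 1 ∈ A) (h₂ : ∀ M : Mat r₂ ℂ, kr e 1 M ∈ A) : A = ⊤ := by
  rw [eq_top_iff]
  intro X _
  rw [Matrix.matrix_eq_sum_single X]
  refine sum_mem fun i _ => sum_mem fun j _ => ?_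
  obtain ⟨p, rfl⟩ := e.surjective i
  obtain ⟨q, rfl⟩ := e.surjective j
  have h : Matrix.single (e p) (e q) (X (e p) (e q)) = X (e p) (e q) •
      (kr e (Matrix.single p.1 q.1 1) 1 * kr e 1 (Matrix.single p.2 q.2 1)) := by
    rw [kr_mul, mul_one, one_mul]
    ext i j
    obtain ⟨a, rfl⟩ := e.surjective i
    obtain ⟨b, rfl⟩ := e.surjective j
    rw [Matrix.smul_apply, kr_apply, smul_eq_mul, Matrix.single_apply, Matrix.single_apply,
      Matrix.single_apply]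
    by_cases h1 : p = a
    · by_cases h2 : q = b
      · subst h1 h2; simp
      · have : ¬ (q.1 = b.1 ∧ q.2 = b.2) := fun h => h2 (Prod.ext h.1 h.2)
        have h3 : ¬ (e p = e a ∧ e q = e b) := fun h => h2 (e.injective h.2)
        rw [if_neg h3]
        by_cases h4 : q.1 = b.1
        · have : q.2 ≠ b.2 := fun h => h2 (Prod.ext h4 h)
          simp [this]
        · simp [h4]
    · have h3 : ¬ (e p = e a ∧ e q = e b) := fun h => h1 (e.injective h.1)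
      rw [if_neg h3]
      by_cases h4 : p.1 = a.1
      · have : p.2 ≠ a.2 := fun h => h1 (Prod.ext h4 h)
        simp [this]
      · simp [h4]
  rw [h]
  exact A.smul_mem (A.mul_mem (h₁ _) (h₂ _)) _

end Kron

section Adj

variable {r : ℕ} {G : Type*} [Group G]

theorem ss_of_adjoin (x : G →* (Mat r ℂ)ˣ)
    (h : Algebra.adjoin ℂ (Set.range fun w => (x w : Mat r ℂ)) = ⊤) : SS x := by
  intro W hW
  have h1 : ∀ M : Mat r ℂ, ∀ v ∈ W, M *ᵥ v ∈ W := by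
    intro M
    have hM : M ∈ Algebra.adjoin ℂ (Set.range fun w => (x w : Mat r ℂ)) := by
      rw [h]; exact Algebra.mem_top
    induction hM using Algebra.adjoin_induction with
    | mem y hy =>
      obtain ⟨w, rfl⟩ := hy
      exact hW w
    | algebraMap c =>
      intro v hv
      rw [Algebra.algebraMap_eq_smul_one, Matrix.smul_mulVec, Matrix.one_mulVec]
      exact W.smul_mem c hv
    | add y z _ _ hy hz =>
      intro v hv
      rw [Matrix.add_mulVec]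
      exact W.add_mem (hy v hv) (hz v hv)
    | mul y z _ _ hy hz =>
      intro v hv
      rw [← Matrix.mulVec_mulVec]
      exact hy _ (hz v hv)
  by_cases hW0 : W = ⊥
  · refine ⟨⊤, fun w v _ => Submodule.mem_top, ?_⟩
    rw [hW0]
    exact isCompl_bot_top
  · have hW1 : W = ⊤ := by
      obtain ⟨v, hv, hv0⟩ := (Submodule.ne_bot_iff W).1 hW0
      obtain ⟨i, hi⟩ := Function.ne_iff.1 hv0
      rw [eq_top_iff]
      intro u _
      have h2 := h1 (Matrix.vecMulVec u (Pi.single i (v i)⁻¹)) v hv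
      have h3 : Matrix.vecMulVec u (Pi.single i (v i)⁻¹) *ᵥ v = u := by
        ext j
        rw [Matrix.mulVec, dotProduct, Finset.sum_eq_single i]
        · rw [Matrix.vecMulVec_apply, Pi.single_eq_same, mul_assoc, inv_mul_cancel₀ hi, mul_one]
        · intro k _ hk
          rw [Matrix.vecMulVec_apply, Pi.single_eq_of_ne hk, mul_zero, zero_mul]
        · intro hk; exact absurd (Finset.mem_univ _) hk
      rwa [h3] at h2
    refine ⟨⊥, fun w v hv => ?_, ?_⟩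
    · rw [Submodule.mem_bot] at hv ⊢
      rw [hv, Matrix.mulVec_zero]
    · rw [hW1]
      exact isCompl_top_bot

theorem scalar_of_adjoin (x : G →* (Mat r ℂ)ˣ)
    (h : Algebra.adjoin ℂ (Set.range fun w => (x w : Mat r ℂ)) = ⊤) (M : Mat r ℂ)
    (hM : ∀ w, Commute M (x w : Mat r ℂ)) : ∃ c : ℂ, M = c • (1 : Mat r ℂ) := by
  have h1 : ∀ X : Mat r ℂ, Commute M X := by
    intro X
    have hX : X ∈ Algebra.adjoin ℂ (Set.range fun w => (x w : Mat r ℂ)) := by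
      rw [h]; exact Algebra.mem_top
    induction hX using Algebra.adjoin_induction with
    | mem y hy =>
      obtain ⟨w, rfl⟩ := hy
      exact hM w
    | algebraMap c => exact (Algebra.commutes c M).symm
    | add y z _ _ hy hz => exact hy.add_right hz
    | mul y z _ _ hy hz => exact hy.mul_right hz
  obtain ⟨c, hc⟩ := Matrix.mem_range_scalar_of_commute_single (M := M)
    (fun i j _ => (h1 _).symm)
  exact ⟨c, by rw [← hc, ← Algebra.algebraMap_eq_smul_one]; rfl⟩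

/-- Conjugation as an algebra homomorphism. -/
noncomputable def conjA (U : (Mat r ℂ)ˣ) : Mat r ℂ →ₐ[ℂ] Mat r ℂ where
  toFun M := (U : Mat r ℂ) * M * ((U⁻¹ : (Mat r ℂ)ˣ) : Mat r ℂ)
  map_one' := by rw [mul_one, ← Units.val_mul, mul_inv_cancel, Units.val_one]
  map_mul' M N := by
    have h : ((U⁻¹ : (Mat r ℂ)ˣ) : Mat r ℂ) * (U : Mat r ℂ) = 1 := by
      rw [← Units.val_mul, inv_mul_cancel, Units.val_one]
    calc (U : Mat r ℂ) * (M * N) * ((U⁻¹ : (Mat r ℂ)ˣ) : Mat r ℂ) =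
        (U : Mat r ℂ) * M * 1 * N * ((U⁻¹ : (Mat r ℂ)ˣ) : Mat r ℂ) := by
          rw [mul_one]; simp only [mul_assoc]
      _ = _ := by rw [← h]; simp only [mul_assoc]
  map_zero' := by rw [mul_zero, zero_mul]
  map_add' M N := by rw [mul_add, add_mul]
  commutes' c := by
    rw [← Algebra.commutes, mul_assoc, ← Units.val_mul, mul_inv_cancel, Units.val_one, mul_one]

theorem conjA_apply (U : (Mat r ℂ)ˣ) (M : Mat r ℂ) :
    conjA U M = (U : Mat r ℂ) * M * ((U⁻¹ : (Mat r ℂ)ˣ) : Mat r ℂ) := rfl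

theorem adjoin_conj_top {K : Type*} (y : FreeGroup K →* (Mat r ℂ)ˣ) (U : (Mat r ℂ)ˣ)
    (h : Algebra.adjoin ℂ (Set.range fun w => (y w : Mat r ℂ)) = ⊤) :
    Algebra.adjoin ℂ (Set.range fun w => (conjH U y w : Mat r ℂ)) = ⊤ := by
  obtain ⟨A, hA⟩ : ∃ A, A = Algebra.adjoin ℂ (Set.range fun w => (conjH U y w : Mat r ℂ)) :=
    ⟨_, rfl⟩
  rw [← hA]
  have h1 : Algebra.adjoin ℂ (Set.range fun w => (y w : Mat r ℂ)) ≤ A.comap (conjA U) := by
    rw [Algebra.adjoin_le_iff]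
    rintro _ ⟨w, rfl⟩
    change conjA U (y w : Mat r ℂ) ∈ A
    rw [hA]
    apply Algebra.subset_adjoin
    refine ⟨w, ?_⟩
    simp only [conjH_apply, conjA_apply, Units.val_mul]
  rw [eq_top_iff]
  intro X _
  have h2 : conjA U⁻¹ X ∈ A.comap (conjA U) := h1 (by rw [h]; exact Algebra.mem_top)
  have h3 : conjA U (conjA U⁻¹ X) = X := by
    rw [conjA_apply, conjA_apply, inv_inv]
    have h : (U : Mat r ℂ) * ((U⁻¹ : (Mat r ℂ)ˣ) : Mat r ℂ) = 1 := by
      rw [← Units.val_mul, mul_inv_cancel, Units.val_one]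
    calc (U : Mat r ℂ) * (((U⁻¹ : (Mat r ℂ)ˣ) : Mat r ℂ) * X * (U : Mat r ℂ)) *
          ((U⁻¹ : (Mat r ℂ)ˣ) : Mat r ℂ) =
        ((U : Mat r ℂ) * ((U⁻¹ : (Mat r ℂ)ˣ) : Mat r ℂ)) * X *
          ((U : Mat r ℂ) * ((U⁻¹ : (Mat r ℂ)ˣ) : Mat r ℂ)) := by simp only [mul_assoc]
      _ = X := by rw [h, one_mul, mul_one]
  have h4 : conjA U (conjA U⁻¹ X) ∈ A := h2
  rwa [h3] at h4

theorem commute_of_gen {K : Type*} (x : FreeGroup K →* G) (g : G)
    (h : ∀ k, Commute (x (FreeGroup.of k)) g) (a : FreeGroup K) : Commute (x a) g := by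
  induction a using FreeGroup.induction_on with
  | C1 => rw [map_one]; exact Commute.one_left g
  | of k => exact h k
  | inv_of k _ => rw [map_inv]; exact (h k).inv_left
  | mul a b ha hb => rw [map_mul]; exact ha.mul_left hb

end Adj

section Prod

variable {κ₁ ι₁ κ₂ ι₂ : Type} {r r₁ r₂ : ℕ}

/-- Splitting of the generators. -/
def splG : (κ₁ ⊕ κ₂) ⊕ (ι₁ ⊕ ι₂) → (κ₁ ⊕ ι₁) ⊕ (κ₂ ⊕ ι₂) := Equiv.sumSumSumComm κ₁ κ₂ ι₁ ι₂

theorem splG_inc₁ (k : κ₁ ⊕ ι₁) : (splG (inc₁ k) : (κ₁ ⊕ ι₁) ⊕ (κ₂ ⊕ ι₂)) = Sum.inl k := by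
  rcases k with k | k <;> rfl

theorem splG_inc₂ (k : κ₂ ⊕ ι₂) : (splG (inc₂ k) : (κ₁ ⊕ ι₁) ⊕ (κ₂ ⊕ ι₂)) = Sum.inr k := by
  rcases k with k | k <;> rfl

theorem inc_cases (k : (κ₁ ⊕ κ₂) ⊕ (ι₁ ⊕ ι₂)) :
    (∃ l : κ₁ ⊕ ι₁, k = inc₁ l) ∨ ∃ l : κ₂ ⊕ ι₂, k = inc₂ l := by
  rcases k with (k | k) | (k | k)
  · exact Or.inl ⟨Sum.inl k, rfl⟩
  · exact Or.inr ⟨Sum.inl k, rfl⟩
  · exact Or.inl ⟨Sum.inr k, rfl⟩
  · exact Or.inr ⟨Sum.inr k, rfl⟩

/-- Tensor product of representations of two free groups. -/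
noncomputable def ten (e : Fin r₁ × Fin r₂ ≃ Fin r) (y₁ : FreeGroup (κ₁ ⊕ ι₁) →* (Mat r₁ ℂ)ˣ)
    (y₂ : FreeGroup (κ₂ ⊕ ι₂) →* (Mat r₂ ℂ)ˣ) :
    FreeGroup ((κ₁ ⊕ κ₂) ⊕ (ι₁ ⊕ ι₂)) →* (Mat r ℂ)ˣ :=
  FreeGroup.lift fun k => Sum.elim (fun k₁ => krU₁ e (y₁ (FreeGroup.of k₁)))
    (fun k₂ => krU₂ e (y₂ (FreeGroup.of k₂))) (splG k)

theorem ten_inc₁ (e : Fin r₁ × Fin r₂ ≃ Fin r) (y₁ : FreeGroup (κ₁ ⊕ ι₁) →* (Mat r₁ ℂ)ˣ)
    (y₂ : FreeGroup (κ₂ ⊕ ι₂) →* (Mat r₂ ℂ)ˣ) (w : FreeGroup (κ₁ ⊕ ι₁)) :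
    ten e y₁ y₂ (FreeGroup.map inc₁ w) = krU₁ e (y₁ w) := by
  have h : (ten e y₁ y₂).comp (FreeGroup.map inc₁) = (krU₁ e).comp y₁ := by
    ext1 k
    rw [MonoidHom.comp_apply, FreeGroup.map.of, ten, FreeGroup.lift_apply_of, splG_inc₁,
      Sum.elim_inl, MonoidHom.comp_apply]
  exact DFunLike.congr_fun h w

theorem ten_inc₂ (e : Fin r₁ × Fin r₂ ≃ Fin r) (y₁ : FreeGroup (κ₁ ⊕ ι₁) →* (Mat r₁ ℂ)ˣ)
    (y₂ : FreeGroup (κ₂ ⊕ ι₂) →* (Mat r₂ ℂ)ˣ) (w : FreeGroup (κ₂ ⊕ ι₂)) :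
    ten e y₁ y₂ (FreeGroup.map inc₂ w) = krU₂ e (y₂ w) := by
  have h : (ten e y₁ y₂).comp (FreeGroup.map inc₂) = (krU₂ e).comp y₂ := by
    ext1 k
    rw [MonoidHom.comp_apply, FreeGroup.map.of, ten, FreeGroup.lift_apply_of, splG_inc₂,
      Sum.elim_inr, MonoidHom.comp_apply]
  exact DFunLike.congr_fun h w

theorem ten_of₁ (e : Fin r₁ × Fin r₂ ≃ Fin r) (y₁ : FreeGroup (κ₁ ⊕ ι₁) →* (Mat r₁ ℂ)ˣ)
    (y₂ : FreeGroup (κ₂ ⊕ ι₂) →* (Mat r₂ ℂ)ˣ) (k : κ₁ ⊕ ι₁) :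
    ten e y₁ y₂ (FreeGroup.of (inc₁ k)) = krU₁ e (y₁ (FreeGroup.of k)) := by
  rw [← FreeGroup.map.of, ten_inc₁]

theorem ten_of₂ (e : Fin r₁ × Fin r₂ ≃ Fin r) (y₁ : FreeGroup (κ₁ ⊕ ι₁) →* (Mat r₁ ℂ)ˣ)
    (y₂ : FreeGroup (κ₂ ⊕ ι₂) →* (Mat r₂ ℂ)ˣ) (k : κ₂ ⊕ ι₂) :
    ten e y₁ y₂ (FreeGroup.of (inc₂ k)) = krU₂ e (y₂ (FreeGroup.of k)) := by
  rw [← FreeGroup.map.of, ten_inc₂]

theorem adjoin_ten_top (e : Fin r₁ × Fin r₂ ≃ Fin r) (y₁ : FreeGroup (κ₁ ⊕ ι₁) →* (Mat r₁ ℂ)ˣ)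
    (y₂ : FreeGroup (κ₂ ⊕ ι₂) →* (Mat r₂ ℂ)ˣ)
    (h₁ : Algebra.adjoin ℂ (Set.range fun w => (y₁ w : Mat r₁ ℂ)) = ⊤)
    (h₂ : Algebra.adjoin ℂ (Set.range fun w => (y₂ w : Mat r₂ ℂ)) = ⊤) :
    Algebra.adjoin ℂ (Set.range fun w => (ten e y₁ y₂ w : Mat r ℂ)) = ⊤ := by
  obtain ⟨A, hA⟩ : ∃ A, A = Algebra.adjoin ℂ (Set.range fun w => (ten e y₁ y₂ w : Mat r ℂ)) :=
    ⟨_, rfl⟩
  rw [← hA]
  apply kr_top e A
  · intro M
    have h3 : Algebra.adjoin ℂ (Set.range fun w => (y₁ w : Mat r₁ ℂ)) ≤ A.comap (krL e) := by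
      rw [Algebra.adjoin_le_iff]
      rintro _ ⟨w, rfl⟩
      change kr e (y₁ w : Mat r₁ ℂ) 1 ∈ A
      rw [hA]
      apply Algebra.subset_adjoin
      exact ⟨FreeGroup.map inc₁ w, by simp only [ten_inc₁, krU₁_coe]⟩
    exact h3 (by rw [h₁]; exact Algebra.mem_top)
  · intro M
    have h3 : Algebra.adjoin ℂ (Set.range fun w => (y₂ w : Mat r₂ ℂ)) ≤ A.comap (krR e) := by
      rw [Algebra.adjoin_le_iff]
      rintro _ ⟨w, rfl⟩
      change kr e 1 (y₂ w : Mat r₂ ℂ) ∈ A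
      rw [hA]
      apply Algebra.subset_adjoin
      exact ⟨FreeGroup.map inc₂ w, by simp only [ten_inc₂, krU₂_coe]⟩
    exact h3 (by rw [h₂]; exact Algebra.mem_top)

theorem prodRel_eqn (Rel₁ : Set (FreeGroup (κ₁ ⊕ ι₁))) (Rel₂ : Set (FreeGroup (κ₂ ⊕ ι₂)))
    (w : FreeGroup ((κ₁ ⊕ κ₂) ⊕ (ι₁ ⊕ ι₂))) : w ∈ prodRel Rel₁ Rel₂ ↔
      (∃ w' ∈ Rel₁, FreeGroup.map inc₁ w' = w) ∨ (∃ w' ∈ Rel₂, FreeGroup.map inc₂ w' = w) ∨
        ∃ (k : κ₁ ⊕ ι₁) (l : κ₂ ⊕ ι₂), w =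
          FreeGroup.of (inc₁ k) * FreeGroup.of (inc₂ l) * (FreeGroup.of (inc₁ k))⁻¹ *
            (FreeGroup.of (inc₂ l))⁻¹ := by
  unfold prodRel
  rw [Set.mem_union, Set.mem_union, Set.mem_image, Set.mem_image, or_assoc]
  rfl

theorem ten_mem_DGT {R : Type*} [CommRing R] (φ : R →+* ℂ) {Rel₁ : Set (FreeGroup (κ₁ ⊕ ι₁))}
    {Rel₂ : Set (FreeGroup (κ₂ ⊕ ι₂))} (e : Fin r₁ × Fin r₂ ≃ Fin r)
    {C₁ : ι₁ → (Mat r₁ ℂ)ˣ} {C₂ : ι₂ → (Mat r₂ ℂ)ˣ} {C : ι₁ ⊕ ι₂ → (Mat r ℂ)ˣ}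
    (hC₁ : ∀ j, IsConj (C (Sum.inl j)) (krU₁ e (C₁ j)))
    (hC₂ : ∀ j, IsConj (C (Sum.inr j)) (krU₂ e (C₂ j)))
    {y₁ : FreeGroup (κ₁ ⊕ ι₁) →* (Mat r₁ ℂ)ˣ} {y₂ : FreeGroup (κ₂ ⊕ ι₂) →* (Mat r₂ ℂ)ˣ}
    (hy₁ : y₁ ∈ DGT Rel₁ φ C₁) (hy₂ : y₂ ∈ DGT Rel₂ φ C₂) :
    ten e y₁ y₂ ∈ DGT (prodRel Rel₁ Rel₂) φ C := by
  have htop := adjoin_ten_top e y₁ y₂ hy₁.2 hy₂.2
  refine ⟨⟨⟨?_, ?_, ss_of_adjoin _ htop⟩, ?_⟩, htop⟩
  · intro w hw
    rw [prodRel_eqn] at hw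
    rcases hw with ⟨w', hw', rfl⟩ | ⟨w', hw', rfl⟩ | ⟨k, l, rfl⟩
    · rw [ten_inc₁, hy₁.1.1.1 w' hw', map_one]
    · rw [ten_inc₂, hy₂.1.1.1 w' hw', map_one]
    · rw [map_mul, map_mul, map_mul, map_inv, map_inv, ten_of₁, ten_of₂,
        (krU_comm e (y₁ (FreeGroup.of k)) (y₂ (FreeGroup.of l))).eq]
      group
  · rintro (j | j)
    · refine (hC₁ j).trans ?_
      have h1 : (Sum.inr (Sum.inl j) : (κ₁ ⊕ κ₂) ⊕ (ι₁ ⊕ ι₂)) = inc₁ (Sum.inr j) := rfl
      rw [h1, ten_of₁]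
      exact (krU₁ e).map_isConj (hy₁.1.1.2.1 j)
    · refine (hC₂ j).trans ?_
      have h1 : (Sum.inr (Sum.inr j) : (κ₁ ⊕ κ₂) ⊕ (ι₁ ⊕ ι₂)) = inc₂ (Sum.inr j) := rfl
      rw [h1, ten_of₂]
      exact (krU₂ e).map_isConj (hy₂.1.1.2.1 j)
  · intro k
    rcases inc_cases k with ⟨l, rfl⟩ | ⟨l, rfl⟩
    · rw [ten_of₁]
      exact krU₁_mem_GR φ e (hy₁.1.2 l)
    · rw [ten_of₂]
      exact krU₂_mem_GR φ e (hy₂.1.2 l)

/-- The tuple of matrices of a tensor product. -/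
noncomputable def tenK {S : Type*} [CommRing S] [Algebra ℂ S] (e : Fin r₁ × Fin r₂ ≃ Fin r)
    (P Q : Mat r ℂ) (Y₁ : κ₁ ⊕ ι₁ → Mat r₁ S) (Y₂ : κ₂ ⊕ ι₂ → Mat r₂ S)
    (k : (κ₁ ⊕ κ₂) ⊕ (ι₁ ⊕ ι₂)) : Mat r S :=
  P.map (algebraMap ℂ S) * (Sum.elim (fun k₁ => kr e (Y₁ k₁) 1)
    (fun k₂ => kr e 1 (Y₂ k₂)) (splG k)) * Q.map (algebraMap ℂ S)

theorem tenK_map {S T : Type*} [CommRing S] [Algebra ℂ S] [CommRing T] [Algebra ℂ T]
    (θ : S →ₐ[ℂ] T) (e : Fin r₁ × Fin r₂ ≃ Fin r)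
    (P Q : Mat r ℂ) (Y₁ : κ₁ ⊕ ι₁ → Mat r₁ S) (Y₂ : κ₂ ⊕ ι₂ → Mat r₂ S)
    (k : (κ₁ ⊕ κ₂) ⊕ (ι₁ ⊕ ι₂)) : (tenK e P Q Y₁ Y₂ k).map θ =
      tenK e P Q (fun k => (Y₁ k).map θ) (fun k => (Y₂ k).map θ) k := by
  have h : ∀ M : Mat r ℂ, (M.map (algebraMap ℂ S)).map θ = M.map (algebraMap ℂ T) := by
    intro M
    ext i j
    simp
  have hone : ∀ k : ℕ, (1 : Mat k S).map θ = 1 := by
    intro k
    ext i j
    by_cases hij : i = j
    · subst hij; simp
    · simp [Matrix.one_apply_ne hij]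
  have hkr : ∀ (A : Mat r₁ S) (B : Mat r₂ S), (kr e A B).map θ = kr e (A.map θ) (B.map θ) :=
    fun A B => kr_map e A B (θ : S →+* T)
  unfold tenK
  rw [Matrix.map_mul, Matrix.map_mul, h, h]
  congr 2
  rcases splG k with k | k
  · rw [Sum.elim_inl, Sum.elim_inl, hkr, hone]
  · rw [Sum.elim_inr, Sum.elim_inr, hkr, hone]

theorem conjH_ten (e : Fin r₁ × Fin r₂ ≃ Fin r) (P : (Mat r ℂ)ˣ)
    (y₁ : FreeGroup (κ₁ ⊕ ι₁) →* (Mat r₁ ℂ)ˣ) (y₂ : FreeGroup (κ₂ ⊕ ι₂) →* (Mat r₂ ℂ)ˣ)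
    (k : (κ₁ ⊕ κ₂) ⊕ (ι₁ ⊕ ι₂)) :
    (conjH P (ten e y₁ y₂) (FreeGroup.of k) : Mat r ℂ) =
      tenK e (P : Mat r ℂ) ((P⁻¹ : (Mat r ℂ)ˣ) : Mat r ℂ)
        (fun k => (y₁ (FreeGroup.of k) : Mat r₁ ℂ)) (fun k => (y₂ (FreeGroup.of k) : Mat r₂ ℂ))
          k := by
  have h : ∀ M : Mat r ℂ, M.map (algebraMap ℂ ℂ) = M := by
    intro M
    ext i j
    simp
  rw [conjH_apply, Units.val_mul, Units.val_mul, tenK, h, h]
  congr 2
  rcases inc_cases k with ⟨l, rfl⟩ | ⟨l, rfl⟩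
  · rw [ten_of₁, splG_inc₁, krU₁_coe, Sum.elim_inl]
  · rw [ten_of₂, splG_inc₂, krU₂_coe, Sum.elim_inr]

theorem exists_polyT₁ (e : Fin r₁ × Fin r₂ ≃ Fin r) (P Q : Mat r ℂ)
    (f : MvPolynomial (((κ₁ ⊕ κ₂) ⊕ (ι₁ ⊕ ι₂)) × Fin r × Fin r) ℂ) (Y₂ : κ₂ ⊕ ι₂ → Mat r₂ ℂ) :
    ∃ f₁ : MvPolynomial ((κ₁ ⊕ ι₁) × Fin r₁ × Fin r₁) ℂ,
      ∀ y₁ : FreeGroup (κ₁ ⊕ ι₁) →* (Mat r₁ ℂ)ˣ,
        evalG y₁ f₁ = evK (tenK e P Q (fun k => (y₁ (FreeGroup.of k) : Mat r₁ ℂ)) Y₂) f := by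
  let L := MvPolynomial ((κ₁ ⊕ ι₁) × Fin r₁ × Fin r₁) ℂ
  refine ⟨evK (tenK e P Q (fun k => Matrix.of fun i j => (MvPolynomial.X (k, i, j) : L))
    (fun k => (Y₂ k).map MvPolynomial.C)) f, ?_⟩
  intro y₁
  have h1 : ∀ g : L, evalG y₁ g = MvPolynomial.aeval
      (fun p => (y₁ (FreeGroup.of p.1) : Mat r₁ ℂ) p.2.1 p.2.2) g := fun g => evalG_eqn y₁ g
  rw [h1, evK_map]
  refine congrArg (fun X => evK X f) (funext fun k => ?_)
  rw [tenK_map]
  congr 1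
  · funext k
    ext i j
    simp
  · funext k
    ext i j
    simp

theorem exists_polyT₂ (e : Fin r₁ × Fin r₂ ≃ Fin r) (P Q : Mat r ℂ)
    (f : MvPolynomial (((κ₁ ⊕ κ₂) ⊕ (ι₁ ⊕ ι₂)) × Fin r × Fin r) ℂ) (Y₁ : κ₁ ⊕ ι₁ → Mat r₁ ℂ) :
    ∃ f₂ : MvPolynomial ((κ₂ ⊕ ι₂) × Fin r₂ × Fin r₂) ℂ,
      ∀ y₂ : FreeGroup (κ₂ ⊕ ι₂) →* (Mat r₂ ℂ)ˣ,
        evalG y₂ f₂ = evK (tenK e P Q Y₁ (fun k => (y₂ (FreeGroup.of k) : Mat r₂ ℂ))) f := by
  let L := MvPolynomial ((κ₂ ⊕ ι₂) × Fin r₂ × Fin r₂) ℂ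
  refine ⟨evK (tenK e P Q (fun k => (Y₁ k).map MvPolynomial.C)
    (fun k => Matrix.of fun i j => (MvPolynomial.X (k, i, j) : L))) f, ?_⟩
  intro y₂
  have h1 : ∀ g : L, evalG y₂ g = MvPolynomial.aeval
      (fun p => (y₂ (FreeGroup.of p.1) : Mat r₂ ℂ) p.2.1 p.2.2) g := fun g => evalG_eqn y₂ g
  rw [h1, evK_map]
  refine congrArg (fun X => evK X f) (funext fun k => ?_)
  rw [tenK_map]
  congr 1
  · funext k
    ext i j
    simp
  · funext k
    ext i j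
    simp

/-- The restrictions of an irreducible representation of the product generate the matrix algebra. -/
theorem adjoin_union_top {n : ℕ} (x : FreeGroup ((κ₁ ⊕ κ₂) ⊕ (ι₁ ⊕ ι₂)) →* (Mat n ℂ)ˣ)
    (hxtop : Algebra.adjoin ℂ (Set.range fun w => (x w : Mat n ℂ)) = ⊤) :
    Algebra.adjoin ℂ ((Set.range fun w => (x.comp (FreeGroup.map inc₁) w : Mat n ℂ)) ∪
      Set.range fun w => (x.comp (FreeGroup.map inc₂) w : Mat n ℂ)) = ⊤ := by
  rw [eq_top_iff, ← hxtop, adjoin_gen, Algebra.adjoin_le_iff]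
  rintro _ ⟨k, rfl⟩
  apply Algebra.subset_adjoin
  rcases inc_cases k with ⟨l, rfl⟩ | ⟨l, rfl⟩
  · refine Or.inl ⟨FreeGroup.of l, ?_⟩
    simp only [MonoidHom.comp_apply, FreeGroup.map.of]
  · refine Or.inr ⟨FreeGroup.of l, ?_⟩
    simp only [MonoidHom.comp_apply, FreeGroup.map.of]

theorem commute_of_prodRel {G : Type*} [Group G] {Rel₁ : Set (FreeGroup (κ₁ ⊕ ι₁))}
    {Rel₂ : Set (FreeGroup (κ₂ ⊕ ι₂))} (x : FreeGroup ((κ₁ ⊕ κ₂) ⊕ (ι₁ ⊕ ι₂)) →* G)
    (hrel : ∀ w ∈ prodRel Rel₁ Rel₂, x w = 1) (a : FreeGroup (κ₁ ⊕ ι₁))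
    (b : FreeGroup (κ₂ ⊕ ι₂)) :
    Commute (x.comp (FreeGroup.map inc₁) a) (x.comp (FreeGroup.map inc₂) b) := by
  refine commute_of_gen (x.comp (FreeGroup.map inc₁)) _ (fun k => ?_) a
  refine (commute_of_gen (x.comp (FreeGroup.map inc₂)) _ (fun l => ?_) b).symm
  rw [MonoidHom.comp_apply, MonoidHom.comp_apply, FreeGroup.map.of, FreeGroup.map.of]
  have h3 := hrel (FreeGroup.of (inc₁ k) * FreeGroup.of (inc₂ l) * (FreeGroup.of (inc₁ k))⁻¹ *
      (FreeGroup.of (inc₂ l))⁻¹) ((prodRel_eqn _ _ _).2 (Or.inr (Or.inr ⟨k, l, rfl⟩)))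
  rw [map_mul, map_mul, map_mul, map_inv, map_inv, mul_inv_eq_one, mul_inv_eq_iff_eq_mul] at h3
  exact h3.symm

/-- An irreducible representation of the product is a tensor product. -/
theorem exists_ten {Rel₁ : Set (FreeGroup (κ₁ ⊕ ι₁))}
    {Rel₂ : Set (FreeGroup (κ₂ ⊕ ι₂))} {n : ℕ} (hpos : 0 < n)
    (x : FreeGroup ((κ₁ ⊕ κ₂) ⊕ (ι₁ ⊕ ι₂)) →* (Mat n ℂ)ˣ)
    (hrel : ∀ w ∈ prodRel Rel₁ Rel₂, x w = 1)
    (hxtop : Algebra.adjoin ℂ (Set.range fun w => (x w : Mat n ℂ)) = ⊤) :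
    ∃ (r₁ r₂ : ℕ) (e : Fin r₁ × Fin r₂ ≃ Fin n) (P : (Mat n ℂ)ˣ)
      (z₁ : FreeGroup (κ₁ ⊕ ι₁) →* (Mat r₁ ℂ)ˣ) (z₂ : FreeGroup (κ₂ ⊕ ι₂) →* (Mat r₂ ℂ)ˣ),
      0 < r₁ ∧ 0 < r₂ ∧
      Algebra.adjoin ℂ (Set.range fun w => (z₁ w : Mat r₁ ℂ)) = ⊤ ∧
      Algebra.adjoin ℂ (Set.range fun w => (z₂ w : Mat r₂ ℂ)) = ⊤ ∧
      (∀ w ∈ Rel₁, z₁ w = 1) ∧ (∀ w ∈ Rel₂, z₂ w = 1) ∧ x = conjH P (ten e z₁ z₂) := by
  obtain ⟨r₁, r₂, e, P, z₁, z₂, hr₁, hr₂, ht₁, ht₂, hz₁, hz₂⟩ :=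
    tensor_decomp hpos (x.comp (FreeGroup.map inc₁)) (x.comp (FreeGroup.map inc₂))
      (commute_of_prodRel x hrel) (adjoin_union_top x hxtop)
  have hz₁' : ∀ a, x (FreeGroup.map inc₁ a) = P * krU₁ e (z₁ a) * P⁻¹ := by
    intro a
    apply Units.ext
    rw [Units.val_mul, Units.val_mul, krU₁_coe, kr]
    exact hz₁ a
  have hz₂' : ∀ b, x (FreeGroup.map inc₂ b) = P * krU₂ e (z₂ b) * P⁻¹ := by
    intro a
    apply Units.ext
    rw [Units.val_mul, Units.val_mul, krU₂_coe, kr]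
    exact hz₂ a
  refine ⟨r₁, r₂, e, P, z₁, z₂, hr₁, hr₂, ht₁, ht₂, fun w hw => ?_, fun w hw => ?_, ?_⟩
  · apply krU₁_inj e hr₂
    have h3 := hz₁' w
    rw [hrel _ ((prodRel_eqn _ _ _).2 (Or.inl ⟨w, hw, rfl⟩)), eq_mul_inv_iff_mul_eq, one_mul]
      at h3
    exact mul_left_cancel (by rw [mul_one]; exact h3.symm)
  · apply krU₂_inj e hr₁
    have h3 := hz₂' w
    rw [hrel _ ((prodRel_eqn _ _ _).2 (Or.inr (Or.inl ⟨w, hw, rfl⟩))),
      eq_mul_inv_iff_mul_eq, one_mul] at h3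
    exact mul_left_cancel (by rw [mul_one]; exact h3.symm)
  · ext1 k
    rw [conjH_apply]
    rcases inc_cases k with ⟨l, rfl⟩ | ⟨l, rfl⟩
    · rw [ten_of₁, ← hz₁', FreeGroup.map.of]
    · rw [ten_of₂, ← hz₂', FreeGroup.map.of]

theorem conjH_mem_DGT {κ ι : Type} {Rel : Set (FreeGroup (κ ⊕ ι))} {R : Type*} [CommRing R]
    (φ : R →+* ℂ) {n : ℕ} {C : ι → (Mat n ℂ)ˣ} {y : FreeGroup (κ ⊕ ι) →* (Mat n ℂ)ˣ}
    (hy : y ∈ DGT Rel φ C) (X : SpecialLinearGroup (Fin n) ℤ) :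
    conjH (slU (Int.castRingHom ℂ) X) y ∈ DGT Rel φ C :=
  ⟨conjH_mem_DG φ hy.1 X, adjoin_conj_top _ _ hy.2⟩

theorem conj_vanish_DGT {κ ι : Type} {Rel : Set (FreeGroup (κ ⊕ ι))} {R : Type*} [CommRing R]
    (φ : R →+* ℂ) {n : ℕ} {C : ι → (Mat n ℂ)ˣ} (f : MvPolynomial ((κ ⊕ ι) × Fin n × Fin n) ℂ)
    (hf : ∀ y ∈ DGT Rel φ C, evalG y f = 0) (y : FreeGroup (κ ⊕ ι) →* (Mat n ℂ)ˣ)
    (hy : y ∈ DGT Rel φ C) (P : (Mat n ℂ)ˣ) : evalG (conjH P y) f = 0 :=
  conj_vanish_gen (DGT Rel φ C) (fun _ hy X => conjH_mem_DGT φ hy X) f hf y hy P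

theorem evalG_conjH_ten {n : ℕ} (e : Fin r₁ × Fin r₂ ≃ Fin n) (P : (Mat n ℂ)ˣ)
    (f : MvPolynomial (((κ₁ ⊕ κ₂) ⊕ (ι₁ ⊕ ι₂)) × Fin n × Fin n) ℂ)
    (y₁ : FreeGroup (κ₁ ⊕ ι₁) →* (Mat r₁ ℂ)ˣ) (y₂ : FreeGroup (κ₂ ⊕ ι₂) →* (Mat r₂ ℂ)ˣ) :
    evalG (conjH P (ten e y₁ y₂)) f =
      evK (tenK e (P : Mat n ℂ) ((P⁻¹ : (Mat n ℂ)ˣ) : Mat n ℂ)
        (fun k => (y₁ (FreeGroup.of k) : Mat r₁ ℂ))
        (fun k => (y₂ (FreeGroup.of k) : Mat r₂ ℂ))) f := by
  rw [evalG_eq_evK]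
  exact congrArg (fun X => evK X f) (funext fun k => conjH_ten e P y₁ y₂ k)

/-- Density for tensor products, first factor. -/
theorem ten_dense₁ {R : Type*} [CommRing R] (φ : R →+* ℂ) (E : Subgroup ℂˣ)
    (Rel₁ : Set (FreeGroup (κ₁ ⊕ ι₁)))
    {n : ℕ} (h₁ : IrrDense Rel₁ φ E r₁) (e : Fin r₁ × Fin r₂ ≃ Fin n) (P : (Mat n ℂ)ˣ)
    (z₁ : FreeGroup (κ₁ ⊕ ι₁) →* (Mat r₁ ℂ)ˣ) (y₂ : FreeGroup (κ₂ ⊕ ι₂) →* (Mat r₂ ℂ)ˣ)
    (ht₁ : Algebra.adjoin ℂ (Set.range fun w => (z₁ w : Mat r₁ ℂ)) = ⊤)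
    (C₁ : ι₁ → (Mat r₁ ℂ)ˣ) (hE₁ : ∀ j, EigIn E (C₁ j : Mat r₁ ℂ)) (hY₁ : z₁ ∈ YG Rel₁ C₁)
    (f : MvPolynomial (((κ₁ ⊕ κ₂) ⊕ (ι₁ ⊕ ι₂)) × Fin n × Fin n) ℂ)
    (hf : ∀ y₁ ∈ DGT Rel₁ φ C₁, evalG (conjH P (ten e y₁ y₂)) f = 0) :
    evalG (conjH P (ten e z₁ y₂)) f = 0 := by
  obtain ⟨f₁, hf₁⟩ := exists_polyT₁ e (P : Mat n ℂ) ((P⁻¹ : (Mat n ℂ)ˣ) : Mat n ℂ) f
    (fun k => (y₂ (FreeGroup.of k) : Mat r₂ ℂ))
  rw [evalG_conjH_ten, ← hf₁]
  refine h₁ C₁ hE₁ z₁ hY₁ (fun M hM => scalar_of_adjoin z₁ ht₁ M hM) f₁ ?_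
  intro y₁ hy₁
  rw [hf₁, ← evalG_conjH_ten]
  exact hf y₁ hy₁

/-- Density for tensor products, second factor. -/
theorem ten_dense₂ {R : Type*} [CommRing R] (φ : R →+* ℂ) (E : Subgroup ℂˣ)
    (Rel₂ : Set (FreeGroup (κ₂ ⊕ ι₂)))
    {n : ℕ} (h₂ : IrrDense Rel₂ φ E r₂) (e : Fin r₁ × Fin r₂ ≃ Fin n) (P : (Mat n ℂ)ˣ)
    (y₁ : FreeGroup (κ₁ ⊕ ι₁) →* (Mat r₁ ℂ)ˣ) (z₂ : FreeGroup (κ₂ ⊕ ι₂) →* (Mat r₂ ℂ)ˣ)
    (ht₂ : Algebra.adjoin ℂ (Set.range fun w => (z₂ w : Mat r₂ ℂ)) = ⊤)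
    (C₂ : ι₂ → (Mat r₂ ℂ)ˣ) (hE₂ : ∀ j, EigIn E (C₂ j : Mat r₂ ℂ)) (hY₂ : z₂ ∈ YG Rel₂ C₂)
    (f : MvPolynomial (((κ₁ ⊕ κ₂) ⊕ (ι₁ ⊕ ι₂)) × Fin n × Fin n) ℂ)
    (hf : ∀ y₂ ∈ DGT Rel₂ φ C₂, evalG (conjH P (ten e y₁ y₂)) f = 0) :
    evalG (conjH P (ten e y₁ z₂)) f = 0 := by
  obtain ⟨f₂, hf₂⟩ := exists_polyT₂ e (P : Mat n ℂ) ((P⁻¹ : (Mat n ℂ)ˣ) : Mat n ℂ) f
    (fun k => (y₁ (FreeGroup.of k) : Mat r₁ ℂ))
  rw [evalG_conjH_ten, ← hf₂]
  refine h₂ C₂ hE₂ z₂ hY₂ (fun M hM => scalar_of_adjoin z₂ ht₂ M hM) f₂ ?_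
  intro y₂ hy₂
  rw [hf₂, ← evalG_conjH_ten]
  exact hf y₂ hy₂

theorem conj_boundary₁ {n : ℕ} (e : Fin r₁ × Fin r₂ ≃ Fin n) (P : (Mat n ℂ)ˣ)
    (z₁ : FreeGroup (κ₁ ⊕ ι₁) →* (Mat r₁ ℂ)ˣ) (z₂ : FreeGroup (κ₂ ⊕ ι₂) →* (Mat r₂ ℂ)ˣ)
    (j : ι₁) : IsConj (conjH P (ten e z₁ z₂) (FreeGroup.of (Sum.inr (Sum.inl j))))
      (krU₁ e (z₁ (FreeGroup.of (Sum.inr j)))) := by
  have h1 : (Sum.inr (Sum.inl j) : (κ₁ ⊕ κ₂) ⊕ (ι₁ ⊕ ι₂)) = inc₁ (Sum.inr j) := rfl
  rw [h1, conjH_apply, ten_of₁]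
  exact (isConj_iff.2 ⟨P, rfl⟩).symm

theorem conj_boundary₂ {n : ℕ} (e : Fin r₁ × Fin r₂ ≃ Fin n) (P : (Mat n ℂ)ˣ)
    (z₁ : FreeGroup (κ₁ ⊕ ι₁) →* (Mat r₁ ℂ)ˣ) (z₂ : FreeGroup (κ₂ ⊕ ι₂) →* (Mat r₂ ℂ)ˣ)
    (j : ι₂) : IsConj (conjH P (ten e z₁ z₂) (FreeGroup.of (Sum.inr (Sum.inr j))))
      (krU₂ e (z₂ (FreeGroup.of (Sum.inr j)))) := by
  have h1 : (Sum.inr (Sum.inr j) : (κ₁ ⊕ κ₂) ⊕ (ι₁ ⊕ ι₂)) = inc₂ (Sum.inr j) := rfl
  rw [h1, conjH_apply, ten_of₂]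
  exact (isConj_iff.2 ⟨P, rfl⟩).symm

/-- Density for tensor products. -/
theorem ten_dense {R : Type*} [CommRing R] (φ : R →+* ℂ) (E : Subgroup ℂˣ)
    (Rel₁ : Set (FreeGroup (κ₁ ⊕ ι₁))) (Rel₂ : Set (FreeGroup (κ₂ ⊕ ι₂)))
    {n : ℕ} (h₁ : IrrDense Rel₁ φ E r₁) (h₂ : IrrDense Rel₂ φ E r₂)
    (hr₁ : 0 < r₁) (hr₂ : 0 < r₂) (e : Fin r₁ × Fin r₂ ≃ Fin n) (P : (Mat n ℂ)ˣ)
    (z₁ : FreeGroup (κ₁ ⊕ ι₁) →* (Mat r₁ ℂ)ˣ) (z₂ : FreeGroup (κ₂ ⊕ ι₂) →* (Mat r₂ ℂ)ˣ)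
    (ht₁ : Algebra.adjoin ℂ (Set.range fun w => (z₁ w : Mat r₁ ℂ)) = ⊤)
    (ht₂ : Algebra.adjoin ℂ (Set.range fun w => (z₂ w : Mat r₂ ℂ)) = ⊤)
    (hz₁ : ∀ w ∈ Rel₁, z₁ w = 1) (hz₂ : ∀ w ∈ Rel₂, z₂ w = 1)
    (C : ι₁ ⊕ ι₂ → (Mat n ℂ)ˣ) (hC : ∀ j, EigIn E (C j : Mat n ℂ))
    (hconj : ∀ j, IsConj (C j) (conjH P (ten e z₁ z₂) (FreeGroup.of (Sum.inr j))))
    (f : MvPolynomial (((κ₁ ⊕ κ₂) ⊕ (ι₁ ⊕ ι₂)) × Fin n × Fin n) ℂ)
    (hf : ∀ y ∈ DGT (prodRel Rel₁ Rel₂) φ C, evalG y f = 0) :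
    evalG (conjH P (ten e z₁ z₂)) f = 0 := by
  obtain ⟨C₁, hC₁⟩ : ∃ C₁ : ι₁ → (Mat r₁ ℂ)ˣ, ∀ j, C₁ j = z₁ (FreeGroup.of (Sum.inr j)) :=
    ⟨_, fun j => rfl⟩
  obtain ⟨C₂, hC₂⟩ : ∃ C₂ : ι₂ → (Mat r₂ ℂ)ˣ, ∀ j, C₂ j = z₂ (FreeGroup.of (Sum.inr j)) :=
    ⟨_, fun j => rfl⟩
  have hCC₁ : ∀ j, IsConj (C (Sum.inl j)) (krU₁ e (C₁ j)) := fun j => by
    rw [hC₁]
    exact (hconj (Sum.inl j)).trans (conj_boundary₁ e P z₁ z₂ j)
  have hCC₂ : ∀ j, IsConj (C (Sum.inr j)) (krU₂ e (C₂ j)) := fun j => by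
    rw [hC₂]
    exact (hconj (Sum.inr j)).trans (conj_boundary₂ e P z₁ z₂ j)
  have hE₁ : ∀ j, EigIn E (C₁ j : Mat r₁ ℂ) := by
    intro j
    have h := (hC (Sum.inl j)).conj (hCC₁ j)
    rw [krU₁_coe] at h
    exact h.kr₁ hr₂
  have hE₂ : ∀ j, EigIn E (C₂ j : Mat r₂ ℂ) := by
    intro j
    have h := (hC (Sum.inr j)).conj (hCC₂ j)
    rw [krU₂_coe] at h
    exact h.kr₂ hr₁
  have hY₁ : z₁ ∈ YG Rel₁ C₁ :=
    ⟨hz₁, fun j => by rw [hC₁], ss_of_adjoin z₁ ht₁⟩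
  have hY₂ : z₂ ∈ YG Rel₂ C₂ :=
    ⟨hz₂, fun j => by rw [hC₂], ss_of_adjoin z₂ ht₂⟩
  refine ten_dense₂ φ E Rel₂ h₂ e P z₁ z₂ ht₂ C₂ hE₂ hY₂ f fun y₂ hy₂ => ?_
  refine ten_dense₁ φ E Rel₁ h₁ e P z₁ y₂ ht₁ C₁ hE₁ hY₁ f fun y₁ hy₁ => ?_
  exact conj_vanish_DGT φ f hf (ten e y₁ y₂) (ten_mem_DGT φ e hCC₁ hCC₂ hy₁ hy₂) P

/-- TASK G6b -/
theorem prod_irrDense {R : Type*} [CommRing R] (φ : R →+* ℂ) (E : Subgroup ℂˣ)
    (Rel₁ : Set (FreeGroup (κ₁ ⊕ ι₁))) (Rel₂ : Set (FreeGroup (κ₂ ⊕ ι₂)))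
    (h₁ : ∀ r' ≤ r, 0 < r' → IrrDense Rel₁ φ E r') (h₂ : ∀ r' ≤ r, 0 < r' → IrrDense Rel₂ φ E r') :
    ∀ r' ≤ r, 0 < r' → IrrDense (prodRel Rel₁ Rel₂) φ E r' := by
  intro n hn hpos C hC x hx hcen f hf
  have hxtop := burnside_top x hx.2.2 hcen
  obtain ⟨r₁, r₂, e, P, z₁, z₂, hr₁, hr₂, ht₁, ht₂, hz₁, hz₂, rfl⟩ :=
    exists_ten hpos x hx.1 hxtop
  have hcard : r₁ * r₂ = n := by
    have := Fintype.card_congr e
    simpa using this
  have hle₁ : r₁ ≤ r := le_trans (by rw [← hcard]; exact Nat.le_mul_of_pos_right _ hr₂) hn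
  have hle₂ : r₂ ≤ r := le_trans (by rw [← hcard]; exact Nat.le_mul_of_pos_left _ hr₁) hn
  exact ten_dense φ E Rel₁ Rel₂ (h₁ r₁ hle₁ hr₁) (h₂ r₂ hle₂ hr₂) hr₁ hr₂ e P z₁ z₂ ht₁ ht₂
    hz₁ hz₂ C hC hx.2.1 f hf

/-- TASK G6b -/
theorem prod_charOK (Rel₁ : Set (FreeGroup (κ₁ ⊕ ι₁))) (Rel₂ : Set (FreeGroup (κ₂ ⊕ ι₂)))
    (h₁ : CharOK Rel₁) (h₂ : CharOK Rel₂) : CharOK (prodRel Rel₁ Rel₂) := by
  intro w hw A _ χ hχ
  rw [prodRel_eqn] at hw
  rcases hw with ⟨w', hw', rfl⟩ | ⟨w', hw', rfl⟩ | ⟨k, l, rfl⟩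
  · refine h₁ w' hw' A (χ.comp (FreeGroup.map inc₁)) fun j => ?_
    rw [MonoidHom.comp_apply, FreeGroup.map.of]
    exact hχ (Sum.inl j)
  · refine h₂ w' hw' A (χ.comp (FreeGroup.map inc₂)) fun j => ?_
    rw [MonoidHom.comp_apply, FreeGroup.map.of]
    exact hχ (Sum.inr j)
  · rw [map_mul, map_mul, map_mul, map_inv, map_inv, mul_right_comm, mul_assoc,
      mul_comm (χ (FreeGroup.of (inc₁ k))), mul_assoc]
    simp

end Prod

end Vale.Agent.P002R
end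

section

/-!
# Products of families of groups
-/

namespace Vale.Agent.P002R

open Matrix

section equiv

variable {κ ι κ' ι' : Type} {r : ℕ}

/-- Renaming of the generators. -/
def renE (e₁ : κ ≃ κ') (e₂ : ι ≃ ι') : FreeGroup (κ ⊕ ι) →* FreeGroup (κ' ⊕ ι') :=
  FreeGroup.map (Sum.map e₁ e₂)

theorem renE_inl (e₁ : κ ≃ κ') (e₂ : ι ≃ ι') (k : κ) :
    renE e₁ e₂ (FreeGroup.of (Sum.inl k)) = FreeGroup.of (Sum.inl (e₁ k)) := by
  simp [renE]

theorem renE_inr (e₁ : κ ≃ κ') (e₂ : ι ≃ ι') (k : ι) :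
    renE e₁ e₂ (FreeGroup.of (Sum.inr k)) = FreeGroup.of (Sum.inr (e₂ k)) := by
  simp [renE]

theorem renE_symm (e₁ : κ ≃ κ') (e₂ : ι ≃ ι') (w : FreeGroup (κ ⊕ ι)) :
    renE e₁.symm e₂.symm (renE e₁ e₂ w) = w := by
  have h : (renE e₁.symm e₂.symm).comp (renE e₁ e₂) = MonoidHom.id _ := by
    apply FreeGroup.ext_hom
    rintro (k | k)
    · rw [MonoidHom.comp_apply, renE_inl, renE_inl, Equiv.symm_apply_apply]; rfl
    · rw [MonoidHom.comp_apply, renE_inr, renE_inr, Equiv.symm_apply_apply]; rfl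
  exact DFunLike.congr_fun h w

theorem renE_symm' (e₁ : κ ≃ κ') (e₂ : ι ≃ ι') (w : FreeGroup (κ' ⊕ ι')) :
    renE e₁ e₂ (renE e₁.symm e₂.symm w) = w := renE_symm e₁.symm e₂.symm w

theorem SS.renE (e₁ : κ ≃ κ') (e₂ : ι ≃ ι') {x : FreeGroup (κ' ⊕ ι') →* (Mat r ℂ)ˣ} (hx : SS x) :
    SS (x.comp (P002R.renE e₁ e₂)) := by
  intro W hW
  obtain ⟨W', h1, h2⟩ := hx W (fun w v hv => by
    have := hW (P002R.renE e₁.symm e₂.symm w) v hv
    rwa [MonoidHom.comp_apply, renE_symm'] at this)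
  exact ⟨W', fun w v hv => h1 _ v hv, h2⟩

theorem range_renE (e₁ : κ ≃ κ') (e₂ : ι ≃ ι') (x : FreeGroup (κ' ⊕ ι') →* (Mat r ℂ)ˣ) :
    (Set.range fun w => ((x.comp (renE e₁ e₂)) w : Mat r ℂ)) = Set.range fun w => (x w : Mat r ℂ) := by
  ext M
  constructor
  · rintro ⟨w, rfl⟩
    exact ⟨_, rfl⟩
  · rintro ⟨w, rfl⟩
    refine ⟨renE e₁.symm e₂.symm w, ?_⟩
    simp only [MonoidHom.comp_apply, renE_symm']

theorem evalG_renE (e₁ : κ ≃ κ') (e₂ : ι ≃ ι') (x : FreeGroup (κ' ⊕ ι') →* (Mat r ℂ)ˣ)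
    (f : MvPolynomial ((κ' ⊕ ι') × Fin r × Fin r) ℂ) :
    evalG (x.comp (renE e₁ e₂)) (MvPolynomial.rename
      (fun p => (Sum.map e₁.symm e₂.symm p.1, p.2)) f) = evalG x f := by
  rw [evalG, evalG, MvPolynomial.aeval_rename]
  congr 2
  funext p
  rcases p with ⟨k | k, q⟩
  · simp [renE_inl, MonoidHom.comp_apply]
  · simp [renE_inr, MonoidHom.comp_apply]

theorem mem_DGT_renE (e₁ : κ ≃ κ') (e₂ : ι ≃ ι') {R : Type*} [CommRing R] (φ : R →+* ℂ)
    (Rel : Set (FreeGroup (κ ⊕ ι))) (Rel' : Set (FreeGroup (κ' ⊕ ι')))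
    (h : ∀ y : FreeGroup (κ ⊕ ι) →* (Mat r ℂ)ˣ, (∀ w ∈ Rel, y w = 1) →
      ∀ w ∈ Rel', y (renE e₁.symm e₂.symm w) = 1)
    (C' : ι' → (Mat r ℂ)ˣ) (y : FreeGroup (κ ⊕ ι) →* (Mat r ℂ)ˣ)
    (hy : y ∈ DGT Rel φ (C' ∘ e₂)) : y.comp (renE e₁.symm e₂.symm) ∈ DGT Rel' φ C' := by
  obtain ⟨⟨⟨h1, h2, h3⟩, h4⟩, h5⟩ := hy
  refine ⟨⟨⟨fun w hw => h y h1 w hw, fun j => ?_, h3.renE e₁.symm e₂.symm⟩, fun k => ?_⟩, ?_⟩
  · rw [MonoidHom.comp_apply, renE_inr]
    have := h2 (e₂.symm j)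
    rwa [Function.comp, Equiv.apply_symm_apply] at this
  · rcases k with k | k
    · rw [MonoidHom.comp_apply, renE_inl]; exact h4 _
    · rw [MonoidHom.comp_apply, renE_inr]; exact h4 _
  · rw [range_renE]; exact h5

/-- Invariance under renaming of the generators and change of the relators. -/
theorem IrrDense.congr (e₁ : κ ≃ κ') (e₂ : ι ≃ ι') {R : Type*} [CommRing R] {φ : R →+* ℂ}
    {E : Subgroup ℂˣ} (Rel : Set (FreeGroup (κ ⊕ ι))) (Rel' : Set (FreeGroup (κ' ⊕ ι')))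
    (h : ∀ y : FreeGroup (κ ⊕ ι) →* (Mat r ℂ)ˣ, (∀ w ∈ Rel, y w = 1) ↔
      ∀ w ∈ Rel', y (renE e₁.symm e₂.symm w) = 1)
    (hI : IrrDense Rel φ E r) : IrrDense Rel' φ E r := by
  intro C' hC' x' hx' hirr f' hf'
  rw [← evalG_renE e₁ e₂ x' f']
  refine hI (C' ∘ e₂) (fun j => hC' _) (x'.comp (renE e₁ e₂)) ?_ ?_ _ ?_
  · refine ⟨(h _).2 fun w hw => ?_, fun j => ?_, hx'.2.2.renE e₁ e₂⟩
    · rw [MonoidHom.comp_apply, renE_symm']
      exact hx'.1 w hw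
    · rw [MonoidHom.comp_apply, renE_inr]
      exact hx'.2.1 _
  · intro M hM
    refine hirr M fun w => ?_
    have := hM (renE e₁.symm e₂.symm w)
    rwa [MonoidHom.comp_apply, renE_symm'] at this
  · intro y hy
    have h1 := hf' _ (mem_DGT_renE e₁ e₂ φ Rel Rel' (fun y hy => (h y).1 hy) C' y hy)
    have h2 := evalG_renE e₁ e₂ (y.comp (renE e₁.symm e₂.symm)) f'
    have h3 : (y.comp (renE e₁.symm e₂.symm)).comp (renE e₁ e₂) = y := by
      ext1 w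
      simp only [MonoidHom.comp_apply, renE_symm]
    rw [h3] at h2
    rw [h2, h1]

end equiv

/-! ### Families -/

/-- Inclusion of the generators of a factor. -/
def incS {k : ℕ} {κ ι : Fin k → Type} (i : Fin k) :
    κ i ⊕ ι i → (Σ i, κ i) ⊕ (Σ i, ι i) := Sum.map (Sigma.mk i) (Sigma.mk i)

/-- The relators of the product of a family of groups. -/
def famRel {k : ℕ} {κ ι : Fin k → Type} (Rel : ∀ i, Set (FreeGroup (κ i ⊕ ι i))) :
    Set (FreeGroup ((Σ i, κ i) ⊕ (Σ i, ι i))) :=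
  {w | ∃ i, ∃ v ∈ Rel i, w = FreeGroup.map (incS i) v} ∪
    {w | ∃ (i j : Fin k) (p : κ i ⊕ ι i) (q : κ j ⊕ ι j), i ≠ j ∧ w =
      FreeGroup.of (incS i p) * FreeGroup.of (incS j q) * (FreeGroup.of (incS i p))⁻¹ *
        (FreeGroup.of (incS j q))⁻¹}

theorem famRel_charOK {k : ℕ} {κ ι : Fin k → Type} (Rel : ∀ i, Set (FreeGroup (κ i ⊕ ι i)))
    (h : ∀ i, CharOK (Rel i)) : CharOK (famRel Rel) := by
  rintro w (⟨i, v, hv, rfl⟩ | ⟨i, j, p, q, -, rfl⟩) A _ χ hχ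
  · exact h i v hv A (χ.comp (FreeGroup.map (incS i))) fun j => by
      rw [MonoidHom.comp_apply, FreeGroup.map.of]
      exact hχ ⟨i, j⟩
  · rw [map_mul, map_mul, map_mul, map_inv, map_inv, mul_inv_eq_one, mul_inv_eq_iff_eq_mul,
      mul_comm]

/-- The first factor and the others. -/
def splitSig {k : ℕ} (κ : Fin (k + 1) → Type) : (κ 0 ⊕ Σ i : Fin k, κ i.succ) → Σ i, κ i :=
  Sum.elim (Sigma.mk 0) fun p => ⟨p.1.succ, p.2⟩

theorem splitSig_bijective {k : ℕ} (κ : Fin (k + 1) → Type) :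
    Function.Bijective (splitSig κ) := by
  constructor
  · rintro (a | ⟨i, a⟩) (b | ⟨j, b⟩) h
    · simp only [splitSig, Sum.elim_inl, Sigma.mk.injEq, heq_eq_eq, true_and] at h
      rw [h]
    · simp only [splitSig, Sum.elim_inl, Sum.elim_inr, Sigma.mk.injEq] at h
      exact absurd h.1 (Fin.succ_ne_zero j).symm
    · simp only [splitSig, Sum.elim_inl, Sum.elim_inr, Sigma.mk.injEq] at h
      exact absurd h.1 (Fin.succ_ne_zero i)
    · simp only [splitSig, Sum.elim_inr, Sigma.mk.injEq] at h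
      obtain ⟨h1, h2⟩ := h
      have h3 := Fin.succ_injective k h1
      subst h3
      rw [eq_of_heq h2]
  · rintro ⟨i, a⟩
    induction i using Fin.cases with
    | zero => exact ⟨Sum.inl a, rfl⟩
    | succ i => exact ⟨Sum.inr ⟨i, a⟩, rfl⟩

/-- The first factor and the others. -/
noncomputable def splitE {k : ℕ} (κ : Fin (k + 1) → Type) :
    (κ 0 ⊕ Σ i : Fin k, κ i.succ) ≃ Σ i, κ i :=
  Equiv.ofBijective _ (splitSig_bijective κ)

theorem splitE_inl {k : ℕ} (κ : Fin (k + 1) → Type) (a : κ 0) :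
    splitE κ (Sum.inl a) = ⟨0, a⟩ := rfl

theorem splitE_inr {k : ℕ} (κ : Fin (k + 1) → Type) (i : Fin k) (a : κ i.succ) :
    splitE κ (Sum.inr ⟨i, a⟩) = ⟨i.succ, a⟩ := rfl

theorem splitE_symm_zero {k : ℕ} (κ : Fin (k + 1) → Type) (a : κ 0) :
    (splitE κ).symm ⟨0, a⟩ = Sum.inl a := by
  rw [Equiv.symm_apply_eq, splitE_inl]

theorem splitE_symm_succ {k : ℕ} (κ : Fin (k + 1) → Type) (i : Fin k) (a : κ i.succ) :
    (splitE κ).symm ⟨i.succ, a⟩ = Sum.inr ⟨i, a⟩ := by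
  rw [Equiv.symm_apply_eq, splitE_inr]

/-- Representations without generators. -/
theorem irrDense_of_isEmpty {κ ι : Type} [IsEmpty κ] [IsEmpty ι] {r : ℕ}
    {R : Type*} [CommRing R] (φ : R →+* ℂ) (E : Subgroup ℂˣ) (Rel : Set (FreeGroup (κ ⊕ ι))) :
    IrrDense Rel φ E r := by
  intro C _ x hx hirr f hf
  exact hf x ⟨⟨hx, fun k => by rcases k with k | k <;> exact isEmptyElim k⟩,
    burnside_top x hx.2.2 hirr⟩

theorem fam_irrDense {R : Type*} [CommRing R] (φ : R →+* ℂ) (E : Subgroup ℂˣ) (r : ℕ) (k : ℕ) :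
    ∀ (κ ι : Fin k → Type) (Rel : ∀ i, Set (FreeGroup (κ i ⊕ ι i))),
      (∀ i, ∀ r' ≤ r, 0 < r' → IrrDense (Rel i) φ E r') →
      ∀ r' ≤ r, 0 < r' → IrrDense (famRel Rel) φ E r' := by
  induction k with
  | zero =>
    intro κ ι Rel _ r' _ _
    have : IsEmpty (Σ i, κ i) := ⟨fun p => p.1.elim0⟩
    have : IsEmpty (Σ i, ι i) := ⟨fun p => p.1.elim0⟩
    exact irrDense_of_isEmpty φ E _
  | succ k ih =>
    intro κ ι Rel hRel r' hr' hr'0
    have h1 := ih (fun i => κ i.succ) (fun i => ι i.succ) (fun i => Rel i.succ)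
      (fun i => hRel i.succ)
    have h2 := prod_irrDense φ E (Rel 0) (famRel fun i : Fin k => Rel i.succ) (hRel 0) h1 r' hr' hr'0
    refine IrrDense.congr (splitE κ) (splitE ι) _ _ ?_ h2
    intro y
    obtain ⟨G, hG⟩ : ∃ G : FreeGroup ((Σ i, κ i) ⊕ (Σ i, ι i)) →*
        FreeGroup ((κ 0 ⊕ Σ i : Fin k, κ i.succ) ⊕ (ι 0 ⊕ Σ i : Fin k, ι i.succ)),
        G = renE (splitE κ).symm (splitE ι).symm := ⟨_, rfl⟩
    rw [← hG]
    have hz : ∀ p : κ 0 ⊕ ι 0, G (FreeGroup.of (incS 0 p)) = FreeGroup.of (inc₁ p) := by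
      rintro (p | p)
      · rw [hG, incS, Sum.map_inl, renE_inl, splitE_symm_zero]; rfl
      · rw [hG, incS, Sum.map_inr, renE_inr, splitE_symm_zero]; rfl
    have hs : ∀ (i : Fin k) (p : κ i.succ ⊕ ι i.succ), G (FreeGroup.of (incS i.succ p)) =
        FreeGroup.of (inc₂ (incS (κ := fun i => κ i.succ) (ι := fun i => ι i.succ) i p)) := by
      rintro i (p | p)
      · rw [hG, incS, Sum.map_inl, renE_inl, splitE_symm_succ]; rfl
      · rw [hG, incS, Sum.map_inr, renE_inr, splitE_symm_succ]; rfl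
    have hz' : ∀ w, G (FreeGroup.map (incS 0) w) = FreeGroup.map inc₁ w := by
      intro w
      have : G.comp (FreeGroup.map (incS 0)) = FreeGroup.map inc₁ := by
        apply FreeGroup.ext_hom
        intro p
        rw [MonoidHom.comp_apply, FreeGroup.map.of, FreeGroup.map.of, hz]
      exact DFunLike.congr_fun this w
    have hs' : ∀ (i : Fin k) w, G (FreeGroup.map (incS i.succ) w) =
        FreeGroup.map inc₂ (FreeGroup.map (incS (κ := fun i => κ i.succ)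
          (ι := fun i => ι i.succ) i) w) := by
      intro i w
      have : G.comp (FreeGroup.map (incS i.succ)) = (FreeGroup.map inc₂).comp
          (FreeGroup.map (incS (κ := fun i => κ i.succ) (ι := fun i => ι i.succ) i)) := by
        apply FreeGroup.ext_hom
        intro p
        rw [MonoidHom.comp_apply, MonoidHom.comp_apply, FreeGroup.map.of, FreeGroup.map.of,
          FreeGroup.map.of, hs]
      exact DFunLike.congr_fun this w
    constructor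
    · intro hy
      have hy1 : ∀ w ∈ Rel 0, y (FreeGroup.map inc₁ w) = 1 := fun w hw =>
        hy _ (Or.inl (Or.inl ⟨w, hw, rfl⟩))
      have hy2 : ∀ w ∈ famRel (fun i : Fin k => Rel i.succ), y (FreeGroup.map inc₂ w) = 1 :=
        fun w hw => hy _ (Or.inl (Or.inr ⟨w, hw, rfl⟩))
      have hy3 : ∀ (p : κ 0 ⊕ ι 0) (q : (Σ i : Fin k, κ i.succ) ⊕ (Σ i : Fin k, ι i.succ)),
          Commute (y (FreeGroup.of (inc₁ p))) (y (FreeGroup.of (inc₂ q))) := by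
        intro p q
        have := hy _ (Or.inr ⟨p, q, rfl⟩)
        rw [map_mul, map_mul, map_mul, map_inv, map_inv, mul_inv_eq_one, mul_inv_eq_iff_eq_mul]
          at this
        exact this
      rintro w (⟨i, v, hv, rfl⟩ | ⟨i, j, p, q, hij, rfl⟩)
      · induction i using Fin.cases with
        | zero => rw [hz']; exact hy1 v hv
        | succ i => rw [hs']; exact hy2 _ (Or.inl ⟨i, v, hv, rfl⟩)
      · suffices h : Commute (y (G (FreeGroup.of (incS i p)))) (y (G (FreeGroup.of (incS j q)))) by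
          rw [map_mul, map_mul, map_mul, map_inv, map_inv, map_mul, map_mul, map_mul, map_inv,
            map_inv, mul_inv_eq_one, mul_inv_eq_iff_eq_mul]
          exact h
        induction i using Fin.cases with
        | zero =>
          induction j using Fin.cases with
          | zero => exact absurd rfl hij
          | succ j => rw [hz, hs]; exact hy3 _ _
        | succ i =>
          induction j using Fin.cases with
          | zero => rw [hz, hs]; exact (hy3 _ _).symm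
          | succ j =>
            rw [hs, hs]
            have := hy2 _ (Or.inr ⟨i, j, p, q, fun h => hij (by rw [h]), rfl⟩)
            rw [map_mul, map_mul, map_mul, map_inv, map_inv, FreeGroup.map.of, FreeGroup.map.of,
              map_mul, map_mul, map_mul, map_inv, map_inv, mul_inv_eq_one,
              mul_inv_eq_iff_eq_mul] at this
            exact this
    · intro hy
      have hcm : ∀ (i j : Fin (k + 1)) (p : κ i ⊕ ι i) (q : κ j ⊕ ι j), i ≠ j →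
          Commute (y (G (FreeGroup.of (incS i p)))) (y (G (FreeGroup.of (incS j q)))) := by
        intro i j p q hij
        have := hy _ (Or.inr ⟨i, j, p, q, hij, rfl⟩)
        rw [map_mul, map_mul, map_mul, map_inv, map_inv, map_mul, map_mul, map_mul, map_inv,
          map_inv, mul_inv_eq_one, mul_inv_eq_iff_eq_mul] at this
        exact this
      rintro w ((⟨v, hv, rfl⟩ | ⟨v, hv, rfl⟩) | ⟨p, q, rfl⟩)
      · rw [← hz']
        exact hy _ (Or.inl ⟨0, v, hv, rfl⟩)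
      · rcases hv with ⟨i, v, hv, rfl⟩ | ⟨i, j, p, q, hij, rfl⟩
        · rw [← hs']
          exact hy _ (Or.inl ⟨i.succ, v, hv, rfl⟩)
        · have := hcm i.succ j.succ p q (fun h => hij (Fin.succ_injective k h))
          rw [hs, hs] at this
          rw [map_mul, map_mul, map_mul, map_inv, map_inv, FreeGroup.map.of, FreeGroup.map.of,
            map_mul, map_mul, map_mul, map_inv, map_inv, mul_inv_eq_one, mul_inv_eq_iff_eq_mul]
          exact this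
      · have hq : ∃ (j : Fin k) (q' : κ j.succ ⊕ ι j.succ),
            q = incS (κ := fun i => κ i.succ) (ι := fun i => ι i.succ) j q' := by
          rcases q with ⟨j, q⟩ | ⟨j, q⟩
          · exact ⟨j, Sum.inl q, rfl⟩
          · exact ⟨j, Sum.inr q, rfl⟩
        obtain ⟨j, q', rfl⟩ := hq
        have := hcm 0 j.succ p q' (Fin.succ_ne_zero j).symm
        rw [hz, hs] at this
        rw [map_mul, map_mul, map_mul, map_inv, map_inv, mul_inv_eq_one, mul_inv_eq_iff_eq_mul]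
        exact this

end Vale.Agent.P002R
end

section

/-!
# Density with a condition on the boundary classes: reducible representations and products
-/

namespace Vale.Agent.P002R

open Matrix

/-- A condition on the boundary classes which implies that the eigenvalues are in `E` and which is
inherited by blocks and by tensor factors. -/
structure ClassOK (E : Subgroup ℂˣ) (Q : ∀ r : ℕ, Mat r ℂ → Prop) : Prop where
  eig : ∀ {r : ℕ} {M : Mat r ℂ}, Q r M → EigIn E M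
  conj : ∀ {r : ℕ} {X Y : (Mat r ℂ)ˣ}, IsConj X Y → Q r (X : Mat r ℂ) → Q r (Y : Mat r ℂ)
  blk : ∀ {r r₁ r₂ : ℕ} {D : P002.Dec r r₁ r₂} {A : (Mat r₁ ℂ)ˣ} {B : (Mat r₂ ℂ)ˣ},
    Q r (blkU D (A, B) : Mat r ℂ) → Q r₁ (A : Mat r₁ ℂ) ∧ Q r₂ (B : Mat r₂ ℂ)
  kr₁ : ∀ {r r₁ r₂ : ℕ} {e : Fin r₁ × Fin r₂ ≃ Fin r} {A : Mat r₁ ℂ}, 0 < r₂ →
    Q r (kr e A (1 : Mat r₂ ℂ)) → Q r₁ A
  kr₂ : ∀ {r r₁ r₂ : ℕ} {e : Fin r₁ × Fin r₂ ≃ Fin r} {B : Mat r₂ ℂ}, 0 < r₁ →
    Q r (kr e (1 : Mat r₁ ℂ) B) → Q r₂ B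

/-- Irreducible representations of dimension `r` with boundary classes in `Q` are in the Zariski
closure of the irreducible integral ones (integral up to scalars), with the same classes. -/
def IrrDenseQ {κ ι : Type} (Q : ι → ∀ r : ℕ, Mat r ℂ → Prop) (Rel : Set (FreeGroup (κ ⊕ ι)))
    {R : Type*} [CommRing R] (φ : R →+* ℂ) (r : ℕ) : Prop :=
  ∀ C : ι → (Mat r ℂ)ˣ, (∀ j, Q j r (C j : Mat r ℂ)) → ∀ x ∈ YG Rel C,
    (∀ M : Mat r ℂ, (∀ w, Commute M (x w : Mat r ℂ)) → ∃ c : ℂ, M = c • (1 : Mat r ℂ)) →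
    ∀ f : MvPolynomial ((κ ⊕ ι) × Fin r × Fin r) ℂ, (∀ y ∈ DGT Rel φ C, evalG y f = 0) →
      evalG x f = 0

theorem IrrDense.toQ {κ ι : Type} {Q : ι → ∀ r : ℕ, Mat r ℂ → Prop}
    {Rel : Set (FreeGroup (κ ⊕ ι))} {R : Type*} [CommRing R] {φ : R →+* ℂ} {E : Subgroup ℂˣ}
    {r : ℕ} (hQ : ∀ j, ∀ M, Q j r M → EigIn E M) (h : IrrDense Rel φ E r) :
    IrrDenseQ Q Rel φ r :=
  fun C hC => h C fun j => hQ j _ (hC j)

theorem classOK_eig (E : Subgroup ℂˣ) : ClassOK E fun _ M => EigIn E M where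
  eig := id
  conj := fun h hX => hX.conj h
  blk := fun h => h.blk
  kr₁ := fun h hA => hA.kr₁ h
  kr₂ := fun h hA => hA.kr₂ h

/-- `M` has a cyclic vector. -/
def HasCyc (r : ℕ) (M : Mat r ℂ) : Prop :=
  ∃ v : Fin r → ℂ, ∀ W : Submodule ℂ (Fin r → ℂ), v ∈ W → (∀ y ∈ W, M *ᵥ y ∈ W) → W = ⊤

theorem HasCyc.of_surj {r s : ℕ} {M : Mat r ℂ} {N : Mat s ℂ} (hM : HasCyc r M)
    (π : (Fin r → ℂ) →ₗ[ℂ] (Fin s → ℂ)) (hπ : Function.Surjective π)
    (h : ∀ x, π (M *ᵥ x) = N *ᵥ π x) : HasCyc s N := by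
  obtain ⟨v, hv⟩ := hM
  refine ⟨π v, fun W hW hN => ?_⟩
  have h1 := hv (W.comap π) hW fun y hy => by
    rw [Submodule.mem_comap, h]
    exact hN _ hy
  rw [Submodule.eq_top_iff']
  intro y
  obtain ⟨x, rfl⟩ := hπ y
  have h2 : x ∈ W.comap π := by
    rw [h1]
    trivial
  exact h2

theorem classOK_cyc (E : Subgroup ℂˣ) : ClassOK E fun r M => EigIn E M ∧ HasCyc r M where
  eig := fun h => h.1
  conj := fun {r X Y} h hX => by
    refine ⟨hX.1.conj h, ?_⟩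
    obtain ⟨U, rfl⟩ := isConj_iff.mp h
    refine hX.2.of_surj (Matrix.mulVecLin (U : Mat r ℂ)) ?_ fun x => ?_
    · intro y
      refine ⟨((U⁻¹ : (Mat r ℂ)ˣ) : Mat r ℂ) *ᵥ y, ?_⟩
      rw [Matrix.mulVecLin_apply, mulVec_mulVec, Units.mul_inv, one_mulVec]
    · rw [Matrix.mulVecLin_apply, Matrix.mulVecLin_apply, Units.val_mul, Units.val_mul,
        mulVec_mulVec, mulVec_mulVec, Matrix.mul_assoc, Units.inv_mul, Matrix.mul_one]
  blk := fun {r r₁ r₂ D A B} h => by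
    rw [blkU_coe] at h
    refine ⟨⟨(EigIn.blk (by rw [blkU_coe]; exact h.1)).1, ?_⟩,
      ⟨(EigIn.blk (by rw [blkU_coe]; exact h.1)).2, ?_⟩⟩
    · refine h.2.of_surj (Matrix.mulVecLin D.Q₁) (fun y => ⟨D.P₁ *ᵥ y, ?_⟩) fun x => ?_
      · rw [Matrix.mulVecLin_apply, mulVec_mulVec, D.h11, one_mulVec]
      · rw [Matrix.mulVecLin_apply, Matrix.mulVecLin_apply, mulVec_mulVec, mulVec_mulVec,
          P002.Dec.blk_complex, Matrix.mul_add, ← Matrix.mul_assoc, ← Matrix.mul_assoc,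
          ← Matrix.mul_assoc, ← Matrix.mul_assoc, D.h11, D.h12, Matrix.one_mul, Matrix.zero_mul,
          Matrix.zero_mul, add_zero]
    · refine h.2.of_surj (Matrix.mulVecLin D.Q₂) (fun y => ⟨D.P₂ *ᵥ y, ?_⟩) fun x => ?_
      · rw [Matrix.mulVecLin_apply, mulVec_mulVec, D.h22, one_mulVec]
      · rw [Matrix.mulVecLin_apply, Matrix.mulVecLin_apply, mulVec_mulVec, mulVec_mulVec,
          P002.Dec.blk_complex, Matrix.mul_add, ← Matrix.mul_assoc, ← Matrix.mul_assoc,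
          ← Matrix.mul_assoc, ← Matrix.mul_assoc, D.h22, D.h21, Matrix.one_mul, Matrix.zero_mul,
          Matrix.zero_mul, zero_add]
  kr₁ := fun {r r₁ r₂ e A} h hA => by
    refine ⟨hA.1.kr₁ h, ?_⟩
    refine hA.2.of_surj (LinearMap.funLeft ℂ ℂ fun i => e (i, ⟨0, h⟩))
      (LinearMap.funLeft_surjective_of_injective ℂ ℂ _ fun i j hij => by simpa using hij)
      fun x => ?_
    ext i
    simp only [LinearMap.funLeft_apply, mulVec, dotProduct]
    rw [← e.sum_comp, Fintype.sum_prod_type]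
    refine Finset.sum_congr rfl fun k _ => ?_
    simp only [kr_apply, Matrix.one_apply]
    simp
  kr₂ := fun {r r₁ r₂ e B} h hB => by
    refine ⟨hB.1.kr₂ h, ?_⟩
    refine hB.2.of_surj (LinearMap.funLeft ℂ ℂ fun i => e (⟨0, h⟩, i))
      (LinearMap.funLeft_surjective_of_injective ℂ ℂ _ fun i j hij => by simpa using hij)
      fun x => ?_
    ext i
    simp only [LinearMap.funLeft_apply, mulVec, dotProduct]
    rw [← e.sum_comp, Fintype.sum_prod_type_right]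
    refine Finset.sum_congr rfl fun k _ => ?_
    simp only [kr_apply, Matrix.one_apply]
    simp

section main

variable {κ ι : Type} {r : ℕ}

/-- Reducible representations, with a condition on the classes. -/
theorem partIVQ [Finite κ] {R : Type*} [CommRing R] (φ : R →+* ℂ) (E : Subgroup ℂˣ)
    {Q : ι → ∀ r : ℕ, Mat r ℂ → Prop} (hQ : ∀ j, ClassOK E (Q j))
    (hc : CoefOK' φ E r) (Rel : Set (FreeGroup (κ ⊕ ι))) (hchar : CharOK Rel)
    (hirr : ∀ r' ≤ r, 0 < r' → IrrDenseQ Q Rel φ r')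
    (C : ι → (Mat r ℂ)ˣ) (hC : ∀ j, Q j r (C j : Mat r ℂ))
    (x : FreeGroup (κ ⊕ ι) →* (Mat r ℂ)ˣ) (hx : x ∈ YG Rel C)
    (f : MvPolynomial ((κ ⊕ ι) × Fin r × Fin r) ℂ)
    (hf : ∀ y ∈ DG Rel φ C, evalG y f = 0) : evalG x f = 0 := by
  induction r using Nat.strong_induction_on with
  | _ r ih =>
  rcases Nat.eq_zero_or_pos r with rfl | hr0
  · refine hf x ⟨hx, fun k => ?_⟩
    have h1 : x (FreeGroup.of k) = 1 := by
      apply Units.ext
      exact Subsingleton.elim _ _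
    rw [h1]
    exact (GR 0 φ).one_mem
  by_cases hcen : ∀ M : Mat r ℂ, (∀ w, Commute M (x w : Mat r ℂ)) →
      ∃ c : ℂ, M = c • (1 : Mat r ℂ)
  · exact hirr r le_rfl hr0 C hC x hx hcen f fun y hy => hf y hy.1
  push Not at hcen
  obtain ⟨M, hM, hMs⟩ := hcen
  obtain ⟨hrel, hconj, hss⟩ := hx
  obtain ⟨u, hu⟩ := hc.unit
  have hu' : ∀ k : ℕ, 0 < k → φ (u : R) ^ k ≠ 1 := by
    intro k hk h1
    apply hu k hk
    have h2 : Units.map (φ : R →* ℂ) u ^ k = 1 := by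
      apply Units.ext
      rw [Units.val_pow_eq_pow_val, Units.val_one]
      exact h1
    rw [h2]
    exact E.one_mem
  have : Nonempty (Fin r) := ⟨⟨0, hr0⟩⟩
  obtain ⟨μ, hμM⟩ := Module.End.exists_eigenvalue (Matrix.mulVecLin M)
  let E₁ : Submodule ℂ (Fin r → ℂ) := Module.End.eigenspace (Matrix.mulVecLin M) μ
  have hE1 : E₁ ≠ ⊥ := hμM
  have hE1' : E₁ ≠ ⊤ := by
    intro htop
    apply hMs μ
    ext i j
    have hm : (Pi.single j 1 : Fin r → ℂ) ∈ E₁ := by rw [htop]; trivial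
    rw [Module.End.mem_eigenspace_iff, Matrix.mulVecLin_apply] at hm
    have := congrFun hm i
    simpa [Matrix.one_apply, Pi.single_apply, eq_comm] using this
  have hinv1 : P002.InvS x E₁ := by
    intro w v hv
    rw [Module.End.mem_eigenspace_iff, Matrix.mulVecLin_apply] at hv ⊢
    rw [mulVec_mulVec, (hM w).eq, ← mulVec_mulVec, hv, mulVec_smul]
  obtain ⟨E₂, hinv2, hcompl⟩ := hss E₁ hinv1
  obtain ⟨D, hD1, hD2⟩ := P002.exists_dec E₁ E₂ hcompl
  have hsum : Module.finrank ℂ E₁ + Module.finrank ℂ E₂ = r := by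
    rw [Submodule.finrank_add_eq_of_isCompl hcompl]
    simp
  have hlt1 : Module.finrank ℂ E₁ < r := by
    have := Submodule.finrank_lt hE1'
    simpa using this
  have hpos1 : 0 < Module.finrank ℂ E₁ := by
    rw [Module.finrank_pos_iff]
    exact Submodule.nontrivial_iff_ne_bot.mpr hE1
  have hlt2 : Module.finrank ℂ E₂ < r := by omega
  have hpos2 : 0 < Module.finrank ℂ E₂ := by omega
  have hm1 : ∀ w, (x w : Mat r ℂ) * D.P₁ = D.P₁ * (D.Q₁ * (x w : Mat r ℂ) * D.P₁) := by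
    intro w
    apply D.mul_P₁
    rw [hD1]
    exact hinv1 w
  have hm2 : ∀ w, (x w : Mat r ℂ) * D.P₂ = D.P₂ * (D.Q₂ * (x w : Mat r ℂ) * D.P₂) := by
    intro w
    apply D.mul_P₂
    rw [hD2]
    exact hinv2 w
  set x₁ := P002.compr x D.P₁ D.Q₁ D.h11 hm1 with hx1
  set x₂ := P002.compr x D.P₂ D.Q₂ D.h22 hm2 with hx2
  have hs1 : SS x₁ := P002.compr_ss x hss _ _ _ _
  have hs2 : SS x₂ := P002.compr_ss x hss _ _ _ _
  have hrel1 : ∀ w ∈ Rel, x₁ w = 1 := by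
    intro w hw
    apply Units.ext
    rw [hx1, P002.compr_apply, hrel w hw]
    simp [D.h11]
  have hrel2 : ∀ w ∈ Rel, x₂ w = 1 := by
    intro w hw
    apply Units.ext
    rw [hx2, P002.compr_apply, hrel w hw]
    simp [D.h22]
  have hblk : ∀ w, (x w : Mat r ℂ) = D.blk (x₁ w : Mat _ ℂ) (x₂ w : Mat _ ℂ) := by
    intro w
    rw [P002.Dec.blk_complex, hx1, hx2, P002.compr_apply, P002.compr_apply, ← hm1, ← hm2,
      Matrix.mul_assoc, Matrix.mul_assoc, ← Matrix.mul_add, D.hs, Matrix.mul_one]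
  -- the boundary classes of the pieces
  let C₁ : ι → (Mat (Module.finrank ℂ E₁) ℂ)ˣ := fun j => x₁ (FreeGroup.of (Sum.inr j))
  let C₂ : ι → (Mat (Module.finrank ℂ E₂) ℂ)ˣ := fun j => x₂ (FreeGroup.of (Sum.inr j))
  have hCblk : ∀ j, IsConj (C j) (blkU D (C₁ j, C₂ j)) := by
    intro j
    have : blkU D (C₁ j, C₂ j) = x (FreeGroup.of (Sum.inr j)) := by
      apply Units.ext
      rw [blkU_coe, hblk]
    rw [this]
    exact hconj j
  have heig : ∀ j, Q j _ (C₁ j : Mat (Module.finrank ℂ E₁) ℂ) ∧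
      Q j _ (C₂ j : Mat (Module.finrank ℂ E₂) ℂ) := fun j =>
    (hQ j).blk ((hQ j).conj (hCblk j) (hC j))
  have hY1 : x₁ ∈ YG Rel C₁ := ⟨hrel1, fun j => IsConj.refl _, hs1⟩
  have hY2 : x₂ ∈ YG Rel C₂ := ⟨hrel2, fun j => IsConj.refl _, hs2⟩
  have step1 : ∀ y₂ ∈ DG Rel φ C₂,
      evK (fun k => D.blk (x₁ (FreeGroup.of k) : Mat _ ℂ) (y₂ (FreeGroup.of k) : Mat _ ℂ)) f
        = 0 := by
    intro y₂ hy₂
    obtain ⟨f₁, hf₁⟩ := exists_poly₁ D f (fun k => (y₂ (FreeGroup.of k) : Mat _ ℂ))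
    rw [← hf₁]
    refine ih _ hlt1 (hc.mono hlt1.le)
      (fun r' hr' => hirr r' (hr'.trans hlt1.le)) C₁ (fun j => (heig j).1) x₁ hY1 f₁ ?_
    intro y₁ hy₁
    rw [hf₁]
    exact two_block_DG φ u hu'
      { hc := hc, hchar := hchar, hr1 := hpos1, hr2 := hpos2, hr := hsum, C₁ := C₁, C₂ := C₂,
        D₀ := D, hC := hCblk, nC₁ := fun j => (hQ j).eig (heig j).1,
        nC₂ := fun j => (hQ j).eig (heig j).2, y₁ := y₁,
        y₂ := y₂, h₁ := hy₁, h₂ := hy₂ } D f hf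
  have step2 : evK (fun k => D.blk (x₁ (FreeGroup.of k) : Mat _ ℂ)
      (x₂ (FreeGroup.of k) : Mat _ ℂ)) f = 0 := by
    obtain ⟨f₂, hf₂⟩ := exists_poly₂ D f (fun k => (x₁ (FreeGroup.of k) : Mat _ ℂ))
    rw [← hf₂]
    refine ih _ hlt2 (hc.mono hlt2.le)
      (fun r' hr' => hirr r' (hr'.trans hlt2.le)) C₂ (fun j => (heig j).2) x₂ hY2 f₂ ?_
    intro y₂ hy₂
    rw [hf₂]
    exact step1 y₂ hy₂
  rw [evalG_eq_evK]
  refine Eq.trans (congrArg (fun X => evK X f) (funext fun k => ?_)) step2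
  exact hblk _

end main

section prod

variable {κ₁ ι₁ κ₂ ι₂ : Type} {r r₁ r₂ : ℕ}

/-- Density for tensor products, first factor. -/
theorem ten_dense₁Q {R : Type*} [CommRing R] (φ : R →+* ℂ)
    {Q₁ : ι₁ → ∀ r : ℕ, Mat r ℂ → Prop} (Rel₁ : Set (FreeGroup (κ₁ ⊕ ι₁)))
    {n : ℕ} (h₁ : IrrDenseQ Q₁ Rel₁ φ r₁) (e : Fin r₁ × Fin r₂ ≃ Fin n) (P : (Mat n ℂ)ˣ)
    (z₁ : FreeGroup (κ₁ ⊕ ι₁) →* (Mat r₁ ℂ)ˣ) (y₂ : FreeGroup (κ₂ ⊕ ι₂) →* (Mat r₂ ℂ)ˣ)
    (ht₁ : Algebra.adjoin ℂ (Set.range fun w => (z₁ w : Mat r₁ ℂ)) = ⊤)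
    (C₁ : ι₁ → (Mat r₁ ℂ)ˣ) (hE₁ : ∀ j, Q₁ j r₁ (C₁ j : Mat r₁ ℂ)) (hY₁ : z₁ ∈ YG Rel₁ C₁)
    (f : MvPolynomial (((κ₁ ⊕ κ₂) ⊕ (ι₁ ⊕ ι₂)) × Fin n × Fin n) ℂ)
    (hf : ∀ y₁ ∈ DGT Rel₁ φ C₁, evalG (conjH P (ten e y₁ y₂)) f = 0) :
    evalG (conjH P (ten e z₁ y₂)) f = 0 := by
  obtain ⟨f₁, hf₁⟩ := exists_polyT₁ e (P : Mat n ℂ) ((P⁻¹ : (Mat n ℂ)ˣ) : Mat n ℂ) f
    (fun k => (y₂ (FreeGroup.of k) : Mat r₂ ℂ))
  rw [evalG_conjH_ten, ← hf₁]
  refine h₁ C₁ hE₁ z₁ hY₁ (fun M hM => scalar_of_adjoin z₁ ht₁ M hM) f₁ ?_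
  intro y₁ hy₁
  rw [hf₁, ← evalG_conjH_ten]
  exact hf y₁ hy₁

/-- Density for tensor products, second factor. -/
theorem ten_dense₂Q {R : Type*} [CommRing R] (φ : R →+* ℂ)
    {Q₂ : ι₂ → ∀ r : ℕ, Mat r ℂ → Prop} (Rel₂ : Set (FreeGroup (κ₂ ⊕ ι₂)))
    {n : ℕ} (h₂ : IrrDenseQ Q₂ Rel₂ φ r₂) (e : Fin r₁ × Fin r₂ ≃ Fin n) (P : (Mat n ℂ)ˣ)
    (y₁ : FreeGroup (κ₁ ⊕ ι₁) →* (Mat r₁ ℂ)ˣ) (z₂ : FreeGroup (κ₂ ⊕ ι₂) →* (Mat r₂ ℂ)ˣ)
    (ht₂ : Algebra.adjoin ℂ (Set.range fun w => (z₂ w : Mat r₂ ℂ)) = ⊤)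
    (C₂ : ι₂ → (Mat r₂ ℂ)ˣ) (hE₂ : ∀ j, Q₂ j r₂ (C₂ j : Mat r₂ ℂ)) (hY₂ : z₂ ∈ YG Rel₂ C₂)
    (f : MvPolynomial (((κ₁ ⊕ κ₂) ⊕ (ι₁ ⊕ ι₂)) × Fin n × Fin n) ℂ)
    (hf : ∀ y₂ ∈ DGT Rel₂ φ C₂, evalG (conjH P (ten e y₁ y₂)) f = 0) :
    evalG (conjH P (ten e y₁ z₂)) f = 0 := by
  obtain ⟨f₂, hf₂⟩ := exists_polyT₂ e (P : Mat n ℂ) ((P⁻¹ : (Mat n ℂ)ˣ) : Mat n ℂ) f
    (fun k => (y₁ (FreeGroup.of k) : Mat r₁ ℂ))
  rw [evalG_conjH_ten, ← hf₂]
  refine h₂ C₂ hE₂ z₂ hY₂ (fun M hM => scalar_of_adjoin z₂ ht₂ M hM) f₂ ?_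
  intro y₂ hy₂
  rw [hf₂, ← evalG_conjH_ten]
  exact hf y₂ hy₂

/-- Density for tensor products. -/
theorem ten_denseQ {R : Type*} [CommRing R] (φ : R →+* ℂ) (E : Subgroup ℂˣ)
    {Q₁ : ι₁ → ∀ r : ℕ, Mat r ℂ → Prop} {Q₂ : ι₂ → ∀ r : ℕ, Mat r ℂ → Prop}
    (hQ₁ : ∀ j, ClassOK E (Q₁ j)) (hQ₂ : ∀ j, ClassOK E (Q₂ j))
    (Rel₁ : Set (FreeGroup (κ₁ ⊕ ι₁))) (Rel₂ : Set (FreeGroup (κ₂ ⊕ ι₂)))
    {n : ℕ} (h₁ : IrrDenseQ Q₁ Rel₁ φ r₁) (h₂ : IrrDenseQ Q₂ Rel₂ φ r₂)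
    (hr₁ : 0 < r₁) (hr₂ : 0 < r₂) (e : Fin r₁ × Fin r₂ ≃ Fin n) (P : (Mat n ℂ)ˣ)
    (z₁ : FreeGroup (κ₁ ⊕ ι₁) →* (Mat r₁ ℂ)ˣ) (z₂ : FreeGroup (κ₂ ⊕ ι₂) →* (Mat r₂ ℂ)ˣ)
    (ht₁ : Algebra.adjoin ℂ (Set.range fun w => (z₁ w : Mat r₁ ℂ)) = ⊤)
    (ht₂ : Algebra.adjoin ℂ (Set.range fun w => (z₂ w : Mat r₂ ℂ)) = ⊤)
    (hz₁ : ∀ w ∈ Rel₁, z₁ w = 1) (hz₂ : ∀ w ∈ Rel₂, z₂ w = 1)
    (C : ι₁ ⊕ ι₂ → (Mat n ℂ)ˣ) (hC : ∀ j, Sum.elim Q₁ Q₂ j n (C j : Mat n ℂ))
    (hconj : ∀ j, IsConj (C j) (conjH P (ten e z₁ z₂) (FreeGroup.of (Sum.inr j))))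
    (f : MvPolynomial (((κ₁ ⊕ κ₂) ⊕ (ι₁ ⊕ ι₂)) × Fin n × Fin n) ℂ)
    (hf : ∀ y ∈ DGT (prodRel Rel₁ Rel₂) φ C, evalG y f = 0) :
    evalG (conjH P (ten e z₁ z₂)) f = 0 := by
  obtain ⟨C₁, hC₁⟩ : ∃ C₁ : ι₁ → (Mat r₁ ℂ)ˣ, ∀ j, C₁ j = z₁ (FreeGroup.of (Sum.inr j)) :=
    ⟨_, fun j => rfl⟩
  obtain ⟨C₂, hC₂⟩ : ∃ C₂ : ι₂ → (Mat r₂ ℂ)ˣ, ∀ j, C₂ j = z₂ (FreeGroup.of (Sum.inr j)) :=
    ⟨_, fun j => rfl⟩
  have hCC₁ : ∀ j, IsConj (C (Sum.inl j)) (krU₁ e (C₁ j)) := fun j => by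
    rw [hC₁]
    exact (hconj (Sum.inl j)).trans (conj_boundary₁ e P z₁ z₂ j)
  have hCC₂ : ∀ j, IsConj (C (Sum.inr j)) (krU₂ e (C₂ j)) := fun j => by
    rw [hC₂]
    exact (hconj (Sum.inr j)).trans (conj_boundary₂ e P z₁ z₂ j)
  have hE₁ : ∀ j, Q₁ j r₁ (C₁ j : Mat r₁ ℂ) := by
    intro j
    have h := (hQ₁ j).conj (hCC₁ j) (hC (Sum.inl j))
    rw [krU₁_coe] at h
    exact (hQ₁ j).kr₁ hr₂ h
  have hE₂ : ∀ j, Q₂ j r₂ (C₂ j : Mat r₂ ℂ) := by
    intro j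
    have h := (hQ₂ j).conj (hCC₂ j) (hC (Sum.inr j))
    rw [krU₂_coe] at h
    exact (hQ₂ j).kr₂ hr₁ h
  have hY₁ : z₁ ∈ YG Rel₁ C₁ :=
    ⟨hz₁, fun j => by rw [hC₁], ss_of_adjoin z₁ ht₁⟩
  have hY₂ : z₂ ∈ YG Rel₂ C₂ :=
    ⟨hz₂, fun j => by rw [hC₂], ss_of_adjoin z₂ ht₂⟩
  refine ten_dense₂Q φ Rel₂ h₂ e P z₁ z₂ ht₂ C₂ hE₂ hY₂ f fun y₂ hy₂ => ?_
  refine ten_dense₁Q φ Rel₁ h₁ e P z₁ y₂ ht₁ C₁ hE₁ hY₁ f fun y₁ hy₁ => ?_
  exact conj_vanish_DGT φ f hf (ten e y₁ y₂) (ten_mem_DGT φ e hCC₁ hCC₂ hy₁ hy₂) P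

/-- Irreducible representations of a product. -/
theorem prod_irrDenseQ {R : Type*} [CommRing R] (φ : R →+* ℂ) (E : Subgroup ℂˣ)
    {Q₁ : ι₁ → ∀ r : ℕ, Mat r ℂ → Prop} {Q₂ : ι₂ → ∀ r : ℕ, Mat r ℂ → Prop}
    (hQ₁ : ∀ j, ClassOK E (Q₁ j)) (hQ₂ : ∀ j, ClassOK E (Q₂ j))
    (Rel₁ : Set (FreeGroup (κ₁ ⊕ ι₁))) (Rel₂ : Set (FreeGroup (κ₂ ⊕ ι₂)))
    (h₁ : ∀ r' ≤ r, 0 < r' → IrrDenseQ Q₁ Rel₁ φ r')
    (h₂ : ∀ r' ≤ r, 0 < r' → IrrDenseQ Q₂ Rel₂ φ r') :
    ∀ r' ≤ r, 0 < r' → IrrDenseQ (Sum.elim Q₁ Q₂) (prodRel Rel₁ Rel₂) φ r' := by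
  intro n hn hpos C hC x hx hcen f hf
  have hxtop := burnside_top x hx.2.2 hcen
  obtain ⟨r₁, r₂, e, P, z₁, z₂, hr₁, hr₂, ht₁, ht₂, hz₁, hz₂, rfl⟩ :=
    exists_ten hpos x hx.1 hxtop
  have hcard : r₁ * r₂ = n := by
    have := Fintype.card_congr e
    simpa using this
  have hle₁ : r₁ ≤ r := le_trans (by rw [← hcard]; exact Nat.le_mul_of_pos_right _ hr₂) hn
  have hle₂ : r₂ ≤ r := le_trans (by rw [← hcard]; exact Nat.le_mul_of_pos_left _ hr₁) hn
  exact ten_denseQ φ E hQ₁ hQ₂ Rel₁ Rel₂ (h₁ r₁ hle₁ hr₁) (h₂ r₂ hle₂ hr₂) hr₁ hr₂ e P z₁ z₂ ht₁ ht₂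
    hz₁ hz₂ C hC hx.2.1 f hf

end prod

section equiv

variable {κ ι κ' ι' : Type} {r : ℕ}

/-- Invariance under renaming of the generators and change of the relators. -/
theorem IrrDenseQ.congr (e₁ : κ ≃ κ') (e₂ : ι ≃ ι') {R : Type*} [CommRing R] {φ : R →+* ℂ}
    {Q : ι → ∀ r : ℕ, Mat r ℂ → Prop} {Q' : ι' → ∀ r : ℕ, Mat r ℂ → Prop}
    (hQ : ∀ j M, Q' j r M → Q (e₂.symm j) r M) (Rel : Set (FreeGroup (κ ⊕ ι))) (Rel' : Set (FreeGroup (κ' ⊕ ι')))
    (h : ∀ y : FreeGroup (κ ⊕ ι) →* (Mat r ℂ)ˣ, (∀ w ∈ Rel, y w = 1) ↔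
      ∀ w ∈ Rel', y (renE e₁.symm e₂.symm w) = 1)
    (hI : IrrDenseQ Q Rel φ r) : IrrDenseQ Q' Rel' φ r := by
  intro C' hC' x' hx' hirr f' hf'
  rw [← evalG_renE e₁ e₂ x' f']
  refine hI (C' ∘ e₂) (fun j => by
    have h1 := hQ (e₂ j) _ (hC' (e₂ j))
    rwa [Equiv.symm_apply_apply] at h1) (x'.comp (renE e₁ e₂)) ?_ ?_ _ ?_
  · refine ⟨(h _).2 fun w hw => ?_, fun j => ?_, hx'.2.2.renE e₁ e₂⟩
    · rw [MonoidHom.comp_apply, renE_symm']
      exact hx'.1 w hw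
    · rw [MonoidHom.comp_apply, renE_inr]
      exact hx'.2.1 _
  · intro M hM
    refine hirr M fun w => ?_
    have := hM (renE e₁.symm e₂.symm w)
    rwa [MonoidHom.comp_apply, renE_symm'] at this
  · intro y hy
    have h1 := hf' _ (mem_DGT_renE e₁ e₂ φ Rel Rel' (fun y hy => (h y).1 hy) C' y hy)
    have h2 := evalG_renE e₁ e₂ (y.comp (renE e₁.symm e₂.symm)) f'
    have h3 : (y.comp (renE e₁.symm e₂.symm)).comp (renE e₁ e₂) = y := by
      ext1 w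
      simp only [MonoidHom.comp_apply, renE_symm]
    rw [h3] at h2
    rw [h2, h1]

end equiv

/-- Representations without generators. -/
theorem irrDenseQ_of_isEmpty {κ ι : Type} [IsEmpty κ] [IsEmpty ι] {r : ℕ}
    {R : Type*} [CommRing R] (φ : R →+* ℂ) (Q : ι → ∀ r : ℕ, Mat r ℂ → Prop)
    (Rel : Set (FreeGroup (κ ⊕ ι))) : IrrDenseQ Q Rel φ r := by
  intro C _ x hx hirr f hf
  exact hf x ⟨⟨hx, fun k => by rcases k with k | k <;> exact isEmptyElim k⟩,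
    burnside_top x hx.2.2 hirr⟩

theorem fam_irrDenseQ {R : Type*} [CommRing R] (φ : R →+* ℂ) (E : Subgroup ℂˣ) (r : ℕ) (k : ℕ) :
    ∀ (κ ι : Fin k → Type) (Q : ∀ i, ι i → ∀ r : ℕ, Mat r ℂ → Prop)
      (_ : ∀ i j, ClassOK E (Q i j)) (Rel : ∀ i, Set (FreeGroup (κ i ⊕ ι i))),
      (∀ i, ∀ r' ≤ r, 0 < r' → IrrDenseQ (Q i) (Rel i) φ r') →
      ∀ r' ≤ r, 0 < r' → IrrDenseQ (fun p : Σ i, ι i => Q p.1 p.2) (famRel Rel) φ r' := by
  induction k with
  | zero =>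
    intro κ ι Q _ Rel _ r' _ _
    have : IsEmpty (Σ i, κ i) := ⟨fun p => p.1.elim0⟩
    have : IsEmpty (Σ i, ι i) := ⟨fun p => p.1.elim0⟩
    exact irrDenseQ_of_isEmpty φ _ _
  | succ k ih =>
    intro κ ι Q hQ Rel hRel r' hr' hr'0
    have h1 := ih (fun i => κ i.succ) (fun i => ι i.succ) (fun i => Q i.succ)
      (fun i => hQ i.succ) (fun i => Rel i.succ) (fun i => hRel i.succ)
    have h2 := prod_irrDenseQ φ E (hQ 0) (fun p : Σ i : Fin k, ι i.succ => hQ p.1.succ p.2)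
      (Rel 0) (famRel fun i : Fin k => Rel i.succ) (hRel 0) h1 r' hr' hr'0
    refine IrrDenseQ.congr (splitE κ) (splitE ι) (fun j M hM => ?_) _ _ ?_ h2
    · obtain ⟨j', rfl⟩ := (splitE ι).surjective j
      rw [Equiv.symm_apply_apply]
      rcases j' with j' | ⟨i, j'⟩
      · exact hM
      · exact hM
    intro y
    obtain ⟨G, hG⟩ : ∃ G : FreeGroup ((Σ i, κ i) ⊕ (Σ i, ι i)) →*
        FreeGroup ((κ 0 ⊕ Σ i : Fin k, κ i.succ) ⊕ (ι 0 ⊕ Σ i : Fin k, ι i.succ)),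
        G = renE (splitE κ).symm (splitE ι).symm := ⟨_, rfl⟩
    rw [← hG]
    have hz : ∀ p : κ 0 ⊕ ι 0, G (FreeGroup.of (incS 0 p)) = FreeGroup.of (inc₁ p) := by
      rintro (p | p)
      · rw [hG, incS, Sum.map_inl, renE_inl, splitE_symm_zero]; rfl
      · rw [hG, incS, Sum.map_inr, renE_inr, splitE_symm_zero]; rfl
    have hs : ∀ (i : Fin k) (p : κ i.succ ⊕ ι i.succ), G (FreeGroup.of (incS i.succ p)) =
        FreeGroup.of (inc₂ (incS (κ := fun i => κ i.succ) (ι := fun i => ι i.succ) i p)) := by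
      rintro i (p | p)
      · rw [hG, incS, Sum.map_inl, renE_inl, splitE_symm_succ]; rfl
      · rw [hG, incS, Sum.map_inr, renE_inr, splitE_symm_succ]; rfl
    have hz' : ∀ w, G (FreeGroup.map (incS 0) w) = FreeGroup.map inc₁ w := by
      intro w
      have : G.comp (FreeGroup.map (incS 0)) = FreeGroup.map inc₁ := by
        apply FreeGroup.ext_hom
        intro p
        rw [MonoidHom.comp_apply, FreeGroup.map.of, FreeGroup.map.of, hz]
      exact DFunLike.congr_fun this w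
    have hs' : ∀ (i : Fin k) w, G (FreeGroup.map (incS i.succ) w) =
        FreeGroup.map inc₂ (FreeGroup.map (incS (κ := fun i => κ i.succ)
          (ι := fun i => ι i.succ) i) w) := by
      intro i w
      have : G.comp (FreeGroup.map (incS i.succ)) = (FreeGroup.map inc₂).comp
          (FreeGroup.map (incS (κ := fun i => κ i.succ) (ι := fun i => ι i.succ) i)) := by
        apply FreeGroup.ext_hom
        intro p
        rw [MonoidHom.comp_apply, MonoidHom.comp_apply, FreeGroup.map.of, FreeGroup.map.of,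
          FreeGroup.map.of, hs]
      exact DFunLike.congr_fun this w
    constructor
    · intro hy
      have hy1 : ∀ w ∈ Rel 0, y (FreeGroup.map inc₁ w) = 1 := fun w hw =>
        hy _ (Or.inl (Or.inl ⟨w, hw, rfl⟩))
      have hy2 : ∀ w ∈ famRel (fun i : Fin k => Rel i.succ), y (FreeGroup.map inc₂ w) = 1 :=
        fun w hw => hy _ (Or.inl (Or.inr ⟨w, hw, rfl⟩))
      have hy3 : ∀ (p : κ 0 ⊕ ι 0) (q : (Σ i : Fin k, κ i.succ) ⊕ (Σ i : Fin k, ι i.succ)),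
          Commute (y (FreeGroup.of (inc₁ p))) (y (FreeGroup.of (inc₂ q))) := by
        intro p q
        have := hy _ (Or.inr ⟨p, q, rfl⟩)
        rw [map_mul, map_mul, map_mul, map_inv, map_inv, mul_inv_eq_one, mul_inv_eq_iff_eq_mul]
          at this
        exact this
      rintro w (⟨i, v, hv, rfl⟩ | ⟨i, j, p, q, hij, rfl⟩)
      · induction i using Fin.cases with
        | zero => rw [hz']; exact hy1 v hv
        | succ i => rw [hs']; exact hy2 _ (Or.inl ⟨i, v, hv, rfl⟩)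
      · suffices h : Commute (y (G (FreeGroup.of (incS i p)))) (y (G (FreeGroup.of (incS j q)))) by
          rw [map_mul, map_mul, map_mul, map_inv, map_inv, map_mul, map_mul, map_mul, map_inv,
            map_inv, mul_inv_eq_one, mul_inv_eq_iff_eq_mul]
          exact h
        induction i using Fin.cases with
        | zero =>
          induction j using Fin.cases with
          | zero => exact absurd rfl hij
          | succ j => rw [hz, hs]; exact hy3 _ _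
        | succ i =>
          induction j using Fin.cases with
          | zero => rw [hz, hs]; exact (hy3 _ _).symm
          | succ j =>
            rw [hs, hs]
            have := hy2 _ (Or.inr ⟨i, j, p, q, fun h => hij (by rw [h]), rfl⟩)
            rw [map_mul, map_mul, map_mul, map_inv, map_inv, FreeGroup.map.of, FreeGroup.map.of,
              map_mul, map_mul, map_mul, map_inv, map_inv, mul_inv_eq_one,
              mul_inv_eq_iff_eq_mul] at this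
            exact this
    · intro hy
      have hcm : ∀ (i j : Fin (k + 1)) (p : κ i ⊕ ι i) (q : κ j ⊕ ι j), i ≠ j →
          Commute (y (G (FreeGroup.of (incS i p)))) (y (G (FreeGroup.of (incS j q)))) := by
        intro i j p q hij
        have := hy _ (Or.inr ⟨i, j, p, q, hij, rfl⟩)
        rw [map_mul, map_mul, map_mul, map_inv, map_inv, map_mul, map_mul, map_mul, map_inv,
          map_inv, mul_inv_eq_one, mul_inv_eq_iff_eq_mul] at this
        exact this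
      rintro w ((⟨v, hv, rfl⟩ | ⟨v, hv, rfl⟩) | ⟨p, q, rfl⟩)
      · rw [← hz']
        exact hy _ (Or.inl ⟨0, v, hv, rfl⟩)
      · rcases hv with ⟨i, v, hv, rfl⟩ | ⟨i, j, p, q, hij, rfl⟩
        · rw [← hs']
          exact hy _ (Or.inl ⟨i.succ, v, hv, rfl⟩)
        · have := hcm i.succ j.succ p q (fun h => hij (Fin.succ_injective k h))
          rw [hs, hs] at this
          rw [map_mul, map_mul, map_mul, map_inv, map_inv, FreeGroup.map.of, FreeGroup.map.of,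
            map_mul, map_mul, map_mul, map_inv, map_inv, mul_inv_eq_one, mul_inv_eq_iff_eq_mul]
          exact this
      · have hq : ∃ (j : Fin k) (q' : κ j.succ ⊕ ι j.succ),
            q = incS (κ := fun i => κ i.succ) (ι := fun i => ι i.succ) j q' := by
          rcases q with ⟨j, q⟩ | ⟨j, q⟩
          · exact ⟨j, Sum.inl q, rfl⟩
          · exact ⟨j, Sum.inr q, rfl⟩
        obtain ⟨j, q', rfl⟩ := hq
        have := hcm 0 j.succ p q' (Fin.succ_ne_zero j).symm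
        rw [hz, hs] at this
        rw [map_mul, map_mul, map_mul, map_inv, map_inv, mul_inv_eq_one, mul_inv_eq_iff_eq_mul]
        exact this

end Vale.Agent.P002R
end

section

/-!
# Groups all of whose representations have commuting generators
-/

namespace Vale.Agent.P002R

open Matrix

variable {κ ι : Type} {r : ℕ}

/-- If the generators commute in every representation, the irreducible representations are
integral up to scalars. -/
theorem abel_irrDense_aux {R : Type*} [CommRing R] (φ : R →+* ℂ) (E : Subgroup ℂˣ)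
    (Rel : Set (FreeGroup (κ ⊕ ι))) (hr : 0 < r)
    (hab : ∀ x : FreeGroup (κ ⊕ ι) →* (Mat r ℂ)ˣ, (∀ w ∈ Rel, x w = 1) →
      ∀ k l, Commute (x (FreeGroup.of k)) (x (FreeGroup.of l))) : IrrDense Rel φ E r := by
  intro C _ x hx hirr f hf
  apply hf
  refine ⟨⟨hx, fun k => ?_⟩, burnside_top x hx.2.2 hirr⟩
  have hcomm : ∀ w, Commute (x (FreeGroup.of k)) (x w) := by
    intro w
    induction w using FreeGroup.induction_on with
    | C1 =>
      rw [map_one]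
      exact Commute.one_right _
    | of l => exact hab x hx.1 k l
    | inv_of l hl =>
      rw [map_inv]
      exact hl.inv_right
    | mul a b ha hb =>
      rw [map_mul]
      exact ha.mul_right hb
  obtain ⟨c, hc⟩ := hirr (x (FreeGroup.of k) : Mat r ℂ) (fun w => by
    exact congrArg Units.val (hcomm w).eq)
  have hc0 : c ≠ 0 := by
    rintro rfl
    rw [zero_smul] at hc
    have h1 : (x (FreeGroup.of k) : Mat r ℂ) * ((x (FreeGroup.of k))⁻¹ : (Mat r ℂ)ˣ) = 1 :=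
      Units.mul_inv _
    rw [hc, Matrix.zero_mul] at h1
    have h2 := congrFun (congrFun h1 ⟨0, hr⟩) ⟨0, hr⟩
    rw [Matrix.zero_apply, Matrix.one_apply_eq] at h2
    exact zero_ne_one h2
  refine ⟨Units.mk0 c hc0, 1, ?_⟩
  rw [map_one, mul_one]
  apply Units.ext
  rw [hc]
  change c • (1 : Mat r ℂ) = algebraMap ℂ (Mat r ℂ) c
  rw [Algebra.algebraMap_eq_smul_one]

theorem abel_irrDense {R : Type*} [CommRing R] (φ : R →+* ℂ) (E : Subgroup ℂˣ)
    (Rel : Set (FreeGroup (κ ⊕ ι)))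
    (hab : ∀ (r' : ℕ) (x : FreeGroup (κ ⊕ ι) →* (Mat r' ℂ)ˣ), (∀ w ∈ Rel, x w = 1) →
      ∀ k l, Commute (x (FreeGroup.of k)) (x (FreeGroup.of l))) (r : ℕ) (hr : 0 < r) :
    IrrDense Rel φ E r :=
  abel_irrDense_aux φ E Rel hr (hab r)

/-- The commutation of the generators for a surface group `π₁` with `χ ≥ 0`: the sphere with at
most two punctures and the torus. -/
theorem surface_comm {g n : ℕ} (hgn : (g = 0 ∧ n ≤ 2) ∨ (g = 1 ∧ n = 0)) (r' : ℕ)
    (x : FreeGroup ((Fin g × Bool) ⊕ Fin n) →* (Mat r' ℂ)ˣ)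
    (hx : ∀ w ∈ ({relatorU g n} : Set (FreeGroup ((Fin g × Bool) ⊕ Fin n))), x w = 1) :
    ∀ k l, Commute (x (FreeGroup.of k)) (x (FreeGroup.of l)) := by
  have h0 := hx _ (Set.mem_singleton _)
  rw [relatorU_eqn] at h0
  rcases hgn with ⟨rfl, hn⟩ | ⟨rfl, rfl⟩
  · interval_cases n
    · rintro (k | k)
      · exact k.1.elim0
      · exact k.elim0
    · rintro (k | k) (l | l)
      · exact k.1.elim0
      · exact k.1.elim0
      · exact l.1.elim0
      · rw [Subsingleton.elim k l]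
    · have h1 : x (FreeGroup.of (Sum.inr 0)) * x (FreeGroup.of (Sum.inr 1)) = 1 := by
        simpa using h0
      have h2 : Commute (x (FreeGroup.of (Sum.inr 0))) (x (FreeGroup.of (Sum.inr 1))) := by
        rw [eq_inv_of_mul_eq_one_left h1]
        exact (Commute.refl _).inv_left
      rintro (k | k) (l | l)
      · exact k.1.elim0
      · exact k.1.elim0
      · exact l.1.elim0
      · fin_cases k <;> fin_cases l
        · exact Commute.refl _
        · exact h2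
        · exact h2.symm
        · exact Commute.refl _
  · have h1 : x (FreeGroup.of (Sum.inl (0, false))) * x (FreeGroup.of (Sum.inl (0, true))) *
        (x (FreeGroup.of (Sum.inl (0, false))))⁻¹ * (x (FreeGroup.of (Sum.inl (0, true))))⁻¹ =
          1 := by
      simpa using h0
    have h2 : Commute (x (FreeGroup.of (Sum.inl (0, false))))
        (x (FreeGroup.of (Sum.inl (0, true)))) := by
      have h3 := mul_inv_eq_one.1 h1
      rw [mul_inv_eq_iff_eq_mul] at h3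
      exact h3
    rintro (⟨k, b⟩ | k) (⟨l, b'⟩ | l)
    · rw [Subsingleton.elim k 0, Subsingleton.elim l 0]
      cases b <;> cases b'
      · exact Commute.refl _
      · exact h2
      · exact h2.symm
      · exact Commute.refl _
    · exact l.elim0
    · exact k.elim0
    · exact k.elim0

end Vale.Agent.P002R
end

section

/-!
# Permutation of the punctures of a sphere
-/

namespace Vale.Agent.P002R

open Matrix

/-- The entries of a word in matrices of fixed determinants are polynomials in the entries of the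
generators. -/
theorem exists_word_matrixD {K : Type} (r : ℕ) (d : K → ℂˣ) (w : FreeGroup K) :
    ∃ M : Matrix (Fin r) (Fin r) (MvPolynomial (K × Fin r × Fin r) ℂ),
      ∀ x : FreeGroup K →* (Mat r ℂ)ˣ, (∀ k, (x (FreeGroup.of k) : Mat r ℂ).det = d k) →
        M.map (evalG x) = (x w : Mat r ℂ) := by
  obtain ⟨S, hS⟩ : ∃ S : Subgroup (FreeGroup K), ∀ w, w ∈ S ↔
      ∃ M : Matrix (Fin r) (Fin r) (MvPolynomial (K × Fin r × Fin r) ℂ),
        ∀ x : FreeGroup K →* (Mat r ℂ)ˣ, (∀ k, (x (FreeGroup.of k) : Mat r ℂ).det = d k) →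
          M.map (evalG x) = (x w : Mat r ℂ) := by
    refine ⟨{
      carrier := {w | ∃ M : Matrix (Fin r) (Fin r) (MvPolynomial (K × Fin r × Fin r) ℂ),
        ∀ x : FreeGroup K →* (Mat r ℂ)ˣ, (∀ k, (x (FreeGroup.of k) : Mat r ℂ).det = d k) →
          M.map (evalG x) = (x w : Mat r ℂ)}
      mul_mem' := ?_
      one_mem' := ?_
      inv_mem' := ?_ }, fun w => Iff.rfl⟩
    · rintro a b ⟨M, hM⟩ ⟨N, hN⟩
      refine ⟨M * N, fun x hx => ?_⟩
      have h1 := RingHom.map_mul (RingHom.mapMatrix (m := Fin r) (evalG x).toRingHom) M N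
      rw [map_mul, Units.val_mul, ← hM x hx, ← hN x hx]
      exact h1
    · refine ⟨1, fun x _ => ?_⟩
      rw [Matrix.map_one _ (map_zero _) (map_one _), map_one, Units.val_one]
    · rintro a ⟨M, hM⟩
      refine ⟨((FreeGroup.lift d a)⁻¹ : ℂˣ).val • M.adjugate, fun x hx => ?_⟩
      have h1 := RingHom.map_adjugate (evalG x).toRingHom M
      have h2 : ∀ w, (x w : Mat r ℂ).det = (FreeGroup.lift d w : ℂˣ) := by
        have h3 : (Units.map (Matrix.detMonoidHom (n := Fin r) (R := ℂ))).comp x =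
            FreeGroup.lift d := by
          apply FreeGroup.ext_hom
          intro k
          rw [FreeGroup.lift_apply_of]
          apply Units.ext
          exact hx k
        intro w
        rw [← h3]
        rfl
      have h4 : ((x a⁻¹ : (Mat r ℂ)ˣ) : Mat r ℂ) =
          ((FreeGroup.lift d a)⁻¹ : ℂˣ).val • (x a : Mat r ℂ).adjugate := by
        rw [map_inv, Matrix.coe_units_inv, Matrix.inv_def, Ring.inverse_eq_inv', h2,
          Units.val_inv_eq_inv_val]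
      rw [h4, ← hM x hx]
      have h5 : (M.map (evalG x)).adjugate = M.adjugate.map (evalG x) := h1.symm
      rw [h5]
      ext i j
      simp [Matrix.map_apply, Matrix.smul_apply]
  have h : (⊤ : Subgroup (FreeGroup K)) ≤ S := by
    rw [← FreeGroup.closure_range_of, Subgroup.closure_le]
    rintro _ ⟨p, rfl⟩
    rw [SetLike.mem_coe, hS]
    refine ⟨Matrix.of fun i j => MvPolynomial.X (p, i, j), fun x _ => ?_⟩
    ext i j
    simp [evalG]
  exact (hS w).1 (h (Subgroup.mem_top w))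

/-- An endomorphism which fixes the generators in `κ` and maps the generators in `ι` to words in
the generators in `ι`. -/
def Fixes {κ ι : Type} (τ : FreeGroup (κ ⊕ ι) →* FreeGroup (κ ⊕ ι)) : Prop :=
  (∀ k, τ (FreeGroup.of (Sum.inl k)) = FreeGroup.of (Sum.inl k)) ∧
    ∀ j, ∃ v : FreeGroup ι, τ (FreeGroup.of (Sum.inr j)) = FreeGroup.map Sum.inr v

/-- Pull back of a polynomial by an endomorphism of the free group. -/
theorem exists_pullbackD {κ ι : Type} {r : ℕ} (d : ι → ℂˣ)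
    (τ : FreeGroup (κ ⊕ ι) →* FreeGroup (κ ⊕ ι)) (hτ : Fixes τ)
    (F : MvPolynomial ((κ ⊕ ι) × Fin r × Fin r) ℂ) :
    ∃ f : MvPolynomial ((κ ⊕ ι) × Fin r × Fin r) ℂ, ∀ x : FreeGroup (κ ⊕ ι) →* (Mat r ℂ)ˣ,
      (∀ j, (x (FreeGroup.of (Sum.inr j)) : Mat r ℂ).det = d j) →
        evalG x f = evalG (x.comp τ) F := by
  have key : ∀ p : κ ⊕ ι, ∃ M : Matrix (Fin r) (Fin r) (MvPolynomial ((κ ⊕ ι) × Fin r × Fin r) ℂ),
      ∀ x : FreeGroup (κ ⊕ ι) →* (Mat r ℂ)ˣ,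
        (∀ j, (x (FreeGroup.of (Sum.inr j)) : Mat r ℂ).det = d j) →
        M.map (evalG x) = (x (τ (FreeGroup.of p)) : Mat r ℂ) := by
    rintro (k | j)
    · refine ⟨Matrix.of fun i j => MvPolynomial.X (Sum.inl k, i, j), fun x _ => ?_⟩
      rw [hτ.1]
      ext i j
      simp [evalG]
    · obtain ⟨v, hv⟩ := hτ.2 j
      obtain ⟨M, hM⟩ := exists_word_matrixD r d v
      refine ⟨M.map (MvPolynomial.rename fun p => (Sum.inr p.1, p.2)), fun x hx => ?_⟩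
      have h1 := hM (x.comp (FreeGroup.map Sum.inr)) fun k => by
        rw [MonoidHom.comp_apply, FreeGroup.map.of]
        exact hx k
      rw [hv, ← MonoidHom.comp_apply, ← h1]
      ext i l
      rw [Matrix.map_apply, Matrix.map_apply, Matrix.map_apply, evalG, evalG,
        MvPolynomial.aeval_rename]
      congr 2
  choose M hM using key
  refine ⟨MvPolynomial.aeval (fun p => M p.1 p.2.1 p.2.2) F, fun x hx => ?_⟩
  have h : (evalG x).comp
      (MvPolynomial.aeval (R := ℂ)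
        (fun p : (κ ⊕ ι) × Fin r × Fin r => M p.1 p.2.1 p.2.2)) = evalG (x.comp τ) := by
    apply MvPolynomial.algHom_ext
    intro p
    rw [AlgHom.comp_apply, MvPolynomial.aeval_X]
    have h1 := congrFun (congrFun (hM p.1 x hx) p.2.1) p.2.2
    rw [Matrix.map_apply] at h1
    rw [h1]
    simp [evalG]
  exact DFunLike.congr_fun h F

variable {κ ι : Type} {r : ℕ} {Q : ι → ∀ r : ℕ, Mat r ℂ → Prop} {R : Type*} [CommRing R]
  {φ : R →+* ℂ}

theorem YG.comp_auto {w₁ w₂ : FreeGroup (κ ⊕ ι)}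
    {τ τ' : FreeGroup (κ ⊕ ι) →* FreeGroup (κ ⊕ ι)} (h12 : ∀ w, τ (τ' w) = w) (hw : τ w₁ = w₂)
    (hc : ∀ j, IsConj (FreeGroup.of (Sum.inr j)) (τ (FreeGroup.of (Sum.inr j))))
    {C : ι → (Mat r ℂ)ˣ} {x : FreeGroup (κ ⊕ ι) →* (Mat r ℂ)ˣ} (hx : x ∈ YG {w₂} C) :
    x.comp τ ∈ YG {w₁} C := by
  refine ⟨fun w h => ?_, fun j => ?_, fun W hW => ?_⟩
  · rw [Set.mem_singleton_iff.1 h, MonoidHom.comp_apply, hw]
    exact hx.1 _ rfl
  · refine (hx.2.1 j).trans ?_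
    rw [MonoidHom.comp_apply]
    exact MonoidHom.map_isConj x (hc j)
  · obtain ⟨W', h1, h2⟩ := hx.2.2 W fun w v hv => by
      have h3 := hW (τ' w) v hv
      rwa [MonoidHom.comp_apply, h12] at h3
    exact ⟨W', fun w v hv => h1 _ v hv, h2⟩

/-- Invariance of the density under automorphisms of the free group which preserve the conjugacy
classes of the generators. -/
theorem IrrDenseQ.auto {w₁ w₂ : FreeGroup (κ ⊕ ι)}
    (τ τ' : FreeGroup (κ ⊕ ι) →* FreeGroup (κ ⊕ ι)) (hτ' : Fixes τ') (h12 : ∀ w, τ (τ' w) = w)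
    (h21 : ∀ w, τ' (τ w) = w) (hw : τ w₁ = w₂)
    (hc : ∀ j, IsConj (FreeGroup.of (Sum.inr j)) (τ (FreeGroup.of (Sum.inr j))))
    (hc' : ∀ j, IsConj (FreeGroup.of (Sum.inr j)) (τ' (FreeGroup.of (Sum.inr j))))
    (hI : IrrDenseQ Q {w₁} φ r) : IrrDenseQ Q {w₂} φ r := by
  intro C hC x hx hirr f hf
  have hdet : ∀ y ∈ YG {w₁} C, ∀ j : ι, (y (FreeGroup.of (Sum.inr j)) : Mat r ℂ).det =
      (Units.map (Matrix.detMonoidHom (n := Fin r) (R := ℂ)) (C j) : ℂˣ) := by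
    intro y hy j
    obtain ⟨U, hU⟩ := isConj_iff.1 (hy.2.1 j)
    rw [← hU, Units.val_mul, Units.val_mul, Matrix.det_mul, Matrix.det_mul, mul_right_comm,
      ← Matrix.det_mul, Units.mul_inv, Matrix.det_one, one_mul]
    rfl
  obtain ⟨F, hF⟩ := exists_pullbackD (r := r)
    (fun j => Units.map (Matrix.detMonoidHom (n := Fin r) (R := ℂ)) (C j)) τ' hτ' f
  have hx1 : x.comp τ ∈ YG {w₁} C := YG.comp_auto h12 hw hc hx
  have h3 : ∀ y : FreeGroup (κ ⊕ ι) →* (Mat r ℂ)ˣ, (y.comp τ).comp τ' = y := by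
    intro y
    ext1 w
    simp only [MonoidHom.comp_apply, h12]
  have h4 : evalG (x.comp τ) F = evalG x f := by
    rw [hF _ (hdet _ hx1), h3]
  rw [← h4]
  have hw' : τ' w₂ = w₁ := by rw [← hw, h21]
  refine hI C hC _ hx1 (fun M hM => hirr M fun w => ?_) F fun y hy => ?_
  · have := hM (τ' w)
    rwa [MonoidHom.comp_apply, h12] at this
  · rw [hF _ (hdet _ hy.1.1)]
    refine hf _ ⟨⟨YG.comp_auto h21 hw' hc' hy.1.1, fun k => ?_⟩, ?_⟩
    · have h5 : ∀ w, y w ∈ GR r φ := by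
        have h6 : (⊤ : Subgroup (FreeGroup (κ ⊕ ι))) ≤ (GR r φ).comap y := by
          rw [← FreeGroup.closure_range_of, Subgroup.closure_le]
          rintro _ ⟨k, rfl⟩
          exact hy.1.2 k
        exact fun w => h6 (Subgroup.mem_top w)
      exact h5 _
    · rw [← hy.2]
      congr 1
      ext M
      constructor
      · rintro ⟨w, rfl⟩
        exact ⟨τ' w, rfl⟩
      · rintro ⟨w, rfl⟩
        refine ⟨τ w, ?_⟩
        simp only [MonoidHom.comp_apply, h21]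

/-- The product of the boundary generators, in the order of a list, and of a word in the other
generators. -/
def relL (R' : FreeGroup κ) (L : List ι) : FreeGroup (κ ⊕ ι) :=
  (L.map fun j => FreeGroup.of (Sum.inr j)).prod * FreeGroup.map Sum.inl R'

section swap

variable [DecidableEq ι]

/-- The elementary braid `a ↦ b a b⁻¹`. -/
def brd1 (a b : ι) : FreeGroup (κ ⊕ ι) →* FreeGroup (κ ⊕ ι) :=
  FreeGroup.lift (Sum.elim (fun k => FreeGroup.of (Sum.inl k)) fun j =>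
    if j = a then FreeGroup.of (Sum.inr b) * FreeGroup.of (Sum.inr a) *
      (FreeGroup.of (Sum.inr b))⁻¹ else FreeGroup.of (Sum.inr j))

/-- Its inverse. -/
def brd2 (a b : ι) : FreeGroup (κ ⊕ ι) →* FreeGroup (κ ⊕ ι) :=
  FreeGroup.lift (Sum.elim (fun k => FreeGroup.of (Sum.inl k)) fun j =>
    if j = a then (FreeGroup.of (Sum.inr b))⁻¹ * FreeGroup.of (Sum.inr a) *
      FreeGroup.of (Sum.inr b) else FreeGroup.of (Sum.inr j))

theorem brd1_inl (a b : ι) (k : κ) : brd1 a b (FreeGroup.of (Sum.inl k)) =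
    (FreeGroup.of (Sum.inl k) : FreeGroup (κ ⊕ ι)) := by
  rw [brd1, FreeGroup.lift_apply_of, Sum.elim_inl]

theorem brd2_inl (a b : ι) (k : κ) : brd2 a b (FreeGroup.of (Sum.inl k)) =
    (FreeGroup.of (Sum.inl k) : FreeGroup (κ ⊕ ι)) := by
  rw [brd2, FreeGroup.lift_apply_of, Sum.elim_inl]

theorem brd1_ne {a b j : ι} (h : j ≠ a) : brd1 a b (FreeGroup.of (Sum.inr j)) =
    (FreeGroup.of (Sum.inr j) : FreeGroup (κ ⊕ ι)) := by
  rw [brd1, FreeGroup.lift_apply_of, Sum.elim_inr, if_neg h]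

theorem brd2_ne {a b j : ι} (h : j ≠ a) : brd2 a b (FreeGroup.of (Sum.inr j)) =
    (FreeGroup.of (Sum.inr j) : FreeGroup (κ ⊕ ι)) := by
  rw [brd2, FreeGroup.lift_apply_of, Sum.elim_inr, if_neg h]

theorem brd1_self (a b : ι) : brd1 a b (FreeGroup.of (Sum.inr a)) =
    (FreeGroup.of (Sum.inr b) * FreeGroup.of (Sum.inr a) * (FreeGroup.of (Sum.inr b))⁻¹ :
      FreeGroup (κ ⊕ ι)) := by
  rw [brd1, FreeGroup.lift_apply_of, Sum.elim_inr, if_pos rfl]

theorem brd2_self (a b : ι) : brd2 a b (FreeGroup.of (Sum.inr a)) =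
    ((FreeGroup.of (Sum.inr b))⁻¹ * FreeGroup.of (Sum.inr a) * FreeGroup.of (Sum.inr b) :
      FreeGroup (κ ⊕ ι)) := by
  rw [brd2, FreeGroup.lift_apply_of, Sum.elim_inr, if_pos rfl]

theorem brd12 {a b : ι} (h : b ≠ a) (w : FreeGroup (κ ⊕ ι)) : brd1 a b (brd2 a b w) = w := by
  have h1 : (brd1 a b).comp (brd2 a b) = MonoidHom.id (FreeGroup (κ ⊕ ι)) := by
    apply FreeGroup.ext_hom
    rintro (k | j)
    · rw [MonoidHom.comp_apply, brd2_inl, brd1_inl, MonoidHom.id_apply]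
    · rw [MonoidHom.comp_apply, MonoidHom.id_apply]
      by_cases hj : j = a
      · rw [hj, brd2_self, map_mul, map_mul, map_inv, brd1_self, brd1_ne h]
        group
      · rw [brd2_ne hj, brd1_ne hj]
  exact DFunLike.congr_fun h1 w

theorem brd21 {a b : ι} (h : b ≠ a) (w : FreeGroup (κ ⊕ ι)) : brd2 a b (brd1 a b w) = w := by
  have h1 : (brd2 a b).comp (brd1 a b) = MonoidHom.id (FreeGroup (κ ⊕ ι)) := by
    apply FreeGroup.ext_hom
    rintro (k | j)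
    · rw [MonoidHom.comp_apply, brd1_inl, brd2_inl, MonoidHom.id_apply]
    · rw [MonoidHom.comp_apply, MonoidHom.id_apply]
      by_cases hj : j = a
      · rw [hj, brd1_self, map_mul, map_mul, map_inv, brd2_self, brd2_ne h]
        group
      · rw [brd1_ne hj, brd2_ne hj]
  exact DFunLike.congr_fun h1 w

theorem brd1_map_inl (a b : ι) (w : FreeGroup κ) : brd1 a b (FreeGroup.map Sum.inl w) =
    (FreeGroup.map Sum.inl w : FreeGroup (κ ⊕ ι)) := by
  have h1 : (brd1 a b).comp (FreeGroup.map Sum.inl) =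
      (FreeGroup.map Sum.inl : FreeGroup κ →* FreeGroup (κ ⊕ ι)) := by
    apply FreeGroup.ext_hom
    intro k
    rw [MonoidHom.comp_apply, FreeGroup.map.of, brd1_inl]
  exact DFunLike.congr_fun h1 w

theorem brd2_fixes (a b : ι) : Fixes (brd2 a b : FreeGroup (κ ⊕ ι) →* FreeGroup (κ ⊕ ι)) := by
  refine ⟨fun k => brd2_inl a b k, fun j => ?_⟩
  by_cases hj : j = a
  · refine ⟨(FreeGroup.of b)⁻¹ * FreeGroup.of a * FreeGroup.of b, ?_⟩
    rw [hj, brd2_self, map_mul, map_mul, map_inv, FreeGroup.map.of, FreeGroup.map.of]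
  · exact ⟨FreeGroup.of j, by rw [brd2_ne hj, FreeGroup.map.of]⟩

variable {R' : FreeGroup κ}

theorem IrrDenseQ.swap {l₁ l₂ : List ι} {a b : ι}
    (hnd : (l₁ ++ a :: b :: l₂).Nodup)
    (hI : IrrDenseQ Q {(relL R' (l₁ ++ a :: b :: l₂) : FreeGroup (κ ⊕ ι))} φ r) :
    IrrDenseQ Q {(relL R' (l₁ ++ b :: a :: l₂) : FreeGroup (κ ⊕ ι))} φ r := by
  have hba : b ≠ a := by
    rintro rfl
    rw [List.nodup_append] at hnd
    have := hnd.2.1
    simp at this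
  have h1 : a ∉ l₁ := by
    intro h
    rw [List.nodup_append] at hnd
    exact hnd.2.2 a h a (by simp) rfl
  have h2 : a ∉ l₂ := by
    intro h
    rw [List.nodup_append] at hnd
    have := hnd.2.1
    rw [List.nodup_cons] at this
    exact this.1 (List.mem_cons_of_mem _ h)
  refine IrrDenseQ.auto (brd1 a b) (brd2 a b) (brd2_fixes a b) (brd12 hba) (brd21 hba) ?_ (fun j => ?_)
    (fun j => ?_) hI
  · have key : ∀ l : List ι, a ∉ l → (l.map fun j => brd1 a b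
        (FreeGroup.of (Sum.inr j) : FreeGroup (κ ⊕ ι))) =
        l.map fun j => (FreeGroup.of (Sum.inr j) : FreeGroup (κ ⊕ ι)) := by
      intro l hl
      refine List.map_congr_left fun j hj => brd1_ne ?_
      rintro rfl
      exact hl hj
    unfold relL
    rw [map_mul, brd1_map_inl, map_list_prod, List.map_map]
    change (List.map (fun j => brd1 a b (FreeGroup.of (Sum.inr j) : FreeGroup (κ ⊕ ι)))
      (l₁ ++ a :: b :: l₂)).prod * _ = _
    rw [List.map_append, List.map_cons, List.map_cons, key l₁ h1, key l₂ h2, brd1_self,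
      brd1_ne hba, List.map_append, List.map_cons, List.map_cons, List.prod_append,
      List.prod_append, List.prod_cons, List.prod_cons, List.prod_cons, List.prod_cons]
    group
  · by_cases hj : j = a
    · rw [hj, brd1_self]
      exact isConj_iff.2 ⟨_, rfl⟩
    · rw [brd1_ne hj]
  · by_cases hj : j = a
    · rw [hj, brd2_self]
      exact isConj_iff.2 ⟨(FreeGroup.of (Sum.inr b))⁻¹, by rw [inv_inv]⟩
    · rw [brd2_ne hj]

theorem IrrDenseQ.perm_aux {L L' : List ι} (h : L.Perm L') :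
    ∀ l₁ : List ι, (l₁ ++ L).Nodup →
    IrrDenseQ Q {(relL R' (l₁ ++ L) : FreeGroup (κ ⊕ ι))} φ r →
    IrrDenseQ Q {(relL R' (l₁ ++ L') : FreeGroup (κ ⊕ ι))} φ r := by
  induction h with
  | nil => exact fun l₁ _ h => h
  | cons x h ih =>
    intro l₁ hnd hI
    have := ih (l₁ ++ [x]) (by simpa using hnd) (by simpa using hI)
    simpa using this
  | swap x y l => exact fun l₁ hnd hI => hI.swap hnd
  | trans h h' ih ih' =>
    intro l₁ hnd hI
    exact ih' l₁ ((List.Perm.append_left l₁ h).nodup_iff.1 hnd) (ih l₁ hnd hI)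

/-- Invariance under permutations of the punctures. -/
theorem IrrDenseQ.perm {L L' : List ι} (h : L.Perm L') (hnd : L.Nodup)
    (hI : IrrDenseQ Q {(relL R' L : FreeGroup (κ ⊕ ι))} φ r) :
    IrrDenseQ Q {(relL R' L' : FreeGroup (κ ⊕ ι))} φ r :=
  IrrDenseQ.perm_aux h [] hnd hI

end swap

/-- The product of the commutators. -/
def comW (g : ℕ) : FreeGroup (Fin g × Bool) :=
  (List.ofFn fun i : Fin g => (FreeGroup.of (i, false) * FreeGroup.of (i, true) *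
    (FreeGroup.of (i, false))⁻¹ * (FreeGroup.of (i, true))⁻¹ : FreeGroup (Fin g × Bool))).prod

theorem relatorU_relL (g n : ℕ) : relatorU g n = relL (comW g) (List.finRange n) := by
  rw [relatorU_eqn, relL, comW, map_list_prod, List.ofFn_eq_map, List.map_ofFn]
  congr 2

/-- Invariance under permutations of the classes. -/
theorem irrDenseQ_reorder {g n : ℕ} {Q : Fin n → ∀ r : ℕ, Mat r ℂ → Prop}
    (e : Equiv.Perm (Fin n)) (hI : IrrDenseQ (fun j => Q (e j))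
      ({relatorU g n} : Set (FreeGroup ((Fin g × Bool) ⊕ Fin n))) φ r) :
    IrrDenseQ Q ({relatorU g n} : Set (FreeGroup ((Fin g × Bool) ⊕ Fin n))) φ r := by
  rw [relatorU_relL] at hI ⊢
  have h1 : IrrDenseQ Q ({relL (comW g) ((List.finRange n).map e)} :
      Set (FreeGroup ((Fin g × Bool) ⊕ Fin n))) φ r := by
    refine IrrDenseQ.congr (Equiv.refl _) e (fun j M hM => ?_) _ _ (fun y => ?_) hI
    · rw [Equiv.apply_symm_apply]
      exact hM
    · have h3 : renE (Equiv.refl (Fin g × Bool)).symm e.symm (FreeGroup.map Sum.inl (comW g)) =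
          (FreeGroup.map Sum.inl (comW g) : FreeGroup ((Fin g × Bool) ⊕ Fin n)) := by
        have h4 : (renE (Equiv.refl (Fin g × Bool)).symm e.symm).comp (FreeGroup.map Sum.inl) =
            (FreeGroup.map Sum.inl : FreeGroup (Fin g × Bool) →*
              FreeGroup ((Fin g × Bool) ⊕ Fin n)) := by
          apply FreeGroup.ext_hom
          intro k
          rw [MonoidHom.comp_apply, FreeGroup.map.of, renE_inl]
          rfl
        exact DFunLike.congr_fun h4 _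
      have h2 : renE (Equiv.refl (Fin g × Bool)).symm e.symm
          (relL (comW g) ((List.finRange n).map e)) = relL (comW g) (List.finRange n) := by
        rw [relL, relL, map_mul, h3, map_list_prod, List.map_map, List.map_map]
        congr 2
        refine List.map_congr_left fun j _ => ?_
        simp only [Function.comp_apply]
        rw [renE_inr, Equiv.symm_apply_apply]
      constructor
      · intro h w hw
        rw [Set.mem_singleton_iff.1 hw, h2]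
        exact h _ rfl
      · intro h w hw
        rw [Set.mem_singleton_iff.1 hw, ← h2]
        exact h _ rfl
  refine h1.perm ?_ ((List.nodup_finRange n).map e.injective)
  refine (List.perm_ext_iff_of_nodup ((List.nodup_finRange n).map e.injective)
    (List.nodup_finRange n)).2 fun j => ?_
  simp only [List.mem_map, List.mem_finRange, true_and, iff_true]
  exact ⟨e.symm j, e.apply_symm_apply j⟩

/-- Three given punctures can be moved to three given places. -/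
theorem exists_perm_three {n : ℕ} {T : Finset (Fin n)} (hT : 3 ≤ T.card) (a b c : Fin n)
    (hab : a ≠ b) (hac : a ≠ c) (hbc : b ≠ c) :
    ∃ e : Equiv.Perm (Fin n), e a ∈ T ∧ e b ∈ T ∧ e c ∈ T := by
  obtain ⟨x, hx, y, hy, z, hz, hxy, hxz, hyz⟩ := Finset.two_lt_card.1 hT
  have hinj1 : Function.Injective ![a, b, c] := by
    intro i j hij
    fin_cases i <;> fin_cases j <;> simp_all
  have hinj2 : Function.Injective ![x, y, z] := by
    intro i j hij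
    fin_cases i <;> fin_cases j <;> simp_all
  obtain ⟨g, hg⟩ := (Equiv.Perm.isMultiplyPretransitive (Fin n) 3).exists_smul_eq
    (⟨![a, b, c], hinj1⟩ : Fin 3 ↪ Fin n) ⟨![x, y, z], hinj2⟩
  have h0 := DFunLike.congr_fun hg 0
  have h1 := DFunLike.congr_fun hg 1
  have h2 := DFunLike.congr_fun hg 2
  refine ⟨g, ?_, ?_, ?_⟩
  · have : g a = x := h0
    rwa [this]
  · have : g b = y := h1
    rwa [this]
  · have : g c = z := h2
    rwa [this]

end Vale.Agent.P002R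
end
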