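import Mathlib
import Vale.Agent.P002.Bdl.B13
import Vale.Agent.P002.Bdl.B15
import Vale.Agent.P002.Bdl.B12
import Vale.Agent.P002.Bdl.B9
import Vale.Agent.P002.Bdl.B6
import Vale.Agent.P002.Bdl.B14
import Vale.Agent.P002.Bdl.B16
import Vale.Agent.P002.Bdl.B11
import Vale.Agent.P002.Bdl.B1
import Vale.Agent.P002.Bdl.B2
import Vale.Agent.P002.Bdl.B7
import Vale.Agent.P002.Bdl.B17
import Vale.Agent.P002R.RStatementP
import Vale.Agent.P002.Bdl.B3
import Vale.Agent.P002.Bdl.B8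

set_option linter.all false

section

/-!
# P002, genus 0: the chart
-/

namespace Vale.Agent.P002R

open Matrix

/-- The matrices of the boundary generators (and `1` beyond the last one). -/
noncomputable def cseq {r N : ℕ} (x : FU 0 N →* (Mat r ℂ)ˣ) (j : ℕ) : Mat r ℂ :=
  if h : j < N then (x (FreeGroup.of (Sum.inr ⟨j, h⟩)) : Mat r ℂ) else 1

theorem cseq_of {r N : ℕ} (x : FU 0 N →* (Mat r ℂ)ˣ) (j : Fin N) :
    cseq x j = (x (FreeGroup.of (Sum.inr j)) : Mat r ℂ) := by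
  rw [cseq, dif_pos j.2]

theorem cseq_prod {r N : ℕ} (x : FU 0 N →* (Mat r ℂ)ˣ) (hx : x (relatorU 0 N) = 1) :
    (List.ofFn fun j : Fin N => cseq x j).prod = 1 := by
  have h1 : ((x (relatorU 0 N) : (Mat r ℂ)ˣ) : Mat r ℂ) = 1 := by rw [hx, Units.val_one]
  rw [relatorU_eqn] at h1
  simp only [List.ofFn_zero, List.prod_nil, mul_one] at h1
  rw [map_list_prod, List.map_ofFn, ← Units.coeHom_apply, map_list_prod, List.map_ofFn] at h1
  rw [← h1]
  congr 2
  funext j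
  exact cseq_of x j

/-- Extension of a finite sequence. -/
def extY {r M : ℕ} {S : Type*} [CommRing S] (Y : Fin M → Mat r S) (k : ℕ) : Mat r S :=
  if h : k < M then Y ⟨k, h⟩ else 0

theorem extY_of {r M : ℕ} {S : Type*} [CommRing S] (Y : Fin M → Mat r S) (k : ℕ) (h : k < M) :
    extY Y k = Y ⟨k, h⟩ := by
  rw [extY, dif_pos h]

theorem extY_map {r M : ℕ} {S T : Type*} [CommRing S] [CommRing T] (φ : S →+* T)
    (Y : Fin M → Mat r S) : (fun k => (extY Y k).map φ) = extY fun k => (Y k).map φ := by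
  funext k
  by_cases h : k < M
  · rw [extY_of _ k h, extY_of _ k h]
  · rw [extY, extY, dif_neg h, dif_neg h]
    ext i j
    exact map_zero φ

/-- Evaluation of a polynomial at a sequence. -/
noncomputable def evalT {r N : ℕ} {S : Type*} [CommRing S] [Algebra ℂ S] (c : ℕ → Mat r S)
    (f : MvPolynomial (GenU 0 N × Fin r × Fin r) ℂ) : S :=
  MvPolynomial.aeval (fun p : GenU 0 N × Fin r × Fin r =>
    (Sum.elim (fun _ => (0 : Mat r S)) (fun j : Fin N => c j) p.1 : Mat r S) p.2.1 p.2.2) f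

theorem evalG_eq_evalT {r N : ℕ} (y : FU 0 N →* (Mat r ℂ)ˣ) (c : ℕ → Mat r ℂ)
    (h : ∀ j : Fin N, (y (FreeGroup.of (Sum.inr j)) : Mat r ℂ) = c j)
    (f : MvPolynomial (GenU 0 N × Fin r × Fin r) ℂ) : evalG y f = evalT c f := by
  rw [evalG_eqn, evalT]
  congr 2
  funext p
  obtain ⟨k | k, i, j⟩ := p
  · exact k.1.elim0
  · rw [h]
    rfl

theorem evalT_map {r N : ℕ} {S T : Type*} [CommRing S] [Algebra ℂ S] [CommRing T] [Algebra ℂ T]
    (ψ : S →ₐ[ℂ] T) (c : ℕ → Mat r S) (f : MvPolynomial (GenU 0 N × Fin r × Fin r) ℂ) :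
    ψ (evalT c f) = evalT (fun j => (c j).map ψ) f := by
  rw [evalT, evalT, ← AlgHom.comp_apply, MvPolynomial.comp_aeval]
  congr 2
  funext p
  obtain ⟨k | k, i, j⟩ := p
  · exact k.1.elim0
  · rfl

theorem kry_map' {r : ℕ} {S T : Type*} [CommRing S] [CommRing T] (φ : S →+* T) (A : Mat r S)
    (v : Fin r → S) : φ (P002.kry A v).det = (P002.kry (A.map φ) fun i => φ (v i)).det := by
  rw [RingHom.map_det]
  congr 1
  ext i j
  simp only [P002.kry, Matrix.of_apply, RingHom.mapMatrix_apply, Matrix.map_apply]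
  have h2 : (A.map φ) ^ (j : ℕ) = (A ^ (j : ℕ)).map φ := by
    have := map_pow φ.mapMatrix A (j : ℕ)
    exact this.symm
  rw [h2, RingHom.map_mulVec]
  rfl

/-- The polynomial of the chart. -/
theorem exists_chart_poly {r m : ℕ} (t t' : Fin r → ℂ) (κ : ℕ → ℂ) (v v' : Fin r → ℂ)
    (f : MvPolynomial (GenU 0 (m + 3) × Fin r × Fin r) ℂ) :
    ∃ F : MvPolynomial (Fin (m + 1) × Fin r × Fin r) ℂ, ∀ Y : Fin (m + 1) → Mat r ℂ,
      MvPolynomial.aeval (fun p => Y p.1 p.2.1 p.2.2) F =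
        evalT (ctup (m + 1) t t' κ (extY Y)) f *
        (P002.kry (ctup (m + 1) t t' κ (extY Y) 0) v).det *
        (P002.kry (ctup (m + 1) t t' κ (extY Y) (m + 2)) v').det := by
  obtain ⟨Yg, hYg⟩ : ∃ Yg : Fin (m + 1) → Mat r (MvPolynomial (Fin (m + 1) × Fin r × Fin r) ℂ),
    Yg = fun k => Matrix.of fun i j => MvPolynomial.X (k, (i, j)) := ⟨_, rfl⟩
  obtain ⟨cg, hcg⟩ : ∃ cg : ℕ → Mat r (MvPolynomial (Fin (m + 1) × Fin r × Fin r) ℂ),
    cg = ctup (m + 1) (fun i => MvPolynomial.C (t i)) (fun i => MvPolynomial.C (t' i))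
      (fun k => MvPolynomial.C (κ k)) (extY Yg) := ⟨_, rfl⟩
  refine ⟨evalT cg f * (P002.kry (cg 0) fun i => MvPolynomial.C (v i)).det *
    (P002.kry (cg (m + 2)) fun i => MvPolynomial.C (v' i)).det, fun Y => ?_⟩
  obtain ⟨ev, hev⟩ : ∃ ev : MvPolynomial (Fin (m + 1) × Fin r × Fin r) ℂ →ₐ[ℂ] ℂ,
    ev = MvPolynomial.aeval (fun p => Y p.1 p.2.1 p.2.2) := ⟨_, rfl⟩
  rw [← hev]
  have h1 : ∀ j, (cg j).map ev = ctup (m + 1) t t' κ (extY Y) j := by
    intro j
    have h2 := ctup_map (ev : MvPolynomial (Fin (m + 1) × Fin r × Fin r) ℂ →+* ℂ) (m + 1)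
      (fun i => MvPolynomial.C (t i)) (fun i => MvPolynomial.C (t' i))
      (fun k => MvPolynomial.C (κ k)) (extY Yg) j
    have h3 : ∀ z : ℂ, (ev : MvPolynomial (Fin (m + 1) × Fin r × Fin r) ℂ →+* ℂ)
        (MvPolynomial.C z) = z := fun z => ev.commutes z
    simp only [h3] at h2
    rw [extY_map] at h2
    have h4 : (fun k => (Yg k).map (ev : MvPolynomial (Fin (m + 1) × Fin r × Fin r) ℂ →+* ℂ)) =
        Y := by
      funext k
      ext i j
      rw [hYg, Matrix.map_apply]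
      change ev (MvPolynomial.X (k, (i, j))) = _
      rw [hev, MvPolynomial.aeval_X]
    rw [h4] at h2
    rw [← h2, hcg]
    rfl
  have h5 : ∀ (A : Mat r (MvPolynomial (Fin (m + 1) × Fin r × Fin r) ℂ)) (w : Fin r → ℂ),
      ev (P002.kry A fun i => MvPolynomial.C (w i)).det = (P002.kry (A.map ev) w).det := by
    intro A w
    have h6 := kry_map' (ev : MvPolynomial (Fin (m + 1) × Fin r × Fin r) ℂ →+* ℂ) A
      fun i => MvPolynomial.C (w i)
    have h3 : ∀ z : ℂ, (ev : MvPolynomial (Fin (m + 1) × Fin r × Fin r) ℂ →+* ℂ)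
        (MvPolynomial.C z) = z := fun z => ev.commutes z
    simp only [h3] at h6
    exact h6
  rw [map_mul, map_mul, h5, h5, h1, h1, evalT_map]
  simp only [h1]

theorem chart_density {R : Type*} [CommRing R] (φ : R →+* ℂ) (E : Subgroup ℂˣ) {n m : ℕ}
    (hc : CoefOK φ E (n + 1)) (hB : FibD φ n)
    (C : Fin (m + 3) → (Mat (n + 1) ℂ)ˣ) (hE : ∀ j, EigIn E (C j : Mat (n + 1) ℂ))
    (hT : ∀ j : Fin (m + 3), 1 ≤ (j : ℕ) → (j : ℕ) ≤ m → TotD φ (C j : Mat (n + 1) ℂ))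
    (h0 : ∃ v, P002G.Cyc (C 0 : Mat (n + 1) ℂ) v)
    (hl : ∃ v, P002G.Cyc (C (Fin.last (m + 2)) : Mat (n + 1) ℂ) v)
    (x : FU 0 (m + 3) →* (Mat (n + 1) ℂ)ˣ) (hx1 : x (relatorU 0 (m + 3)) = 1)
    (hxC : ∀ j, IsConj (C j) (x (FreeGroup.of (Sum.inr j))))
    (hup : UpT (cseq x 0)) (hlo : LoT (cseq x (m + 2)))
    (hcell : ∀ k ≤ m + 1, ∃ X : Mat (n + 1) ℂ,
      (List.ofFn fun j : Fin k => cseq x ((j : ℕ) + 1)).prod = zZ X ∧ ∀ i, X i i ≠ 0)
    (hcyc : P002G.Cyc (cseq x (m + 1))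
      (((List.ofFn fun j : Fin m => cseq x ((j : ℕ) + 1)).prod)⁻¹ *ᵥ P002G.e0 n ℂ))
    (f : MvPolynomial (GenU 0 (m + 3) × Fin (n + 1) × Fin (n + 1)) ℂ)
    (hf : ∀ y : FU 0 (m + 3) →* (Mat (n + 1) ℂ)ˣ, y (relatorU 0 (m + 3)) = 1 →
      (∀ j, IsConj (C j) (y (FreeGroup.of (Sum.inr j)))) →
      (∀ k, y (FreeGroup.of k) ∈ GR (n + 1) φ) → evalG y f = 0) :
    evalG x f = 0 := by
  -- the tuple in the chart
  have hXex : ∀ k, ∃ X : Mat (n + 1) ℂ, k ≤ m + 1 →
      (List.ofFn fun j : Fin k => cseq x ((j : ℕ) + 1)).prod = zZ X ∧ ∀ i, X i i ≠ 0 := by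
    intro k
    by_cases hk : k ≤ m + 1
    · obtain ⟨X, hX⟩ := hcell k hk
      exact ⟨X, fun _ => hX⟩
    · exact ⟨0, fun h => absurd h hk⟩
  choose X hX using hXex
  obtain ⟨Y, κ, t, hκ, ht, hctup, hLc, hY0⟩ := exists_ctup (m + 1) (cseq x) X
    (fun k hk => (hX k hk).1) (fun k hk => (hX k hk).2) hup hlo (cseq_prod x hx1)
  obtain ⟨t', ht'⟩ : ∃ t' : Fin (n + 1) → ℂ, t' = fun i => cseq x 0 i i := ⟨_, rfl⟩
  rw [← ht'] at hctup
  have hcx : ∀ j (hj : j < m + 3), CjM (C ⟨j, hj⟩ : Mat (n + 1) ℂ) (cseq x j) := by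
    intro j hj
    have h1 : cseq x j = _ := cseq_of x ⟨j, hj⟩
    rw [h1]
    exact cjM_of_isConj (hxC ⟨j, hj⟩)
  -- eigenvalues
  have hξ0 : ∀ i, ∃ u : Rˣ, φ (u : R) = cseq x 0 i i := by
    intro i
    apply exists_unit_of_mem φ hc (Nat.succ_pos n)
    apply hE 0
    have h1 : (C 0 : Mat (n + 1) ℂ).charpoly = (cseq x 0).charpoly :=
      ((hcx 0 (by omega)).charpoly).symm
    rw [h1, charpoly_upT hup, Polynomial.IsRoot.def, Polynomial.eval_prod]
    exact Finset.prod_eq_zero (Finset.mem_univ i) (by simp)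
  choose ξ hξ using hξ0
  have hξ0' : ∀ i, ∃ u : Rˣ, φ (u : R) = cseq x (m + 2) i i := by
    intro i
    apply exists_unit_of_mem φ hc (Nat.succ_pos n)
    apply hE (Fin.last (m + 2))
    have h1 : (C (Fin.last (m + 2)) : Mat (n + 1) ℂ).charpoly = (cseq x (m + 2)).charpoly :=
      ((hcx (m + 2) (by omega)).charpoly).symm
    rw [h1, charpoly_loT hlo, Polynomial.IsRoot.def, Polynomial.eval_prod]
    exact Finset.prod_eq_zero (Finset.mem_univ i) (by simp)
  choose ξ' hξ' using hξ0'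
  have hδ0 : ∀ l, ∃ u : Rˣ, ∀ hl : l < m + 1, φ (u : R) =
      (C ⟨l + 1, by omega⟩ : Mat (n + 1) ℂ).det := by
    intro l
    by_cases hl : l < m + 1
    · obtain ⟨u, hu⟩ := exists_unit_of_mem φ hc (Nat.succ_pos n) _
        (hE ⟨l + 1, by omega⟩).det
      exact ⟨u, fun _ => hu⟩
    · exact ⟨1, fun h => absurd h hl⟩
  choose δ hδ using hδ0
  obtain ⟨χ, hχ1, hχ2, hχ3⟩ := exists_charpoly_lift φ hc (Nat.succ_pos n) _
    (hE (⟨m + 1, by omega⟩ : Fin (m + 3)))
  -- the elements of the cell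
  have hYC : ∀ k (hk : k < m + 1), CjM (C ⟨k + 1, by omega⟩ : Mat (n + 1) ℂ) (zZ (Y k)) := by
    intro k hk
    obtain ⟨L, -, hL⟩ := ctup_mid_cjM (m + 1) t t' κ Y k hk (hκ k hk.le)
    refine (hcx (k + 1) (by omega)).trans ⟨L, ?_⟩
    rw [hctup (k + 1) (by omega)]
    exact hL
  have hκ' : ∀ k ≤ m + 1, κ k = φ (kap' δ k) := by
    intro k hk
    have h1 := kap'_mul δ φ Y k fun l hlk => by
      rw [(hYC l (by omega)).det, hδ l (by omega)]
    have h2 := hκ k hk
    have h3 : (Lc Y k).det ≠ 0 := right_ne_zero_of_mul (by rw [h2]; exact one_ne_zero)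
    exact mul_right_cancel₀ h3 (h2.trans h1.symm)
  have htt : t = fun i => φ ((ξ i)⁻¹ : Rˣ) := by
    funext i
    have h1 := ht i
    have h2 : φ (ξ i) * φ ((ξ i)⁻¹ : Rˣ) = 1 := by rw [← map_mul, Units.mul_inv, map_one]
    rw [hξ] at h2
    exact mul_left_cancel₀ (left_ne_zero_of_mul (by rw [h1]; exact one_ne_zero)) (h1.trans h2.symm)
  have htt' : t' = fun i => φ (ξ i) := by
    rw [ht']
    funext i
    rw [hξ]
  have hlast : ∀ i, (∏ l ∈ Finset.range (m + 1), Y l i i) * φ (ξ i) * φ (ξ' i) = 1 := by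
    intro i
    have h1 := (ctup_last_loT (m + 1) t t' κ Y (hκ (m + 1) le_rfl)).2 i
    rw [← hctup (m + 1 + 1) (by omega), Lc_diag] at h1
    have h2 := ht i
    rw [hξ, hξ', mul_comm (∏ l ∈ Finset.range (m + 1), Y l i i), mul_assoc,
      mul_comm (∏ l ∈ Finset.range (m + 1), Y l i i), h1, h2]
  -- cyclicity
  have hcycY : P002G.Cyc (zZ (Y m)) (P002G.e0 n ℂ) := by
    obtain ⟨L, hL1, hL2⟩ := ctup_mid_cjM (m + 1) t t' κ Y m (Nat.lt_succ_self m)
      (hκ m (Nat.le_succ m))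
    rw [← hctup (m + 1) (by omega)] at hL2
    rw [hL2]
    have h1 := P002G.cyc_conj L hcyc
    have h2 : (L : Mat (n + 1) ℂ) *ᵥ (((List.ofFn fun j : Fin m => cseq x ((j : ℕ) + 1)).prod)⁻¹ *ᵥ
        P002G.e0 n ℂ) = P002G.e0 n ℂ := by
      have h3 := (hX m (Nat.le_succ m)).1
      have hdU : IsUnit (uU (X m)).det := by rw [det_uU]; exact isUnit_one
      have hdL : IsUnit (lL (X m)).det := by
        rw [det_lL, isUnit_iff_ne_zero, Finset.prod_ne_zero_iff]
        exact fun i _ => (hX m (Nat.le_succ m)).2 i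
      rw [h3, zZ, Matrix.mul_inv_rev, hL1, hLc m (Nat.le_succ m), mulVec_mulVec, ← mul_assoc,
        Matrix.mul_nonsing_inv _ hdL, one_mul]
      have h4 : uU (X m) *ᵥ P002G.e0 n ℂ = P002G.e0 n ℂ := by
        funext i
        rw [mulVec, dotProduct, Fin.sum_univ_succ]
        have h5 : ∀ j : Fin n, P002G.e0 n ℂ j.succ = 0 := fun j => rfl
        have h6 : P002G.e0 n ℂ 0 = 1 := rfl
        simp only [h5, mul_zero, Finset.sum_const_zero, add_zero, h6, mul_one]
        refine Fin.cases ?_ (fun i => ?_) i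
        · rw [uU_diag, h6]
        · rw [h5, upT_uU _ _ _ (Fin.succ_pos i)]
      calc (uU (X m))⁻¹ *ᵥ P002G.e0 n ℂ = (uU (X m))⁻¹ *ᵥ (uU (X m) *ᵥ P002G.e0 n ℂ) := by rw [h4]
        _ = P002G.e0 n ℂ := by rw [mulVec_mulVec, Matrix.nonsing_inv_mul _ hdU, one_mulVec]
    rw [h2] at h1
    exact h1
  -- the polynomial
  obtain ⟨v, hv⟩ := (hcx 0 (by omega)).cyc h0
  obtain ⟨v', hv'⟩ := (hcx (m + 2) (by omega)).cyc hl
  obtain ⟨F, hF⟩ := exists_chart_poly (m := m) t t' κ v v' f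
  have hext : ∀ j, ctup (m + 1) t t' κ (extY fun k : Fin (m + 1) => Y k) j =
      ctup (m + 1) t t' κ Y j := fun j =>
    ctup_congr (fun l hl => extY_of _ l hl) (fun _ _ => rfl) j
  have hmain := core_density φ hB (fun k : Fin m => (C ⟨k + 1, by omega⟩ : Mat (n + 1) ℂ))
    (fun k => hT _ (Nat.succ_le_succ (Nat.zero_le _)) (Nat.succ_le_of_lt k.2)) χ hχ1 hχ2
    (fun i => (ξ i * ξ' i)⁻¹) F
    (fun Y' hY1 hY2 hY3 hY4 hY5 => by
      obtain ⟨Z, hZ⟩ : ∃ Z : ℕ → Mat (n + 1) R, Z = extY Y' := ⟨_, rfl⟩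
      have hZk : ∀ k (hk : k < m + 1), Z k = Y' ⟨k, hk⟩ := fun k hk => by
        rw [hZ, extY_of _ k hk]
      have hZm : Z m = Y' (Fin.last m) := hZk m (Nat.lt_succ_self m)
      have hchm : (zZ ((Z m).map φ)).charpoly = (C ⟨m + 1, by omega⟩ : Mat (n + 1) ℂ).charpoly := by
        rw [← zZ_map, hZm]
        have h1 : ((zZ (Y' (Fin.last m))).map φ).charpoly = (zZ (Y' (Fin.last m))).charpoly.map φ :=
          Matrix.charpoly_map _ φ
        rw [h1, hY3, hχ3]
      obtain ⟨hκZ, y, hy1, hy2, hy3⟩ := chart_integral φ hc (Nat.succ_pos n) C hE h0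
        ((hcx (m + 1) (by omega)).symm.cyc ⟨_, hcyc⟩) hl δ ξ ξ' (fun l hl => hδ l hl)
        (by
          have h1 : (C 0 : Mat (n + 1) ℂ).charpoly = (cseq x 0).charpoly :=
            ((hcx 0 (by omega)).charpoly).symm
          rw [h1, charpoly_upT hup]
          exact Finset.prod_congr rfl fun i _ => by rw [hξ])
        (by
          have h1 : (C (Fin.last (m + 2)) : Mat (n + 1) ℂ).charpoly = (cseq x (m + 2)).charpoly :=
            ((hcx (m + 2) (by omega)).charpoly).symm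
          rw [h1, charpoly_loT hlo]
          exact Finset.prod_congr rfl fun i _ => by rw [hξ'])
        Z (fun k hk => by
          rw [hZk k (by omega)]
          exact hY2 ⟨k, hk⟩) hchm
        ⟨_, by
          rw [← zZ_map, hZm]
          exact hY4.map φ⟩
        (fun i => by
          have h1 : (∏ l ∈ Finset.range (m + 1), φ (Z l i i)) = φ ((ξ i * ξ' i)⁻¹ : Rˣ) := by
            rw [← hY5 i, map_prod, ← Fin.prod_univ_eq_prod_range (fun l => φ (Z l i i))]
            exact Finset.prod_congr rfl fun l _ => by rw [hZk l l.2]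
          rw [h1, mul_assoc, ← map_mul, ← map_mul, ← Units.val_mul, ← Units.val_mul,
            inv_mul_cancel, Units.val_one, map_one])
      have hcc : ∀ j, ctup (m + 1) (fun i => φ ((ξ i)⁻¹ : Rˣ)) (fun i => φ (ξ i))
          (fun k => φ (kap' δ k)) (fun k => (Z k).map φ) j =
          ctup (m + 1) t t' κ (extY fun k => (Y' k).map φ) j := by
        intro j
        rw [htt, htt', ← extY_map, ← hZ]
        exact ctup_congr (fun _ _ => rfl) (fun l hl => (hκ' l hl).symm) j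
      have hFY := hF fun k => (Y' k).map φ
      simp only [Matrix.map_apply] at hFY
      rw [hFY]
      by_cases hk1 : (P002.kry (ctup (m + 1) t t' κ (extY fun k => (Y' k).map φ) 0) v).det = 0
      · rw [hk1, mul_zero, zero_mul]
      by_cases hk2 : (P002.kry (ctup (m + 1) t t' κ (extY fun k => (Y' k).map φ) (m + 2)) v').det = 0
      · rw [hk2, mul_zero]
      obtain ⟨hy4, hy5⟩ := hy3
        ⟨v, by
          rw [hcc, P002G.cyc_iff, Matrix.isUnit_iff_isUnit_det, isUnit_iff_ne_zero]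
          exact hk1⟩
        ⟨v', by
          rw [hcc, P002G.cyc_iff, Matrix.isUnit_iff_isUnit_det, isUnit_iff_ne_zero]
          exact hk2⟩
      have hy6 := hf y hy1 hy4 hy5
      rw [evalG_eq_evalT y _ hy2] at hy6
      have hcc' : (fun j => ctup (m + 1) (fun i => φ ((ξ i)⁻¹ : Rˣ)) (fun i => φ (ξ i))
          (fun k => φ (kap' δ k)) (fun k => (Z k).map φ) j) =
          fun j => ctup (m + 1) t t' κ (extY fun k => (Y' k).map φ) j := funext hcc
      have hy7 : evalT (ctup (m + 1) t t' κ (extY fun k => (Y' k).map φ)) f = 0 := by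
        rw [← hy6]
        exact congrArg (fun c => evalT c f) hcc'.symm
      rw [hy7, zero_mul, zero_mul])
    (fun k : Fin (m + 1) => Y k) (fun k i => hY0 k k.2 i) (fun k => hYC k (by omega))
    (by
      rw [hχ3]
      exact (hYC m (Nat.lt_succ_self m)).charpoly) hcycY
    (fun i => by
      have h1 := hlast i
      have h2 : φ ((ξ i * ξ' i)⁻¹ : Rˣ) * (φ (ξ i) * φ (ξ' i)) = 1 := by
        rw [← map_mul, ← map_mul, ← Units.val_mul, ← Units.val_mul, inv_mul_cancel, Units.val_one,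
          map_one]
      rw [Fin.prod_univ_eq_prod_range (fun l => Y l i i)]
      rw [mul_assoc] at h1
      exact mul_right_cancel₀ (right_ne_zero_of_mul (by rw [h2]; exact one_ne_zero))
        (h1.trans h2.symm))
  have hmain' := (hF fun k : Fin (m + 1) => Y k).symm.trans hmain
  rw [hext, hext] at hmain'
  have hkv : (P002.kry (ctup (m + 1) t t' κ Y 0) v).det ≠ 0 := by
    rw [← hctup 0 (by omega), ← isUnit_iff_ne_zero, ← Matrix.isUnit_iff_isUnit_det,
      ← P002G.cyc_iff]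
    exact hv
  have hkv' : (P002.kry (ctup (m + 1) t t' κ Y (m + 2)) v').det ≠ 0 := by
    rw [← hctup (m + 1 + 1) le_rfl, ← isUnit_iff_ne_zero, ← Matrix.isUnit_iff_isUnit_det,
      ← P002G.cyc_iff]
    exact hv'
  have hev : evalT (N := m + 3) (ctup (m + 1) t t' κ (extY fun k : Fin (m + 1) => Y k)) f = 0 := by
    rcases mul_eq_zero.1 hmain' with h | h
    · exact (mul_eq_zero.1 h).resolve_right hkv
    · exact absurd h hkv'
  rw [evalG_eq_evalT x _ fun j => ?_]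
  · exact hev
  · rw [hext, ← hctup j (by omega), cseq_of]

end Vale.Agent.P002R
end

section

/-!
# Irreducible representations are limits of integral ones
-/

namespace Vale.Agent.P002R

open Matrix

variable {g m n r : ℕ}

/-! ### Entries in a subfield -/

/-- The group of invertible matrices with entries (and entries of the inverse) in `K₀`. -/
def GLK (r : ℕ) (K₀ : Subfield ℂ) : Subgroup (Mat r ℂ)ˣ where
  carrier := {x | (∀ i j, (x : Mat r ℂ) i j ∈ K₀) ∧
    ∀ i j, ((x⁻¹ : (Mat r ℂ)ˣ) : Mat r ℂ) i j ∈ K₀}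
  mul_mem' := by
    rintro a b ⟨ha, ha'⟩ ⟨hb, hb'⟩
    constructor
    · intro i j
      rw [Units.val_mul, Matrix.mul_apply]
      exact Subfield.sum_mem _ fun k _ => mul_mem (ha i k) (hb k j)
    · intro i j
      rw [_root_.mul_inv_rev, Units.val_mul, Matrix.mul_apply]
      exact Subfield.sum_mem _ fun k _ => mul_mem (hb' i k) (ha' k j)
  one_mem' := by
    constructor
    · intro i j
      rw [Units.val_one, Matrix.one_apply]
      split_ifs
      · exact one_mem _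
      · exact zero_mem _
    · intro i j
      rw [inv_one, Units.val_one, Matrix.one_apply]
      split_ifs
      · exact one_mem _
      · exact zero_mem _
  inv_mem' := by
    rintro a ⟨ha, ha'⟩
    exact ⟨ha', by simpa using ha⟩

/-- Every finite family of invertible matrices lies in some `GLK` with `K₀` countable. -/
theorem exists_GLK {ι : Type*} [Finite ι] (x : ι → (Mat r ℂ)ˣ) :
    ∃ K₀ : Subfield ℂ, Countable K₀ ∧ ∀ i, x i ∈ GLK r K₀ := by
  obtain ⟨K₀, hK₀, hs⟩ := exists_countable_subfield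
    (Set.range (fun p : ι × Fin r × Fin r => (x p.1 : Mat r ℂ) p.2.1 p.2.2) ∪
      Set.range (fun p : ι × Fin r × Fin r =>
        (((x p.1)⁻¹ : (Mat r ℂ)ˣ) : Mat r ℂ) p.2.1 p.2.2))
    ((Set.countable_range _).union (Set.countable_range _))
  exact ⟨K₀, hK₀, fun i => ⟨fun a b => hs (Or.inl ⟨(i, a, b), rfl⟩),
    fun a b => hs (Or.inr ⟨(i, a, b), rfl⟩)⟩⟩

theorem map_mem_GLK {κ : Type*} {K₀ : Subfield ℂ} (x : FreeGroup κ →* (Mat r ℂ)ˣ)
    (h : ∀ k, x (FreeGroup.of k) ∈ GLK r K₀) (w : FreeGroup κ) : x w ∈ GLK r K₀ := by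
  have : (⊤ : Subgroup (FreeGroup κ)) ≤ (GLK r K₀).comap x := by
    rw [← FreeGroup.closure_range_of, Subgroup.closure_le]
    rintro _ ⟨k, rfl⟩
    exact h k
  exact this (Subgroup.mem_top w)

/-! ### The unframed representation -/

/-- The map from the unframed to the framed free group. -/
def iotaU (g n : ℕ) : FU g n →* FF g n :=
  FreeGroup.lift fun k => match k with
    | Sum.inl k => FreeGroup.of (Sum.inl k)
    | Sum.inr j => gC j

theorem iotaU_inl (k : Fin g × Bool) :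
    iotaU g n (FreeGroup.of (Sum.inl k)) = FreeGroup.of (Sum.inl k) := by simp [iotaU]

theorem iotaU_inr (j : Fin n) : iotaU g n (FreeGroup.of (Sum.inr j)) = gC j := by simp [iotaU]

theorem iotaU_relator : iotaU g n (relatorU g n) = relator g n := by
  unfold relatorU relator
  rw [map_mul, map_list_prod, map_list_prod, List.map_ofFn, List.map_ofFn]
  have e1 : (⇑(iotaU g n) ∘ fun j : Fin n => (FreeGroup.of (Sum.inr j) : FU g n)) =
      fun j => gC j := by
    funext j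
    exact iotaU_inr j
  have e2 : (⇑(iotaU g n) ∘ fun i : Fin g => (FreeGroup.of (Sum.inl (i, false)) *
      FreeGroup.of (Sum.inl (i, true)) * (FreeGroup.of (Sum.inl (i, false)))⁻¹ *
      (FreeGroup.of (Sum.inl (i, true)))⁻¹ : FU g n)) = fun i => hcomm i := by
    funext i
    simp only [Function.comp, map_mul, map_inv, iotaU_inl]
    rfl
  rw [e1, e2]

theorem iotaU_mem (w : FU g n) : iotaU g n w ∈ Fc g n := by
  have : (⊤ : Subgroup (FU g n)) ≤ (Fc g n).comap (iotaU g n) := by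
    rw [← FreeGroup.closure_range_of, Subgroup.closure_le]
    rintro _ ⟨k, rfl⟩
    rw [SetLike.mem_coe, Subgroup.mem_comap]
    rcases k with k | j
    · rw [iotaU_inl]; exact Subgroup.subset_closure (Or.inl ⟨k, rfl⟩)
    · rw [iotaU_inr]; exact Subgroup.subset_closure (Or.inr ⟨j, rfl⟩)
  exact this (Subgroup.mem_top w)

theorem exists_iotaU {w : FF g n} (hw : w ∈ Fc g n) : ∃ v, iotaU g n v = w := by
  have : Fc g n ≤ (iotaU g n).range := by
    rw [Fc, Subgroup.closure_le]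
    rintro w (⟨k, rfl⟩ | ⟨j, rfl⟩)
    · exact ⟨_, iotaU_inl k⟩
    · exact ⟨_, iotaU_inr j⟩
  exact this hw

/-- The polynomial in the entries of words attached to a polynomial in the entries of the
generators of the unframed group. -/
noncomputable def liftU (f : MvPolynomial (GenU g n × Fin r × Fin r) ℂ) :
    MvPolynomial (FF g n × Fin r × Fin r) ℂ :=
  MvPolynomial.rename (fun p => (iotaU g n (FreeGroup.of p.1), p.2)) f

theorem evalW_liftU (y : FF g n →* (Mat r ℂ)ˣ) (f : MvPolynomial (GenU g n × Fin r × Fin r) ℂ) :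
    evalW y (liftU f) = evalG (y.comp (iotaU g n)) f := by
  rw [liftU, evalW, MvPolynomial.aeval_rename, evalG]
  rfl

theorem comp_iotaU_mem_DU {R : Type*} [CommRing R] (φ : R →+* ℂ) (C J : Fin n → (Mat r ℂ)ˣ)
    (hJ : ∀ j, IsConj (C j) (J j)) (y : FF (m + 1) n →* (Mat r ℂ)ˣ) (hy : y ∈ DTop φ J) :
    y.comp (iotaU (m + 1) n) ∈ DU (m + 1) φ C := by
  obtain ⟨⟨h1, h2, h3, h4⟩, h5⟩ := hy
  refine ⟨⟨?_, fun j => ?_, ?_⟩, fun k => ?_⟩
  · rw [MonoidHom.comp_apply, iotaU_relator, h1]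
  · rw [MonoidHom.comp_apply, iotaU_inr]
    refine (hJ j).trans ?_
    rw [isConj_iff]
    refine ⟨y (gD j), ?_⟩
    rw [gC_def, map_mul, map_mul, map_inv, h2]
  · apply SS_of_adjoin
    rw [← h5]
    congr 1
    ext M
    constructor
    · rintro ⟨w, rfl⟩
      exact ⟨iotaU (m + 1) n w, iotaU_mem w, rfl⟩
    · rintro ⟨w, hw, rfl⟩
      obtain ⟨v, rfl⟩ := exists_iotaU hw
      exact ⟨v, rfl⟩
  · rw [MonoidHom.comp_apply]
    rcases k with k | j
    · rw [iotaU_inl]; exact h3 k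
    · rw [iotaU_inr]; exact h4 j

/-! ### Tuples of matrices and units -/

theorem evalM_eq_evalP {κ : Type*} (X : κ → (Mat r ℂ)ˣ)
    (f : MvPolynomial (κ × Bool × Fin r × Fin r) ℂ) :
    evalM (fun k => (X k : Mat r ℂ)) f = evalP X f := by
  rw [evalM, evalP]
  congr 2
  funext p
  simp only [Matrix.coe_units_inv]

theorem relM_eq (X : Gen g n → (Mat r ℂ)ˣ) :
    relM (fun k => (X k : Mat r ℂ)) = (FreeGroup.lift X (relator g n) : Mat r ℂ) := by
  unfold relM relator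
  have h : ∀ {N : ℕ} (a : Fin N → (Mat r ℂ)ˣ) (b : Fin N → Mat r ℂ), (∀ i, (a i : Mat r ℂ) = b i) →
      ((List.ofFn a).prod : Mat r ℂ) = (List.ofFn b).prod := by
    intro N a b hab
    have h1 : ((List.ofFn a).prod : Mat r ℂ) = ((List.ofFn a).map (Units.coeHom (Mat r ℂ))).prod :=
      (map_list_prod (Units.coeHom (Mat r ℂ)) _)
    rw [h1, List.map_ofFn]
    congr 2
    funext i
    exact hab i
  rw [map_mul, Units.val_mul, map_list_prod, map_list_prod, List.map_ofFn, List.map_ofFn]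
  congr 1
  · symm
    apply h
    intro j
    simp [gC, gD, gE, Matrix.coe_units_inv]
  · symm
    apply h
    intro i
    simp [hcomm, gA, gB, Matrix.coe_units_inv]

theorem relM_eq_one_iff (X : Gen g n → (Mat r ℂ)ˣ) :
    relM (fun k => (X k : Mat r ℂ)) = 1 ↔ FreeGroup.lift X (relator g n) = 1 := by
  rw [relM_eq, Units.val_eq_one]

end Vale.Agent.P002R
end

section

/-!
# Irreducible representations are limits of integral ones: the theorem
-/

namespace Vale.Agent.P002R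

open Matrix

variable {g m n r : ℕ}

theorem det_of_isConj {a b : (Mat r ℂ)ˣ} (h : IsConj a b) :
    (a : Mat r ℂ).det = (b : Mat r ℂ).det := by
  obtain ⟨c, rfl⟩ := isConj_iff.1 h
  have h1 : (c : Mat r ℂ).det * ((c⁻¹ : (Mat r ℂ)ˣ) : Mat r ℂ).det = 1 := by
    rw [← det_mul, ← Units.val_mul, mul_inv_cancel, Units.val_one, det_one]
  rw [Units.val_mul, Units.val_mul, det_mul, det_mul, mul_right_comm, h1, one_mul]

theorem prod_det_eq_one (C : Fin n → (Mat r ℂ)ˣ) (x : FU g n →* (Mat r ℂ)ˣ)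
    (hx : x (relatorU g n) = 1) (hxC : ∀ j, IsConj (C j) (x (FreeGroup.of (Sum.inr j)))) :
    ∏ j, (C j : Mat r ℂ).det = 1 := by
  obtain ⟨δ, hδ⟩ : ∃ δ : FU g n →* ℂ, ∀ w, δ w = (x w : Mat r ℂ).det :=
    ⟨(Matrix.detMonoidHom).comp ((Units.coeHom _).comp x), fun w => rfl⟩
  have h1 : ∀ w, δ w * δ w⁻¹ = 1 := fun w => by rw [← map_mul, mul_inv_cancel, map_one]
  have h2 : δ (relatorU g n) = 1 := by rw [hδ, hx, Units.val_one, det_one]
  unfold relatorU at h2
  rw [map_mul, map_list_prod, map_list_prod, List.map_ofFn, List.map_ofFn, List.prod_ofFn] at h2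
  have h3 : (List.ofFn (⇑δ ∘ fun i : Fin g => (FreeGroup.of (Sum.inl (i, false)) *
      FreeGroup.of (Sum.inl (i, true)) * (FreeGroup.of (Sum.inl (i, false)))⁻¹ *
      (FreeGroup.of (Sum.inl (i, true)))⁻¹ : FU g n))).prod = 1 := by
    apply List.prod_eq_one
    intro a ha
    rw [List.mem_ofFn] at ha
    obtain ⟨i, rfl⟩ := ha
    simp only [Function.comp, map_mul]
    calc _ = (δ (FreeGroup.of (Sum.inl (i, false))) * δ (FreeGroup.of (Sum.inl (i, false)))⁻¹) *
          (δ (FreeGroup.of (Sum.inl (i, true))) * δ (FreeGroup.of (Sum.inl (i, true)))⁻¹) := by ring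
      _ = 1 := by rw [h1, h1, one_mul]
  rw [h3, mul_one] at h2
  rw [← h2]
  refine Finset.prod_congr rfl fun j _ => ?_
  rw [Function.comp, hδ]
  exact det_of_isConj (hxC j)

theorem scalar_of_comm {α : Fin r → ℂ} (hα : Function.Injective α) (U : (Mat r ℂ)ˣ)
    (A : (Mat r ℂ)ˣ) (hA : ∀ i j, ((U⁻¹ * A * U : (Mat r ℂ)ˣ) : Mat r ℂ) i j ≠ 0) (N : Mat r ℂ)
    (h1 : Commute N ((U : Mat r ℂ) * diagonal α * ((U⁻¹ : (Mat r ℂ)ˣ) : Mat r ℂ)))
    (h2 : Commute N (A : Mat r ℂ)) : ∃ c : ℂ, N = c • (1 : Mat r ℂ) := by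
  have hU1 : (U : Mat r ℂ) * ((U⁻¹ : (Mat r ℂ)ˣ) : Mat r ℂ) = 1 := U.mul_inv
  have hU2 : ((U⁻¹ : (Mat r ℂ)ˣ) : Mat r ℂ) * (U : Mat r ℂ) = 1 := U.inv_mul
  obtain ⟨V, hV⟩ : ∃ V : Mat r ℂ, V = ((U⁻¹ : (Mat r ℂ)ˣ) : Mat r ℂ) := ⟨_, rfl⟩
  rw [← hV] at hU1 hU2 h1
  obtain ⟨M, hM⟩ : ∃ M : Mat r ℂ, M = V * N * U := ⟨_, rfl⟩
  have hN : N = U * M * V := by
    rw [hM]
    calc N = (U * V) * N * (U * V) := by rw [hU1, one_mul, mul_one]
      _ = _ := by simp only [mul_assoc]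
  have hMd : M * diagonal α = diagonal α * M := by
    have := h1.eq
    calc M * diagonal α = V * (N * (U * diagonal α * V)) * U := by
          rw [hM]
          calc V * N * U * diagonal α = V * N * U * diagonal α * (V * U) := by rw [hU2, mul_one]
            _ = _ := by simp only [mul_assoc]
      _ = V * ((U * diagonal α * V) * N) * U := by rw [this]
      _ = (V * U) * diagonal α * M := by rw [hM]; simp only [mul_assoc]
      _ = _ := by rw [hU2, one_mul]
  have hMA : M * ((U⁻¹ * A * U : (Mat r ℂ)ˣ) : Mat r ℂ) =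
      ((U⁻¹ * A * U : (Mat r ℂ)ˣ) : Mat r ℂ) * M := by
    rw [Units.val_mul, Units.val_mul, ← hV, hM]
    calc V * N * U * (V * A * U) = V * N * (U * V) * A * U := by simp only [mul_assoc]
      _ = V * (N * A) * U := by rw [hU1, mul_one]; simp only [mul_assoc]
      _ = V * (A * N) * U := by rw [h2.eq]
      _ = V * A * (U * V) * N * U := by rw [hU1, mul_one]; simp only [mul_assoc]
      _ = _ := by simp only [mul_assoc]
  have hoff : ∀ i j, i ≠ j → M i j = 0 := by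
    intro i j hij
    have := congrFun (congrFun hMd i) j
    rw [Matrix.mul_diagonal, Matrix.diagonal_mul] at this
    have h3 : (α j - α i) * M i j = 0 := by rw [sub_mul, ← this]; ring
    rcases mul_eq_zero.1 h3 with h | h
    · exact absurd (hα (sub_eq_zero.1 h)) (Ne.symm hij)
    · exact h
  have hMdiag : M = diagonal (fun i => M i i) := by
    ext i j
    by_cases hij : i = j
    · subst hij; rw [Matrix.diagonal_apply_eq]
    · rw [hoff i j hij, Matrix.diagonal_apply_ne _ hij]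
  have hall : ∀ i j, M i i = M j j := by
    intro i j
    have := congrFun (congrFun hMA i) j
    rw [hMdiag, Matrix.mul_diagonal, Matrix.diagonal_mul] at this
    have h4 := hA i j
    exact mul_right_cancel₀ h4 (by rw [this]; ring)
  rcases Nat.eq_zero_or_pos r with hr | hr
  · subst hr
    exact ⟨0, Subsingleton.elim _ _⟩
  · refine ⟨M ⟨0, hr⟩ ⟨0, hr⟩, ?_⟩
    have : M = M ⟨0, hr⟩ ⟨0, hr⟩ • (1 : Mat r ℂ) := by
      rw [hMdiag]
      ext i j
      by_cases hij : i = j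
      · subst hij
        simp only [Matrix.diagonal_apply_eq, Matrix.smul_apply, Matrix.one_apply_eq, smul_eq_mul,
          mul_one]
        exact hall _ _
      · simp [Matrix.diagonal_apply_ne _ hij, Matrix.one_apply_ne hij]
    rw [hN, this, mul_smul_comm, smul_mul_assoc, mul_one, hU1]
    simp

theorem flow_flow {κ : Type*} [DecidableEq κ] {S : Type*} [CommRing S]
    (x : FreeGroup κ →* (Mat r S)ˣ) (k : κ) (z z' : (Mat r S)ˣ) :
    flow (flow x k z) k z' = flow x k (z * z') := by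
  apply FreeGroup.ext_hom
  intro l
  simp only [flow_of]
  split_ifs with h
  · simp [mul_assoc]
  · rfl

/-- Irreducible representations are in the Zariski closure of the semisimple integral ones, as soon
as there is a good base point. -/
theorem irreducible_of_base {R : Type*} [CommRing R] (φ : R →+* ℂ) (hr : 1 ≤ r) (hm : 1 ≤ m)
    (C J : Fin n → (Mat r ℂ)ˣ) (hJ : ∀ j, IsConj (C j) (J j))
    (ρ : FF (m + 1) n →* (Mat r ℂ)ˣ) (hρ : ρ ∈ DFr φ J) (hρB : ρ (gB (Fin.last m)) = 1)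
    (w₀ : FF (m + 1) n) (hw₀ : w₀ ∈ Fc (m + 1) n) (hw₀' : w₀ ∈ Fprime m n)
    (U : (Mat r ℂ)ˣ) (α : Fin r → ℂ) (hα : Function.Injective α)
    (hU : (ρ w₀ : Mat r ℂ) = (U : Mat r ℂ) * diagonal α * ((U⁻¹ : (Mat r ℂ)ˣ) : Mat r ℂ))
    (hdual : ∀ K₀ : Subfield ℂ, Countable K₀ → (∀ w, ρ w ∈ GLK r K₀) → U ∈ GLK r K₀ →
      ∃ A : (Mat r ℂ)ˣ, AlgebraicIndependent K₀ (fun p : Fin r × Fin r => (A : Mat r ℂ) p.1 p.2) ∧
        DualProp (fun q : Loop m n => ρ (loopW q)) A)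
    (x : FU (m + 1) n →* (Mat r ℂ)ˣ) (hx : x (relatorU (m + 1) n) = 1)
    (hxC : ∀ j, IsConj (C j) (x (FreeGroup.of (Sum.inr j))))
    (hirr : ∀ M : Mat r ℂ, (∀ w, Commute M (x w : Mat r ℂ)) → ∃ c : ℂ, M = c • (1 : Mat r ℂ))
    (f : MvPolynomial (GenU (m + 1) n × Fin r × Fin r) ℂ)
    (hf : ∀ y ∈ DU (m + 1) φ C, evalG y f = 0) : evalG x f = 0 := by
  classical
  obtain ⟨K₀, hK₀, hρK⟩ := exists_GLK (r := r)
    (Sum.elim (fun k : Gen (m + 1) n => ρ (FreeGroup.of k)) (fun _ : Unit => U))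
  have hρw : ∀ w, ρ w ∈ GLK r K₀ := map_mem_GLK ρ fun k => hρK (Sum.inl k)
  have hUK : U ∈ GLK r K₀ := hρK (Sum.inr ())
  obtain ⟨A, hA, hdA⟩ := hdual K₀ hK₀ hρw hUK
  obtain ⟨kA, hkA⟩ : ∃ kA : Gen (m + 1) n, kA = Sum.inl (Fin.last m, false) := ⟨_, rfl⟩
  obtain ⟨ρA, hρA⟩ : ∃ ρA, ρA = flow ρ kA ((ρ (FreeGroup.of kA))⁻¹ * A) := ⟨_, rfl⟩
  have hρAk : ∀ k, k ≠ Sum.inl (Fin.last m, false) →
      ρA (FreeGroup.of k) = ρ (FreeGroup.of k) := by
    intro k hk
    rw [hρA, flow_of, if_neg (by rw [hkA]; exact hk)]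
  have hρAA : ρA (gA (Fin.last m)) = A := by
    rw [hρA, gA, ← hkA, flow_of, if_pos rfl]
    simp
  have hρAF : ∀ w ∈ Fprime m n, ρA w = ρ w := fun w hw => eq_on_Fprime ρA ρ hρAk hw
  have hρAB : ρA (gB (Fin.last m)) = 1 := by rw [hρAF _ (gB_mem _), hρB]
  have hblk : ((blocks m n).map bw).prod ∈ Fprime m n := by
    apply Subgroup.list_prod_mem
    intro w hw
    rw [List.mem_map] at hw
    obtain ⟨b, -, rfl⟩ := hw
    exact bw_mem b
  have hrelA : ρA (relator (m + 1) n) = 1 := by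
    have h1 := hρ.1
    rw [Slides.relator_eq_blocks, map_mul, hcomm, map_mul, map_mul, map_mul, map_inv, map_inv,
      hρB] at h1
    rw [Slides.relator_eq_blocks, map_mul, hcomm, map_mul, map_mul, map_mul, map_inv, map_inv,
      hρAB, hρAF _ hblk]
    simpa using h1
  have hρAJ : ∀ j, ρA (gE j) = J j := by
    intro j
    rw [gE, hρAk _ (by simp)]
    exact hρ.2.1 j
  have hbase : ∀ z : (Mat r (PowerSeries ℂ))ˣ, InZ (DTop φ J)
      (flow (baseChange (algebraMap ℂ (PowerSeries ℂ)) ρA) (Sum.inl (Fin.last m, false)) z) := by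
    intro z
    rw [hρA, hkA, baseChange_flow, flow_flow]
    exact inZ_top φ J ρ hρ hρB w₀ hw₀ hw₀' U α hα hU _
  have hgenmul : ∀ P Q : (Mat r ℂ)ˣ, P ∈ GLK r K₀ → Q ∈ GLK r K₀ →
      AlgebraicIndependent K₀ fun q : Fin r × Fin r => ((P * A * Q : (Mat r ℂ)ˣ) : Mat r ℂ) q.1 q.2 := by
    intro P Q hP hQ
    exact generic_mul hA P Q hP.1 hQ.1 P.isUnit Q.isUnit
  have hgen : ∀ p : List (Loop m n), AlgebraicIndependent ℤ fun q : Fin r × Fin r =>
      (ρA (wordL p * gA (Fin.last m)) : Mat r ℂ) q.1 q.2 := by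
    intro p
    have h1 : ρA (wordL p * gA (Fin.last m)) = ρ (wordL p) * A * 1 := by
      rw [map_mul, hρAA, hρAF _ (wordL_mem p), mul_one]
    rw [h1]
    exact (hgenmul _ _ (hρw _) (one_mem _)).restrictScalars (R := ℤ)
      (algebraMap ℤ K₀).injective_int
  obtain ⟨h, hh1, hh2⟩ := local_theorem_dual (DTop φ J) J (fun y hy => hy.1.1)
    (fun y hy => hy.1.2.1) (fun τ h1 h2 y hy => DTop_adm φ J τ h1 h2 y hy) ρA hρAB hrelA hρAJ
    hbase hgen (by
      have h1 : (fun q : Loop m n => ρA (loopW q)) = fun q => ρ (loopW q) :=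
        funext fun q => hρAF _ (loopW_mem q)
      rw [h1, hρAA]
      exact hdA) (liftU f) (fun y hy => by
      rw [evalW_liftU]
      exact hf _ (comp_iotaU_mem_DU φ C J hJ y hy))
  -- the point `x`
  have hd : ∀ j, ∃ d : (Mat r ℂ)ˣ, d * J j * d⁻¹ = x (FreeGroup.of (Sum.inr j)) := fun j =>
    isConj_iff.1 (((hJ j).symm).trans (hxC j))
  choose d hd using hd
  obtain ⟨X₁, hX₁⟩ : ∃ X₁ : Gen (m + 1) n → (Mat r ℂ)ˣ, (∀ k, X₁ (Sum.inl k) =
      x (FreeGroup.of (Sum.inl k))) ∧ (∀ j, X₁ (Sum.inr (j, false)) = d j) ∧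
      ∀ j, X₁ (Sum.inr (j, true)) = J j :=
    ⟨Sum.elim (fun k => x (FreeGroup.of (Sum.inl k))) fun p => if p.2 then J p.1 else d p.1,
      fun k => rfl, fun j => by simp, fun j => by simp⟩
  have hX₁c : ∀ j, FreeGroup.lift X₁ (gC j) = x (FreeGroup.of (Sum.inr j)) := by
    intro j
    rw [gC_def, map_mul, map_mul, map_inv, gD, gE, FreeGroup.lift_apply_of,
      FreeGroup.lift_apply_of, hX₁.2.1, hX₁.2.2, hd]
  have hX₁x : (FreeGroup.lift X₁).comp (iotaU (m + 1) n) = x := by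
    apply FreeGroup.ext_hom
    rintro (k | j)
    · rw [MonoidHom.comp_apply, iotaU_inl, FreeGroup.lift_apply_of, hX₁.1]
    · rw [MonoidHom.comp_apply, iotaU_inr, hX₁c]
  have hX₁rel : FreeGroup.lift X₁ (relator (m + 1) n) = 1 := by
    rw [← iotaU_relator, ← MonoidHom.comp_apply, hX₁x, hx]
  have hX₁f : evalP X₁ (toP (liftU f)) = evalG x f := by
    rw [evalP_toP, evalW_liftU, hX₁x]
  by_contra hne
  -- a good point near `X₁`
  have hU₁ : {X : Gen (m + 1) n → Mat r ℂ | evalM X (toP (liftU f)) ≠ 0} ∈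
      nhds (fun k => (X₁ k : Mat r ℂ)) :=
    (evalM_continuousAt (toP (liftU f)) _ (fun k => (X₁ k).isUnit)).preimage_mem_nhds
      (isOpen_compl_singleton.mem_nhds (by
        rw [evalM_eq_evalP, hX₁f]
        exact hne))
  obtain ⟨X₁', hX₁'U, hX₁'u, hX₁'J, hX₁'r, hX₁'g⟩ := dense_handles (g := m + 1) (by omega) hr
    (fun k => (X₁ k : Mat r ℂ)) (fun k => (X₁ k).isUnit) ((relM_eq_one_iff X₁).2 hX₁rel)
    (fun M hM1 hM2 => by
      refine hirr M fun w => ?_
      have h1 : ∀ k, Commute M (x (FreeGroup.of k) : Mat r ℂ) := by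
        rintro (k | j)
        · rw [← hX₁.1]; exact hM1 k
        · have h2 := hM2 j
          rw [← hX₁c, gC_def, map_mul, map_mul, map_inv, gD, gE, FreeGroup.lift_apply_of,
            FreeGroup.lift_apply_of, Units.val_mul, Units.val_mul, Matrix.coe_units_inv]
          exact h2
      have h3 : (⊤ : Subgroup (FU (m + 1) n)) ≤
          (Subgroup.comap x ({
            carrier := {y : (Mat r ℂ)ˣ | Commute M (y : Mat r ℂ)}
            mul_mem' := fun {a b} ha hb => by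
              simpa using Commute.mul_right (show Commute M (a : Mat r ℂ) from ha)
                (show Commute M (b : Mat r ℂ) from hb)
            one_mem' := by simp
            inv_mem' := fun {a} ha => by
              exact Commute.units_inv_right (show Commute M (a : Mat r ℂ) from ha) } :
              Subgroup (Mat r ℂ)ˣ)) := by
        rw [← FreeGroup.closure_range_of, Subgroup.closure_le]
        rintro _ ⟨k, rfl⟩
        exact h1 k
      exact h3 (Subgroup.mem_top w)) _ hU₁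
  -- a good point near `ρA`
  have hU₀ : {X : Gen (m + 1) n → Mat r ℂ | evalM X h ≠ 0} ∈
      nhds (fun k => (ρA (FreeGroup.of k) : Mat r ℂ)) :=
    (evalM_continuousAt h _ (fun k => (ρA (FreeGroup.of k)).isUnit)).preimage_mem_nhds
      (isOpen_compl_singleton.mem_nhds (by
        change evalM (fun k => (ρA (FreeGroup.of k) : Mat r ℂ)) h ≠ 0
        rw [evalM_eq_evalP (fun k => ρA (FreeGroup.of k)) h]
        exact hh1))
  have hAV0 : ∀ i j, ((U⁻¹ * A * U : (Mat r ℂ)ˣ) : Mat r ℂ) i j ≠ 0 :=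
    (generic_gen3 (hgenmul _ _ (inv_mem hUK) hUK)).1
  obtain ⟨X₀', hX₀'U, hX₀'u, hX₀'J, hX₀'r, hX₀'g⟩ := dense_handles (g := m + 1) (by omega) hr
    (fun k => (ρA (FreeGroup.of k) : Mat r ℂ)) (fun k => (ρA (FreeGroup.of k)).isUnit)
    ((relM_eq_one_iff (fun k => ρA (FreeGroup.of k))).2 (by rw [lift_of]; exact hrelA))
    (fun M hM1 hM2 => by
      have hFc : ∀ w ∈ Fc (m + 1) n, Commute M (ρA w : Mat r ℂ) := by
        have h3 : Fc (m + 1) n ≤
            (Subgroup.comap ρA ({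
              carrier := {y : (Mat r ℂ)ˣ | Commute M (y : Mat r ℂ)}
              mul_mem' := fun {a b} ha hb => by
                simpa using Commute.mul_right (show Commute M (a : Mat r ℂ) from ha)
                  (show Commute M (b : Mat r ℂ) from hb)
              one_mem' := by simp
              inv_mem' := fun {a} ha => by
                exact Commute.units_inv_right (show Commute M (a : Mat r ℂ) from ha) } :
                Subgroup (Mat r ℂ)ˣ)) := by
          rw [Fc, Subgroup.closure_le]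
          rintro _ (⟨k, rfl⟩ | ⟨j, rfl⟩)
          · exact hM1 k
          · have h2 := hM2 j
            change Commute M (ρA (gC j) : Mat r ℂ)
            rw [gC_def, map_mul, map_mul, map_inv, gD, gE, Units.val_mul, Units.val_mul,
              Matrix.coe_units_inv]
            exact h2
        exact fun w hw => h3 hw
      refine scalar_of_comm hα U A hAV0 M ?_ ?_
      · rw [← hU, ← hρAF _ hw₀']
        exact hFc w₀ hw₀
      · rw [← hρAA]
        exact hM1 (Fin.last m, false)) _ hU₀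
  obtain ⟨i₀⟩ : Nonempty (Fin m) := ⟨⟨0, hm⟩⟩
  have hres := partII hr hm (toP (liftU f)) h (fun j => (J j : Mat r ℂ)) (fun j => (J j).isUnit)
    (fun X hXu hXJ hXr => by
      obtain ⟨Y, hY⟩ : ∃ Y : Gen (m + 1) n → (Mat r ℂ)ˣ, X = fun k => (Y k : Mat r ℂ) := by
        choose Y hY using hXu
        exact ⟨Y, funext fun k => (hY k).symm⟩
      subst hY
      rw [evalM_eq_evalP, evalM_eq_evalP, evalP_toP]
      exact hh2 Y (fun j => Units.ext (hXJ j)) ((relM_eq_one_iff Y).1 hXr))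
    X₀' hX₀'u (fun j => by rw [hX₀'J]; exact congrArg Units.val (hρAJ j)) hX₀'r
    (fun M hM => hX₀'g i₀.castSucc M (hM i₀ false) (hM i₀ true)) hX₀'U
    X₁' hX₁'u (fun j => by rw [hX₁'J]; exact congrArg Units.val (hX₁.2.2 j)) hX₁'r
    (fun M hM => hX₁'g i₀.castSucc M (hM i₀ false) (hM i₀ true))
  exact hX₁'U hres


/-- Irreducible representations with prescribed boundary classes are in the Zariski closure of the
semisimple integral ones (integral up to scalars). -/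
theorem irreducible_case {R : Type*} [CommRing R] (φ : R →+* ℂ) (hφ : Function.Injective φ)
    (u : Rˣ) (hu : ∀ k : ℕ, 0 < k → φ (u : R) ^ k ≠ 1) (hr : 1 ≤ r) (N : ℕ) (hN : 0 < N)
    (hμ : ∀ z : ℂ, z ^ (2 * N * r) = 1 → z ∈ Set.range φ)
    (C : Fin n → (Mat r ℂ)ˣ) (hC : ∀ j, IsNilpotent ((C j : Mat r ℂ) ^ N - 1))
    (hm : 1 ≤ m) (hmn : 2 ≤ m ∨ ∀ j, IsNilpotent ((C j : Mat r ℂ) - 1))
    (x : FU (m + 1) n →* (Mat r ℂ)ˣ) (hx : x (relatorU (m + 1) n) = 1)
    (hxC : ∀ j, IsConj (C j) (x (FreeGroup.of (Sum.inr j))))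
    (hirr : ∀ M : Mat r ℂ, (∀ w, Commute M (x w : Mat r ℂ)) → ∃ c : ℂ, M = c • (1 : Mat r ℂ))
    (f : MvPolynomial (GenU (m + 1) n × Fin r × Fin r) ℂ)
    (hf : ∀ y ∈ DU (m + 1) φ C, evalG y f = 0) : evalG x f = 0 := by
  classical
  obtain ⟨J, hJ, ρ, hρ, hρB, -, i₀, α, U, hα, hU⟩ := exists_base φ hφ u hu hr N hN hμ C hC
    (prod_det_eq_one C x hx hxC) hm hmn
  have hw₀ : gB i₀.castSucc * (gA i₀.castSucc)⁻¹ * (gB i₀.castSucc)⁻¹ ∈ Fc (m + 1) n := by
    have h1 : ∀ k, (FreeGroup.of (Sum.inl k) : FF (m + 1) n) ∈ Fc (m + 1) n := fun k =>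
      Subgroup.subset_closure (Or.inl ⟨k, rfl⟩)
    exact mul_mem (mul_mem (h1 _) (inv_mem (h1 _))) (inv_mem (h1 _))
  have hw₀' : gB i₀.castSucc * (gA i₀.castSucc)⁻¹ * (gB i₀.castSucc)⁻¹ ∈ Fprime m n :=
    mul_mem (mul_mem (gB_mem _) (inv_mem (gA_mem _))) (inv_mem (gB_mem _))
  refine irreducible_of_base φ hr hm C J hJ ρ hρ hρB _ hw₀ hw₀' U α hα.inj hU ?_ x hx hxC hirr f hf
  intro K₀ hK₀ hρw hUK
  obtain ⟨A, hA⟩ := exists_generic_over K₀ r
  refine ⟨A, hA, ?_⟩
  obtain ⟨q₀, hq₀⟩ : ∃ q₀ : Loop m n, q₀ = Sum.inr (i₀, false) := ⟨_, rfl⟩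
  have hloop : loopW q₀ = (kap q₀)⁻¹ *
      (gB i₀.castSucc * (gA i₀.castSucc)⁻¹ * (gB i₀.castSucc)⁻¹) * kap q₀ := by
    rw [hq₀]; rfl
  obtain ⟨V, hV⟩ : ∃ V, V = (ρ (kap q₀))⁻¹ * U := ⟨_, rfl⟩
  have hVK : V ∈ GLK r K₀ := by rw [hV]; exact mul_mem (inv_mem (hρw _)) hUK
  have hq₀V : (ρ (loopW q₀) : Mat r ℂ) =
      (V : Mat r ℂ) * diagonal α * ((V⁻¹ : (Mat r ℂ)ˣ) : Mat r ℂ) := by
    rw [hloop, map_mul, map_mul, Units.val_mul, Units.val_mul, hU, hV,
      _root_.mul_inv_rev, inv_inv, map_inv, Units.val_mul, Units.val_mul]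
    simp only [mul_assoc]
  have hAV : Gen3 ((V⁻¹ * A * V : (Mat r ℂ)ˣ) : Mat r ℂ) :=
    generic_gen3 (generic_mul hA _ _ (inv_mem hVK).1 hVK.1 (V⁻¹).isUnit V.isUnit)
  exact fun R Q H => dual3 (fun q : Loop m n => ρ (loopW q)) R Q A q₀ V α hα hq₀V
    hAV (fun p k h1 _ => H p k h1)

end Vale.Agent.P002R
end

section

/-!
# Density of integral points: the main theorem for framed free groups
-/

namespace Vale.Agent.P002R

open Matrix

variable {g n r : ℕ}

/-- Irreducible representations of abelian groups have dimension at most one. -/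
theorem abelian_case (hg : g ≤ 1) {R : Type*} [CommRing R] (φ : R →+* ℂ)
    (C : Fin 0 → (Mat r ℂ)ˣ) (x : FU g 0 →* (Mat r ℂ)ˣ) (hx : x ∈ YU g C)
    (hirr : ∀ M : Mat r ℂ, (∀ w, Commute M (x w : Mat r ℂ)) → ∃ c : ℂ, M = c • (1 : Mat r ℂ)) :
    x ∈ DU g φ C := by
  have hcomm : ∀ k l : GenU g 0, Commute (x (FreeGroup.of k)) (x (FreeGroup.of l)) := by
    intro k l
    rcases k with ⟨i, b⟩ | j
    swap
    · exact j.elim0
    rcases l with ⟨i', b'⟩ | j
    swap
    · exact j.elim0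
    have hg1 : g = 1 := by
      have := i.isLt
      omega
    subst hg1
    have hi : i = 0 := Subsingleton.elim _ _
    have hi' : i' = 0 := Subsingleton.elim _ _
    subst hi hi'
    have h1 := hx.1
    unfold relatorU at h1
    simp only [List.ofFn_zero, List.prod_nil, one_mul, List.ofFn_succ, List.prod_cons,
      mul_one, map_mul, map_inv] at h1
    have h2 : x (FreeGroup.of (Sum.inl (0, false))) * x (FreeGroup.of (Sum.inl (0, true))) =
        x (FreeGroup.of (Sum.inl (0, true))) * x (FreeGroup.of (Sum.inl (0, false))) := by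
      rw [mul_inv_eq_one, mul_inv_eq_iff_eq_mul] at h1
      exact h1
    cases b <;> cases b'
    · exact Commute.refl _
    · exact h2
    · exact h2.symm
    · exact Commute.refl _
  have hall : ∀ w w' : FU g 0, Commute (x w) (x w') := by
    have step : ∀ y : (Mat r ℂ)ˣ, (∀ k, Commute y (x (FreeGroup.of k))) → ∀ w, Commute y (x w) := by
      intro y hy w
      have : (⊤ : Subgroup (FU g 0)) ≤ (Subgroup.centralizer {y}).comap x := by
        rw [← FreeGroup.closure_range_of, Subgroup.closure_le]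
        rintro _ ⟨k, rfl⟩
        rw [SetLike.mem_coe, Subgroup.mem_comap, Subgroup.mem_centralizer_singleton_iff]
        exact (hy k).symm
      have h := this (Subgroup.mem_top w)
      rw [Subgroup.mem_comap, Subgroup.mem_centralizer_singleton_iff] at h
      exact h.symm
    intro w w'
    exact (step (x w') (fun k => (step _ (fun l => hcomm k l) w').symm) w).symm
  refine ⟨hx, fun k => ?_⟩
  -- each value is scalar
  obtain ⟨c, hc⟩ := hirr (x (FreeGroup.of k) : Mat r ℂ) fun w =>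
    congrArg Units.val (hall (FreeGroup.of k) w)
  rcases Nat.eq_zero_or_pos r with hr | hr
  · subst hr
    have : x (FreeGroup.of k) = 1 := Units.ext (Subsingleton.elim _ _)
    rw [this]
    exact one_mem _
  · have hc0 : c ≠ 0 := by
      rintro rfl
      have := (x (FreeGroup.of k)).isUnit
      rw [hc, zero_smul] at this
      have : Nonempty (Fin r) := ⟨⟨0, hr⟩⟩
      exact not_isUnit_zero ‹_›
    refine ⟨Units.mk0 c hc0, 1, Units.ext ?_⟩
    rw [scalarU_mul_coe, hc, map_one, Units.val_one, Units.val_mk0]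

/-- Density of the representations which are integral up to scalars. -/
theorem main_DU {R : Type*} [CommRing R] (φ : R →+* ℂ) (hφ : Function.Injective φ) (u : Rˣ)
    (hu : ∀ k : ℕ, 0 < k → φ (u : R) ^ k ≠ 1) (N : ℕ) (hN : 0 < N)
    (hμ : ∀ k : ℕ, 0 < k → k ≤ r → ∀ z : ℂ, z ^ (2 * N * k) = 1 → z ∈ Set.range φ)
    (hg : 3 ≤ g ∨ n = 0 ∨ (2 ≤ g ∧ N = 1))
    (C : Fin n → (Mat r ℂ)ˣ) (hC : ∀ j, IsNilpotent ((C j : Mat r ℂ) ^ N - 1))
    (x : FU g n →* (Mat r ℂ)ˣ) (hx : x ∈ YU g C)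
    (f : MvPolynomial (GenU g n × Fin r × Fin r) ℂ)
    (hf : ∀ y ∈ DU g φ C, evalG y f = 0) : evalG x f = 0 := by
  refine partIV φ hφ u hu N hN r (fun k hk hkr z hz => hμ k hk hkr z ?_) ?_ C hC x hx f hf
  · rw [mul_assoc, mul_comm 2, pow_mul, hz, one_pow]
  intro r' hr' hr'0 C hC x hx hirr f hf
  by_cases hg2 : 2 ≤ g
  · obtain ⟨m, rfl⟩ : ∃ m, g = m + 1 := ⟨g - 1, by omega⟩
    refine irreducible_case φ hφ u hu hr'0 N hN (hμ r' hr'0 hr') C hC (by omega) ?_ x hx.1 hx.2.1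
      hirr f hf
    rcases hg with h | h | h
    · exact Or.inl (by omega)
    · subst h
      exact Or.inr fun j => j.elim0
    · refine Or.inr fun j => ?_
      have := hC j
      rwa [h.2, pow_one] at this
  · have hn : n = 0 := by omega
    subst hn
    exact hf x (abelian_case (by omega) φ C x hx hirr)

/-- Density of the representations into `SL_r(R)`. -/
theorem main_SL {R : Type*} [CommRing R] (φ : R →+* ℂ) (hφ : Function.Injective φ) (u : Rˣ)
    (hu : ∀ k : ℕ, 0 < k → φ (u : R) ^ k ≠ 1) (N : ℕ) (hN : 0 < N)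
    (hμ : ∀ k : ℕ, 0 < k → k ≤ r → ∀ z : ℂ, z ^ (2 * N * k) = 1 → z ∈ Set.range φ)
    (hg : 3 ≤ g ∨ n = 0 ∨ (2 ≤ g ∧ N = 1))
    (C : Fin n → (Mat r ℂ)ˣ) (hC : ∀ j, IsNilpotent ((C j : Mat r ℂ) ^ N - 1))
    (hCdet : ∀ j, (C j : Mat r ℂ).det = 1)
    (f : MvPolynomial (GenU g n × Fin r × Fin r) ℂ)
    (hf : ∀ y : FU g n →* SpecialLinearGroup (Fin r) R, y (relatorU g n) = 1 →
      (∀ j, IsConj (C j) (slU φ (y (FreeGroup.of (Sum.inr j))))) →
      SS ((slU φ).comp y) → evalG ((slU φ).comp y) f = 0)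
    (x : FU g n →* (Mat r ℂ)ˣ) (hx : x ∈ YU g C) (hdet : ∀ w, (x w : Mat r ℂ).det = 1) :
    evalG x f = 0 := by
  rcases Nat.eq_zero_or_pos r with hr | hr
  · subst hr
    have h1 : x = (slU φ).comp 1 := by
      ext w i
      exact i.elim0
    rw [h1]
    refine hf 1 (by simp) (fun j => ?_) ?_
    · have : C j = slU φ ((1 : FU g n →* SpecialLinearGroup (Fin 0) R) (FreeGroup.of (Sum.inr j))) :=
        Units.ext (Subsingleton.elim _ _)
      rw [← this]
    · rw [← h1]; exact hx.2.2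
  · obtain ⟨ζ, hζ⟩ := hμ r hr le_rfl (Complex.exp (2 * Real.pi * Complex.I / r)) (by
      rw [mul_comm (2 * N) r, pow_mul, (Complex.isPrimitiveRoot_exp r hr.ne').pow_eq_one, one_pow])
    have hζp : IsPrimitiveRoot (φ ζ) r := by
      rw [hζ]
      exact Complex.isPrimitiveRoot_exp r hr.ne'
    refine unscale φ hφ ζ (hφ ?_) hζp hr C hCdet f hf x hdet
      (fun f' hf' => main_DU φ hφ u hu N hN hμ hg C hC x hx f' hf')
    rw [map_pow, map_one]
    exact hζp.pow_eq_one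

end Vale.Agent.P002R
end

section

/-!
# Translation of the main theorem into the language of representations of surface groups
-/

namespace Vale.Agent.P002R.Statement

open Matrix NumberField

variable {g n r : ℕ}

/-- The handle part and the boundary part of the relator. -/
theorem relators (g n : ℕ) : ∃ H P : FU g n, relatorU g n = P * H ∧
    ∀ {A : Type} [CommRing A] (X : Gens g n → SpecialLinearGroup (Fin r) A),
      IsRep X ↔ FreeGroup.lift X H * FreeGroup.lift X P = 1 := by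
  refine ⟨_, _, relatorU_eqn, ?_⟩
  intro A _ X
  rw [map_list_prod, map_list_prod, List.map_ofFn, List.map_ofFn]
  have e1 : (⇑(FreeGroup.lift X) ∘ fun j : Fin n => (FreeGroup.of (Sum.inr j) : FU g n)) =
      fun j => X (Sum.inr j) := by
    funext j
    simp
  have e2 : (⇑(FreeGroup.lift X) ∘ fun i : Fin g => (FreeGroup.of (Sum.inl (i, false)) *
      FreeGroup.of (Sum.inl (i, true)) * (FreeGroup.of (Sum.inl (i, false)))⁻¹ *
      (FreeGroup.of (Sum.inl (i, true)))⁻¹ : FU g n)) = fun i => X (Sum.inl (i, false)) *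
        X (Sum.inl (i, true)) * (X (Sum.inl (i, false)))⁻¹ * (X (Sum.inl (i, true)))⁻¹ := by
    funext i
    simp
  rw [e1, e2]
  exact Iff.rfl

theorem isRep_iff {A : Type} [CommRing A] (X : Gens g n → SpecialLinearGroup (Fin r) A) :
    IsRep X ↔ FreeGroup.lift X (relatorU g n) = 1 := by
  obtain ⟨H, P, h1, h2⟩ := relators (r := r) g n
  rw [h1, h2, map_mul]
  exact mul_eq_one_comm

/-- The representation of the free group attached to a complex representation. -/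
noncomputable def toU (X : Gens g n → SpecialLinearGroup (Fin r) ℂ) : FU g n →* (Mat r ℂ)ˣ :=
  SpecialLinearGroup.toGL.comp (FreeGroup.lift X)

theorem toU_coe (X : Gens g n → SpecialLinearGroup (Fin r) ℂ) (w : FU g n) :
    (toU X w : Mat r ℂ) = (FreeGroup.lift X w).1 := rfl

theorem toU_of (X : Gens g n → SpecialLinearGroup (Fin r) ℂ) (k : Gens g n) :
    toU X (FreeGroup.of k) = SpecialLinearGroup.toGL (X k) := by
  rw [toU, MonoidHom.comp_apply, FreeGroup.lift_apply_of]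

theorem evalG_toU (F : MvPolynomial (Gens g n × Fin r × Fin r) ℂ)
    (X : Gens g n → SpecialLinearGroup (Fin r) ℂ) : evalG (toU X) F = value F X := by
  rw [evalG_eqn, MvPolynomial.aeval_def, value]
  congr 1
  funext p
  rw [toU_of]
  rfl

theorem inv_stable (M : (Mat r ℂ)ˣ) (W : Submodule ℂ (Fin r → ℂ))
    (h : ∀ v ∈ W, (M : Mat r ℂ) *ᵥ v ∈ W) : ∀ v ∈ W, ((M⁻¹ : (Mat r ℂ)ˣ) : Mat r ℂ) *ᵥ v ∈ W := by
  intro v hv
  obtain ⟨T, hT⟩ : ∃ T : W →ₗ[ℂ] W, ∀ v, ((T v : W) : Fin r → ℂ) = (M : Mat r ℂ) *ᵥ v :=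
    ⟨(Matrix.mulVecLin (M : Mat r ℂ)).restrict h, fun v => rfl⟩
  have hMi : ((M⁻¹ : (Mat r ℂ)ˣ) : Mat r ℂ) * (M : Mat r ℂ) = 1 := M.inv_mul
  have hinj : Function.Injective T := by
    intro a b hab
    have h1 : (M : Mat r ℂ) *ᵥ (a : Fin r → ℂ) = (M : Mat r ℂ) *ᵥ (b : Fin r → ℂ) := by
      rw [← hT, ← hT, hab]
    apply Subtype.ext
    have h2 := congrArg (fun u => ((M⁻¹ : (Mat r ℂ)ˣ) : Mat r ℂ) *ᵥ u) h1
    simpa [Matrix.mulVec_mulVec, hMi] using h2
  obtain ⟨a, ha⟩ := (LinearMap.injective_iff_surjective.1 hinj) ⟨v, hv⟩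
  have h1 : v = (M : Mat r ℂ) *ᵥ (a : Fin r → ℂ) := by rw [← hT, ha]
  rw [h1, Matrix.mulVec_mulVec, hMi, Matrix.one_mulVec]
  exact a.2

theorem stable_iff (X : Gens g n → SpecialLinearGroup (Fin r) ℂ) (W : Submodule ℂ (Fin r → ℂ)) :
    (∀ w, ∀ v ∈ W, (toU X w : Mat r ℂ) *ᵥ v ∈ W) ↔ IsInvSubspace X W := by
  constructor
  · intro h k
    have := h (FreeGroup.of k)
    rw [toU_of] at this
    exact this
  · intro h w
    obtain ⟨H, hH⟩ : ∃ H : Subgroup (Mat r ℂ)ˣ, ∀ M, M ∈ H ↔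
        ∀ v ∈ W, (M : Mat r ℂ) *ᵥ v ∈ W :=
      ⟨{ carrier := {M | ∀ v ∈ W, (M : Mat r ℂ) *ᵥ v ∈ W}
         mul_mem' := fun {a b} ha hb v hv => by
          rw [Units.val_mul, ← Matrix.mulVec_mulVec]
          exact ha _ (hb v hv)
         one_mem' := fun v hv => by rwa [Units.val_one, Matrix.one_mulVec]
         inv_mem' := fun {a} ha => inv_stable a W ha }, fun M => Iff.rfl⟩
    have h1 : (⊤ : Subgroup (FU g n)) ≤ H.comap (toU X) := by
      rw [← FreeGroup.closure_range_of, Subgroup.closure_le]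
      rintro _ ⟨k, rfl⟩
      rw [SetLike.mem_coe, Subgroup.mem_comap, hH, toU_of]
      exact h k
    exact (hH _).1 (h1 (Subgroup.mem_top w))

theorem SS_toU (X : Gens g n → SpecialLinearGroup (Fin r) ℂ) :
    SS (toU X) ↔ ∀ W, IsInvSubspace X W → ∃ W', IsInvSubspace X W' ∧ IsCompl W W' := by
  unfold SS
  simp only [stable_iff]

theorem isConj_toGL (A B : SpecialLinearGroup (Fin r) ℂ)
    (h : IsConj (SpecialLinearGroup.toGL A : (Mat r ℂ)ˣ) (SpecialLinearGroup.toGL B)) :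
    IsConj A B := by
  rcases Nat.eq_zero_or_pos r with hr | hr
  · subst hr
    have : A = B := Subsingleton.elim _ _
    rw [this]
  obtain ⟨P, hP⟩ := isConj_iff.1 h
  have hd : (P : Mat r ℂ).det ≠ 0 := by
    have := P.isUnit
    rwa [Matrix.isUnit_iff_isUnit_det, isUnit_iff_ne_zero] at this
  obtain ⟨c, hc⟩ := IsAlgClosed.exists_pow_nat_eq ((P : Mat r ℂ).det⁻¹) hr
  have hQ : (c • (P : Mat r ℂ)).det = 1 := by
    rw [Matrix.det_smul, Fintype.card_fin, hc, inv_mul_cancel₀ hd]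
  obtain ⟨Q, hQ'⟩ : ∃ Q : SpecialLinearGroup (Fin r) ℂ,
      (Q : Matrix (Fin r) (Fin r) ℂ) = c • (P : Mat r ℂ) := ⟨⟨_, hQ⟩, rfl⟩
  rw [isConj_iff]
  refine ⟨Q, ?_⟩
  rw [mul_inv_eq_iff_eq_mul]
  apply Subtype.ext
  have h1 : (P : Mat r ℂ) * (A : Mat r ℂ) = (B : Mat r ℂ) * (P : Mat r ℂ) := by
    rw [mul_inv_eq_iff_eq_mul] at hP
    exact congrArg Units.val hP
  change (Q : Matrix (Fin r) (Fin r) ℂ) * (A : Matrix (Fin r) (Fin r) ℂ) =
    (B : Matrix (Fin r) (Fin r) ℂ) * (Q : Matrix (Fin r) (Fin r) ℂ)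
  rw [hQ', smul_mul_assoc, mul_smul_comm, h1]

theorem toGL_isConj (A B : SpecialLinearGroup (Fin r) ℂ) (h : IsConj A B) :
    IsConj (SpecialLinearGroup.toGL A : (Mat r ℂ)ˣ) (SpecialLinearGroup.toGL B) :=
  MonoidHom.map_isConj SpecialLinearGroup.toGL h

theorem IsIntegralRep.exists_lift {L : IntermediateField ℚ ℂ}
    {X : Gens g n → SpecialLinearGroup (Fin r) ℂ} (h : IsIntegralRep L X) :
    ∃ Z : Gens g n → SpecialLinearGroup (Fin r) (𝓞 L),
      ∀ k, X k = SpecialLinearGroup.map (phiO (algebraMap L ℂ)) (Z k) := by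
  choose a ha using h
  have h1 : ∀ k, (X k).1 = (Matrix.of (a k)).map (phiO (algebraMap L ℂ)) := by
    intro k
    ext i j
    exact ha k i j
  have h2 : ∀ k, (Matrix.of (a k)).det = 1 := by
    intro k
    apply phiO_injective (algebraMap L ℂ)
    rw [map_one, RingHom.map_det]
    have := (X k).2
    rw [h1] at this
    exact this
  refine ⟨fun k => ⟨Matrix.of (a k), h2 k⟩, fun k => Subtype.ext ?_⟩
  rw [h1]
  rfl

theorem isIntegralRep_map {L : IntermediateField ℚ ℂ}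
    (Z : Gens g n → SpecialLinearGroup (Fin r) (𝓞 L)) :
    IsIntegralRep L fun k => SpecialLinearGroup.map (phiO (algebraMap L ℂ)) (Z k) :=
  fun k i j => ⟨(Z k).1 i j, rfl⟩

theorem IsIntegralRep.isIntegralPoint {L : IntermediateField ℚ ℂ}
    {X : Gens g n → SpecialLinearGroup (Fin r) ℂ} (h : IsIntegralRep L X) :
    IsIntegralPoint L X := by
  obtain ⟨Z, hZ⟩ := h.exists_lift
  intro F _
  refine ⟨value F Z, ?_⟩
  have h1 : (phiO (algebraMap L ℂ)).comp (algebraMap ℤ (𝓞 L)) = algebraMap ℤ ℂ :=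
    RingHom.ext_int _ _
  rw [value, value, ← h1]
  change _ = phiO (algebraMap L ℂ) _
  rw [MvPolynomial.hom_eval₂]
  congr 1
  funext p
  rw [hZ]
  rfl

theorem IsZariskiDenseRep.isZariskiDense {L : IntermediateField ℚ ℂ}
    {T : Set (Gens g n → SpecialLinearGroup (Fin r) ℂ)}
    (h : IsZariskiDenseRep {X ∈ T | IsIntegralRep L X} T) :
    IsZariskiDense {X ∈ T | IsIntegralPoint L X} T :=
  ⟨fun _ hX => hX.1, fun F _ hF X hX =>
    h.2 F (fun X' hX' => hF X' ⟨hX'.1, hX'.2.isIntegralPoint⟩) X hX⟩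

theorem density_aux (C : Fin n → SpecialLinearGroup (Fin r) ℂ) (N : ℕ) (hN : 0 < N)
    (hCN : ∀ j, IsNilpotent ((C j : Mat r ℂ) ^ N - 1)) (hg : 3 ≤ g ∨ n = 0 ∨ (2 ≤ g ∧ N = 1))
    (L : IntermediateField ℚ ℂ) (hL : FiniteDimensional ℚ L)
    (hμ : ∀ k : ℕ, 0 < k → k ≤ r → ∀ z : ℂ, z ^ (2 * N * k) = 1 → z ∈ L)
    (hu : Infinite (𝓞 L)ˣ) :
    IsZariskiDenseRep {X ∈ Y g C | IsIntegralRep L X} (Y g C) := by
  have : NumberField L := { to_charZero := inferInstance, to_finiteDimensional := hL }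
  obtain ⟨u, hu⟩ := exists_unit_infinite_order (L := L) (algebraMap L ℂ)
  obtain ⟨φ, hφ⟩ : ∃ φ, φ = phiO (algebraMap L ℂ) := ⟨_, rfl⟩
  rw [← hφ] at hu
  have hφi : Function.Injective φ := by rw [hφ]; exact phiO_injective _
  obtain ⟨C', hC'⟩ : ∃ C' : Fin n → (Mat r ℂ)ˣ, C' = fun j => SpecialLinearGroup.toGL (C j) :=
    ⟨_, rfl⟩
  refine ⟨fun _ hX => hX.1, fun F hF X hX => ?_⟩
  rw [← evalG_toU]
  refine main_SL φ hφi u hu N hN (fun k hk hkr z hz => ?_) hg C' ?_ ?_ F ?_ (toU X) ?_ ?_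
  · rw [hφ]
    exact mem_range_phiO _ (by positivity) hz ⟨⟨z, hμ k hk hkr z hz⟩, rfl⟩
  · intro j
    rw [hC']
    exact hCN j
  · intro j
    rw [hC']
    exact (C j).2
  · intro y hy hyC hyS
    obtain ⟨Z, hZ⟩ : ∃ Z : Gens g n → SpecialLinearGroup (Fin r) (𝓞 L),
        ∀ k, Z k = y (FreeGroup.of k) := ⟨_, fun _ => rfl⟩
    obtain ⟨X', hX'⟩ : ∃ X' : Gens g n → SpecialLinearGroup (Fin r) ℂ,
        X' = fun k => SpecialLinearGroup.map (phiO (algebraMap L ℂ)) (Z k) := ⟨_, rfl⟩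
    have h0 : FreeGroup.lift X' = (SpecialLinearGroup.map (phiO (algebraMap L ℂ))).comp y := by
      apply FreeGroup.ext_hom
      intro k
      rw [FreeGroup.lift_apply_of, hX', MonoidHom.comp_apply, ← hZ]
    have h1 : (slU φ).comp y = toU X' := by
      rw [toU, h0, hφ]; rfl
    rw [h1, evalG_toU]
    refine hF _ ⟨⟨?_, ?_, fun j => isConj_toGL _ _ ?_⟩, ?_⟩
    · rw [isRep_iff, h0, MonoidHom.comp_apply, hy, map_one]
    · rw [← SS_toU, ← h1]; exact hyS
    · have := hyC j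
      rw [hC', ← MonoidHom.comp_apply, h1, toU_of] at this
      exact this
    · rw [hX']; exact isIntegralRep_map Z
  · refine ⟨?_, fun j => ?_, (SS_toU X).2 hX.2.1⟩
    · rw [toU, MonoidHom.comp_apply, (isRep_iff X).1 hX.1, map_one]
    · rw [hC', toU_of]
      exact toGL_isConj _ _ (hX.2.2 j)
  · intro w
    rw [toU_coe]
    exact (FreeGroup.lift X w).2

/-- The density theorem. -/
theorem density (C : Fin n → SpecialLinearGroup (Fin r) ℂ) (N : ℕ) (hN : 0 < N)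
    (hC : ∀ j z, IsEigenvalue (C j) z → z ^ N = 1)
    (hg : 3 ≤ g ∨ n = 0 ∨ (g = 2 ∧ ∀ j z, IsEigenvalue (C j) z → z = 1))
    (L : IntermediateField ℚ ℂ) (hL : FiniteDimensional ℚ L)
    (hμ : ∀ z : ℂ, z ^ (2 * N * r.factorial) = 1 → z ∈ L) (hu : Infinite (𝓞 L)ˣ) :
    IsZariskiDenseRep {X ∈ Y g C | IsIntegralRep L X} (Y g C) := by
  have hroots : ∀ N' : ℕ, N' ∣ N → ∀ k, 0 < k → k ≤ r → ∀ z : ℂ, z ^ (2 * N' * k) = 1 → z ∈ L := by
    intro N' hN' k hk hkr z hz
    apply hμ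
    obtain ⟨c, hc⟩ := mul_dvd_mul (mul_dvd_mul_left 2 hN') (Nat.dvd_factorial hk hkr)
    rw [hc, pow_mul, hz, one_pow]
  rcases hg with h | h | ⟨h, h'⟩
  · exact density_aux C N hN (fun j => isNilpotent_pow_sub_one_of_roots _ N fun z hz =>
      hC j z (Polynomial.isRoot_of_mem_roots hz)) (Or.inl h) L hL (hroots N dvd_rfl) hu
  · exact density_aux C N hN (fun j => isNilpotent_pow_sub_one_of_roots _ N fun z hz =>
      hC j z (Polynomial.isRoot_of_mem_roots hz)) (Or.inr (Or.inl h)) L hL (hroots N dvd_rfl) hu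
  · exact density_aux C 1 one_pos (fun j => isNilpotent_pow_sub_one_of_roots _ 1 fun z hz =>
      by rw [pow_one]; exact h' j z (Polynomial.isRoot_of_mem_roots hz))
      (Or.inr (Or.inr ⟨by omega, rfl⟩)) L hL (hroots 1 (one_dvd _)) hu

theorem exists_exponent (C : Fin n → SpecialLinearGroup (Fin r) ℂ)
    (hC : ∀ j z, IsEigenvalue (C j) z → ∃ k : ℕ, 0 < k ∧ z ^ k = 1) :
    ∃ N : ℕ, 0 < N ∧ ∀ j z, IsEigenvalue (C j) z → z ^ N = 1 := by
  classical
  obtain ⟨N, hN, h⟩ := exists_common_exponent_isRoot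
    (fun j => (C j : Matrix (Fin r) (Fin r) ℂ)) hC
  refine ⟨N, hN, fun j z hz => ?_⟩
  -- an eigenvector
  have hdet : (scalar (Fin r) z - (C j : Matrix (Fin r) (Fin r) ℂ)).det = 0 := by
    rw [← Matrix.eval_charpoly]
    exact hz
  obtain ⟨v, hv, hv'⟩ := Matrix.exists_mulVec_eq_zero_iff.2 hdet
  have h1 : (C j : Matrix (Fin r) (Fin r) ℂ) *ᵥ v = z • v := by
    rw [Matrix.sub_mulVec, sub_eq_zero] at hv'
    rw [← hv', Matrix.scalar_apply, ← Matrix.smul_one_eq_diagonal, Matrix.smul_mulVec,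
      Matrix.one_mulVec]
  have h2 : ∀ k : ℕ, (C j : Matrix (Fin r) (Fin r) ℂ) ^ k *ᵥ v = z ^ k • v := by
    intro k
    induction k with
    | zero => simp
    | succ k ih => rw [pow_succ, ← Matrix.mulVec_mulVec, h1, Matrix.mulVec_smul, ih, smul_smul,
        pow_succ']
  have h3 : ∀ k : ℕ, ((C j : Matrix (Fin r) (Fin r) ℂ) ^ N - 1) ^ k *ᵥ v =
      (z ^ N - 1) ^ k • v := by
    intro k
    induction k with
    | zero => simp
    | succ k ih => rw [pow_succ, ← Matrix.mulVec_mulVec, Matrix.sub_mulVec, h2, Matrix.one_mulVec,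
        show z ^ N • v - v = (z ^ N - 1) • v by rw [sub_smul, one_smul], Matrix.mulVec_smul, ih,
        smul_smul, pow_succ']
  obtain ⟨k, hk⟩ := h j
  have h4 := h3 k
  rw [hk, Matrix.zero_mulVec] at h4
  rcases smul_eq_zero.1 h4.symm with h5 | h5
  · exact sub_eq_zero.1 (eq_zero_of_pow_eq_zero h5)
  · exact absurd h5 hv

theorem exists_field (M : ℕ) (hM : 0 < M) : ∃ L : IntermediateField ℚ ℂ,
    FiniteDimensional ℚ L ∧ (∀ z : ℂ, z ^ M = 1 → z ∈ L) ∧ Infinite (𝓞 L)ˣ := by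
  obtain ⟨L, hL, hμ, u, hu⟩ := exists_numberField M hM
  refine ⟨L, hL, fun z hz => ?_, ?_⟩
  · obtain ⟨w, rfl⟩ := hμ z hz
    exact (algebraMap (𝓞 L) L w).2
  · refine Infinite.of_injective (fun k : ℕ => u ^ k) ?_
    intro a b hab
    by_contra hne
    wlog hlt : a < b generalizing a b
    · exact this hab.symm (Ne.symm hne) (lt_of_le_of_ne (not_lt.1 hlt) (Ne.symm hne))
    have h1 : u ^ (b - a) = 1 := by
      have h2 : u ^ a * u ^ (b - a) = u ^ a * 1 := by
        rw [← pow_add, mul_one, Nat.add_sub_cancel' hlt.le]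
        exact hab.symm
      exact mul_left_cancel h2
    refine hu (b - a) (by omega) ?_
    rw [← map_pow, ← Units.val_pow_eq_pow_val, h1, Units.val_one, map_one]

end Vale.Agent.P002R.Statement
end

section

/-!
# The dual lemma for block data over a general coefficient ring
-/

namespace Vale.Agent.P002R

open Matrix Filter Topology

variable {r : ℕ}

/-- Monomials in `α` of bounded degree determine their block degrees. -/
def BlockSep (D : ℕ) (α : Fin r → ℂ) (c : Fin r → Fin r) : Prop :=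
  ∀ s s' : Fin r → ℕ, ∑ i, s i = ∑ i, s' i → ∑ i, s i ≤ D → ∏ i, α i ^ s i = ∏ i, α i ^ s' i →
    ∀ δ : Fin r → ℂ, ∏ i, δ (c i) ^ s i = ∏ i, δ (c i) ^ s' i

theorem blockSep_of_fac (E : Subgroup ℂˣ) (D : ℕ) (α : Fin r → ℂ) (c : Fin r → Fin r)
    (τ : Fin r → ℂ) (hfac : ∀ i, ∃ ε ∈ E, α i = τ (c i) * (ε : ℂ)) (hfree : FreeMod E D τ) :
    BlockSep D α c := by
  classical
  intro s s' hs hD hprod δ
  choose ε hε hα using hfac
  have key : ∀ (t : Fin r → ℕ) (f : Fin r → ℂ), ∏ i, f (c i) ^ t i =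
      ∏ b, f b ^ (∑ i with c i = b, t i) := by
    intro t f
    rw [← Finset.prod_fiberwise_of_maps_to (s := Finset.univ) (t := Finset.univ) (g := c)
      (fun i _ => Finset.mem_univ _)]
    refine Finset.prod_congr rfl fun b _ => ?_
    rw [← Finset.prod_pow_eq_pow_sum]
    refine Finset.prod_congr rfl fun i hi => ?_
    rw [(Finset.mem_filter.1 hi).2]
  have hsum : ∀ t : Fin r → ℕ, ∑ b, (∑ i with c i = b, t i) = ∑ i, t i := fun t =>
    Finset.sum_fiberwise_of_maps_to (fun i _ => Finset.mem_univ _) _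
  have hfac' : ∀ t : Fin r → ℕ, ∏ i, α i ^ t i =
      ((∏ i, ε i ^ t i : ℂˣ) : ℂ) * ∏ b, τ b ^ (∑ i with c i = b, t i) := by
    intro t
    rw [← key t τ, Units.coe_prod, ← Finset.prod_mul_distrib]
    refine Finset.prod_congr rfl fun i _ => ?_
    rw [hα i, mul_pow, Units.val_pow_eq_pow_val, mul_comm]
  have he : (fun b => ∑ i with c i = b, s i) = fun b => ∑ i with c i = b, s' i := by
    apply hfree
    · rw [hsum, hsum, hs]
    · rw [hsum]; exact hD
    · refine ⟨(∏ i, ε i ^ s i)⁻¹ * ∏ i, ε i ^ s' i, ?_, ?_⟩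
      · exact mul_mem (inv_mem (prod_mem fun i _ => pow_mem (hε i) _))
          (prod_mem fun i _ => pow_mem (hε i) _)
      · have h1 := hfac' s
        rw [hprod, hfac' s'] at h1
        rw [Units.val_mul, mul_assoc, h1, ← mul_assoc, ← Units.val_mul, inv_mul_cancel,
          Units.val_one, one_mul]
  rw [key, key]
  refine Finset.prod_congr rfl fun b _ => ?_
  rw [congrFun he b]

/-- A homogeneous polynomial which vanishes at all powers of `α` vanishes at all block scalars. -/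
theorem homog_block {d D : ℕ} (α : Fin r → ℂ) (c : Fin r → Fin r) (hα : BlockSep D α c)
    (hd : d ≤ D) (g : MvPolynomial (Fin r) ℂ) (hg : g.IsHomogeneous d)
    (h : ∀ n : ℕ, MvPolynomial.eval (fun b => α b ^ n) g = 0) (δ : Fin r → ℂ) :
    MvPolynomial.eval (fun i => δ (c i)) g = 0 := by
  classical
  have hdeg : ∀ s : Fin r →₀ ℕ, s ∈ g.support → ∑ i, s i = d := by
    intro s hs
    by_contra hne
    rw [MvPolynomial.mem_support_iff] at hs
    apply hs
    apply hg.coeff_eq_zero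
    rw [Finsupp.degree_eq_sum]
    exact hne
  have h1 := interp_zero (S := {s // s ∈ g.support}) (fun s => ∏ i, α i ^ (s : Fin r →₀ ℕ) i)
    (fun s => ∏ i, δ (c i) ^ (s : Fin r →₀ ℕ) i) (fun s => g.coeff s)
    (by
      intro s s' hss
      exact hα s.1 s'.1 (by rw [hdeg _ s.2, hdeg _ s'.2]) (by rw [hdeg _ s.2]; exact hd) hss δ)
    (by
      intro n
      have h2 := MvPolynomial.eval_eq' (fun b => α b ^ n) g
      rw [h n] at h2
      have h3 := Finset.sum_coe_sort g.support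
        (fun s : Fin r →₀ ℕ => g.coeff s * ∏ i, (α i ^ n) ^ s i)
      rw [h2, ← h3]
      refine Finset.sum_congr rfl fun s _ => ?_
      congr 1
      rw [← Finset.prod_pow]
      refine Finset.prod_congr rfl fun i _ => ?_
      rw [← pow_mul, ← pow_mul, mul_comm])
  rw [MvPolynomial.eval_eq', ← Finset.sum_coe_sort]
  exact h1

/-- Extension from powers of `α` to all block scalars. -/
theorem extend_blockE {k D : ℕ} (hk : k + 1 ≤ D) (α : Fin r → ℂ)
    (c : Fin r → Fin r) (hα : BlockSep D α c) (μ A X Y : Mat r ℂ)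
    (h : ∀ n : ℕ, Phi k μ A (X * diagonal (fun i => α i ^ n) * Y) = 0) (δ : Fin r → ℂ) :
    Phi k μ A (X * diagonal (fun i => δ (c i)) * Y) = 0 := by
  obtain ⟨C, hC⟩ : ∃ C : ℂ →+* MvPolynomial (Fin r) ℂ, C = MvPolynomial.C := ⟨_, rfl⟩
  obtain ⟨Z, hZ⟩ : ∃ Z : Mat r (MvPolynomial (Fin r) ℂ), Z = X.map C * genD id * Y.map C :=
    ⟨_, rfl⟩
  have hZh : HomM 1 Z := by
    rw [hZ, hC]
    have h := ((HomM.const X).mul (HomM.genD id)).mul (HomM.const Y)
    simpa using h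
  have hev : ∀ δ : Fin r → ℂ, MvPolynomial.eval δ (Phi k (μ.map C) (A.map C) Z) =
      Phi k μ A (X * diagonal δ * Y) := by
    intro δ
    have hid : ∀ U : Mat r ℂ, (U.map C).map (MvPolynomial.eval δ) = U := by
      intro U
      ext i j
      simp [hC]
    rw [Phi_map, hid, hid, hZ, Matrix.map_mul, Matrix.map_mul, hid, hid]
    congr 3
    ext i j
    rw [Matrix.map_apply, genD]
    by_cases hij : i = j
    · subst hij; simp
    · simp [diagonal_apply_ne _ hij]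
  rw [← hev]
  refine homog_block α c hα hk _ ?_ (fun n => ?_) δ
  · rw [hC]; exact Phi_homog k μ A hZh
  · rw [hev]
    exact h n

section

variable {L : Type*} (P : L → (Mat r ℂ)ˣ)

/-- `Phi` vanishes at all block scalar multiples of the block diagonal parts. -/
theorem Phi_blockE (A μ : Mat r ℂ) (q₀ : L) (α : Fin r → ℂ)
    (hq₀ : (P q₀ : Mat r ℂ) = diagonal α)
    (c : Fin r → Fin r) (htri : ∀ q i j, c j < c i → (P q : Mat r ℂ) i j = 0)
    (D : ℕ) (hα : BlockSep D α c)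
    (h : ∀ (p : List L) (k : ℕ), Phi k μ A (wP P p : Mat r ℂ) = 0) (p : List L) (k : ℕ)
    (hk : k + 1 ≤ D) (δ : Fin r → ℂ) :
    Phi k μ A (diagonal (fun i => δ (c i)) * blkD c (wP P p : Mat r ℂ)) = 0 := by
  have hT : ∀ n : ℕ, (wP P (List.replicate n q₀) : Mat r ℂ) =
      diagonal fun i => α i ^ n := wP_replicate P q₀ α hq₀
  have h1 : ∀ (p : List L) (δ : Fin r → ℂ),
      Phi k μ A (diagonal (fun i => δ (c i)) * (wP P p : Mat r ℂ)) = 0 := by
    intro p δ
    have := extend_blockE hk α c hα μ A 1 (wP P p : Mat r ℂ) (fun n => by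
      rw [← hT n, one_mul, ← Units.val_mul, ← wP_append]
      exact h _ k) δ
    rwa [one_mul] at this
  have h2 : ∀ (δ δ' : Fin r → ℂ), Phi k μ A (diagonal (fun i => δ (c i)) * (wP P p : Mat r ℂ) *
      diagonal (fun i => δ' (c i))) = 0 := by
    intro δ δ'
    have := extend_blockE hk α c hα μ A (diagonal (fun i => δ (c i)) * (wP P p : Mat r ℂ)) 1
      (fun n => by
        rw [← hT n, mul_one, mul_assoc, ← Units.val_mul, ← wP_append]
        exact h1 _ δ) δ'
    rwa [mul_one] at this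
  -- the degeneration
  obtain ⟨W, hW⟩ : ∃ W : ℂ → Mat r ℂ, W = fun t => Matrix.of fun i j =>
    if c i ≤ c j then t ^ ((c j : ℕ) - (c i : ℕ)) * (wP P p : Mat r ℂ) i j else 0 := ⟨_, rfl⟩
  have hWc : Continuous W := by
    rw [hW]
    apply continuous_matrix
    intro i j
    simp only [Matrix.of_apply]
    split_ifs
    · exact (continuous_id.pow _).mul continuous_const
    · exact continuous_const
  have hW0 : W 0 = blkD c (wP P p : Mat r ℂ) := by
    rw [hW]
    ext i j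
    simp only [blkD, Matrix.of_apply]
    by_cases h3 : c i = c j
    · rw [if_pos h3, if_pos h3.le, h3, Nat.sub_self, pow_zero, one_mul]
    · rw [if_neg h3]
      split_ifs with h4
      · rw [zero_pow, zero_mul]
        have : (c i : ℕ) ≠ (c j : ℕ) := fun h => h3 (Fin.ext h)
        have : (c i : ℕ) ≤ (c j : ℕ) := h4
        omega
      · rfl
  have hWt : ∀ t : ℂ, t ≠ 0 → diagonal (fun i => δ (c i)) * W t =
      diagonal (fun i => (fun b : Fin r => δ b * (t⁻¹) ^ (b : ℕ)) (c i)) * (wP P p : Mat r ℂ) *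
        diagonal (fun i => (fun b : Fin r => t ^ (b : ℕ)) (c i)) := by
    intro t ht
    ext i j
    rw [mul_diagonal, diagonal_mul, diagonal_mul, hW]
    simp only [Matrix.of_apply]
    split_ifs with h4
    · have h5 : t ^ ((c j : ℕ)) = t ^ ((c j : ℕ) - (c i : ℕ)) * t ^ (c i : ℕ) := by
        rw [← pow_add, Nat.sub_add_cancel h4]
      rw [h5, inv_pow]
      have h6 : t ^ (c i : ℕ) ≠ 0 := pow_ne_zero _ ht
      field_simp
    · rw [wP_tri P c htri p i j (not_le.1 h4)]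
      ring
  have hcl : (fun t => Phi k μ A (diagonal (fun i => δ (c i)) * W t)) = fun _ => 0 := by
    apply Continuous.ext_on (dense_compl_singleton (0 : ℂ))
      (Phi_continuous k μ A (continuous_const.matrix_mul hWc)) continuous_const
    intro t ht
    simp only
    rw [hWt t ht]
    exact h2 (fun b : Fin r => δ b * (t⁻¹) ^ (b : ℕ)) (fun b : Fin r => t ^ (b : ℕ))
  have h5 : Phi k μ A (diagonal (fun i => δ (c i)) * W 0) = 0 := congrFun hcl 0
  rwa [hW0] at h5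

/-- The main lemma when `P q₀` is diagonal. -/
theorem exists_dual_diagE (K₀ : Subfield ℂ) [Countable K₀] (hr : 1 ≤ r) (q₀ : L) (α : Fin r → ℂ)
    (hα : Function.Injective α) (hq₀ : (P q₀ : Mat r ℂ) = diagonal α) (c : Fin r → Fin r)
    (htri : ∀ q i j, c j < c i → (P q : Mat r ℂ) i j = 0)
    (hconn : ∀ i j, c i = c j →
      Relation.ReflTransGen (fun i j => ∃ q, (P q : Mat r ℂ) i j ≠ 0) i j)
    (hsep : BlockSep (2 * r + 3) α c) :
    ∃ A : (Mat r ℂ)ˣ, AlgebraicIndependent K₀ (fun p : Fin r × Fin r => (A : Mat r ℂ) p.1 p.2) ∧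
      DualProp P A := by
  classical
  have hconn' : ∀ i j, c i = c j → ∃ p, (wP P p : Mat r ℂ) i j ≠ 0 := fun i j hij =>
    exists_word P q₀ α hα hq₀ i j (hconn i j hij)
  choose A B hA hAB hB using exists_generic_near K₀ (Bsp c)
  by_contra hcon
  push Not at hcon
  have hnot : ∀ n, ¬ DualProp P (A n) := fun n => hcon (A n) (hA n)
  let i₀ : Fin r := ⟨0, hr⟩
  have : Nonempty (Fin r) := ⟨i₀⟩
  let rep : Fin r → Fin r := fun i => Function.invFun c (c i)
  have hrep : ∀ i, c (rep i) = c i := fun i => Function.invFun_eq ⟨i, rfl⟩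
  have hrep' : ∀ i j, c i = c j → rep i = rep j := fun i j h => by simp only [rep, h]
  have hmu : ∀ n, ∃ f : Fin r → Fin r → ℂ, MuOK P (A n : Mat r ℂ) (Matrix.of f) ∧
      (∀ i j, c i = c j → f i j = 0) ∧ (∀ i, f (rep i) i₀ = 0) ∧ ‖f‖ = 1 := by
    intro n
    by_contra hcon2
    apply hnot n
    apply dual_of_mu P (A n) q₀ α hα hq₀ (generic_gen3 (hA n)).1
    intro μ hμ
    by_contra hne
    exact hcon2 (hμ.normalize hne c rep hrep hrep' i₀ hconn')
  choose f hf1 hf2 hf3 hf4 using hmu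
  obtain ⟨f', hf', φ, hφ, hlim⟩ := (isCompact_sphere (0 : Fin r → Fin r → ℂ) 1).tendsto_subseq
    (x := f) (fun n => by rw [mem_sphere_zero_iff_norm]; exact hf4 n)
  rw [mem_sphere_zero_iff_norm] at hf'
  have hlim' : Tendsto (fun n => (Matrix.of (f (φ n)) : Mat r ℂ)) atTop (𝓝 (Matrix.of f')) := hlim
  have hε0 : Tendsto (fun n : ℕ => (((n : ℂ) + 1)⁻¹)) atTop (𝓝 0) := by
    have h1 : Tendsto (fun n : ℕ => ‖(((n : ℂ) + 1)⁻¹)‖) atTop (𝓝 0) := by
      have h2 : (fun n : ℕ => ‖(((n : ℂ) + 1)⁻¹)‖) = fun n : ℕ => 1 / ((n : ℝ) + 1) := by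
        funext n
        have : ((n : ℂ) + 1) = (((n : ℝ) + 1 : ℝ) : ℂ) := by push_cast; rfl
        rw [norm_inv, this, Complex.norm_real, Real.norm_of_nonneg (by positivity), one_div]
      rw [h2]
      exact tendsto_one_div_add_atTop_nhds_zero_nat
    exact tendsto_zero_iff_norm_tendsto_zero.2 h1
  have hBlim : Tendsto B atTop (𝓝 (Bsp c)) := by
    refine tendsto_pi_nhds.2 fun i => tendsto_pi_nhds.2 fun j => ?_
    rw [tendsto_iff_norm_sub_tendsto_zero]
    exact squeeze_zero (fun n => norm_nonneg _) (fun n => (hB n i j).le)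
      tendsto_one_div_add_atTop_nhds_zero_nat
  have hL := limOK_of_seq P c (2 * r + 3) (by omega) (fun n => Matrix.of (f (φ n)))
    (fun n => B (φ n)) (fun n => ((((φ n : ℕ) : ℂ) + 1)⁻¹))
    (fun n => inv_ne_zero (by exact_mod_cast Nat.succ_ne_zero (φ n))) (Matrix.of f') (Bsp c) hlim'
    (hBlim.comp hφ.tendsto_atTop) (hε0.comp hφ.tendsto_atTop) (fun n i j hij => hf2 (φ n) i j hij)
    (fun n p k hk δ => by
      have := Phi_blockE P (A (φ n) : Mat r ℂ) (Matrix.of (f (φ n))) q₀ α hq₀ c htri (2 * r + 3)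
        hsep (hf1 (φ n)).2 p k hk δ
      rw [hAB] at this
      exact this)
  have hcoc := hL.cocycle (by omega) (by omega) q₀ α hα hq₀ htri hconn'
  have hz : ∀ i, f' i i₀ = 0 := by
    intro i
    have h1 := hcoc i (rep i) i₀
    have h2 : f' i (rep i) = 0 := hL.zero i (rep i) (hrep i).symm
    have h3 : f' (rep i) i₀ = 0 := by
      have h4 : Tendsto (fun n => f (φ n) (rep i) i₀) atTop (𝓝 (f' (rep i) i₀)) :=
        tendsto_pi_nhds.1 (tendsto_pi_nhds.1 hlim (rep i)) i₀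
      have h5 : (fun n => f (φ n) (rep i) i₀) = fun _ => 0 := funext fun n => hf3 (φ n) i
      rw [h5] at h4
      exact tendsto_nhds_unique h4 tendsto_const_nhds
    simp only [Matrix.of_apply] at h1
    rw [h1, h2, h3, add_zero]
  have hf0 : f' = 0 := by
    funext i j
    have h1 := hcoc i j i₀
    simp only [Matrix.of_apply] at h1
    rw [hz, hz] at h1
    rw [Pi.zero_apply, Pi.zero_apply]
    linear_combination -h1
  rw [hf0, norm_zero] at hf'
  exact zero_ne_one hf'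

end

/-- BLOCK DUAL LEMMA. -/
theorem exists_dualE {L : Type*} (E : Subgroup ℂˣ) (K₀ : Subfield ℂ) [Countable K₀] (hr : 1 ≤ r)
    (P : L → (Mat r ℂ)ˣ) (q₀ : L) (U : (Mat r ℂ)ˣ) (α : Fin r → ℂ) (c : Fin r → Fin r)
    (τ : Fin r → ℂ) (hB : BlockDataE E P q₀ U α c τ)
    (hU : ∀ i j, (U : Mat r ℂ) i j ∈ K₀) (hU' : ∀ i j, ((U⁻¹ : (Mat r ℂ)ˣ) : Mat r ℂ) i j ∈ K₀) :
    ∃ A : (Mat r ℂ)ˣ, AlgebraicIndependent K₀ (fun p : Fin r × Fin r => (A : Mat r ℂ) p.1 p.2) ∧
      DualProp P A := by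
  have hU2 : ((U⁻¹ : (Mat r ℂ)ˣ) : Mat r ℂ) * (U : Mat r ℂ) = 1 := U.inv_mul
  obtain ⟨A', h1, h2⟩ := exists_dual_diagE (fun q => U⁻¹ * P q * U) K₀ hr q₀ α hB.inj (by
    simp only [Units.val_mul, hB.diag]
    calc _ = (((U⁻¹ : (Mat r ℂ)ˣ) : Mat r ℂ) * (U : Mat r ℂ)) * diagonal α *
          (((U⁻¹ : (Mat r ℂ)ˣ) : Mat r ℂ) * (U : Mat r ℂ)) := by simp only [mul_assoc]
      _ = _ := by rw [hU2, one_mul, mul_one]) c hB.tri hB.conn
    (blockSep_of_fac E _ α c τ hB.fac hB.free)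
  refine ⟨U * A' * U⁻¹, ?_, ?_⟩
  · have := generic_mul h1 (U : Mat r ℂ) ((U⁻¹ : (Mat r ℂ)ˣ) : Mat r ℂ) hU hU' U.isUnit
      U⁻¹.isUnit
    exact this
  · apply DualProp.conj P _ U
    have : U⁻¹ * (U * A' * U⁻¹) * U = A' := by group
    rw [this]
    exact h2

end Vale.Agent.P002R
end

section

/-!
# Irreducible representations are limits of integral ones: the theorem for block data
-/

namespace Vale.Agent.P002R

open Matrix

variable {g m n r : ℕ}

theorem loopW_mem_Fc (q : Loop m n) : loopW q ∈ Fc (m + 1) n :=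
  mul_mem (mul_mem (inv_mem (Slides.kap_mem q)) (Slides.loop0_mem q)) (Slides.kap_mem q)

/-- Irreducible representations with prescribed boundary classes are in the Zariski closure of the
semisimple integral ones (integral up to scalars), if there is an integral base point with block
data. -/
theorem irreducible_of_block {R : Type*} [CommRing R] (φ : R →+* ℂ) (hr : 1 ≤ r)
    (C : Fin n → (Mat r ℂ)ˣ) (hm : 1 ≤ m)
    (J : Fin n → (Mat r ℂ)ˣ) (hJ : ∀ j, IsConj (C j) (J j))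
    (ρ : FF (m + 1) n →* (Mat r ℂ)ˣ) (hρ : ρ ∈ DFr (g := m + 1) φ J)
    (hρB : ρ (gB (Fin.last m)) = 1) (q₀ : Loop m n) (U : (Mat r ℂ)ˣ) (α : Fin r → ℂ)
    (c : Fin r → Fin r) (M₀ : ℕ) (τ : Fin r → ℂ)
    (hblock : BlockData (fun q : Loop m n => ρ (loopW q)) q₀ U α c M₀ τ)
    (x : FU (m + 1) n →* (Mat r ℂ)ˣ) (hx : x (relatorU (m + 1) n) = 1)
    (hxC : ∀ j, IsConj (C j) (x (FreeGroup.of (Sum.inr j))))
    (hirr : ∀ M : Mat r ℂ, (∀ w, Commute M (x w : Mat r ℂ)) → ∃ c : ℂ, M = c • (1 : Mat r ℂ))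
    (f : MvPolynomial (GenU (m + 1) n × Fin r × Fin r) ℂ)
    (hf : ∀ y ∈ DU (m + 1) φ C, evalG y f = 0) : evalG x f = 0 :=
  irreducible_of_base φ hr hm C J hJ ρ hρ hρB (loopW q₀) (loopW_mem_Fc q₀) (loopW_mem q₀) U α
    hblock.inj hblock.diag
    (fun K₀ hK₀ _ hUK => by
      have := hK₀
      exact exists_dual K₀ hr (fun q : Loop m n => ρ (loopW q)) q₀ U α c M₀ τ hblock hUK.1 hUK.2)
    x hx hxC hirr f hf

end Vale.Agent.P002R
end

section

/-!
# Irreducible representations of surface groups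
-/

namespace Vale.Agent.P002R

open Matrix

variable {r : ℕ}

theorem surface_irrDense {g n : ℕ} {R : Type*} [CommRing R] (φ : R →+* ℂ) (E : Subgroup ℂˣ)
    (hc : CoefOK φ E r) (hg : 2 ≤ g ∨ n = 0) :
    ∀ r' ≤ r, 0 < r' →
      IrrDense ({relatorU g n} : Set (FreeGroup ((Fin g × Bool) ⊕ Fin n))) φ E r' := by
  intro r' hr' hr'0 C hC x hx hirr f hf
  have hxr : x (relatorU g n) = 1 := hx.1 _ rfl
  have hDU : ∀ y, y ∈ DG ({relatorU g n} : Set (FreeGroup ((Fin g × Bool) ⊕ Fin n))) φ C ↔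
      y ∈ DU g φ C := by
    intro y
    constructor
    · intro h
      exact ⟨⟨h.1.1 _ rfl, h.1.2⟩, h.2⟩
    · intro h
      refine ⟨⟨fun w hw => ?_, h.1.2⟩, h.2⟩
      rw [Set.mem_singleton_iff.1 hw]
      exact h.1.1
  refine upgrade x (burnside_top x hx.2.2 hirr) (DG {relatorU g n} φ C) ?_ f
    (fun y hy htop => hf y ⟨hy, htop⟩)
  intro f' hf'
  have hf'' : ∀ y ∈ DU g φ C, evalG y f' = 0 := fun y hy => hf' y ((hDU y).2 hy)
  by_cases hg2 : 2 ≤ g
  · obtain ⟨m, rfl⟩ : ∃ m, g = m + 1 := ⟨g - 1, by omega⟩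
    have hm : 1 ≤ m := by omega
    obtain ⟨J, hJ, ρ, hρ, hρB, -, q₀, U, α, c, τ, hB⟩ := exists_baseE φ E
      ⟨hc.inj, hc.neg, fun k hk hkr => hc.root k hk (hkr.trans hr'), hc.unit⟩ hr'0 C hC
      (prod_det_eq_one C x hxr hx.2.1) hm
    refine irreducible_of_base φ hr'0 hm C J hJ ρ hρ hρB (loopW q₀) (loopW_mem_Fc q₀)
      (loopW_mem q₀) U α hB.inj hB.diag ?_ x hxr hx.2.1 hirr f' hf''
    intro K₀ hK₀ _ hUK
    exact exists_dualE E K₀ hr'0 (fun q : Loop m n => ρ (loopW q)) q₀ U α c τ hB hUK.1 hUK.2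
  · have hn : n = 0 := by omega
    subst hn
    exact hf'' x (abelian_case (by omega) φ C x ⟨hxr, hx.2⟩ hirr)

end Vale.Agent.P002R
end

section

/-!
# Translation of the main theorem into the language of representations: products of curves
-/

namespace Vale.Agent.P002R.Product

open Matrix NumberField

variable {k r : ℕ} {g n : Fin k → ℕ}

/-- The relators of the product of surface groups. -/
def FRel (g n : Fin k → ℕ) : Set (FreeGroup (Gens g n)) :=
  famRel (κ := fun i => Fin (g i) × Bool) (ι := fun i => Fin (n i)) fun i => {relatorU (g i) (n i)}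

/-- The generators of a factor. -/
def incG (i : Fin k) : GenU (g i) (n i) → Gens g n :=
  incS (κ := fun i => Fin (g i) × Bool) (ι := fun i => Fin (n i)) i

theorem factor_incG (i : Fin k) (p : GenU (g i) (n i)) : factor (incG (g := g) i p) = i := by
  rcases p with p | p <;> rfl

theorem exists_incG (p : Gens g n) : ∃ q, p = incG (factor p) q := by
  rcases p with ⟨i, p⟩ | ⟨i, p⟩
  · exact ⟨Sum.inl p, rfl⟩
  · exact ⟨Sum.inr p, rfl⟩

theorem isRep_iff {A : Type} [CommRing A] (X : Gens g n → SpecialLinearGroup (Fin r) A) :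
    IsRep X ↔ ∀ w ∈ FRel g n, FreeGroup.lift X w = 1 := by
  have h1 : ∀ i, (FreeGroup.lift X (FreeGroup.map (incG i) (relatorU (g i) (n i))) = 1 ↔
      (List.ofFn fun l : Fin (g i) => X (Sum.inl ⟨i, l, false⟩) * X (Sum.inl ⟨i, l, true⟩) *
        (X (Sum.inl ⟨i, l, false⟩))⁻¹ * (X (Sum.inl ⟨i, l, true⟩))⁻¹).prod *
          (List.ofFn fun j : Fin (n i) => X (Sum.inr ⟨i, j⟩)).prod = 1) := by
    intro i
    have h2 := (Statement.isRep_iff (fun q => X (incG i q))).symm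
    have h3 : FreeGroup.lift (fun q => X (incG i q)) =
        (FreeGroup.lift X).comp (FreeGroup.map (incG i)) := by
      apply FreeGroup.ext_hom
      intro q
      rw [MonoidHom.comp_apply, FreeGroup.map.of, FreeGroup.lift_apply_of, FreeGroup.lift_apply_of]
    rw [h3] at h2
    exact h2
  constructor
  · rintro ⟨hX1, hX2⟩ w (⟨i, v, hv, rfl⟩ | ⟨i, j, p, q, hij, rfl⟩)
    · rw [Set.mem_singleton_iff.1 hv]
      exact (h1 i).2 (hX1 i)
    · rw [map_mul, map_mul, map_mul, map_inv, map_inv, mul_inv_eq_one, mul_inv_eq_iff_eq_mul,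
        FreeGroup.lift_apply_of, FreeGroup.lift_apply_of]
      exact hX2 _ _ (by
        change factor (incG i p) ≠ factor (incG j q)
        rw [factor_incG, factor_incG]
        exact hij)
  · intro hX
    refine ⟨fun i => (h1 i).1 (hX _ (Or.inl ⟨i, _, rfl, rfl⟩)), fun p q hpq => ?_⟩
    obtain ⟨p', hp'⟩ := exists_incG p
    obtain ⟨q', hq'⟩ := exists_incG q
    have h2 := hX _ (Or.inr ⟨factor p, factor q, p', q', hpq, rfl⟩)
    rw [map_mul, map_mul, map_mul, map_inv, map_inv, mul_inv_eq_one, mul_inv_eq_iff_eq_mul,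
        FreeGroup.lift_apply_of, FreeGroup.lift_apply_of] at h2
    rw [hp', hq']
    exact h2

/-- The representation of the free group attached to a complex representation. -/
noncomputable def toU (X : Gens g n → SpecialLinearGroup (Fin r) ℂ) :
    FreeGroup (Gens g n) →* (Mat r ℂ)ˣ :=
  SpecialLinearGroup.toGL.comp (FreeGroup.lift X)

theorem toU_coe (X : Gens g n → SpecialLinearGroup (Fin r) ℂ) (w : FreeGroup (Gens g n)) :
    (toU X w : Mat r ℂ) = (FreeGroup.lift X w).1 := rfl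

theorem toU_of (X : Gens g n → SpecialLinearGroup (Fin r) ℂ) (p : Gens g n) :
    toU X (FreeGroup.of p) = SpecialLinearGroup.toGL (X p) := by
  rw [toU, MonoidHom.comp_apply, FreeGroup.lift_apply_of]

theorem evalG_toU (F : MvPolynomial (Gens g n × Fin r × Fin r) ℂ)
    (X : Gens g n → SpecialLinearGroup (Fin r) ℂ) : evalG (toU X) F = value F X := by
  rw [evalG_eqn, MvPolynomial.aeval_def, value]
  congr 1
  funext p
  rw [toU_of]
  rfl

theorem stable_iff (X : Gens g n → SpecialLinearGroup (Fin r) ℂ) (W : Submodule ℂ (Fin r → ℂ)) :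
    (∀ w, ∀ v ∈ W, (toU X w : Mat r ℂ) *ᵥ v ∈ W) ↔ IsInvSubspace X W := by
  constructor
  · intro h p
    have := h (FreeGroup.of p)
    rw [toU_of] at this
    exact this
  · intro h w
    obtain ⟨H, hH⟩ : ∃ H : Subgroup (Mat r ℂ)ˣ, ∀ M, M ∈ H ↔
        ∀ v ∈ W, (M : Mat r ℂ) *ᵥ v ∈ W :=
      ⟨{ carrier := {M | ∀ v ∈ W, (M : Mat r ℂ) *ᵥ v ∈ W}
         mul_mem' := fun {a b} ha hb v hv => by
          rw [Units.val_mul, ← Matrix.mulVec_mulVec]
          exact ha _ (hb v hv)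
         one_mem' := fun v hv => by rwa [Units.val_one, Matrix.one_mulVec]
         inv_mem' := fun {a} ha => Statement.inv_stable a W ha }, fun M => Iff.rfl⟩
    have h1 : (⊤ : Subgroup (FreeGroup (Gens g n))) ≤ H.comap (toU X) := by
      rw [← FreeGroup.closure_range_of, Subgroup.closure_le]
      rintro _ ⟨k, rfl⟩
      rw [SetLike.mem_coe, Subgroup.mem_comap, hH, toU_of]
      exact h k
    exact (hH _).1 (h1 (Subgroup.mem_top w))

theorem SS_toU (X : Gens g n → SpecialLinearGroup (Fin r) ℂ) :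
    SS (toU X) ↔ ∀ W, IsInvSubspace X W → ∃ W', IsInvSubspace X W' ∧ IsCompl W W' := by
  unfold SS
  simp only [stable_iff]

theorem IsIntegralRep.exists_lift {L : IntermediateField ℚ ℂ}
    {X : Gens g n → SpecialLinearGroup (Fin r) ℂ} (h : IsIntegralRep L X) :
    ∃ Z : Gens g n → SpecialLinearGroup (Fin r) (𝓞 L),
      ∀ p, X p = SpecialLinearGroup.map (phiO (algebraMap L ℂ)) (Z p) := by
  choose a ha using h
  have h1 : ∀ p, (X p).1 = (Matrix.of (a p)).map (phiO (algebraMap L ℂ)) := by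
    intro p
    ext i j
    exact ha p i j
  have h2 : ∀ p, (Matrix.of (a p)).det = 1 := by
    intro p
    apply phiO_injective (algebraMap L ℂ)
    rw [map_one, RingHom.map_det]
    have := (X p).2
    rw [h1] at this
    exact this
  refine ⟨fun p => ⟨Matrix.of (a p), h2 p⟩, fun p => Subtype.ext ?_⟩
  rw [h1]
  rfl

theorem isIntegralRep_map {L : IntermediateField ℚ ℂ}
    (Z : Gens g n → SpecialLinearGroup (Fin r) (𝓞 L)) :
    IsIntegralRep L fun p => SpecialLinearGroup.map (phiO (algebraMap L ℂ)) (Z p) :=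
  fun p i j => ⟨(Z p).1 i j, rfl⟩

theorem IsIntegralRep.isIntegralPoint {L : IntermediateField ℚ ℂ}
    {X : Gens g n → SpecialLinearGroup (Fin r) ℂ} (h : IsIntegralRep L X) :
    IsIntegralPoint L X := by
  obtain ⟨Z, hZ⟩ := h.exists_lift
  intro F _
  refine ⟨value F Z, ?_⟩
  have h1 : (phiO (algebraMap L ℂ)).comp (algebraMap ℤ (𝓞 L)) = algebraMap ℤ ℂ :=
    RingHom.ext_int _ _
  rw [value, value, ← h1]
  change _ = phiO (algebraMap L ℂ) _
  rw [MvPolynomial.hom_eval₂]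
  congr 1
  funext p
  rw [hZ]
  rfl

theorem IsZariskiDenseRep.isZariskiDense {L : IntermediateField ℚ ℂ}
    {T : Set (Gens g n → SpecialLinearGroup (Fin r) ℂ)}
    (h : IsZariskiDenseRep {X ∈ T | IsIntegralRep L X} T) :
    IsZariskiDense {X ∈ T | IsIntegralPoint L X} T :=
  ⟨fun _ hX => hX.1, fun F _ hF X hX =>
    h.2 F (fun X' hX' => hF X' ⟨hX'.1, hX'.2.isIntegralPoint⟩) X hX⟩

theorem surface_charOK (g n : ℕ) :
    CharOK ({relatorU g n} : Set (FreeGroup ((Fin g × Bool) ⊕ Fin n))) := by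
  intro w hw A _ χ hχ
  rw [Set.mem_singleton_iff.1 hw, relatorU_eqn, map_mul, map_list_prod, map_list_prod,
    List.map_ofFn, List.map_ofFn]
  have e1 : (⇑χ ∘ fun j : Fin n => (FreeGroup.of (Sum.inr j) : FU g n)) = fun _ => 1 := by
    funext j
    exact hχ j
  have e2 : (⇑χ ∘ fun i : Fin g => (FreeGroup.of (Sum.inl (i, false)) *
      FreeGroup.of (Sum.inl (i, true)) * (FreeGroup.of (Sum.inl (i, false)))⁻¹ *
      (FreeGroup.of (Sum.inl (i, true)))⁻¹ : FU g n)) = fun _ => 1 := by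
    funext i
    rw [Function.comp, map_mul, map_mul, map_mul, map_inv, map_inv, mul_inv_eq_one,
      mul_inv_eq_iff_eq_mul, mul_comm]
  rw [e1, e2]
  simp

/-- The allowed curves. -/
def OKCurve (g n : ℕ) : Prop := 2 ≤ g ∨ n = 0 ∨ (g = 0 ∧ n ≤ 2)

theorem FRel_irrDense {R : Type*} [CommRing R] (φ : R →+* ℂ) (E : Subgroup ℂˣ)
    (hc : CoefOK φ E r) (hg : ∀ i, OKCurve (g i) (n i)) :
    ∀ r' ≤ r, 0 < r' → IrrDense (FRel g n) φ E r' := by
  refine fam_irrDense φ E r k _ _ _ fun i r' hr' hr'0 => ?_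
  by_cases h : 2 ≤ g i ∨ n i = 0
  · exact surface_irrDense φ E hc h r' hr' hr'0
  · have h1 : g i = 0 ∧ n i ≤ 2 := by
      have := hg i
      unfold OKCurve at this
      omega
    exact abel_irrDense φ E _ (fun r'' x hx => surface_comm (Or.inl h1) r'' x hx) r' hr'0

theorem FRel_charOK (g n : Fin k → ℕ) : CharOK (FRel g n) :=
  famRel_charOK _ fun i => surface_charOK (g i) (n i)

theorem density_E (C : ∀ i, Fin (n i) → SpecialLinearGroup (Fin r) ℂ) (E : Subgroup ℂˣ)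
    (hC : ∀ i j, EigIn E ((C i j).1)) (hg : ∀ i, OKCurve (g i) (n i))
    (L : IntermediateField ℚ ℂ) (hL : FiniteDimensional ℚ L)
    (hc : CoefOK (phiO (algebraMap L ℂ)) E r) :
    IsZariskiDenseRep {X ∈ Y g C | IsIntegralRep L X} (Y g C) := by
  have : NumberField L := { to_charZero := inferInstance, to_finiteDimensional := hL }
  obtain ⟨φ, hφ⟩ : ∃ φ, φ = phiO (algebraMap L ℂ) := ⟨_, rfl⟩
  rw [← hφ] at hc
  have hφi : Function.Injective φ := hc.inj
  obtain ⟨C', hC'⟩ : ∃ C' : ((i : Fin k) × Fin (n i)) → (Mat r ℂ)ˣ,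
      C' = fun p => SpecialLinearGroup.toGL (C p.1 p.2) := ⟨_, rfl⟩
  refine ⟨fun _ hX => hX.1, fun F hF X hX => ?_⟩
  rw [← evalG_toU]
  -- integral representations
  have key : ∀ y : FreeGroup (Gens g n) →* SpecialLinearGroup (Fin r) (𝓞 L),
      (∀ w ∈ FRel g n, y w = 1) →
      (∀ p, IsConj (C' p) (slU φ (y (FreeGroup.of (Sum.inr p))))) →
      SS ((slU φ).comp y) → evalG ((slU φ).comp y) F = 0 := by
    intro y hy hyC hyS
    obtain ⟨Z, hZ⟩ : ∃ Z : Gens g n → SpecialLinearGroup (Fin r) (𝓞 L),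
        ∀ p, Z p = y (FreeGroup.of p) := ⟨_, fun _ => rfl⟩
    obtain ⟨X', hX'⟩ : ∃ X' : Gens g n → SpecialLinearGroup (Fin r) ℂ,
        X' = fun p => SpecialLinearGroup.map (phiO (algebraMap L ℂ)) (Z p) := ⟨_, rfl⟩
    have h0 : FreeGroup.lift X' = (SpecialLinearGroup.map (phiO (algebraMap L ℂ))).comp y := by
      apply FreeGroup.ext_hom
      intro p
      rw [FreeGroup.lift_apply_of, hX', MonoidHom.comp_apply, ← hZ]
    have h1 : (slU φ).comp y = toU X' := by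
      rw [toU, h0, hφ]; rfl
    rw [h1, evalG_toU]
    refine hF _ ⟨⟨⟨?_, ?_⟩, fun i j => Statement.isConj_toGL _ _ ?_⟩, ?_⟩
    · rw [isRep_iff]
      intro w hw
      rw [h0, MonoidHom.comp_apply, hy w hw, map_one]
    · rw [← SS_toU, ← h1]; exact hyS
    · have := hyC ⟨i, j⟩
      rw [hC', ← MonoidHom.comp_apply, h1, toU_of] at this
      exact this
    · rw [hX']; exact isIntegralRep_map Z
  rcases Nat.eq_zero_or_pos r with hr | hr
  · subst hr
    have h1 : toU X = (slU φ).comp 1 := by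
      ext w i
      exact i.elim0
    rw [h1]
    refine key 1 (fun w _ => rfl) (fun p => ?_) ?_
    · have : C' p = slU φ ((1 : FreeGroup (Gens g n) →* SpecialLinearGroup (Fin 0) (𝓞 L))
          (FreeGroup.of (Sum.inr p))) := Units.ext (Subsingleton.elim _ _)
      rw [← this]
    · rw [← h1]; exact (SS_toU X).2 hX.1.2
  · have hEig : ∀ p, EigIn E (C' p : Mat r ℂ) := by
      intro p
      rw [hC']
      exact hC p.1 p.2
    have hYG : toU X ∈ YG (FRel g n) C' := by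
      refine ⟨fun w hw => ?_, fun p => ?_, (SS_toU X).2 hX.1.2⟩
      · rw [toU, MonoidHom.comp_apply, (isRep_iff X).1 hX.1.1 w hw, map_one]
      · rw [hC', toU_of]
        exact Statement.toGL_isConj _ _ (hX.2 p.1 p.2)
    obtain ⟨ζ, hζ⟩ := hc.root r hr le_rfl
      (Units.mk0 (Complex.exp (2 * Real.pi * Complex.I / r)) (Complex.exp_ne_zero _)) (by
        have h1 : (Units.mk0 (Complex.exp (2 * Real.pi * Complex.I / r))
            (Complex.exp_ne_zero _)) ^ r = 1 := by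
          ext1
          rw [Units.val_pow_eq_pow_val, Units.val_mk0, Units.val_one,
            (Complex.isPrimitiveRoot_exp r hr.ne').pow_eq_one]
        rw [h1]
        exact one_mem _)
    rw [Units.val_mk0] at hζ
    have hζp : IsPrimitiveRoot (φ ζ) r := by
      rw [hζ]
      exact Complex.isPrimitiveRoot_exp r hr.ne'
    refine unscaleG φ hφi ζ (hφi ?_) hζp hr (FRel g n) (FRel_charOK g n) C' ?_ F key (toU X) ?_
      fun f' hf' => partIVG φ E hc (FRel g n) (FRel_charOK g n) (FRel_irrDense φ E hc hg) C' hEig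
        (toU X) hYG f' hf'
    · rw [map_pow, map_one]
      exact hζp.pow_eq_one
    · intro p
      rw [hC']
      exact (C p.1 p.2).2
    · intro w
      rw [toU_coe]
      exact (FreeGroup.lift X w).2

theorem density_roots (C : ∀ i, Fin (n i) → SpecialLinearGroup (Fin r) ℂ) (N : ℕ) (hN : 0 < N)
    (hC : ∀ i j z, IsEigenvalue (C i j) z → z ^ N = 1) (hg : ∀ i, OKCurve (g i) (n i))
    (L : IntermediateField ℚ ℂ) (hL : FiniteDimensional ℚ L)
    (hμ : ∀ z : ℂ, z ^ (2 * N * r.factorial) = 1 → z ∈ L) (hu : Infinite (𝓞 L)ˣ) :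
    IsZariskiDenseRep {X ∈ Y g C | IsIntegralRep L X} (Y g C) := by
  have : NumberField L := { to_charZero := inferInstance, to_finiteDimensional := hL }
  obtain ⟨u, hu⟩ := exists_unit_infinite_order (L := L) (algebraMap L ℂ)
  obtain ⟨E, hE⟩ : ∃ E : Subgroup ℂˣ, ∀ z, z ∈ E ↔ z ^ (2 * N) = 1 :=
    ⟨(powMonoidHom (2 * N)).ker, fun z => Iff.rfl⟩
  refine density_E C E ?_ hg L hL (coefOK_of_field E ?_ ?_ r L ?_ ⟨u, ?_⟩)
  · intro i j z hz
    have h1 : z ^ N = 1 := hC i j z hz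
    have h0 : z ≠ 0 := by
      rintro rfl
      rw [zero_pow hN.ne'] at h1
      exact zero_ne_one h1
    refine ⟨Units.mk0 z h0, ?_, rfl⟩
    rw [hE]
    ext1
    rw [Units.val_pow_eq_pow_val, Units.val_mk0, Units.val_one, mul_comm, pow_mul, h1, one_pow]
  · intro z hz
    rw [hE] at hz
    refine IsIntegral.of_pow (n := 2 * N) (by positivity) ?_
    rw [← Units.val_pow_eq_pow_val, hz, Units.val_one]
    exact isIntegral_one
  · rw [hE, pow_mul, neg_one_sq, one_pow]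
  · intro m hm hmr z hz
    rw [hE] at hz
    apply hμ
    obtain ⟨c, hc⟩ := mul_dvd_mul_left (2 * N) (Nat.dvd_factorial hm hmr)
    have h1 : (z : ℂ) ^ (2 * N * m) = 1 := by
      rw [mul_comm (2 * N) m, pow_mul, ← Units.val_pow_eq_pow_val, ← Units.val_pow_eq_pow_val, hz,
        Units.val_one]
    rw [hc, pow_mul, h1, one_pow]
  · intro m hm e he h
    rw [hE] at he
    refine hu (m * (2 * N)) (by positivity) ?_
    rw [pow_mul, h, ← Units.val_pow_eq_pow_val, he, Units.val_one]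

theorem exists_density (C : ∀ i, Fin (n i) → SpecialLinearGroup (Fin r) ℂ)
    (hC : ∀ i j z, IsEigenvalue (C i j) z → IsIntegral ℤ z ∧ IsIntegral ℤ z⁻¹)
    (hg : ∀ i, OKCurve (g i) (n i)) :
    ∃ L : IntermediateField ℚ ℂ, FiniteDimensional ℚ L ∧
      IsZariskiDenseRep {X ∈ Y g C | IsIntegralRep L X} (Y g C) := by
  have h0 : ∀ i j z, IsEigenvalue (C i j) z → z ≠ 0 := by
    rintro i j z hz rfl
    have h1 : (C i j).1.charpoly.eval 0 = 0 := hz
    rw [Matrix.eval_charpoly, map_zero, zero_sub, Matrix.det_neg, (C i j).2, mul_one] at h1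
    exact pow_ne_zero _ (by norm_num) h1
  obtain ⟨S, hS⟩ : ∃ S : Set ℂˣ, S = {z : ℂˣ | ∃ i j, IsEigenvalue (C i j) (z : ℂ)} :=
    ⟨_, rfl⟩
  have hSf : S.Finite := by
    have h1 : (⋃ p : (i : Fin k) × Fin (n i), {z : ℂ | (C p.1 p.2).1.charpoly.IsRoot z}).Finite :=
      Set.finite_iUnion fun p => Polynomial.finite_setOfPred_isRoot
        (Matrix.charpoly_monic _).ne_zero
    refine Set.Finite.of_injOn (f := fun z : ℂˣ => (z : ℂ)) ?_ (Units.val_injective.injOn) h1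
    intro z hz
    rw [hS] at hz
    obtain ⟨i, j, hz⟩ := hz
    exact Set.mem_iUnion.2 ⟨⟨i, j⟩, hz⟩
  obtain ⟨L, hL, hc⟩ := exists_field_E S hSf (fun z hz => by
    rw [hS] at hz
    obtain ⟨i, j, hz⟩ := hz
    rw [Units.val_inv_eq_inv_val]
    exact hC i j z hz) r
  refine ⟨L, hL, density_E C _ ?_ hg L hL hc⟩
  intro i j z hz
  refine ⟨Units.mk0 z (h0 i j z hz), Subgroup.subset_closure (Set.mem_insert_of_mem _ ?_), rfl⟩
  rw [hS]
  exact ⟨i, j, hz⟩

end Vale.Agent.P002R.Product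
end

section

/-!
# Density for products of curves with at least `3 - 2g` regular classes
-/

namespace Vale.Agent.P002R

open Matrix

/-- The main theorem in genus zero: irreducible representations of a sphere with `m + 3`
punctures, the classes of the punctures `0`, `m + 1` and `m + 2` have cyclic vectors. -/
def G0Irr : Prop :=
  ∀ {m r : ℕ}, 0 < r → ∀ {R : Type} [CommRing R] (φ : R →+* ℂ) (E : Subgroup ℂˣ),
    CoefOK φ E r → (∀ (u : Rˣ) (D : R), D ≠ 0 → ∃ M : ℕ, 0 < M ∧ D ∣ (u : R) ^ M - 1) →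
    ∀ C : Fin (m + 3) → (Mat r ℂ)ˣ, (∀ j, EigIn E (C j : Mat r ℂ)) →
    HasCyc r (C 0 : Mat r ℂ) → HasCyc r (C ⟨m + 1, by omega⟩ : Mat r ℂ) →
    HasCyc r (C (Fin.last (m + 2)) : Mat r ℂ) →
    ∀ x ∈ YG ({relatorU 0 (m + 3)} : Set (FreeGroup ((Fin 0 × Bool) ⊕ Fin (m + 3)))) C,
    (∀ M : Mat r ℂ, (∀ w, Commute M (x w : Mat r ℂ)) → ∃ c : ℂ, M = c • (1 : Mat r ℂ)) →
    ∀ f : MvPolynomial (((Fin 0 × Bool) ⊕ Fin (m + 3)) × Fin r × Fin r) ℂ,
    (∀ y ∈ DGT ({relatorU 0 (m + 3)} : Set (FreeGroup ((Fin 0 × Bool) ⊕ Fin (m + 3)))) φ C,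
      evalG y f = 0) → evalG x f = 0

/-- The main theorem in genus one: irreducible representations of a torus with `n + 1`
punctures, the class of the puncture `0` has a cyclic vector. -/
def G1Irr : Prop :=
  ∀ {n r : ℕ}, 0 < r → ∀ {R : Type} [CommRing R] (φ : R →+* ℂ) (E : Subgroup ℂˣ),
    CoefOK φ E r → (∀ (u : Rˣ) (D : R), D ≠ 0 → ∃ M : ℕ, 0 < M ∧ D ∣ (u : R) ^ M - 1) →
    ∀ C : Fin (n + 1) → (Mat r ℂ)ˣ, (∀ j, EigIn E (C j : Mat r ℂ)) →
    HasCyc r (C 0 : Mat r ℂ) →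
    ∀ x ∈ YG ({relatorU 1 (n + 1)} : Set (FreeGroup ((Fin 1 × Bool) ⊕ Fin (n + 1)))) C,
    (∀ M : Mat r ℂ, (∀ w, Commute M (x w : Mat r ℂ)) → ∃ c : ℂ, M = c • (1 : Mat r ℂ)) →
    ∀ f : MvPolynomial (((Fin 1 × Bool) ⊕ Fin (n + 1)) × Fin r × Fin r) ℂ,
    (∀ y ∈ DGT ({relatorU 1 (n + 1)} : Set (FreeGroup ((Fin 1 × Bool) ⊕ Fin (n + 1)))) φ C,
      evalG y f = 0) → evalG x f = 0

/-- Tori with at least one regular class. -/
theorem g1_irrDenseQ (hG : G1Irr) {n r : ℕ} {R : Type} [CommRing R] (φ : R →+* ℂ)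
    (E : Subgroup ℂˣ) (hc : CoefOK φ E r)
    (hUP : ∀ (u : Rˣ) (D : R), D ≠ 0 → ∃ M : ℕ, 0 < M ∧ D ∣ (u : R) ^ M - 1)
    {T : Finset (Fin n)} (hT : T.Nonempty) {Q : Fin n → ∀ r : ℕ, Mat r ℂ → Prop}
    (hE : ∀ j r M, Q j r M → EigIn E M) (hQ : ∀ j ∈ T, ∀ r M, Q j r M → HasCyc r M) :
    ∀ r' ≤ r, 0 < r' →
      IrrDenseQ Q ({relatorU 1 n} : Set (FreeGroup ((Fin 1 × Bool) ⊕ Fin n))) φ r' := by
  intro r' hr' hr'0
  obtain ⟨j, hj⟩ := hT
  obtain ⟨m, rfl⟩ : ∃ m, n = m + 1 := ⟨n - 1, by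
    have := j.2
    omega⟩
  have hc' : CoefOK φ E r' :=
    ⟨hc.inj, hc.neg, fun k hk hk' => hc.root k hk (hk'.trans hr'), hc.unit⟩
  refine irrDenseQ_reorder (Equiv.swap 0 j) fun C hC x hx hirr f hf => ?_
  refine hG hr'0 φ E hc' hUP C (fun j => hE _ _ _ (hC j)) (hQ j hj _ _ ?_) x hx hirr f hf
  have h1 : Q (Equiv.swap 0 j 0) r' (C 0 : Mat r' ℂ) := hC 0
  rwa [Equiv.swap_apply_left] at h1

/-- Spheres with at least three regular classes. -/
theorem g0_irrDenseQ (hG : G0Irr) {n r : ℕ} {R : Type} [CommRing R] (φ : R →+* ℂ)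
    (E : Subgroup ℂˣ) (hc : CoefOK φ E r)
    (hUP : ∀ (u : Rˣ) (D : R), D ≠ 0 → ∃ M : ℕ, 0 < M ∧ D ∣ (u : R) ^ M - 1)
    {T : Finset (Fin n)} (hT : 3 ≤ T.card) {Q : Fin n → ∀ r : ℕ, Mat r ℂ → Prop}
    (hE : ∀ j r M, Q j r M → EigIn E M) (hQ : ∀ j ∈ T, ∀ r M, Q j r M → HasCyc r M) :
    ∀ r' ≤ r, 0 < r' →
      IrrDenseQ Q ({relatorU 0 n} : Set (FreeGroup ((Fin 0 × Bool) ⊕ Fin n))) φ r' := by
  intro r' hr' hr'0
  obtain ⟨m, rfl⟩ : ∃ m, n = m + 3 := ⟨n - 3, by
    have := hT.trans (Finset.card_le_univ T)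
    rw [Fintype.card_fin] at this
    omega⟩
  have hc' : CoefOK φ E r' :=
    ⟨hc.inj, hc.neg, fun k hk hk' => hc.root k hk (hk'.trans hr'), hc.unit⟩
  obtain ⟨e, ha, hb, hl⟩ := exists_perm_three hT (0 : Fin (m + 3)) ⟨m + 1, by omega⟩
    (Fin.last (m + 2)) (by rw [Ne, Fin.ext_iff]; simp) (by rw [Ne, Fin.ext_iff]; simp)
    (by rw [Ne, Fin.ext_iff]; simp)
  refine irrDenseQ_reorder e fun C hC x hx hirr f hf => ?_
  exact hG hr'0 φ E hc' hUP C (fun j => hE _ _ _ (hC j)) (hQ _ ha _ _ (hC 0))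
    (hQ _ hb _ _ (hC _)) (hQ _ hl _ _ (hC _)) x hx hirr f hf

end Vale.Agent.P002R

namespace Vale.Agent.P002R.Product

open Matrix NumberField

variable {k r : ℕ} {g n : Fin k → ℕ}

/-- The allowed curves with boundary classes. -/
def OKCurveQ (g n r : ℕ) (C : Fin n → SpecialLinearGroup (Fin r) ℂ) : Prop :=
  OKCurve g n ∨ ∃ T : Finset (Fin n), 3 ≤ 2 * g + T.card ∧ ∀ j ∈ T, HasCyc r (C j).1

/-- The condition on the classes. -/
def QC (E : Subgroup ℂˣ) (g n : ℕ) (T : Finset (Fin n)) (j : Fin n) (r : ℕ) (M : Mat r ℂ) : Prop :=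
  EigIn E M ∧ (¬ OKCurve g n → j ∈ T → HasCyc r M)

theorem classOK_QC (E : Subgroup ℂˣ) (g n : ℕ) (T : Finset (Fin n)) (j : Fin n) :
    ClassOK E (QC E g n T j) where
  eig := fun h => h.1
  conj := fun h hX => ⟨(classOK_eig E).conj h hX.1, fun h1 h2 =>
    ((classOK_cyc E).conj h ⟨hX.1, hX.2 h1 h2⟩).2⟩
  blk := fun h => ⟨⟨((classOK_eig E).blk h.1).1, fun h1 h2 =>
      ((classOK_cyc E).blk ⟨h.1, h.2 h1 h2⟩).1.2⟩,
    ⟨((classOK_eig E).blk h.1).2, fun h1 h2 => ((classOK_cyc E).blk ⟨h.1, h.2 h1 h2⟩).2.2⟩⟩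
  kr₁ := fun hr h => ⟨(classOK_eig E).kr₁ hr h.1, fun h1 h2 =>
    ((classOK_cyc E).kr₁ hr ⟨h.1, h.2 h1 h2⟩).2⟩
  kr₂ := fun hr h => ⟨(classOK_eig E).kr₂ hr h.1, fun h1 h2 =>
    ((classOK_cyc E).kr₂ hr ⟨h.1, h.2 h1 h2⟩).2⟩

theorem FRel_irrDenseQ (hG : G0Irr) (hG1 : G1Irr) {R : Type} [CommRing R] (φ : R →+* ℂ) (E : Subgroup ℂˣ)
    (hc : CoefOK φ E r)
    (hUP : ∀ (u : Rˣ) (D : R), D ≠ 0 → ∃ M : ℕ, 0 < M ∧ D ∣ (u : R) ^ M - 1)
    (T : ∀ i, Finset (Fin (n i)))
    (hg : ∀ i, OKCurve (g i) (n i) ∨ 3 ≤ 2 * g i + (T i).card) :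
    ∀ r' ≤ r, 0 < r' → IrrDenseQ (fun p : Σ i, Fin (n i) => QC E (g p.1) (n p.1) (T p.1) p.2)
      (FRel g n) φ r' := by
  refine fam_irrDenseQ φ E r k _ _ (fun i j => QC E (g i) (n i) (T i) j)
    (fun i j => classOK_QC E (g i) (n i) (T i) j) _ fun i r' hr' hr'0 => ?_
  by_cases h : 2 ≤ g i ∨ n i = 0
  · exact (surface_irrDense φ E hc h r' hr' hr'0).toQ fun j M hM => hM.1
  by_cases h1 : g i = 0 ∧ n i ≤ 2
  · exact (abel_irrDense φ E _ (fun r'' x hx => surface_comm (Or.inl h1) r'' x hx) r' hr'0).toQ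
      fun j M hM => hM.1
  · have h2 : ¬ OKCurve (g i) (n i) := by
      unfold OKCurve
      omega
    have h3 := (hg i).resolve_left h2
    have h4 : g i = 0 ∨ g i = 1 := by omega
    have key : ∀ g' : ℕ, g' = g i → IrrDenseQ (fun j => QC E (g i) (n i) (T i) j)
        ({relatorU g' (n i)} : Set (FreeGroup ((Fin g' × Bool) ⊕ Fin (n i)))) φ r' := by
      intro g' hg'
      have h5 : g' = 0 ∨ g' = 1 := by omega
      rcases h5 with rfl | rfl
      · exact g0_irrDenseQ hG φ E hc hUP (by omega) (fun j r M hM => hM.1)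
          (fun j hj r M hM => hM.2 h2 hj) r' hr' hr'0
      · exact g1_irrDenseQ hG1 φ E hc hUP (T := T i) (Finset.card_pos.1 (by omega))
          (fun j r M hM => hM.1) (fun j hj r M hM => hM.2 h2 hj) r' hr' hr'0
    exact key (g i) rfl

theorem density_EQ (hG : G0Irr) (hG1 : G1Irr) (C : ∀ i, Fin (n i) → SpecialLinearGroup (Fin r) ℂ) (E : Subgroup ℂˣ)
    (hC : ∀ i j, EigIn E ((C i j).1)) (hg : ∀ i, OKCurveQ (g i) (n i) r (C i))
    (L : IntermediateField ℚ ℂ) (hL : FiniteDimensional ℚ L)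
    (hc : CoefOK (phiO (algebraMap L ℂ)) E r) :
    IsZariskiDenseRep {X ∈ Y g C | IsIntegralRep L X} (Y g C) := by
  have : NumberField L := { to_charZero := inferInstance, to_finiteDimensional := hL }
  obtain ⟨φ, hφ⟩ : ∃ φ, φ = phiO (algebraMap L ℂ) := ⟨_, rfl⟩
  rw [← hφ] at hc
  have hφi : Function.Injective φ := hc.inj
  obtain ⟨T, hT⟩ : ∃ T : ∀ i, Finset (Fin (n i)), ∀ i, (¬ OKCurve (g i) (n i) →
      3 ≤ 2 * g i + (T i).card) ∧ (¬ OKCurve (g i) (n i) → ∀ j ∈ T i, HasCyc r (C i j).1) := by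
    have h1 : ∀ i, ∃ T : Finset (Fin (n i)), (¬ OKCurve (g i) (n i) →
      3 ≤ 2 * g i + T.card) ∧ (¬ OKCurve (g i) (n i) → ∀ j ∈ T, HasCyc r (C i j).1) := by
      intro i
      rcases hg i with h | ⟨T, hT, hT'⟩
      · exact ⟨∅, fun h' => absurd h h', fun h' => absurd h h'⟩
      · exact ⟨T, fun _ => hT, fun _ => hT'⟩
    choose T hT using h1
    exact ⟨T, hT⟩
  have hg' : ∀ i, OKCurve (g i) (n i) ∨ 3 ≤ 2 * g i + (T i).card := fun i =>
    or_iff_not_imp_left.2 (hT i).1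
  obtain ⟨C', hC'⟩ : ∃ C' : ((i : Fin k) × Fin (n i)) → (Mat r ℂ)ˣ,
      C' = fun p => SpecialLinearGroup.toGL (C p.1 p.2) := ⟨_, rfl⟩
  refine ⟨fun _ hX => hX.1, fun F hF X hX => ?_⟩
  rw [← evalG_toU]
  -- integral representations
  have key : ∀ y : FreeGroup (Gens g n) →* SpecialLinearGroup (Fin r) (𝓞 L),
      (∀ w ∈ FRel g n, y w = 1) →
      (∀ p, IsConj (C' p) (slU φ (y (FreeGroup.of (Sum.inr p))))) →
      SS ((slU φ).comp y) → evalG ((slU φ).comp y) F = 0 := by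
    intro y hy hyC hyS
    obtain ⟨Z, hZ⟩ : ∃ Z : Gens g n → SpecialLinearGroup (Fin r) (𝓞 L),
        ∀ p, Z p = y (FreeGroup.of p) := ⟨_, fun _ => rfl⟩
    obtain ⟨X', hX'⟩ : ∃ X' : Gens g n → SpecialLinearGroup (Fin r) ℂ,
        X' = fun p => SpecialLinearGroup.map (phiO (algebraMap L ℂ)) (Z p) := ⟨_, rfl⟩
    have h0 : FreeGroup.lift X' = (SpecialLinearGroup.map (phiO (algebraMap L ℂ))).comp y := by
      apply FreeGroup.ext_hom
      intro p
      rw [FreeGroup.lift_apply_of, hX', MonoidHom.comp_apply, ← hZ]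
    have h1 : (slU φ).comp y = toU X' := by
      rw [toU, h0, hφ]; rfl
    rw [h1, evalG_toU]
    refine hF _ ⟨⟨⟨?_, ?_⟩, fun i j => Statement.isConj_toGL _ _ ?_⟩, ?_⟩
    · rw [isRep_iff]
      intro w hw
      rw [h0, MonoidHom.comp_apply, hy w hw, map_one]
    · rw [← SS_toU, ← h1]; exact hyS
    · have := hyC ⟨i, j⟩
      rw [hC', ← MonoidHom.comp_apply, h1, toU_of] at this
      exact this
    · rw [hX']; exact isIntegralRep_map Z
  rcases Nat.eq_zero_or_pos r with hr | hr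
  · subst hr
    have h1 : toU X = (slU φ).comp 1 := by
      ext w i
      exact i.elim0
    rw [h1]
    refine key 1 (fun w _ => rfl) (fun p => ?_) ?_
    · have : C' p = slU φ ((1 : FreeGroup (Gens g n) →* SpecialLinearGroup (Fin 0) (𝓞 L))
          (FreeGroup.of (Sum.inr p))) := Units.ext (Subsingleton.elim _ _)
      rw [← this]
    · rw [← h1]; exact (SS_toU X).2 hX.1.2
  · have hEig : ∀ p : Σ i, Fin (n i), QC E (g p.1) (n p.1) (T p.1) p.2 r (C' p : Mat r ℂ) := by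
      intro p
      rw [hC']
      exact ⟨hC p.1 p.2, fun h1 h2 => (hT p.1).2 h1 p.2 h2⟩
    have hUP : ∀ (u : (𝓞 L)ˣ) (D : 𝓞 L), D ≠ 0 → ∃ M : ℕ, 0 < M ∧ D ∣ (u : 𝓞 L) ^ M - 1 :=
      fun u D hD => exists_dvd_pow_sub_one L u D hD
    have hYG : toU X ∈ YG (FRel g n) C' := by
      refine ⟨fun w hw => ?_, fun p => ?_, (SS_toU X).2 hX.1.2⟩
      · rw [toU, MonoidHom.comp_apply, (isRep_iff X).1 hX.1.1 w hw, map_one]
      · rw [hC', toU_of]
        exact Statement.toGL_isConj _ _ (hX.2 p.1 p.2)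
    obtain ⟨ζ, hζ⟩ := hc.root r hr le_rfl
      (Units.mk0 (Complex.exp (2 * Real.pi * Complex.I / r)) (Complex.exp_ne_zero _)) (by
        have h1 : (Units.mk0 (Complex.exp (2 * Real.pi * Complex.I / r))
            (Complex.exp_ne_zero _)) ^ r = 1 := by
          ext1
          rw [Units.val_pow_eq_pow_val, Units.val_mk0, Units.val_one,
            (Complex.isPrimitiveRoot_exp r hr.ne').pow_eq_one]
        rw [h1]
        exact one_mem _)
    rw [Units.val_mk0] at hζ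
    have hζp : IsPrimitiveRoot (φ ζ) r := by
      rw [hζ]
      exact Complex.isPrimitiveRoot_exp r hr.ne'
    refine unscaleG φ hφi ζ (hφi ?_) hζp hr (FRel g n) (FRel_charOK g n) C' ?_ F key (toU X) ?_
      fun f' hf' => partIVQ φ E (Q := fun p : Σ i, Fin (n i) => QC E (g p.1) (n p.1) (T p.1) p.2)
        (fun p => classOK_QC E (g p.1) (n p.1) (T p.1) p.2) hc.weak (FRel g n) (FRel_charOK g n)
        (FRel_irrDenseQ hG hG1 φ E hc hUP T hg') C' hEig (toU X) hYG f' hf'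
    · rw [map_pow, map_one]
      exact hζp.pow_eq_one
    · intro p
      rw [hC']
      exact (C p.1 p.2).2
    · intro w
      rw [toU_coe]
      exact (FreeGroup.lift X w).2

theorem density_rootsQ (hG : G0Irr) (hG1 : G1Irr) (C : ∀ i, Fin (n i) → SpecialLinearGroup (Fin r) ℂ) (N : ℕ) (hN : 0 < N)
    (hC : ∀ i j z, IsEigenvalue (C i j) z → z ^ N = 1) (hg : ∀ i, OKCurveQ (g i) (n i) r (C i))
    (L : IntermediateField ℚ ℂ) (hL : FiniteDimensional ℚ L)
    (hμ : ∀ z : ℂ, z ^ (2 * N * r.factorial) = 1 → z ∈ L) (hu : Infinite (𝓞 L)ˣ) :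
    IsZariskiDenseRep {X ∈ Y g C | IsIntegralRep L X} (Y g C) := by
  have : NumberField L := { to_charZero := inferInstance, to_finiteDimensional := hL }
  obtain ⟨u, hu⟩ := exists_unit_infinite_order (L := L) (algebraMap L ℂ)
  obtain ⟨E, hE⟩ : ∃ E : Subgroup ℂˣ, ∀ z, z ∈ E ↔ z ^ (2 * N) = 1 :=
    ⟨(powMonoidHom (2 * N)).ker, fun z => Iff.rfl⟩
  refine density_EQ hG hG1 C E ?_ hg L hL (coefOK_of_field E ?_ ?_ r L ?_ ⟨u, ?_⟩)
  · intro i j z hz
    have h1 : z ^ N = 1 := hC i j z hz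
    have h0 : z ≠ 0 := by
      rintro rfl
      rw [zero_pow hN.ne'] at h1
      exact zero_ne_one h1
    refine ⟨Units.mk0 z h0, ?_, rfl⟩
    rw [hE]
    ext1
    rw [Units.val_pow_eq_pow_val, Units.val_mk0, Units.val_one, mul_comm, pow_mul, h1, one_pow]
  · intro z hz
    rw [hE] at hz
    refine IsIntegral.of_pow (n := 2 * N) (by positivity) ?_
    rw [← Units.val_pow_eq_pow_val, hz, Units.val_one]
    exact isIntegral_one
  · rw [hE, pow_mul, neg_one_sq, one_pow]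
  · intro m hm hmr z hz
    rw [hE] at hz
    apply hμ
    obtain ⟨c, hc⟩ := mul_dvd_mul_left (2 * N) (Nat.dvd_factorial hm hmr)
    have h1 : (z : ℂ) ^ (2 * N * m) = 1 := by
      rw [mul_comm (2 * N) m, pow_mul, ← Units.val_pow_eq_pow_val, ← Units.val_pow_eq_pow_val, hz,
        Units.val_one]
    rw [hc, pow_mul, h1, one_pow]
  · intro m hm e he h
    rw [hE] at he
    refine hu (m * (2 * N)) (by positivity) ?_
    rw [pow_mul, h, ← Units.val_pow_eq_pow_val, he, Units.val_one]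

theorem exists_densityQ (hG : G0Irr) (hG1 : G1Irr) (C : ∀ i, Fin (n i) → SpecialLinearGroup (Fin r) ℂ)
    (hC : ∀ i j z, IsEigenvalue (C i j) z → IsIntegral ℤ z ∧ IsIntegral ℤ z⁻¹)
    (hg : ∀ i, OKCurveQ (g i) (n i) r (C i)) :
    ∃ L : IntermediateField ℚ ℂ, FiniteDimensional ℚ L ∧
      IsZariskiDenseRep {X ∈ Y g C | IsIntegralRep L X} (Y g C) := by
  have h0 : ∀ i j z, IsEigenvalue (C i j) z → z ≠ 0 := by
    rintro i j z hz rfl
    have h1 : (C i j).1.charpoly.eval 0 = 0 := hz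
    rw [Matrix.eval_charpoly, map_zero, zero_sub, Matrix.det_neg, (C i j).2, mul_one] at h1
    exact pow_ne_zero _ (by norm_num) h1
  obtain ⟨S, hS⟩ : ∃ S : Set ℂˣ, S = {z : ℂˣ | ∃ i j, IsEigenvalue (C i j) (z : ℂ)} :=
    ⟨_, rfl⟩
  have hSf : S.Finite := by
    have h1 : (⋃ p : (i : Fin k) × Fin (n i), {z : ℂ | (C p.1 p.2).1.charpoly.IsRoot z}).Finite :=
      Set.finite_iUnion fun p => Polynomial.finite_setOfPred_isRoot
        (Matrix.charpoly_monic _).ne_zero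
    refine Set.Finite.of_injOn (f := fun z : ℂˣ => (z : ℂ)) ?_ (Units.val_injective.injOn) h1
    intro z hz
    rw [hS] at hz
    obtain ⟨i, j, hz⟩ := hz
    exact Set.mem_iUnion.2 ⟨⟨i, j⟩, hz⟩
  obtain ⟨L, hL, hc⟩ := exists_field_E S hSf (fun z hz => by
    rw [hS] at hz
    obtain ⟨i, j, hz⟩ := hz
    rw [Units.val_inv_eq_inv_val]
    exact hC i j z hz) r
  refine ⟨L, hL, density_EQ hG hG1 C _ ?_ hg L hL hc⟩
  intro i j z hz
  refine ⟨Units.mk0 z (h0 i j z hz), Subgroup.subset_closure (Set.mem_insert_of_mem _ ?_), rfl⟩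
  rw [hS]
  exact ⟨i, j, hz⟩

end Vale.Agent.P002R.Product
end

section

/-!
# Density for products of curves with at least `3 - 2g` regular classes, two coefficient rings
-/

namespace Vale.Agent.P002R

open Matrix NumberField

/-- The main theorem in genus one: irreducible representations of a torus with `n + 1`
punctures, the class of the puncture `0` has a cyclic vector; two coefficient rings. -/
def G1Irr2 : Prop :=
  ∀ {n r : ℕ}, 0 < r → ∀ {R₀ R : Type} [CommRing R₀] [CommRing R] (φ₀ : R₀ →+* ℂ) (φ : R →+* ℂ)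
    (ι : R₀ →+* R), (∀ a, φ (ι a) = φ₀ a) →
    (∀ u : R₀ˣ, ∃ c : Rˣ, ι (u : R₀) = (c : R) ^ r) →
    ∀ E : Subgroup ℂˣ, CoefOK φ₀ E r → CoefOK φ E r →
    (∀ (u : R₀ˣ) (D : R₀), D ≠ 0 → ∃ M : ℕ, 0 < M ∧ D ∣ (u : R₀) ^ M - 1) →
    ∀ C : Fin (n + 1) → (Mat r ℂ)ˣ, (∀ j, EigIn E (C j : Mat r ℂ)) →
    HasCyc r (C 0 : Mat r ℂ) →
    ∀ x ∈ YG ({relatorU 1 (n + 1)} : Set (FreeGroup ((Fin 1 × Bool) ⊕ Fin (n + 1)))) C,
    (∀ M : Mat r ℂ, (∀ w, Commute M (x w : Mat r ℂ)) → ∃ c : ℂ, M = c • (1 : Mat r ℂ)) →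
    ∀ f : MvPolynomial (((Fin 1 × Bool) ⊕ Fin (n + 1)) × Fin r × Fin r) ℂ,
    (∀ y ∈ DGT ({relatorU 1 (n + 1)} : Set (FreeGroup ((Fin 1 × Bool) ⊕ Fin (n + 1)))) φ C,
      evalG y f = 0) → evalG x f = 0

theorem CoefOK.mono {R : Type*} [CommRing R] {φ : R →+* ℂ} {E : Subgroup ℂˣ} {r r' : ℕ}
    (hc : CoefOK φ E r) (h : r' ≤ r) : CoefOK φ E r' :=
  ⟨hc.inj, hc.neg, fun k hk hk' => hc.root k hk (hk'.trans h), hc.unit⟩

theorem CoefOK.ring_mono {R₀ R : Type*} [CommRing R₀] [CommRing R] {φ₀ : R₀ →+* ℂ} {φ : R →+* ℂ}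
    (ι : R₀ →+* R) (hι : ∀ a, φ (ι a) = φ₀ a) (hφ : Function.Injective φ) {E : Subgroup ℂˣ} {r : ℕ}
    (hc : CoefOK φ₀ E r) : CoefOK φ E r := by
  refine ⟨hφ, hc.neg, fun k hk hkr z hz => ?_, ?_⟩
  · obtain ⟨a, ha⟩ := hc.root k hk hkr z hz
    exact ⟨ι a, by rw [hι, ha]⟩
  · obtain ⟨u, hu⟩ := hc.unit
    refine ⟨Units.map (ι : R₀ →* R) u, fun k hk h => hu k hk ?_⟩
    have h1 : Units.map (φ : R →* ℂ) (Units.map (ι : R₀ →* R) u) = Units.map (φ₀ : R₀ →* ℂ) u := by
      ext1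
      exact hι _
    rwa [h1] at h

/-- Tori with at least one regular class. -/
theorem g1_irrDenseQ2 (hG : G1Irr2) {n r : ℕ} {R₀ R : Type} [CommRing R₀] [CommRing R]
    (φ₀ : R₀ →+* ℂ) (φ : R →+* ℂ) (ι : R₀ →+* R) (hι : ∀ a, φ (ι a) = φ₀ a)
    (hroot : ∀ r' ≤ r, 0 < r' → ∀ u : R₀ˣ, ∃ c : Rˣ, ι (u : R₀) = (c : R) ^ r')
    (E : Subgroup ℂˣ) (hc₀ : CoefOK φ₀ E r) (hc : CoefOK φ E r)
    (hUP : ∀ (u : R₀ˣ) (D : R₀), D ≠ 0 → ∃ M : ℕ, 0 < M ∧ D ∣ (u : R₀) ^ M - 1)
    {T : Finset (Fin n)} (hT : T.Nonempty) {Q : Fin n → ∀ r : ℕ, Mat r ℂ → Prop}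
    (hE : ∀ j r M, Q j r M → EigIn E M) (hQ : ∀ j ∈ T, ∀ r M, Q j r M → HasCyc r M) :
    ∀ r' ≤ r, 0 < r' →
      IrrDenseQ Q ({relatorU 1 n} : Set (FreeGroup ((Fin 1 × Bool) ⊕ Fin n))) φ r' := by
  intro r' hr' hr'0
  obtain ⟨j, hj⟩ := hT
  obtain ⟨m, rfl⟩ : ∃ m, n = m + 1 := ⟨n - 1, by
    have := j.2
    omega⟩
  refine irrDenseQ_reorder (Equiv.swap 0 j) fun C hC x hx hirr f hf => ?_
  refine hG hr'0 φ₀ φ ι hι (hroot r' hr' hr'0) E (hc₀.mono hr') (hc.mono hr') hUP C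
    (fun j => hE _ _ _ (hC j)) (hQ j hj _ _ ?_) x hx hirr f hf
  have h1 : Q (Equiv.swap 0 j 0) r' (C 0 : Mat r' ℂ) := hC 0
  rwa [Equiv.swap_apply_left] at h1

/-! ### number fields -/

/-- A number field which contains the `k`-th roots of the units of a given number field. -/
theorem exists_root_field (L₀ : IntermediateField ℚ ℂ) (hL₀ : FiniteDimensional ℚ L₀) (k : ℕ)
    (hk : 0 < k) : ∃ L : IntermediateField ℚ ℂ, FiniteDimensional ℚ L ∧ L₀ ≤ L ∧
      ∀ u : (𝓞 L₀)ˣ, ∀ z : ℂ, z ^ k = phiO (algebraMap L₀ ℂ) (u : 𝓞 L₀) → z ∈ L := by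
  have : NumberField L₀ := { to_charZero := inferInstance, to_finiteDimensional := hL₀ }
  have hfg : Group.FG (𝓞 L₀)ˣ := Group.fg_iff_monoid_fg.2 inferInstance
  obtain ⟨S₀, hS₀, hS₀f⟩ := Group.fg_iff.1 hfg
  obtain ⟨G, hG⟩ : ∃ G : (𝓞 L₀)ˣ →* ℂˣ, G = Units.map (phiO (algebraMap L₀ ℂ) : 𝓞 L₀ →* ℂ) :=
    ⟨_, rfl⟩
  obtain ⟨S, hS⟩ : ∃ S : Set ℂˣ, S = G '' S₀ := ⟨_, rfl⟩
  have hSf : S.Finite := hS ▸ hS₀f.image _
  have hmem : ∀ u : (𝓞 L₀)ˣ, G u ∈ Subgroup.closure S := by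
    intro u
    rw [hS, ← MonoidHom.map_closure, hS₀]
    exact ⟨u, Subgroup.mem_top _, rfl⟩
  have hint : ∀ u : (𝓞 L₀)ˣ, IsIntegral ℤ ((G u : ℂˣ) : ℂ) := by
    intro u
    rw [hG]
    exact (u : 𝓞 L₀).isIntegral_coe.map (algebraMap L₀ ℂ).toIntAlgHom
  obtain ⟨V, hV⟩ : ∃ V : Set ℂ, V = ((↑) : ℂˣ → ℂ) '' {w : ℂˣ | w ^ k ∈ insert 1 S} := ⟨_, rfl⟩
  have hVf : V.Finite := by
    rw [hV]
    exact (roots_finite _ (hSf.insert 1) k hk).image _
  have hVint : ∀ x ∈ V, IsIntegral ℚ x := by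
    rintro x hx
    rw [hV] at hx
    obtain ⟨w, hw, rfl⟩ := hx
    refine IsIntegral.tower_top (R := ℤ) (IsIntegral.of_pow hk ?_)
    rw [← Units.val_pow_eq_pow_val]
    rcases hw with h | h
    · rw [h, Units.val_one]
      exact isIntegral_one
    · rw [hS] at h
      obtain ⟨u, _, hu⟩ := h
      rw [← hu]
      exact hint u
  have hVfd : FiniteDimensional ℚ (IntermediateField.adjoin ℚ V) := by
    have : Finite V := hVf
    exact IntermediateField.finiteDimensional_adjoin fun x hx => hVint x hx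
  refine ⟨L₀ ⊔ IntermediateField.adjoin ℚ V, inferInstance, le_sup_left, fun u z hz => ?_⟩
  have hz0 : z ≠ 0 := by
    rintro rfl
    rw [zero_pow hk.ne'] at hz
    have h1 : ((G u : ℂˣ) : ℂ) ≠ 0 := (G u).ne_zero
    rw [hG] at h1
    exact h1 hz.symm
  have h1 : (Units.mk0 z hz0) ^ k = G u := by
    ext1
    rw [Units.val_pow_eq_pow_val, Units.val_mk0, hz, hG]
    rfl
  have h2 := root_mem_closure S k hk (Units.mk0 z hz0) (by rw [h1]; exact hmem u)
  have h3 : ∀ w ∈ Subgroup.closure {w : ℂˣ | w ^ k ∈ insert 1 S},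
      (w : ℂ) ∈ IntermediateField.adjoin ℚ V := by
    intro w hw
    induction hw using Subgroup.closure_induction with
    | mem x hx =>
      refine IntermediateField.subset_adjoin ℚ V ?_
      rw [hV]
      exact ⟨x, hx, rfl⟩
    | one => exact IntermediateField.one_mem _
    | mul x y _ _ hx hy =>
      rw [Units.val_mul]
      exact IntermediateField.mul_mem _ hx hy
    | inv x _ hx =>
      rw [Units.val_inv_eq_inv_val]
      exact IntermediateField.inv_mem _ hx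
  have h4 : IntermediateField.adjoin ℚ V ≤ L₀ ⊔ IntermediateField.adjoin ℚ V := le_sup_right
  exact h4 (h3 _ h2)

/-- The inclusion of the rings of integers. -/
noncomputable def iotaO {L₀ L : IntermediateField ℚ ℂ} (h : L₀ ≤ L) : 𝓞 L₀ →+* 𝓞 L :=
  RingOfIntegers.mapRingHom (IntermediateField.inclusion h).toRingHom

theorem phiO_iotaO {L₀ L : IntermediateField ℚ ℂ} (h : L₀ ≤ L) (a : 𝓞 L₀) :
    phiO (algebraMap L ℂ) (iotaO h a) = phiO (algebraMap L₀ ℂ) a := rfl

/-- Units of the small ring are powers of units of the big ring. -/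
theorem exists_unit_root {L₀ L : IntermediateField ℚ ℂ} (h : L₀ ≤ L) (r : ℕ)
    (hu : ∀ u : (𝓞 L₀)ˣ, ∃ z ∈ L, z ^ r.factorial = ((u : 𝓞 L₀) : ℂ)) (r' : ℕ) (hr' : r' ≤ r)
    (hr'0 : 0 < r') (u : (𝓞 L₀)ˣ) : ∃ c : (𝓞 L)ˣ, iotaO h (u : 𝓞 L₀) = (c : 𝓞 L) ^ r' := by
  obtain ⟨z, hzL, hz⟩ := hu u
  obtain ⟨q, hq⟩ := Nat.dvd_factorial hr'0 hr'
  have h1 : (z ^ q) ^ r' = phiO (algebraMap L₀ ℂ) (u : 𝓞 L₀) := by
    rw [← pow_mul, mul_comm, ← hq, hz]
    rfl
  have hint : IsIntegral ℤ (z ^ q) := by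
    refine IsIntegral.of_pow hr'0 ?_
    rw [h1]
    exact (u : 𝓞 L₀).isIntegral_coe.map (algebraMap L₀ ℂ).toIntAlgHom
  have hint' : IsIntegral ℤ (⟨z ^ q, pow_mem hzL q⟩ : L) := by
    rw [← isIntegral_algebraMap_iff (A := L) (B := ℂ) (algebraMap L ℂ).injective]
    exact hint
  obtain ⟨w, hw⟩ : ∃ w : 𝓞 L, w = ⟨⟨z ^ q, pow_mem hzL q⟩, hint'⟩ := ⟨_, rfl⟩
  have h2 : w ^ r' = iotaO h (u : 𝓞 L₀) := by
    apply phiO_injective (algebraMap L ℂ)
    rw [map_pow, phiO_iotaO, ← h1, hw]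
    rfl
  have h3 : IsUnit (w ^ r') := by
    rw [h2]
    exact u.isUnit.map (iotaO h)
  obtain ⟨c, hc⟩ := (isUnit_pow_iff hr'0.ne').1 h3
  exact ⟨c, by rw [hc, h2]⟩

end Vale.Agent.P002R

namespace Vale.Agent.P002R.Product

open Matrix NumberField

variable {k r : ℕ} {g n : Fin k → ℕ}

theorem FRel_irrDenseH {R : Type} [CommRing R] (φ : R →+* ℂ) (E : Subgroup ℂˣ)
    (hc : CoefOK φ E r) (T : ∀ i, Finset (Fin (n i)))
    (hI : ∀ i, ¬ OKCurve (g i) (n i) → ∀ r' ≤ r, 0 < r' →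
      IrrDenseQ (fun j => QC E (g i) (n i) (T i) j)
        ({relatorU (g i) (n i)} : Set (FreeGroup ((Fin (g i) × Bool) ⊕ Fin (n i)))) φ r') :
    ∀ r' ≤ r, 0 < r' → IrrDenseQ (fun p : Σ i, Fin (n i) => QC E (g p.1) (n p.1) (T p.1) p.2)
      (FRel g n) φ r' := by
  refine fam_irrDenseQ φ E r k _ _ (fun i j => QC E (g i) (n i) (T i) j)
    (fun i j => classOK_QC E (g i) (n i) (T i) j) _ fun i r' hr' hr'0 => ?_
  by_cases h : 2 ≤ g i ∨ n i = 0
  · exact (surface_irrDense φ E hc h r' hr' hr'0).toQ fun j M hM => hM.1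
  by_cases h1 : g i = 0 ∧ n i ≤ 2
  · exact (abel_irrDense φ E _ (fun r'' x hx => surface_comm (Or.inl h1) r'' x hx) r' hr'0).toQ
      fun j M hM => hM.1
  · have h2 : ¬ OKCurve (g i) (n i) := by
      unfold OKCurve
      omega
    exact hI i h2 r' hr' hr'0

theorem density_EH (C : ∀ i, Fin (n i) → SpecialLinearGroup (Fin r) ℂ) (E : Subgroup ℂˣ)
    (hC : ∀ i j, EigIn E ((C i j).1)) (T : ∀ i, Finset (Fin (n i)))
    (hT : ∀ i, ¬ OKCurve (g i) (n i) → ∀ j ∈ T i, HasCyc r (C i j).1)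
    (L : IntermediateField ℚ ℂ) (hL : FiniteDimensional ℚ L)
    (hc : CoefOK (phiO (algebraMap L ℂ)) E r)
    (hI : ∀ i, ¬ OKCurve (g i) (n i) → ∀ r' ≤ r, 0 < r' →
      IrrDenseQ (fun j => QC E (g i) (n i) (T i) j)
        ({relatorU (g i) (n i)} : Set (FreeGroup ((Fin (g i) × Bool) ⊕ Fin (n i))))
        (phiO (algebraMap L ℂ)) r') :
    IsZariskiDenseRep {X ∈ Y g C | IsIntegralRep L X} (Y g C) := by
  have : NumberField L := { to_charZero := inferInstance, to_finiteDimensional := hL }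
  obtain ⟨φ, hφ⟩ : ∃ φ, φ = phiO (algebraMap L ℂ) := ⟨_, rfl⟩
  rw [← hφ] at hc hI
  have hφi : Function.Injective φ := hc.inj
  obtain ⟨C', hC'⟩ : ∃ C' : ((i : Fin k) × Fin (n i)) → (Mat r ℂ)ˣ,
      C' = fun p => SpecialLinearGroup.toGL (C p.1 p.2) := ⟨_, rfl⟩
  refine ⟨fun _ hX => hX.1, fun F hF X hX => ?_⟩
  rw [← evalG_toU]
  -- integral representations
  have key : ∀ y : FreeGroup (Gens g n) →* SpecialLinearGroup (Fin r) (𝓞 L),
      (∀ w ∈ FRel g n, y w = 1) →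
      (∀ p, IsConj (C' p) (slU φ (y (FreeGroup.of (Sum.inr p))))) →
      SS ((slU φ).comp y) → evalG ((slU φ).comp y) F = 0 := by
    intro y hy hyC hyS
    obtain ⟨Z, hZ⟩ : ∃ Z : Gens g n → SpecialLinearGroup (Fin r) (𝓞 L),
        ∀ p, Z p = y (FreeGroup.of p) := ⟨_, fun _ => rfl⟩
    obtain ⟨X', hX'⟩ : ∃ X' : Gens g n → SpecialLinearGroup (Fin r) ℂ,
        X' = fun p => SpecialLinearGroup.map (phiO (algebraMap L ℂ)) (Z p) := ⟨_, rfl⟩
    have h0 : FreeGroup.lift X' = (SpecialLinearGroup.map (phiO (algebraMap L ℂ))).comp y := by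
      apply FreeGroup.ext_hom
      intro p
      rw [FreeGroup.lift_apply_of, hX', MonoidHom.comp_apply, ← hZ]
    have h1 : (slU φ).comp y = toU X' := by
      rw [toU, h0, hφ]; rfl
    rw [h1, evalG_toU]
    refine hF _ ⟨⟨⟨?_, ?_⟩, fun i j => Statement.isConj_toGL _ _ ?_⟩, ?_⟩
    · rw [isRep_iff]
      intro w hw
      rw [h0, MonoidHom.comp_apply, hy w hw, map_one]
    · rw [← SS_toU, ← h1]; exact hyS
    · have := hyC ⟨i, j⟩
      rw [hC', ← MonoidHom.comp_apply, h1, toU_of] at this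
      exact this
    · rw [hX']; exact isIntegralRep_map Z
  rcases Nat.eq_zero_or_pos r with hr | hr
  · subst hr
    have h1 : toU X = (slU φ).comp 1 := by
      ext w i
      exact i.elim0
    rw [h1]
    refine key 1 (fun w _ => rfl) (fun p => ?_) ?_
    · have : C' p = slU φ ((1 : FreeGroup (Gens g n) →* SpecialLinearGroup (Fin 0) (𝓞 L))
          (FreeGroup.of (Sum.inr p))) := Units.ext (Subsingleton.elim _ _)
      rw [← this]
    · rw [← h1]; exact (SS_toU X).2 hX.1.2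
  · have hEig : ∀ p : Σ i, Fin (n i), QC E (g p.1) (n p.1) (T p.1) p.2 r (C' p : Mat r ℂ) := by
      intro p
      rw [hC']
      exact ⟨hC p.1 p.2, fun h1 h2 => hT p.1 h1 p.2 h2⟩
    have hYG : toU X ∈ YG (FRel g n) C' := by
      refine ⟨fun w hw => ?_, fun p => ?_, (SS_toU X).2 hX.1.2⟩
      · rw [toU, MonoidHom.comp_apply, (isRep_iff X).1 hX.1.1 w hw, map_one]
      · rw [hC', toU_of]
        exact Statement.toGL_isConj _ _ (hX.2 p.1 p.2)
    obtain ⟨ζ, hζ⟩ := hc.root r hr le_rfl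
      (Units.mk0 (Complex.exp (2 * Real.pi * Complex.I / r)) (Complex.exp_ne_zero _)) (by
        have h1 : (Units.mk0 (Complex.exp (2 * Real.pi * Complex.I / r))
            (Complex.exp_ne_zero _)) ^ r = 1 := by
          ext1
          rw [Units.val_pow_eq_pow_val, Units.val_mk0, Units.val_one,
            (Complex.isPrimitiveRoot_exp r hr.ne').pow_eq_one]
        rw [h1]
        exact one_mem _)
    rw [Units.val_mk0] at hζ
    have hζp : IsPrimitiveRoot (φ ζ) r := by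
      rw [hζ]
      exact Complex.isPrimitiveRoot_exp r hr.ne'
    refine unscaleG φ hφi ζ (hφi ?_) hζp hr (FRel g n) (FRel_charOK g n) C' ?_ F key (toU X) ?_
      fun f' hf' => partIVQ φ E (Q := fun p : Σ i, Fin (n i) => QC E (g p.1) (n p.1) (T p.1) p.2)
        (fun p => classOK_QC E (g p.1) (n p.1) (T p.1) p.2) hc.weak (FRel g n) (FRel_charOK g n)
        (FRel_irrDenseH φ E hc T hI) C' hEig (toU X) hYG f' hf'
    · rw [map_pow, map_one]
      exact hζp.pow_eq_one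
    · intro p
      rw [hC']
      exact (C p.1 p.2).2
    · intro w
      rw [toU_coe]
      exact (FreeGroup.lift X w).2


/-- Low genus: the input for `density_EH`. -/
theorem low_irrDenseQ {g n r : ℕ} {R : Type} [CommRing R] (hG : G0Irr) (φ : R →+* ℂ)
    (E : Subgroup ℂˣ) (hc : CoefOK φ E r)
    (hUP : ∀ (u : Rˣ) (D : R), D ≠ 0 → ∃ M : ℕ, 0 < M ∧ D ∣ (u : R) ^ M - 1)
    (T : Finset (Fin n)) (h : ¬ OKCurve g n) (h3 : 3 ≤ 2 * g + T.card)
    (h1 : g = 1 → T.Nonempty → ∀ r' ≤ r, 0 < r' → IrrDenseQ (fun j => QC E 1 n T j)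
      ({relatorU 1 n} : Set (FreeGroup ((Fin 1 × Bool) ⊕ Fin n))) φ r') :
    ∀ r' ≤ r, 0 < r' → IrrDenseQ (fun j => QC E g n T j)
      ({relatorU g n} : Set (FreeGroup ((Fin g × Bool) ⊕ Fin n))) φ r' := by
  have h4 : g = 0 ∨ g = 1 := by
    unfold OKCurve at h
    omega
  rcases h4 with rfl | rfl
  · exact g0_irrDenseQ hG φ E hc hUP (by omega) (fun j r M hM => hM.1)
      (fun j hj r M hM => hM.2 h hj)
  · exact h1 rfl (Finset.card_pos.1 (by omega))

theorem exists_T {C : ∀ i, Fin (n i) → SpecialLinearGroup (Fin r) ℂ}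
    (hg : ∀ i, OKCurveQ (g i) (n i) r (C i)) : ∃ T : ∀ i, Finset (Fin (n i)),
      (∀ i, ¬ OKCurve (g i) (n i) → 3 ≤ 2 * g i + (T i).card) ∧
      ∀ i, ¬ OKCurve (g i) (n i) → ∀ j ∈ T i, HasCyc r (C i j).1 := by
  have h1 : ∀ i, ∃ T : Finset (Fin (n i)), (¬ OKCurve (g i) (n i) →
      3 ≤ 2 * g i + T.card) ∧ (¬ OKCurve (g i) (n i) → ∀ j ∈ T, HasCyc r (C i j).1) := by
    intro i
    rcases hg i with h | ⟨T, hT, hT'⟩
    · exact ⟨∅, fun h' => absurd h h', fun h' => absurd h h'⟩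
    · exact ⟨T, fun _ => hT, fun _ => hT'⟩
  choose T hT using h1
  exact ⟨T, fun i => (hT i).1, fun i => (hT i).2⟩

theorem hUP_field (L : IntermediateField ℚ ℂ) (hL : FiniteDimensional ℚ L) (u : (𝓞 L)ˣ) (D : 𝓞 L)
    (hD : D ≠ 0) : ∃ M : ℕ, 0 < M ∧ D ∣ (u : 𝓞 L) ^ M - 1 := by
  have : NumberField L := { to_charZero := inferInstance, to_finiteDimensional := hL }
  exact exists_dvd_pow_sub_one L u D hD

/-- Density, no punctured torus. -/
theorem density_E0 (hG : G0Irr) (C : ∀ i, Fin (n i) → SpecialLinearGroup (Fin r) ℂ)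
    (E : Subgroup ℂˣ) (hC : ∀ i j, EigIn E ((C i j).1))
    (hg : ∀ i, OKCurveQ (g i) (n i) r (C i)) (hg1 : ∀ i, g i = 1 → n i = 0)
    (L : IntermediateField ℚ ℂ) (hL : FiniteDimensional ℚ L)
    (hc : CoefOK (phiO (algebraMap L ℂ)) E r) :
    IsZariskiDenseRep {X ∈ Y g C | IsIntegralRep L X} (Y g C) := by
  obtain ⟨T, hT, hT'⟩ := exists_T hg
  refine density_EH C E hC T hT' L hL hc fun i hi => ?_
  refine low_irrDenseQ hG _ E hc (hUP_field L hL) (T i) hi (hT i hi) fun h => ?_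
  exact absurd (Or.inr (Or.inl (hg1 i h))) hi

/-- Density, two fields. -/
theorem density_E2 (hG : G0Irr) (hG1 : G1Irr2)
    (C : ∀ i, Fin (n i) → SpecialLinearGroup (Fin r) ℂ)
    (E : Subgroup ℂˣ) (hC : ∀ i j, EigIn E ((C i j).1))
    (hg : ∀ i, OKCurveQ (g i) (n i) r (C i))
    (L₀ L : IntermediateField ℚ ℂ) (hL₀ : FiniteDimensional ℚ L₀) (hL : FiniteDimensional ℚ L)
    (h : L₀ ≤ L) (hc : CoefOK (phiO (algebraMap L₀ ℂ)) E r)
    (hu : ∀ u : (𝓞 L₀)ˣ, ∃ z ∈ L, z ^ r.factorial = ((u : 𝓞 L₀) : ℂ)) :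
    IsZariskiDenseRep {X ∈ Y g C | IsIntegralRep L X} (Y g C) := by
  obtain ⟨T, hT, hT'⟩ := exists_T hg
  have hc' : CoefOK (phiO (algebraMap L ℂ)) E r :=
    hc.ring_mono (iotaO h) (phiO_iotaO h) (phiO_injective _)
  refine density_EH C E hC T hT' L hL hc' fun i hi => ?_
  refine low_irrDenseQ hG _ E hc' (hUP_field L hL) (T i) hi (hT i hi) fun h1 hne => ?_
  refine g1_irrDenseQ2 hG1 (phiO (algebraMap L₀ ℂ)) _ (iotaO h) (phiO_iotaO h)
    (exists_unit_root h r hu) E hc hc' (hUP_field L₀ hL₀) hne (fun j r M hM => hM.1)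
    fun j hj r M hM => hM.2 ?_ hj
  rwa [h1] at hi

end Vale.Agent.P002R.Product
end

section

/-!
# Ideals become principal in a finite extension
-/

namespace Vale.Agent.P002R

open NumberField nonZeroDivisors

/-- Every nonzero vector over `R₁` is, over `R₂`, a multiple of a unimodular vector. -/
def Prin {R₁ R₂ : Type} [CommRing R₁] [CommRing R₂] (ι : R₁ →+* R₂) : Prop :=
  ∀ (r : ℕ) (v : Fin r → R₁), v ≠ 0 → ∃ (t : R₂) (w y : Fin r → R₂),
    (∀ i, ι (v i) = t * w i) ∧ ∑ i, y i * w i = 1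

theorem map_eq_span_of_class {R₁ R₂ : Type} [CommRing R₁] [CommRing R₂] [IsDedekindDomain R₂] (ι : R₁ →+* R₂) (hinj : Function.Injective ι) {m : ℕ}
    (hm0 : m ≠ 0) (J K : Ideal R₁) (x y α : R₁) (hx : x ≠ 0)
    (hxy : Ideal.span {x} * J = Ideal.span {y} * K) (hα : K ^ m = Ideal.span {α}) (b : R₂)
    (hb : b ^ m = ι α) : ∃ t, J.map ι = Ideal.span {t} := by
  have h1 : Ideal.span {ι x} * J.map ι = Ideal.span {ι y * b} := by
    have h2 : (Ideal.span {ι x} * J.map ι) ^ m = (Ideal.span {ι y * b}) ^ m := by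
      have h3 := congrArg (fun K => (Ideal.map ι K) ^ m) hxy
      simp only [Ideal.map_mul, Ideal.map_span, Set.image_singleton] at h3
      rw [h3, mul_pow, ← Ideal.map_pow, hα, Ideal.map_span, Set.image_singleton,
        Ideal.span_singleton_pow, Ideal.span_singleton_pow, Ideal.span_singleton_mul_span_singleton,
        mul_pow, hb]
    exact dvd_antisymm ((UniqueFactorizationMonoid.pow_dvd_pow_iff_dvd hm0).1 h2.dvd)
      ((UniqueFactorizationMonoid.pow_dvd_pow_iff_dvd hm0).1 h2.symm.dvd)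
  have hx' : ι x ≠ 0 := by
    rw [Ne, ← map_zero ι]
    exact fun h => hx (hinj h)
  have h2 : ι x ∣ ι y * b := by
    have h3 : Ideal.span {ι y * b} ≤ Ideal.span {ι x} := by
      rw [← h1]
      exact Ideal.mul_le_left
    exact Ideal.span_singleton_le_span_singleton.1 h3
  obtain ⟨t, ht⟩ := h2
  rw [ht, ← Ideal.span_singleton_mul_span_singleton] at h1
  have h4 : Ideal.span {ι x} ≠ 0 := by
    rw [Ne, Ideal.zero_eq_bot, Ideal.span_singleton_eq_bot]
    exact hx'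
  exact ⟨t, mul_left_cancel₀ h4 h1⟩

theorem unimodular_of_map {R₁ R₂ : Type} [CommRing R₁] [CommRing R₂] [IsDomain R₂]
    (ι : R₁ →+* R₂) (hinj : Function.Injective ι) {r : ℕ} (v : Fin r → R₁) (hv : v ≠ 0) (t : R₂)
    (h : (Ideal.span (Set.range v)).map ι = Ideal.span {t}) : ∃ (w y : Fin r → R₂),
    (∀ i, ι (v i) = t * w i) ∧ ∑ i, y i * w i = 1 := by
  have h3 : ∀ i, ∃ w, ι (v i) = t * w := by
    intro i
    have h4 : ι (v i) ∈ Ideal.span {t} := by
      rw [← h]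
      exact Ideal.mem_map_of_mem _ (Ideal.subset_span ⟨i, rfl⟩)
    exact Ideal.mem_span_singleton.1 h4
  choose w hw using h3
  have ht0 : t ≠ 0 := by
    rintro rfl
    apply hv
    funext i
    apply hinj
    rw [hw, zero_mul, Pi.zero_apply, map_zero]
  have h4 : t ∈ Ideal.span (Set.range fun i => ι (v i)) := by
    have h5 : t ∈ (Ideal.span (Set.range v)).map ι := by
      rw [h]; exact Ideal.mem_span_singleton_self _
    rw [Ideal.map_span, ← Set.range_comp] at h5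
    exact h5
  obtain ⟨y', hy'⟩ := (Ideal.mem_span_range_iff_exists_fun).1 h4
  refine ⟨w, y', hw, ?_⟩
  apply mul_left_cancel₀ ht0
  rw [Finset.mul_sum, mul_one]
  conv_rhs => rw [← hy']
  refine Finset.sum_congr rfl fun i _ => ?_
  rw [hw]
  ring

theorem prin_of_pow {R₁ R₂ : Type} [CommRing R₁] [CommRing R₂]
    [IsDedekindDomain R₁] [IsDedekindDomain R₂] (ι : R₁ →+* R₂) (hinj : Function.Injective ι)
    (m : ℕ) (hm0 : m ≠ 0) (I : ClassGroup R₁ → (Ideal R₁)⁰) (hI : ∀ c, ClassGroup.mk0 (I c) = c)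
    (α : ClassGroup R₁ → R₁) (hα : ∀ c, (I c : Ideal R₁) ^ m = Ideal.span {α c})
    (b : ClassGroup R₁ → R₂) (hb : ∀ c, b c ^ m = ι (α c)) : Prin ι := by
  intro r v hv
  obtain ⟨J, hJ⟩ : ∃ J : Ideal R₁, J = Ideal.span (Set.range v) := ⟨_, rfl⟩
  have hJ0 : J ≠ 0 := by
    intro h0
    apply hv
    funext i
    have h1 : v i ∈ J := by rw [hJ]; exact Ideal.subset_span ⟨i, rfl⟩
    rw [h0] at h1
    exact h1
  obtain ⟨c, hc⟩ : ∃ c, c = ClassGroup.mk0 ⟨J, mem_nonZeroDivisors_of_ne_zero hJ0⟩ := ⟨_, rfl⟩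
  obtain ⟨x, y, hx, hy, hxy⟩ := ClassGroup.mk0_eq_mk0_iff.1 (hc.symm.trans (hI c).symm)
  obtain ⟨t, ht⟩ := map_eq_span_of_class ι hinj hm0 J (I c) x y (α c) hx hxy (hα c) (b c) (hb c)
  rw [hJ] at ht
  obtain ⟨w, y', h1, h2⟩ := unimodular_of_map ι hinj v hv t ht
  exact ⟨t, w, y', h1, h2⟩

/-- Roots of integral elements. -/
theorem exists_root_O {L₁ L₂ : IntermediateField ℚ ℂ} (h : L₁ ≤ L₂) {m : ℕ} (hm : 0 < m)
    (α : 𝓞 L₁) (β : ℂ) (hβ : β ^ m = phiO (algebraMap L₁ ℂ) α) (hβ2 : β ∈ L₂) :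
    ∃ b : 𝓞 L₂, b ^ m = iotaO h α := by
  have hint : IsIntegral ℤ β := by
    refine IsIntegral.of_pow hm ?_
    rw [hβ]
    exact α.isIntegral_coe.map (algebraMap L₁ ℂ).toIntAlgHom
  have hint' : IsIntegral ℤ (⟨β, hβ2⟩ : L₂) := by
    rw [← isIntegral_algebraMap_iff (A := L₂) (B := ℂ) (algebraMap L₂ ℂ).injective]
    exact hint
  obtain ⟨w, hw⟩ : ∃ w : 𝓞 L₂, w = ⟨⟨β, hβ2⟩, hint'⟩ := ⟨_, rfl⟩
  refine ⟨w, ?_⟩
  apply phiO_injective (algebraMap L₂ ℂ)
  rw [map_pow, phiO_iotaO, ← hβ, hw]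
  rfl

theorem iotaO_injective {L₁ L₂ : IntermediateField ℚ ℂ} (h : L₁ ≤ L₂) :
    Function.Injective (iotaO h) := by
  intro x y hxy
  apply phiO_injective (algebraMap L₁ ℂ)
  rw [← phiO_iotaO h, ← phiO_iotaO h, hxy]

/-- A finite extension in which the ideals of the ring of integers become principal. -/
theorem exists_prin_field (L₁ : IntermediateField ℚ ℂ) (hL₁ : FiniteDimensional ℚ L₁) :
    ∃ L₂ : IntermediateField ℚ ℂ, FiniteDimensional ℚ L₂ ∧ ∃ h : L₁ ≤ L₂, Prin (iotaO h) := by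
  classical
  have : NumberField L₁ := { to_charZero := inferInstance, to_finiteDimensional := hL₁ }
  obtain ⟨m, hm⟩ : ∃ m, m = Fintype.card (ClassGroup (𝓞 L₁)) := ⟨_, rfl⟩
  have hm0 : 0 < m := hm ▸ Fintype.card_pos
  choose I hI using (ClassGroup.mk0_surjective : Function.Surjective
    (ClassGroup.mk0 : (Ideal (𝓞 L₁))⁰ → ClassGroup (𝓞 L₁)))
  have hprin : ∀ c, ∃ α : 𝓞 L₁, ((I c : Ideal (𝓞 L₁)) ^ m) = Ideal.span {α} := by
    intro c
    have h1 : ClassGroup.mk0 ((I c) ^ m) = 1 := by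
      rw [map_pow, hI, hm, pow_card_eq_one]
    have h2 : (((I c) ^ m : (Ideal (𝓞 L₁))⁰) : Ideal (𝓞 L₁)).IsPrincipal :=
      (ClassGroup.mk0_eq_one_iff ((I c) ^ m).2).1 h1
    obtain ⟨α, hα⟩ := h2.principal
    refine ⟨α, ?_⟩
    rw [← SubmonoidClass.coe_pow]
    exact hα
  choose α hα using hprin
  have hroot : ∀ c, ∃ β : ℂ, β ^ m = phiO (algebraMap L₁ ℂ) (α c) := fun c =>
    IsAlgClosed.exists_pow_nat_eq _ hm0
  choose β hβ using hroot
  have hβint : ∀ c, IsIntegral ℤ (β c) := by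
    intro c
    refine IsIntegral.of_pow hm0 ?_
    rw [hβ]
    exact (α c).isIntegral_coe.map (algebraMap L₁ ℂ).toIntAlgHom
  have hfd : FiniteDimensional ℚ (IntermediateField.adjoin ℚ (Set.range β)) :=
    IntermediateField.finiteDimensional_adjoin fun x hx => by
      obtain ⟨c, rfl⟩ := hx
      exact (hβint c).tower_top
  obtain ⟨L₂, hL₂⟩ : ∃ L₂, L₂ = L₁ ⊔ IntermediateField.adjoin ℚ (Set.range β) := ⟨_, rfl⟩
  have hle : L₁ ≤ L₂ := hL₂ ▸ le_sup_left
  have hfd2 : FiniteDimensional ℚ L₂ := hL₂ ▸ inferInstance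
  have hβ2 : ∀ c, β c ∈ L₂ := by
    intro c
    rw [hL₂]
    exact (le_sup_right : IntermediateField.adjoin ℚ (Set.range β) ≤ _)
      (IntermediateField.subset_adjoin ℚ _ ⟨c, rfl⟩)
  have : NumberField L₂ := { to_charZero := inferInstance, to_finiteDimensional := hfd2 }
  have hb : ∀ c, ∃ b : 𝓞 L₂, b ^ m = iotaO hle (α c) := fun c =>
    exists_root_O hle hm0 (α c) (β c) (hβ c) (hβ2 c)
  choose b hb using hb
  exact ⟨L₂, hfd2, hle, prin_of_pow (iotaO hle) (iotaO_injective hle) m hm0.ne' I hI α hα b hb⟩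

end Vale.Agent.P002R
end

section

/-!
# Diagonalization over a ring in which ideals become principal; spectral projectors
-/

namespace Vale.Agent.P002R

open Matrix Polynomial

/-- A matrix of unimodular eigenvectors is invertible if the eigenvalues have unit differences. -/
theorem isUnit_det_of_eigen {R : Type} [CommRing R] {r : ℕ} (A P : Mat r R) (ω : Fin r → R)
    (hω : ∀ i j, i ≠ j → IsUnit (ω i - ω j)) (hP : ∀ j, A *ᵥ P.col j = ω j • P.col j)
    (hu : ∀ j, ∃ y : Fin r → R, ∑ i, y i * P i j = 1) : IsUnit P.det := by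
  by_contra hcon
  obtain ⟨m, hm, hmem⟩ := exists_max_ideal_of_mem_nonunits hcon
  let : Field (R ⧸ m) := Ideal.Quotient.field m
  obtain ⟨q, hq⟩ : ∃ q : R →+* R ⧸ m, q = Ideal.Quotient.mk m := ⟨_, rfl⟩
  have hq0 : q P.det = 0 := by rw [hq]; exact Ideal.Quotient.eq_zero_iff_mem.2 hmem
  have hli : LinearIndependent (R ⧸ m) (P.map q).col := by
    refine Module.End.eigenvectors_linearIndependent' (Matrix.mulVecLin (A.map q))
      (fun j => q (ω j)) ?_ _ fun j => ⟨?_, ?_⟩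
    · intro i j hij
      by_contra hne
      have h1 := (hω i j hne).map q
      rw [map_sub, sub_eq_zero.2 hij] at h1
      exact not_isUnit_zero h1
    · rw [Module.End.mem_eigenspace_iff]
      have h1 := congrArg (fun v => q ∘ v) (hP j)
      ext i
      have h2 := congrFun h1 i
      simp only [Function.comp_apply, Matrix.mulVec, dotProduct, Pi.smul_apply, smul_eq_mul,
        map_sum, map_mul, Matrix.col_apply] at h2
      simp only [Matrix.mulVecLin_apply, Matrix.mulVec, dotProduct, Matrix.map_apply,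
        Matrix.col_apply, Pi.smul_apply, smul_eq_mul]
      exact h2
    · intro h0
      obtain ⟨y, hy⟩ := hu j
      have h1 := congrArg q hy
      rw [map_sum, map_one] at h1
      have h2 : ∀ i, q (y i * P i j) = 0 := by
        intro i
        rw [map_mul]
        have h3 := congrFun h0 i
        rw [Matrix.col_apply, Matrix.map_apply, Pi.zero_apply] at h3
        rw [h3, mul_zero]
      rw [Finset.sum_eq_zero fun i _ => h2 i] at h1
      exact zero_ne_one h1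
  have h1 : IsUnit (P.map q) := Matrix.linearIndependent_cols_iff_isUnit.1 hli
  rw [Matrix.isUnit_iff_isUnit_det] at h1
  have h2 : (P.map q).det = q P.det := (RingHom.map_det q P).symm
  rw [h2, hq0] at h1
  exact not_isUnit_zero h1

/-- Diagonalization of integral matrices. -/
theorem exists_diag {R₁ R₂ : Type} [CommRing R₁] [CommRing R₂] [IsDomain R₁] [IsDomain R₂]
    (ι : R₁ →+* R₂) (hι : Function.Injective ι) (hprin : Prin ι) {r : ℕ} (A : Mat r R₁)
    (ω : Fin r → R₁) (hω : ∀ i j, i ≠ j → IsUnit (ω i - ω j))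
    (hA : ∀ i, (A - Matrix.scalar (Fin r) (ω i)).det = 0) :
    ∃ P : Mat r R₂, IsUnit P.det ∧ A.map ι * P = P * diagonal fun i => ι (ω i) := by
  have h1 : ∀ j, ∃ v : Fin r → R₁, v ≠ 0 ∧ (A - Matrix.scalar (Fin r) (ω j)) *ᵥ v = 0 := fun j =>
    Matrix.exists_mulVec_eq_zero_iff.2 (hA j)
  choose v hv hv' using h1
  have h2 : ∀ j, A *ᵥ v j = ω j • v j := by
    intro j
    have h3 := hv' j
    rw [Matrix.sub_mulVec, sub_eq_zero] at h3
    rw [h3]
    ext i
    simp [Matrix.scalar_apply, Matrix.mulVec_diagonal]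
  choose t w y hw hy using fun j => hprin r (v j) (hv j)
  have ht : ∀ j, t j ≠ 0 := by
    intro j h0
    apply hv j
    funext i
    apply hι
    rw [hw, h0, zero_mul, Pi.zero_apply, map_zero]
  obtain ⟨P, hP⟩ : ∃ P : Mat r R₂, ∀ i j, P i j = w j i := ⟨Matrix.of fun i j => w j i, fun _ _ => rfl⟩
  have h3 : ∀ j, (A.map ι) *ᵥ P.col j = ι (ω j) • P.col j := by
    intro j
    ext i
    apply mul_left_cancel₀ (ht j)
    have h4 := congrArg ι (congrFun (h2 j) i)
    simp only [Matrix.mulVec, dotProduct, Pi.smul_apply, smul_eq_mul, map_sum, map_mul, hw] at h4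
    simp only [Matrix.mulVec, dotProduct, Matrix.map_apply, Matrix.col_apply, Pi.smul_apply,
      smul_eq_mul, hP, Finset.mul_sum]
    calc ∑ k, t j * (ι (A i k) * w j k) = ∑ k, ι (A i k) * (t j * w j k) :=
          Finset.sum_congr rfl fun k _ => by ring
      _ = ι (ω j) * (t j * w j i) := h4
      _ = t j * (ι (ω j) * w j i) := by ring
  refine ⟨P, isUnit_det_of_eigen (A.map ι) P (fun j => ι (ω j)) (fun i j hij => ?_) h3
    (fun j => ⟨y j, ?_⟩), ?_⟩
  · rw [← map_sub]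
    exact (hω i j hij).map ι
  · simp only [hP]
    exact hy j
  · ext i j
    rw [Matrix.mul_diagonal]
    have h4 := congrFun (h3 j) i
    rw [Matrix.mul_apply]
    simp only [Matrix.mulVec, dotProduct, Matrix.col_apply, Pi.smul_apply, smul_eq_mul] at h4
    rw [h4, mul_comm]

/-! ### spectral projectors -/

theorem aeval_mul_of_diag {r : ℕ} {M P : Mat r ℂ} {ω : Fin r → ℂ}
    (h : M * P = P * diagonal ω) (q : ℂ[X]) :
    aeval M q * P = P * diagonal fun i => q.eval (ω i) := by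
  induction q using Polynomial.induction_on' with
  | add p q hp hq =>
    rw [map_add, add_mul, hp, hq, ← mul_add, Matrix.diagonal_add]
    simp only [eval_add]
  | monomial n c =>
    have h1 : ∀ n : ℕ, M ^ n * P = P * diagonal fun i => ω i ^ n := by
      intro n
      induction n with
      | zero => simp
      | succ n ih =>
        rw [pow_succ, mul_assoc, h, ← mul_assoc, ih, mul_assoc, Matrix.diagonal_mul_diagonal]
        simp only [pow_succ]
    rw [aeval_monomial, mul_assoc, h1]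
    rw [← Algebra.smul_def, ← Matrix.mul_smul, ← Matrix.diagonal_smul]
    congr 2
    funext i
    simp [eval_monomial]

/-- The spectral projectors. -/
noncomputable def proj {r : ℕ} (ω : Fin r → ℂ) (i : Fin r) (M : Mat r ℂ) : Mat r ℂ :=
  aeval M (Lagrange.basis Finset.univ ω i)

theorem proj_mul {r : ℕ} {M P : Mat r ℂ} {ω : Fin r → ℂ} (hω : Function.Injective ω)
    (h : M * P = P * diagonal ω) (i : Fin r) :
    proj ω i M * P = P * diagonal (Pi.single i 1) := by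
  rw [proj, aeval_mul_of_diag h]
  congr 2
  funext j
  by_cases hij : i = j
  · subst hij
    rw [Pi.single_eq_same]
    exact Lagrange.eval_basis_self hω.injOn (Finset.mem_univ _)
  · rw [Pi.single_eq_of_ne (Ne.symm hij)]
    exact Lagrange.eval_basis_of_ne hij (Finset.mem_univ _)

theorem sum_proj {r : ℕ} {ω : Fin r → ℂ} (hω : Function.Injective ω) (hr : 0 < r) (M : Mat r ℂ) :
    ∑ i, proj ω i M = 1 := by
  unfold proj
  rw [← map_sum, Lagrange.sum_basis hω.injOn ⟨⟨0, hr⟩, Finset.mem_univ _⟩, map_one]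

theorem proj_conj {r : ℕ} (ω : Fin r → ℂ) (i : Fin r) (M U : Mat r ℂ) (hU : IsUnit U.det) :
    proj ω i (U * M * U⁻¹) = U * proj ω i M * U⁻¹ := by
  unfold proj
  have h1 : ∀ q : ℂ[X], aeval (U * M * U⁻¹) q = U * aeval M q * U⁻¹ := by
    intro q
    have h2 : U⁻¹ * U = 1 := Matrix.nonsing_inv_mul U hU
    have h3 : U * U⁻¹ = 1 := Matrix.mul_nonsing_inv U hU
    have h4 : ∀ n : ℕ, (U * M * U⁻¹) ^ n = U * M ^ n * U⁻¹ := by
      intro n
      induction n with
      | zero => rw [pow_zero, pow_zero, mul_one, h3]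
      | succ n ih =>
        rw [pow_succ, ih, pow_succ]
        calc U * M ^ n * U⁻¹ * (U * M * U⁻¹) = U * M ^ n * (U⁻¹ * U) * M * U⁻¹ := by
              simp only [mul_assoc]
          _ = U * (M ^ n * M) * U⁻¹ := by rw [h2, mul_one]; simp only [mul_assoc]
    induction q using Polynomial.induction_on' with
    | add p q hp hq => rw [map_add, map_add, hp, hq, mul_add, add_mul]
    | monomial n c =>
      rw [aeval_monomial, aeval_monomial, h4, ← Algebra.smul_def, ← Algebra.smul_def,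
        Matrix.mul_smul, Matrix.smul_mul]
  exact h1 _

/-- The sum of the spectral components of an intertwiner. -/
theorem sum_proj_mul {r : ℕ} {ω : Fin r → ℂ} (hω : Function.Injective ω) (hr : 0 < r)
    {M P : Mat r ℂ} (hP : IsUnit P.det) (h : M * P = P * diagonal ω) (a : Mat r ℂ)
    (ha : IsUnit a.det) : ∑ i, proj ω i (a * M * a⁻¹) * a * proj ω i M = a := by
  have h1 : ∀ i, proj ω i (a * M * a⁻¹) * a * proj ω i M = a * proj ω i M := by
    intro i
    have h2 : proj ω i M * proj ω i M = proj ω i M := by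
      have h3 := proj_mul hω h i
      have h4 : proj ω i M = P * diagonal (Pi.single i 1) * P⁻¹ := by
        rw [← h3, mul_assoc, Matrix.mul_nonsing_inv P hP, mul_one]
      rw [h4]
      calc P * diagonal (Pi.single i 1) * P⁻¹ * (P * diagonal (Pi.single i 1) * P⁻¹)
          = P * diagonal (Pi.single i 1) * (P⁻¹ * P) * diagonal (Pi.single i 1) * P⁻¹ := by
            simp only [mul_assoc]
        _ = P * (diagonal (Pi.single i 1) * diagonal (Pi.single i 1)) * P⁻¹ := by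
            rw [Matrix.nonsing_inv_mul P hP, mul_one]; simp only [mul_assoc]
        _ = _ := by
            rw [Matrix.diagonal_mul_diagonal]
            congr 3
            funext j
            by_cases hij : j = i
            · subst hij; simp
            · simp [Pi.single_eq_of_ne hij]
    rw [proj_conj ω i M a ha]
    calc a * proj ω i M * a⁻¹ * a * proj ω i M = a * proj ω i M * (a⁻¹ * a) * proj ω i M := by
          simp only [mul_assoc]
      _ = a * (proj ω i M * proj ω i M) := by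
          rw [Matrix.nonsing_inv_mul a ha, mul_one]; simp only [mul_assoc]
      _ = _ := by rw [h2]
  rw [Finset.sum_congr rfl fun i _ => h1 i, ← Finset.mul_sum, sum_proj hω hr, mul_one]

end Vale.Agent.P002R
end

section

/-!
# Invariant subspaces and determinants
-/

namespace Vale.Agent.P002R

open Matrix

/-- `M` preserves `W` and the determinant of the restriction is `δ`. -/
def DetOn {r : ℕ} (W : Submodule ℂ (Fin r → ℂ)) (M : Mat r ℂ) (δ : ℂ) : Prop :=
  ∃ h : ∀ v ∈ W, Matrix.mulVecLin M v ∈ W, LinearMap.det ((Matrix.mulVecLin M).restrict h) = δ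

variable {r : ℕ} {W : Submodule ℂ (Fin r → ℂ)}

theorem DetOn.inv {M : Mat r ℂ} {δ : ℂ} (h : DetOn W M δ) : ∀ v ∈ W, M *ᵥ v ∈ W := by
  obtain ⟨h, _⟩ := h
  exact h

theorem DetOn.unique {M : Mat r ℂ} {δ δ' : ℂ} (h : DetOn W M δ) (h' : DetOn W M δ') : δ = δ' := by
  obtain ⟨h, rfl⟩ := h
  obtain ⟨h', rfl⟩ := h'
  rfl

theorem detOn_one : DetOn W (1 : Mat r ℂ) 1 := by
  have h : ∀ v ∈ W, Matrix.mulVecLin (1 : Mat r ℂ) v ∈ W := by
    intro v hv
    rwa [Matrix.mulVecLin_apply, Matrix.one_mulVec]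
  refine ⟨h, ?_⟩
  have h1 : (Matrix.mulVecLin (1 : Mat r ℂ)).restrict h = LinearMap.id := by
    ext v
    simp [LinearMap.restrict_apply]
  rw [h1, LinearMap.det_id]

theorem DetOn.mul {M N : Mat r ℂ} {δ ε : ℂ} (hM : DetOn W M δ) (hN : DetOn W N ε) :
    DetOn W (M * N) (δ * ε) := by
  obtain ⟨hM, rfl⟩ := hM
  obtain ⟨hN, rfl⟩ := hN
  have h : ∀ v ∈ W, Matrix.mulVecLin (M * N) v ∈ W := by
    intro v hv
    have := hM _ (hN v hv)
    rwa [Matrix.mulVecLin_apply, Matrix.mulVecLin_apply, Matrix.mulVec_mulVec] at this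
  refine ⟨h, ?_⟩
  have h1 : (Matrix.mulVecLin (M * N)).restrict h =
      (Matrix.mulVecLin M).restrict hM ∘ₗ (Matrix.mulVecLin N).restrict hN := by
    ext v
    simp [LinearMap.restrict_apply, Matrix.mulVec_mulVec]
  rw [h1, LinearMap.det_comp]

theorem detOn_prod (E : Subgroup ℂˣ) (l : List (Mat r ℂ))
    (h : ∀ M ∈ l, ∃ e ∈ E, DetOn W M (e : ℂ)) : ∃ e ∈ E, DetOn W l.prod (e : ℂ) := by
  induction l with
  | nil => exact ⟨1, one_mem _, by rw [List.prod_nil, Units.val_one]; exact detOn_one⟩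
  | cons M l ih =>
    obtain ⟨e, he, h1⟩ := h M List.mem_cons_self
    obtain ⟨e', he', h2⟩ := ih fun N hN => h N (List.mem_cons_of_mem _ hN)
    refine ⟨e * e', mul_mem he he', ?_⟩
    rw [List.prod_cons, Units.val_mul]
    exact h1.mul h2

/-- Matrices with eigenvalues in `E`. -/
theorem detOn_of_eigIn {E : Subgroup ℂˣ} {M : Mat r ℂ} (hM : EigIn E M)
    (hW : ∀ v ∈ W, M *ᵥ v ∈ W) : ∃ e ∈ E, DetOn W M (e : ℂ) := by
  have h : ∀ v ∈ W, Matrix.mulVecLin M v ∈ W := hW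
  obtain ⟨f, hf⟩ : ∃ f, f = (Matrix.mulVecLin M).restrict h := ⟨_, rfl⟩
  have h1 : LinearMap.det f = f.charpoly.roots.prod :=
    Module.End.det_eq_prod_roots_charpoly_of_splits (IsAlgClosed.splits _)
  have h2 : ∀ z ∈ f.charpoly.roots, ∃ e ∈ E, (e : ℂ) = z := by
    intro z hz
    apply hM
    have h3 := (Polynomial.mem_roots (LinearMap.charpoly_monic f).ne_zero).1 hz
    obtain ⟨v, hv⟩ := ((Module.End.hasEigenvalue_iff_isRoot_charpoly f z).2 h3).exists_hasEigenvector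
    have h4 : M *ᵥ (v : Fin r → ℂ) = z • (v : Fin r → ℂ) := by
      have h5 := congrArg Subtype.val (Module.End.mem_eigenspace_iff.1 hv.1)
      rw [hf] at h5
      exact h5
    have h6 : (Matrix.mulVecLin M).charpoly = M.charpoly := Matrix.charpoly_mulVecLin M
    rw [← h6, ← Module.End.hasEigenvalue_iff_isRoot_charpoly]
    refine Module.End.hasEigenvalue_of_hasEigenvector (x := (v : Fin r → ℂ)) ⟨?_, ?_⟩
    · rw [Module.End.mem_eigenspace_iff]
      exact h4
    · intro h0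
      exact hv.2 (Subtype.ext h0)
  have h3 : ∀ s : Multiset ℂ, (∀ z ∈ s, ∃ e ∈ E, (e : ℂ) = z) → ∃ e ∈ E, (e : ℂ) = s.prod := by
    intro s
    induction s using Multiset.induction_on with
    | empty => exact fun _ => ⟨1, one_mem _, by simp⟩
    | cons z s ih =>
      intro hs
      obtain ⟨e, he, h1⟩ := hs z (Multiset.mem_cons_self _ _)
      obtain ⟨e', he', h2⟩ := ih fun w hw => hs w (Multiset.mem_cons_of_mem hw)
      exact ⟨e * e', mul_mem he he', by rw [Units.val_mul, h1, h2, Multiset.prod_cons]⟩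
  obtain ⟨e, he, h4⟩ := h3 _ h2
  exact ⟨e, he, h, by rw [h4, ← hf, h1]⟩

/-- Invariant subspaces of matrices with distinct eigenvalues. -/
theorem mem_of_coeff {M P : Mat r ℂ} {ω : Fin r → ℂ} (hω : Function.Injective ω)
    (hP : IsUnit P.det) (h : M * P = P * diagonal ω) (hW : ∀ v ∈ W, M *ᵥ v ∈ W)
    (v : Fin r → ℂ) (hv : v ∈ W) (i : Fin r) (hi : (P⁻¹ *ᵥ v) i ≠ 0) : P.col i ∈ W := by
  have h1 : ∀ q : Polynomial ℂ, Polynomial.aeval M q *ᵥ v ∈ W := by
    intro q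
    induction q using Polynomial.induction_on' with
    | add p q hp hq =>
      rw [map_add, Matrix.add_mulVec]
      exact W.add_mem hp hq
    | monomial n c =>
      rw [Polynomial.aeval_monomial, ← Algebra.smul_def, Matrix.smul_mulVec]
      refine W.smul_mem _ ?_
      induction n with
      | zero => rwa [pow_zero, Matrix.one_mulVec]
      | succ n ih =>
        rw [pow_succ', ← Matrix.mulVec_mulVec]
        exact hW _ ih
  have h2 : proj ω i M *ᵥ v = (P⁻¹ *ᵥ v) i • P.col i := by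
    have h3 := proj_mul hω h i
    have h4 : proj ω i M = P * diagonal (Pi.single i 1) * P⁻¹ := by
      rw [← h3, mul_assoc, Matrix.mul_nonsing_inv P hP, mul_one]
    rw [h4, ← Matrix.mulVec_mulVec, ← Matrix.mulVec_mulVec]
    ext k
    rw [Matrix.mulVec, dotProduct, Finset.sum_eq_single i]
    · rw [Matrix.mulVec_diagonal, Pi.single_eq_same, one_mul, Pi.smul_apply, smul_eq_mul,
        Matrix.col_apply, mul_comm]
    · intro j _ hj
      rw [Matrix.mulVec_diagonal, Pi.single_eq_of_ne hj, zero_mul, mul_zero]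
    · intro hi
      exact absurd (Finset.mem_univ _) hi
  have h3 : proj ω i M *ᵥ v ∈ W := h1 _
  rw [h2] at h3
  have h4 := W.smul_mem ((P⁻¹ *ᵥ v) i)⁻¹ h3
  rwa [smul_smul, inv_mul_cancel₀ hi, one_smul] at h4

theorem detOn_diag {M P : Mat r ℂ} {ω : Fin r → ℂ} (hω : Function.Injective ω)
    (hP : IsUnit P.det) (h : M * P = P * diagonal ω) (hW : ∀ v ∈ W, M *ᵥ v ∈ W)
    (I : Finset (Fin r)) (hI : ∀ i, i ∈ I ↔ P.col i ∈ W) : DetOn W M (∏ i ∈ I, ω i) := by
  classical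
  have hW' : ∀ v ∈ W, Matrix.mulVecLin M v ∈ W := hW
  refine ⟨hW', ?_⟩
  have hcol : ∀ i, M *ᵥ P.col i = ω i • P.col i := by
    intro i
    ext k
    have h1 := congrFun (congrFun h k) i
    rw [Matrix.mul_diagonal, Matrix.mul_apply] at h1
    rw [Matrix.mulVec, dotProduct, Pi.smul_apply, smul_eq_mul, Matrix.col_apply, mul_comm, ← h1]
    rfl
  obtain ⟨u, hu⟩ : ∃ u : I → W, ∀ i, (u i : Fin r → ℂ) = P.col i :=
    ⟨fun i => ⟨P.col i, (hI i).1 i.2⟩, fun _ => rfl⟩
  have hli : LinearIndependent ℂ u := by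
    have h1 : LinearIndependent ℂ P.col :=
      Matrix.linearIndependent_cols_iff_isUnit.2 ((Matrix.isUnit_iff_isUnit_det _).2 hP)
    refine LinearIndependent.of_comp W.subtype ?_
    have h2 : (W.subtype ∘ u) = fun i : I => P.col i := by
      funext i
      exact hu i
    rw [h2]
    exact h1.comp _ Subtype.val_injective
  have hspan : ⊤ ≤ Submodule.span ℂ (Set.range u) := by
    rintro ⟨v, hv⟩ -
    have h1 : v = ∑ i, (P⁻¹ *ᵥ v) i • P.col i := by
      have h2 : v = P *ᵥ (P⁻¹ *ᵥ v) := by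
        rw [Matrix.mulVec_mulVec, Matrix.mul_nonsing_inv P hP, Matrix.one_mulVec]
      conv_lhs => rw [h2]
      ext k
      rw [Matrix.mulVec, dotProduct, Finset.sum_apply]
      refine Finset.sum_congr rfl fun i _ => ?_
      rw [Pi.smul_apply, smul_eq_mul, Matrix.col_apply, mul_comm]
    have h3 : (⟨v, hv⟩ : W) = ∑ i : I, (P⁻¹ *ᵥ v) i • u i := by
      apply Subtype.ext
      rw [AddSubmonoidClass.coe_finsetSum]
      simp only [Submodule.coe_smul, hu]
      conv_lhs => rw [h1]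
      rw [Finset.sum_coe_sort I (fun i => (P⁻¹ *ᵥ v) i • P.col i)]
      symm
      refine Finset.sum_subset (Finset.subset_univ _) fun i _ hi => ?_
      have h4 : (P⁻¹ *ᵥ v) i = 0 := by
        by_contra hne
        exact hi ((hI i).2 (mem_of_coeff hω hP h hW v hv i hne))
      rw [h4, zero_smul]
    rw [h3]
    exact Submodule.sum_mem _ fun i _ => Submodule.smul_mem _ _ (Submodule.subset_span ⟨i, rfl⟩)
  obtain ⟨b, hb⟩ : ∃ b : Module.Basis I ℂ W, ∀ i, b i = u i :=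
    ⟨Module.Basis.mk hli hspan, fun i => Module.Basis.mk_apply hli hspan i⟩
  rw [← LinearMap.det_toMatrix b]
  have h5 : LinearMap.toMatrix b b ((Matrix.mulVecLin M).restrict hW') =
      diagonal fun i : I => ω i := by
    ext i j
    rw [LinearMap.toMatrix_apply]
    have h6 : ((Matrix.mulVecLin M).restrict hW') (b j) = ω j • b j := by
      apply Subtype.ext
      rw [LinearMap.restrict_apply, hb]
      change M *ᵥ (u j : Fin r → ℂ) = ω j • (u j : Fin r → ℂ)
      rw [hu]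
      exact hcol j
    rw [h6, map_smul, Finsupp.smul_apply, b.repr_self, smul_eq_mul]
    by_cases hij : i = j
    · subst hij
      rw [Finsupp.single_eq_same, mul_one, Matrix.diagonal_apply_eq]
    · rw [Finsupp.single_eq_of_ne hij, mul_zero, Matrix.diagonal_apply_ne _ hij]
  rw [h5, Matrix.det_diagonal, Finset.prod_coe_sort I (fun i => ω i)]

/-- A subspace which is invariant under `b`, the `c`s and `a b a⁻¹` is invariant under `a`. -/
theorem inv_of_inv {E : Subgroup ℂˣ} {a b P : Mat r ℂ} (ha : IsUnit a.det) (l : List (Mat r ℂ))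
    (hrel : l.prod * (a * b * a⁻¹) = b) (hl : ∀ M ∈ l, EigIn E M) {ω : Fin r → ℂ}
    (hω : Function.Injective ω) (hP : IsUnit P.det) (hb : b * P = P * diagonal ω)
    (hno : ∀ (I J : Finset (Fin r)), (∃ ε ∈ E, ∏ i ∈ I, ω i = (ε : ℂ) * ∏ j ∈ J, ω j) → I = J)
    (hWb : ∀ v ∈ W, b *ᵥ v ∈ W) (hWl : ∀ M ∈ l, ∀ v ∈ W, M *ᵥ v ∈ W)
    (hWd : ∀ v ∈ W, (a * b * a⁻¹) *ᵥ v ∈ W) : ∀ v ∈ W, a *ᵥ v ∈ W := by
  classical
  obtain ⟨I, hI⟩ : ∃ I : Finset (Fin r), ∀ i, i ∈ I ↔ P.col i ∈ W :=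
    ⟨Finset.univ.filter fun i => P.col i ∈ W, fun i => by simp⟩
  obtain ⟨J, hJ⟩ : ∃ J : Finset (Fin r), ∀ i, i ∈ J ↔ (a * P).col i ∈ W :=
    ⟨Finset.univ.filter fun i => (a * P).col i ∈ W, fun i => by simp⟩
  have haP : IsUnit (a * P).det := by rw [Matrix.det_mul]; exact ha.mul hP
  have hd : (a * b * a⁻¹) * (a * P) = (a * P) * diagonal ω := by
    calc (a * b * a⁻¹) * (a * P) = a * b * (a⁻¹ * a) * P := by simp only [mul_assoc]
      _ = a * (b * P) := by rw [Matrix.nonsing_inv_mul a ha, mul_one, mul_assoc]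
      _ = _ := by rw [hb, mul_assoc]
  have h1 := detOn_diag hω hP hb hWb I hI
  have h2 := detOn_diag hω haP hd hWd J hJ
  obtain ⟨ε, hε, h3⟩ := detOn_prod E l fun M hM => detOn_of_eigIn (hl M hM) (hWl M hM)
  have h4 := h3.mul h2
  rw [hrel] at h4
  have h5 : I = J := hno I J ⟨ε, hε, h1.unique h4⟩
  intro v hv
  have h6 : a *ᵥ v = ∑ i, (P⁻¹ *ᵥ v) i • (a * P).col i := by
    have h2 : v = P *ᵥ (P⁻¹ *ᵥ v) := by
      rw [Matrix.mulVec_mulVec, Matrix.mul_nonsing_inv P hP, Matrix.one_mulVec]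
    conv_lhs => rw [h2]
    rw [Matrix.mulVec_mulVec]
    ext k
    rw [Matrix.mulVec, dotProduct, Finset.sum_apply]
    refine Finset.sum_congr rfl fun i _ => ?_
    rw [Pi.smul_apply, smul_eq_mul, Matrix.col_apply, mul_comm]
  rw [h6]
  refine Submodule.sum_mem _ fun i _ => ?_
  by_cases h7 : (P⁻¹ *ᵥ v) i = 0
  · rw [h7, zero_smul]
    exact W.zero_mem
  · refine W.smul_mem _ ((hJ i).1 ?_)
    rw [← h5]
    exact (hI i).2 (mem_of_coeff hω hP hb hWb v hv i h7)

end Vale.Agent.P002R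
end

section

/-!
# P002, genus 1: density of the integral points in the space of parameters of the chart
-/

namespace Vale.Agent.P002R

open Matrix

/-- Total density with units in `V` and congruences. -/
def TotV {r : ℕ} {R : Type*} [CommRing R] (φ : R →+* ℂ) (V : Subgroup Rˣ) (J : Mat r ℂ) : Prop :=
  ∀ D : R, D ≠ 0 → ∀ F : MvPolynomial (Fin r × Fin r) ℂ,
    (∀ X : Mat r R, (∀ i, ∃ w ∈ V, (w : R) = X i i) → (∀ i j, j < i → D ∣ X i j) →
      CjM J (zZ (X.map φ)) → MvPolynomial.eval (fun p => φ (X p.1 p.2)) F = 0) →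
    ∀ X : Mat r ℂ, (∀ i, X i i ≠ 0) → CjM J (zZ X) → MvPolynomial.eval (fun p => X p.1 p.2) F = 0

/-- Fibrewise density with units in `V` and congruences. -/
def FibV {R : Type*} [CommRing R] (φ : R →+* ℂ) (V : Subgroup Rˣ) (n : ℕ) : Prop :=
  ∀ D : R, D ≠ 0 → ∀ (q : Fin (n + 1) → Rˣ) (χ : Polynomial R), χ.Monic → χ.natDegree = n + 1 →
  ∀ F : MvPolynomial (Fin (n + 1) × Fin (n + 1)) ℂ,
    (∀ X : Mat (n + 1) R, (∀ i, X i i = q i) → P002G.Bi D X → (zZ X).charpoly = χ →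
      (∃ w ∈ V, (w : R) = (P002.kry (zZ X) (P002G.e0 n R)).det) →
      MvPolynomial.eval (fun p => φ (X p.1 p.2)) F = 0) →
    ∀ X : Mat (n + 1) ℂ, (∀ i, X i i = φ (q i)) → (zZ X).charpoly = χ.map φ →
      P002G.Cyc (zZ X) (P002G.e0 n ℂ) → MvPolynomial.eval (fun p => X p.1 p.2) F = 0

/-- The integral cyclic vectors are dense, for triangular matrices with diagonal `ν` which are
congruent to bidiagonal ones modulo `D`. -/
def GoodD {R : Type*} [CommRing R] (φ : R →+* ℂ) (V : Subgroup Rˣ) {r : ℕ} (ν : Fin r → Rˣ)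
    (D : R) : Prop :=
  ∀ A : Mat r R, LoT A →
    (∀ i, A i i = ν i) → (∀ i j : Fin r, (j : ℕ) + 1 < i → D ∣ A i j) →
    (∀ i j : Fin r, (i : ℕ) = j + 1 → ∃ s ∈ V, D ∣ A i j - (s : R)) →
    ∀ G : MvPolynomial (Fin r) ℂ,
      (∀ y : Fin r → R, (∃ w ∈ V, (w : R) = (P002.kry A y).det) →
        MvPolynomial.eval (fun i => φ (y i)) G = 0) →
      ∀ y : Fin r → ℂ, MvPolynomial.eval y G = 0

/-- Density of the cyclic vectors of triangular matrices. -/
def VecV {R : Type*} [CommRing R] (φ : R →+* ℂ) (V : Subgroup Rˣ) (r : ℕ) : Prop :=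
  ∀ ν : Fin r → Rˣ, Function.Injective ν → (∀ i, ν i ∈ V) → ∃ D : R, D ≠ 0 ∧ GoodD φ V ν D

section congr

variable {R : Type*} [CommRing R] {r : ℕ}

theorem Lc_congr_diag {D : R} {Y : ℕ → Mat r R} {k : ℕ}
    (h : ∀ l < k, ∀ i j, j < i → D ∣ Y l i j) : ∀ i j, j < i → D ∣ Lc Y k i j := by
  induction k with
  | zero =>
    intro i j hij
    rw [Lc_zero, Matrix.one_apply_ne hij.ne']
    exact dvd_zero D
  | succ k ih =>
    intro i j hij
    rw [Lc_succ, Matrix.mul_apply]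
    refine Finset.dvd_sum fun a _ => ?_
    rcases lt_trichotomy a j with ha | ha | ha
    · rw [loT_Lc Y k a j ha, mul_zero]
      exact dvd_zero D
    · subst ha
      apply Dvd.dvd.mul_right
      rw [lL_apply, if_pos hij.le]
      exact h k (Nat.lt_succ_self k) i a hij
    · exact Dvd.dvd.mul_left (ih (fun l hl => h l (hl.trans (Nat.lt_succ_self k))) a j ha) _

/-- The product of a matrix which is congruent to a bidiagonal one and a matrix which is congruent
to a diagonal one. -/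
theorem bidiag_mul {D : R} {X P : Mat r R} (hX : P002G.Bi D X) (hP : LoT P)
    (hPD : ∀ i j, j < i → D ∣ P i j) :
    (∀ i j : Fin r, (j : ℕ) + 1 < i → D ∣ (lL X * P) i j) ∧
    (∀ i j : Fin r, (i : ℕ) = j + 1 → D ∣ (lL X * P) i j - P j j) := by
  have key : ∀ i j : Fin r, j < i → D ∣ (lL X * P) i j - X i j * P j j := by
    intro i j hij
    rw [Matrix.mul_apply, ← Finset.add_sum_erase _ _ (Finset.mem_univ j), lL_apply,
      if_pos hij.le, add_sub_cancel_left]
    refine Finset.dvd_sum fun a ha => ?_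
    rw [Finset.mem_erase] at ha
    rcases lt_or_gt_of_ne ha.1 with h | h
    · rw [hP a j h, mul_zero]
      exact dvd_zero D
    · exact Dvd.dvd.mul_left (hPD a j h) _
  constructor
  · intro i j hij
    have hij' : j < i := by
      rw [Fin.lt_def]
      omega
    have h1 := hX i j hij'
    rw [if_neg (by omega), sub_zero] at h1
    have h2 := dvd_add (key i j hij') (Dvd.dvd.mul_right h1 (P j j))
    rwa [sub_add_cancel] at h2
  · intro i j hij
    have hij' : j < i := by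
      rw [Fin.lt_def]
      omega
    have h1 := hX i j hij'
    rw [if_pos hij] at h1
    have h2 := dvd_add (key i j hij') (Dvd.dvd.mul_right h1 (P j j))
    have h3 : (lL X * P) i j - X i j * P j j + (X i j - 1) * P j j = (lL X * P) i j - P j j := by
      ring
    rwa [h3] at h2

end congr

theorem unit_aux {G : Type*} [CommGroup G] (a b c : G) : b * (a * (b * c)⁻¹ * c) = a := by
  rw [mul_left_comm, inv_mul_cancel_right]

section coreOne

variable {R : Type*} [CommRing R]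

/-- Partial evaluation: polynomials with values at three blocks of variables. -/
theorem extY_snoc_lt {r m : ℕ} {S : Type*} [CommRing S] (Y : Fin m → Mat r S) (X : Mat r S)
    (k : ℕ) (hk : k < m) : extY (Fin.snoc (α := fun _ => Mat r S) Y X) k = extY Y k := by
  rw [extY_of _ k (by omega), extY_of _ k hk]
  have h1 : (⟨k, by omega⟩ : Fin (m + 1)) = Fin.castSucc ⟨k, hk⟩ := rfl
  rw [h1, Fin.snoc_castSucc]

theorem extY_snoc_last {r m : ℕ} {S : Type*} [CommRing S] (Y : Fin m → Mat r S) (X : Mat r S) :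
    extY (Fin.snoc (α := fun _ => Mat r S) Y X) m = X := by
  rw [extY_of _ m (Nat.lt_succ_self m)]
  have h1 : (⟨m, Nat.lt_succ_self m⟩ : Fin (m + 1)) = Fin.last m := rfl
  rw [h1, Fin.snoc_last]

theorem Lc_snoc {r m : ℕ} {S : Type*} [CommRing S] (Y : Fin m → Mat r S) (X : Mat r S) :
    Lc (extY (Fin.snoc (α := fun _ => Mat r S) Y X)) (m + 1) = lL X * Lc (extY Y) m := by
  rw [Lc_succ, extY_snoc_last]
  congr 1
  exact Lc_congr fun l hl => extY_snoc_lt Y X l hl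

/-- The hypothesis on the integral points. -/
def TestOne (φ : R →+* ℂ) (V : Subgroup Rˣ) {n m : ℕ} (J : Fin m → Mat (n + 1) ℂ)
    (ξ : Fin (n + 1) → Rˣ)
    (F : MvPolynomial ((Fin (m + 1) × Fin (n + 1) × Fin (n + 1)) ⊕ Fin (n + 1)) ℂ) : Prop :=
  ∀ (Y : Fin (m + 1) → Mat (n + 1) R) (y : Fin (n + 1) → R),
    (∀ k i, ∃ w ∈ V, (w : R) = Y k i i) →
    (∀ k : Fin m, CjM (J k) (zZ ((Y k.castSucc).map φ))) →
    (zZ (Y (Fin.last m))).charpoly =
      ∏ i, (Polynomial.X - Polynomial.C ((ξ i : R) * ∏ l, Y l i i)) →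
    (∃ w ∈ V, (w : R) = (P002.kry (zZ (Y (Fin.last m))) (P002G.e0 n R)).det) →
    (∃ w ∈ V, (w : R) = (P002.kry (diagonal (fun i => (ξ i : R)) * Lc (extY Y) (m + 1)) y).det) →
    MvPolynomial.aeval (Sum.elim (fun p => φ (Y p.1 p.2.1 p.2.2)) fun i => φ (y i)) F = (0 : ℂ)

theorem core1_A (φ : R →+* ℂ) (V : Subgroup Rˣ) {n m : ℕ} (hB : FibV φ V n)
    (J : Fin m → Mat (n + 1) ℂ) (ξ : Fin (n + 1) → Rˣ) (hξ : ∀ i, ξ i ∈ V)
    (F : MvPolynomial ((Fin (m + 1) × Fin (n + 1) × Fin (n + 1)) ⊕ Fin (n + 1)) ℂ)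
    (hF : TestOne φ V J ξ F) (ν : Fin (n + 1) → Rˣ) (hνV : ∀ i, ν i ∈ V) (D : R) (hD0 : D ≠ 0)
    (hD : GoodD φ V ν D)
    (Yi : Fin m → Mat (n + 1) R) (hYi : ∀ k i, ∃ w ∈ V, (w : R) = Yi k i i)
    (hYD : ∀ k i j, j < i → D ∣ Yi k i j)
    (hYJ : ∀ k : Fin m, CjM (J k) (zZ ((Yi k).map φ)))
    (X : Mat (n + 1) ℂ) (hX1 : ∀ i, φ (ξ i) * (∏ l, φ (Yi l i i)) * X i i = φ (ν i))
    (hX2 : (zZ X).charpoly = ∏ i, (Polynomial.X - Polynomial.C (φ (ν i))))
    (hX3 : P002G.Cyc (zZ X) (P002G.e0 n ℂ)) (y : Fin (n + 1) → ℂ) :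
    MvPolynomial.aeval (Sum.elim (fun p => (Fin.snoc (α := fun _ => Mat (n + 1) ℂ)
      (fun k => (Yi k).map φ) X : Fin (m + 1) → Mat (n + 1) ℂ) p.1 p.2.1 p.2.2) y) F = (0 : ℂ) := by
  have hw : ∀ i, ∃ w ∈ V, (w : R) = ∏ l, Yi l i i := by
    intro i
    choose w hw1 hw2 using fun l => hYi l i
    refine ⟨∏ l, w l, V.prod_mem fun l _ => hw1 l, ?_⟩
    rw [Units.coe_prod]
    exact Finset.prod_congr rfl fun l _ => hw2 l
  choose w hwV hw using hw
  obtain ⟨χ, hχ⟩ : ∃ χ : Polynomial R, χ = ∏ i, (Polynomial.X - Polynomial.C (ν i : R)) := ⟨_, rfl⟩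
  have hχ1 : χ.Monic := by
    rw [hχ]
    exact Polynomial.monic_prod_of_monic _ _ fun i _ => Polynomial.monic_X_sub_C _
  have hχ2 : χ.natDegree = n + 1 := by
    rcases subsingleton_or_nontrivial R with h | h
    · exact absurd (Subsingleton.elim D 0) hD0
    rw [hχ, Polynomial.natDegree_prod_of_monic _ _ fun i _ => Polynomial.monic_X_sub_C _]
    simp
  have hχ3 : χ.map φ = ∏ i, (Polynomial.X - Polynomial.C (φ (ν i))) := by
    rw [hχ, Polynomial.map_prod]
    exact Finset.prod_congr rfl fun i _ => by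
      rw [Polynomial.map_sub, Polynomial.map_X, Polynomial.map_C]
  -- polynomial in the last matrix, with fixed `y`
  obtain ⟨G, hG⟩ : ∃ G : MvPolynomial (Fin (n + 1) × Fin (n + 1)) ℂ, ∀ Z : Mat (n + 1) ℂ,
      MvPolynomial.eval (fun p => Z p.1 p.2) G =
      MvPolynomial.aeval (Sum.elim (fun p => (Fin.snoc (α := fun _ => Mat (n + 1) ℂ)
        (fun k => (Yi k).map φ) Z : Fin (m + 1) → Mat (n + 1) ℂ) p.1 p.2.1 p.2.2) y) F := by
    obtain ⟨Zg, hZg⟩ : ∃ Zg : Mat (n + 1) (MvPolynomial (Fin (n + 1) × Fin (n + 1)) ℂ),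
      Zg = Matrix.of fun i j => MvPolynomial.X (i, j) := ⟨_, rfl⟩
    refine ⟨MvPolynomial.aeval (Sum.elim (fun p => (Fin.snoc (α := fun _ => Mat (n + 1)
      (MvPolynomial (Fin (n + 1) × Fin (n + 1)) ℂ))
      (fun k => ((Yi k).map φ).map MvPolynomial.C) Zg : Fin (m + 1) → _) p.1 p.2.1 p.2.2)
        fun i => MvPolynomial.C (y i)) F, fun Z => ?_⟩
    rw [← MvPolynomial.coe_aeval_eq_eval]
    change (MvPolynomial.aeval (fun p : Fin (n + 1) × Fin (n + 1) => Z p.1 p.2))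
      ((MvPolynomial.aeval _) F) = _
    rw [← AlgHom.comp_apply, MvPolynomial.comp_aeval]
    congr 2
    funext p
    rcases p with p | i
    · obtain ⟨k, i, j⟩ := p
      refine Fin.lastCases ?_ (fun k => ?_) k
      · simp only [Sum.elim_inl, Fin.snoc_last]
        rw [hZg, Matrix.of_apply, MvPolynomial.aeval_X]
      · simp only [Sum.elim_inl, Fin.snoc_castSucc]
        rw [Matrix.map_apply, Matrix.map_apply]
        simp
    · simp
  -- polynomial in `y`, with fixed integral matrices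
  have hG2 : ∀ X' : Mat (n + 1) R, ∃ G' : MvPolynomial (Fin (n + 1)) ℂ, ∀ z : Fin (n + 1) → ℂ,
      MvPolynomial.eval z G' =
      MvPolynomial.aeval (Sum.elim (fun p => (Fin.snoc (α := fun _ => Mat (n + 1) ℂ)
        (fun k => (Yi k).map φ) (X'.map φ) : Fin (m + 1) → Mat (n + 1) ℂ) p.1 p.2.1 p.2.2) z) F := by
    intro X'
    refine ⟨MvPolynomial.aeval (Sum.elim (fun p => MvPolynomial.C
      ((Fin.snoc (α := fun _ => Mat (n + 1) ℂ)
        (fun k => (Yi k).map φ) (X'.map φ) : Fin (m + 1) → _) p.1 p.2.1 p.2.2))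
        fun i => MvPolynomial.X i) F, fun z => ?_⟩
    rw [← MvPolynomial.coe_aeval_eq_eval]
    change (MvPolynomial.aeval z) ((MvPolynomial.aeval _) F) = _
    rw [← AlgHom.comp_apply, MvPolynomial.comp_aeval]
    congr 2
    funext p
    rcases p with p | i
    · simp
    · simp
  rw [← hG]
  refine hB D hD0 (fun i => ν i * (ξ i * w i)⁻¹) χ hχ1 hχ2 G
    (fun X' hX1' hXB' hX2' hX3' => ?_) X (fun i => ?_) (by rw [hχ3, hX2]) hX3
  · obtain ⟨G', hG'⟩ := hG2 X'
    have h1 := hG (X'.map φ)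
    simp only [Matrix.map_apply] at h1
    rw [h1, ← hG']
    -- the triangular matrix
    have hPD : ∀ i j, j < i → D ∣ Lc (extY Yi) m i j := Lc_congr_diag fun l hl i j hij => by
      rw [extY_of _ l hl]
      exact hYD ⟨l, hl⟩ i j hij
    have hPd : ∀ i, Lc (extY Yi) m i i = w i := by
      intro i
      rw [Lc_diag, hw, ← Fin.prod_univ_eq_prod_range (fun l => extY Yi l i i)]
      exact Finset.prod_congr rfl fun l _ => by rw [extY_of _ _ l.2]
    have hlo : LoT (lL X' * Lc (extY Yi) m) := (loT_lL X').mul (loT_Lc _ m)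
    obtain ⟨hb1, hb2⟩ := bidiag_mul hXB' (loT_Lc (extY Yi) m) hPD
    have hAij : ∀ i j, (diagonal (fun i => (ξ i : R)) * (lL X' * Lc (extY Yi) m)) i j =
        (ξ i : R) * (lL X' * Lc (extY Yi) m) i j := fun i j => Matrix.diagonal_mul _ _ _ _
    refine hD (diagonal (fun i => (ξ i : R)) * (lL X' * Lc (extY Yi) m))
      ((loT_diagonal _).mul hlo) (fun i => ?_) (fun i j hij => ?_) (fun i j hij => ?_) G'
      (fun z hz => ?_) y
    · rw [hAij, (loT_lL X').mul_diag (loT_Lc _ m), lL_diag, hPd, hX1', ← Units.val_mul,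
        ← Units.val_mul, unit_aux]
    · rw [hAij]
      exact Dvd.dvd.mul_left (hb1 i j hij) _
    · refine ⟨ξ i * w j, V.mul_mem (hξ i) (hwV j), ?_⟩
      rw [hAij, Units.val_mul, ← hPd, ← mul_sub]
      exact Dvd.dvd.mul_left (hb2 i j hij) _
    · have h2 := hF (Fin.snoc (α := fun _ => Mat (n + 1) R) Yi X') z (fun k i => by
        refine Fin.lastCases ?_ (fun k => ?_) k
        · rw [Fin.snoc_last]
          exact ⟨ν i * (ξ i * w i)⁻¹, V.mul_mem (hνV i) (V.inv_mem (V.mul_mem (hξ i) (hwV i))),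
            (hX1' i).symm⟩
        · rw [Fin.snoc_castSucc]
          exact hYi k i) (fun k => by
          rw [Fin.snoc_castSucc]
          exact hYJ k) (by
          rw [Fin.snoc_last, hX2', hχ]
          refine Finset.prod_congr rfl fun i _ => ?_
          congr 2
          rw [Fin.prod_univ_castSucc]
          simp only [Fin.snoc_last, Fin.snoc_castSucc]
          rw [hX1', ← hw i, mul_comm ((w i : Rˣ) : R), ← Units.val_mul, ← Units.val_mul,
            unit_aux]) (by rw [Fin.snoc_last]; exact hX3') (by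
          rw [Lc_snoc]
          exact hz)
      rw [hG', ← h2]
      congr 2
      funext p
      rcases p with p | i
      · obtain ⟨k, i, j⟩ := p
        simp only [Sum.elim_inl]
        refine Fin.lastCases ?_ (fun k => ?_) k
        · simp only [Fin.snoc_last]
          rfl
        · simp only [Fin.snoc_castSucc]
          rfl
      · rfl
  · have h3 := hX1 i
    have h4 : (∏ l, φ (Yi l i i)) = φ (w i) := by rw [hw, map_prod]
    rw [h4, ← map_mul, ← Units.val_mul] at h3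
    have h5 : φ ((ξ i * w i)⁻¹ : Rˣ) * φ (ξ i * w i : Rˣ) = 1 := by
      rw [← map_mul, Units.inv_mul, map_one]
    rw [Units.val_mul, map_mul, ← h3, mul_comm (φ (ξ i * w i : Rˣ)), mul_assoc,
      mul_comm (φ (ξ i * w i : Rˣ)), h5, mul_one]

/-- Density of the parameters. -/
theorem core1_dense (φ : R →+* ℂ) (V : Subgroup Rˣ)
    (hVinf : {z : ℂ | ∃ w ∈ V, φ (w : R) = z}.Infinite) {n m : ℕ} (hy : VecV φ V (n + 1))
    (J : Fin m → Mat (n + 1) ℂ) (hT : ∀ k, TotV φ V (J k))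
    (Y : Fin m → Mat (n + 1) ℂ) (hY0 : ∀ k i, Y k i i ≠ 0) (hY1 : ∀ k, CjM (J k) (zZ (Y k)))
    (z : Fin (n + 1) → ℂ)
    (P : MvPolynomial ((Fin m × (Fin (n + 1) × Fin (n + 1))) ⊕ Fin (n + 1)) ℂ)
    (hP : ∀ (Yi : Fin m → Mat (n + 1) R) (ν : Fin (n + 1) → Rˣ) (D : R), D ≠ 0 → GoodD φ V ν D →
      (∀ i, ν i ∈ V) → (∀ k i, ∃ w ∈ V, (w : R) = Yi k i i) →
      (∀ k i j, j < i → D ∣ Yi k i j) → (∀ k, CjM (J k) (zZ ((Yi k).map φ))) →
      MvPolynomial.eval (Sum.elim (fun p => φ (Yi p.1 p.2.1 p.2.2)) fun i => φ (ν i)) P = 0) :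
    MvPolynomial.eval (Sum.elim (fun p => Y p.1 p.2.1 p.2.2) z) P = 0 := by
  -- fixed eigenvalues
  have h1 : ∀ ν : Fin (n + 1) → Rˣ, Function.Injective ν → (∀ i, ν i ∈ V) →
      MvPolynomial.eval (Sum.elim (fun p => Y p.1 p.2.1 p.2.2) fun i => φ (ν i)) P = 0 := by
    intro ν hν hνV
    obtain ⟨D, hD0, hD⟩ := hy ν hν hνV
    obtain ⟨P', hP'⟩ : ∃ P' : MvPolynomial (Fin m × (Fin (n + 1) × Fin (n + 1))) ℂ, ∀ v,
        MvPolynomial.eval v P' = MvPolynomial.eval (Sum.elim v fun i => φ (ν i)) P := by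
      refine ⟨MvPolynomial.aeval (Sum.elim (fun p => MvPolynomial.X p)
        fun i => MvPolynomial.C (φ (ν i))) P, fun v => ?_⟩
      rw [← MvPolynomial.coe_aeval_eq_eval, ← MvPolynomial.coe_aeval_eq_eval]
      change (MvPolynomial.aeval v) ((MvPolynomial.aeval _) P) = (MvPolynomial.aeval _) P
      rw [← AlgHom.comp_apply, MvPolynomial.comp_aeval]
      congr 2
      funext p
      rcases p with p | i
      · simp
      · simp
    rw [← hP']
    exact dense_pi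
      (fun k => {v | ∃ X : Mat (n + 1) R, (∀ i, ∃ w ∈ V, (w : R) = X i i) ∧
        (∀ i j, j < i → D ∣ X i j) ∧ CjM (J k) (zZ (X.map φ)) ∧ v = fun p => φ (X p.1 p.2)})
      (fun k => {v | ∃ X : Mat (n + 1) ℂ, (∀ i, X i i ≠ 0) ∧ CjM (J k) (zZ X) ∧
        v = fun p => X p.1 p.2})
      (fun k F hF v hv => by
        obtain ⟨X, hX1, hX2, rfl⟩ := hv
        exact hT k D hD0 F (fun X' h1 h2 h3 => hF _ ⟨X', h1, h2, h3, rfl⟩) X hX1 hX2) P'
      (fun v hv => by
        choose Yi h1 h2 h3 h4 using hv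
        rw [hP']
        have h5 := hP Yi ν D hD0 hD hνV h1 h2 h3
        rw [← h5]
        congr 2
        funext p
        rcases p with p | i
        · rw [Sum.elim_inl, Sum.elim_inl, h4 p.1]
        · rfl)
      (fun k p => Y k p.1 p.2)
      (fun k => ⟨Y k, hY0 k, hY1 k, rfl⟩)
  -- variation of the eigenvalues
  obtain ⟨Q, hQ⟩ : ∃ Q : MvPolynomial (Fin (n + 1)) ℂ, ∀ v,
      MvPolynomial.eval v Q = MvPolynomial.eval (Sum.elim (fun p => Y p.1 p.2.1 p.2.2) v) P := by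
    refine ⟨MvPolynomial.aeval (Sum.elim (fun p => MvPolynomial.C (Y p.1 p.2.1 p.2.2))
      fun i => MvPolynomial.X i) P, fun v => ?_⟩
    rw [← MvPolynomial.coe_aeval_eq_eval, ← MvPolynomial.coe_aeval_eq_eval]
    change (MvPolynomial.aeval v) ((MvPolynomial.aeval _) P) = (MvPolynomial.aeval _) P
    rw [← AlgHom.comp_apply, MvPolynomial.comp_aeval]
    congr 2
    funext p
    rcases p with p | i
    · simp
    · simp
  obtain ⟨disc, hdisc⟩ : ∃ disc : MvPolynomial (Fin (n + 1)) ℂ, disc =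
    ∏ p ∈ (Finset.univ : Finset (Fin (n + 1))).offDiag,
      (MvPolynomial.X p.1 - MvPolynomial.X p.2) := ⟨_, rfl⟩
  have hdisc0 : disc ≠ 0 := by
    rw [hdisc, Finset.prod_ne_zero_iff]
    intro p hp h
    rw [Finset.mem_offDiag] at hp
    have h2 := congrArg (MvPolynomial.eval fun i : Fin (n + 1) => ((i : ℕ) : ℂ)) h
    rw [map_sub, MvPolynomial.eval_X, MvPolynomial.eval_X, map_zero, sub_eq_zero] at h2
    exact hp.2.2 (Fin.ext (Nat.cast_injective h2))
  have hQ0 : Q * disc = 0 := by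
    refine MvPolynomial.funext_set (fun _ => {z : ℂ | ∃ w ∈ V, φ (w : R) = z}) (fun _ => hVinf)
      fun v hv => ?_
    rw [map_zero, map_mul]
    choose ν hνV hν using fun i => hv i (Set.mem_univ i)
    have hv' : v = fun i => φ (ν i) := funext fun i => (hν i).symm
    by_cases hinj : Function.Injective ν
    · rw [hQ, hv', h1 ν hinj hνV, zero_mul]
    · have h2 : MvPolynomial.eval v disc = 0 := by
        rw [Function.Injective] at hinj
        push Not at hinj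
        obtain ⟨i, j, hij, hne⟩ := hinj
        rw [hdisc, map_prod]
        refine Finset.prod_eq_zero (i := (i, j)) ?_ ?_
        · rw [Finset.mem_offDiag]
          exact ⟨Finset.mem_univ _, Finset.mem_univ _, hne⟩
        · rw [map_sub, MvPolynomial.eval_X, MvPolynomial.eval_X, hv']
          simp only [hij, sub_self]
      rw [h2, mul_zero]
  have hQ1 : Q = 0 := (mul_eq_zero.1 hQ0).resolve_right hdisc0
  rw [← hQ, hQ1, map_zero]

theorem core1 (φ : R →+* ℂ) (V : Subgroup Rˣ)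
    (hVinf : {z : ℂ | ∃ w ∈ V, φ (w : R) = z}.Infinite) {n m : ℕ} (hB : FibV φ V n)
    (hy : VecV φ V (n + 1)) (J : Fin m → Mat (n + 1) ℂ) (hT : ∀ k, TotV φ V (J k))
    (ξ : Fin (n + 1) → Rˣ) (hξ : ∀ i, ξ i ∈ V)
    (hdet : (∏ i, φ (ξ i)) * ∏ k, (J k).det = 1)
    (F : MvPolynomial ((Fin (m + 1) × Fin (n + 1) × Fin (n + 1)) ⊕ Fin (n + 1)) ℂ)
    (hF : TestOne φ V J ξ F)
    (Y : Fin (m + 1) → Mat (n + 1) ℂ) (hY0 : ∀ k i, Y k i i ≠ 0)
    (hY1 : ∀ k : Fin m, CjM (J k) (zZ (Y k.castSucc)))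
    (hY2 : (zZ (Y (Fin.last m))).charpoly =
      ∏ i, (Polynomial.X - Polynomial.C (φ (ξ i) * ∏ l, Y l i i)))
    (hY3 : P002G.Cyc (zZ (Y (Fin.last m))) (P002G.e0 n ℂ)) (y : Fin (n + 1) → ℂ) :
    MvPolynomial.aeval (Sum.elim (fun p => Y p.1 p.2.1 p.2.2) y) F = (0 : ℂ) := by
  obtain ⟨x₀, hx₀⟩ : ∃ x₀ : (Fin m × (Fin (n + 1) × Fin (n + 1))) ⊕ Fin (n + 1) → ℂ,
    x₀ = Sum.elim (fun p => Y p.1.castSucc p.2.1 p.2.2) fun i => φ (ξ i) * ∏ l, Y l i i := ⟨_, rfl⟩
  obtain ⟨YS, hYS⟩ : ∃ YS : Fin m → Mat (n + 1) (ratAt x₀),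
    YS = fun k => Matrix.of fun i j => rX x₀ (Sum.inl (k, (i, j))) := ⟨_, rfl⟩
  have hYSr : ∀ x k i j, rev x₀ x (YS k i j) = x (Sum.inl (k, (i, j))) := by
    intro x k i j
    rw [hYS]
    exact rev_rX x₀ x (Sum.inl (k, (i, j)))
  obtain ⟨den, hden⟩ : ∃ den : Fin (n + 1) → ratAt x₀, den =
    fun i => algebraMap ℂ _ (φ (ξ i)) * ∏ k, YS k i i := ⟨_, rfl⟩
  have hdenr : ∀ x i, rev x₀ x (den i) = φ (ξ i) * ∏ k, x (Sum.inl (k, (i, i))) := by
    intro x i
    rw [hden]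
    simp only
    rw [map_mul, map_prod, AlgHom.commutes]
    simp only [hYSr]
    rfl
  have hξ0 : ∀ i, φ (ξ i) ≠ 0 := fun i => ((ξ i).isUnit.map φ).ne_zero
  have hden0 : ∀ i, rev x₀ x₀ (den i) ≠ 0 := by
    intro i
    rw [hdenr, hx₀]
    exact mul_ne_zero (hξ0 i) (Finset.prod_ne_zero_iff.2 fun k _ => hY0 _ i)
  choose inv hinv using fun i => exists_rinv (den i) (hden0 i)
  obtain ⟨q, hq⟩ : ∃ q : Fin (n + 1) → ratAt x₀, q = fun i => rX x₀ (Sum.inr i) * inv i :=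
    ⟨_, rfl⟩
  have hqr : ∀ x i, rev x₀ x (q i) =
      x (Sum.inr i) * (φ (ξ i) * ∏ k, x (Sum.inl (k, (i, i))))⁻¹ := by
    intro x i
    rw [hq]
    simp only
    rw [map_mul, hinv, hdenr, rev_rX]
  obtain ⟨χ, hχ⟩ : ∃ χ : Polynomial (ratAt x₀), χ =
    ∏ i, (Polynomial.X - Polynomial.C (rX x₀ (Sum.inr i))) := ⟨_, rfl⟩
  have hnt : Nontrivial (ratAt x₀) := ⟨⟨0, 1, fun h => by
    have := congrArg (rev x₀ x₀) h
    rw [map_zero, map_one] at this
    exact zero_ne_one this⟩⟩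
  have hχ1 : χ.Monic := by
    rw [hχ]
    exact Polynomial.monic_prod_of_monic _ _ fun i _ => Polynomial.monic_X_sub_C _
  have hχ2 : χ.natDegree = n + 1 := by
    rw [hχ, Polynomial.natDegree_prod_of_monic _ _ fun i _ => Polynomial.monic_X_sub_C _]
    simp
  have hχr : ∀ x, χ.map ((rev x₀ x : ratAt x₀ →ₐ[ℂ] ℂ) : ratAt x₀ →+* ℂ) =
      ∏ i, (Polynomial.X - Polynomial.C (x (Sum.inr i))) := by
    intro x
    rw [hχ, Polynomial.map_prod]
    refine Finset.prod_congr rfl fun i _ => ?_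
    rw [Polynomial.map_sub, Polynomial.map_X, Polynomial.map_C]
    rfl
  obtain ⟨Yt, κ, hκ0, hYt0, hYt⟩ := exists_family q χ hχ1 hχ2 (Y (Fin.last m))
    (fun i => by
      rw [hqr, hx₀, Sum.elim_inr, Fin.prod_univ_castSucc]
      simp only [Sum.elim_inl]
      have h1 : φ (ξ i) * ∏ k : Fin m, Y k.castSucc i i ≠ 0 :=
        mul_ne_zero (hξ0 i) (Finset.prod_ne_zero_iff.2 fun k _ => hY0 _ i)
      rw [← mul_assoc, mul_comm (φ (ξ i) * ∏ k : Fin m, Y k.castSucc i i), mul_assoc,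
        mul_inv_cancel₀ h1, mul_one])
    (by rw [hχr, hY2, hx₀]; rfl) hY3
  obtain ⟨g, hg⟩ : ∃ g : ratAt x₀, g = MvPolynomial.aeval (Sum.elim (fun p => (Fin.snoc
    (α := fun _ => Mat (n + 1) (ratAt x₀)) YS Yt : Fin (m + 1) → _) p.1 p.2.1 p.2.2)
      fun i => algebraMap ℂ _ (y i)) F := ⟨_, rfl⟩
  have hgr : ∀ x, rev x₀ x g = MvPolynomial.aeval (Sum.elim (fun p => (Fin.snoc
      (α := fun _ => Mat (n + 1) ℂ) (fun k => (YS k).map (rev x₀ x)) (Yt.map (rev x₀ x)) :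
        Fin (m + 1) → Mat (n + 1) ℂ) p.1 p.2.1 p.2.2) y) F := by
    intro x
    rw [hg, ← AlgHom.comp_apply, MvPolynomial.comp_aeval]
    congr 2
    funext p
    rcases p with p | i
    · obtain ⟨k, i, j⟩ := p
      simp only [Sum.elim_inl]
      refine Fin.lastCases ?_ (fun k => ?_) k
      · simp only [Fin.snoc_last]
        rfl
      · simp only [Fin.snoc_castSucc]
        rfl
    · simp only [Sum.elim_inr]
      exact AlgHom.commutes _ _
  have hdense : ∀ P : MvPolynomial ((Fin m × (Fin (n + 1) × Fin (n + 1))) ⊕ Fin (n + 1)) ℂ,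
      (∀ x ∈ {x | ∃ (Yi : Fin m → Mat (n + 1) R) (ν : Fin (n + 1) → Rˣ) (D : R), D ≠ 0 ∧
        GoodD φ V ν D ∧ (∀ i, ν i ∈ V) ∧ (∀ k i, ∃ w ∈ V, (w : R) = Yi k i i) ∧
        (∀ k i j, j < i → D ∣ Yi k i j) ∧ (∀ k, CjM (J k) (zZ ((Yi k).map φ))) ∧
        x = Sum.elim (fun p => φ (Yi p.1 p.2.1 p.2.2)) fun i => φ (ν i)},
        MvPolynomial.eval x P = 0) → MvPolynomial.eval x₀ P = 0 := by
    intro P hP
    rw [hx₀]
    exact core1_dense φ V hVinf hy J hT (fun k => Y k.castSucc) (fun k i => hY0 _ i) hY1 _ P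
      fun Yi ν D h1 h2 h3 h4 h5 h6 => hP _ ⟨Yi, ν, D, h1, h2, h3, h4, h5, h6, rfl⟩
  have hfin := ratAt_dense' _ hdense g κ hκ0 (fun x hx hκ => by
    obtain ⟨Yi, ν, D, h1, h2, h3, h4, h5, h6, hx⟩ := hx
    rw [hgr]
    have h7 : (fun k => (YS k).map (rev x₀ x)) = fun k => (Yi k).map φ := by
      funext k
      ext i j
      rw [Matrix.map_apply, Matrix.map_apply, hYSr, hx]
      rfl
    rw [h7]
    have h8 : ∀ i, rev x₀ x (q i) = φ (ν i) * (φ (ξ i) * ∏ k, φ (Yi k i i))⁻¹ := by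
      intro i
      rw [hqr, hx]
      rfl
    have h9 : ∀ i, φ (ξ i) * ∏ k, φ (Yi k i i) ≠ 0 := by
      intro i
      refine mul_ne_zero (hξ0 i) (Finset.prod_ne_zero_iff.2 fun k _ => ?_)
      obtain ⟨w, -, hw⟩ := h4 k i
      rw [← hw]
      exact (w.isUnit.map φ).ne_zero
    have h10 : ∏ i, rev x₀ x (q i) = ∏ i, φ (ν i) := by
      simp only [h8]
      rw [Finset.prod_mul_distrib, Finset.prod_inv_distrib, Finset.prod_mul_distrib,
        Finset.prod_comm]
      have h11 : ∏ k, ∏ i, φ (Yi k i i) = ∏ k, (J k).det := by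
        refine Finset.prod_congr rfl fun k _ => ?_
        rw [← (h6 k).det, det_zZ]
        rfl
      rw [h11, hdet, inv_one, mul_one]
    have hχx : χ.map ((rev x₀ x : ratAt x₀ →ₐ[ℂ] ℂ) : ratAt x₀ →+* ℂ) =
        ∏ i, (Polynomial.X - Polynomial.C (φ (ν i))) := by
      rw [hχr, hx]
      rfl
    obtain ⟨h12, h13, h14⟩ := hYt x hκ (by
      rw [hχx, h10, Polynomial.coeff_zero_eq_eval_zero, Polynomial.eval_prod]
      simp only [Polynomial.eval_sub, Polynomial.eval_X, Polynomial.eval_C, zero_sub]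
      rw [Finset.prod_neg]
      simp)
    refine core1_A φ V hB J ξ hξ F hF ν h3 D h1 h2 Yi h4 h5 h6 (Yt.map (rev x₀ x))
      (fun i => ?_) (by rw [h13, hχx]) h14 y
    rw [Matrix.map_apply, h12, h8, mul_comm, mul_assoc, inv_mul_cancel₀ (h9 i), mul_one])
  rw [hgr] at hfin
  rw [← hfin]
  congr 2
  funext p
  rcases p with p | i
  · obtain ⟨k, i, j⟩ := p
    simp only [Sum.elim_inl]
    refine Fin.lastCases ?_ (fun k => ?_) k
    · simp only [Fin.snoc_last]
      exact (hYt0 i j).symm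
    · simp only [Fin.snoc_castSucc]
      rw [Matrix.map_apply, hYSr, hx₀]
      rfl
  · rfl

end coreOne

end Vale.Agent.P002R
end

section

/-!
# Density of integral representations without boundary conditions, for products of curves
-/

namespace Vale.Agent.P002R.Product

open Matrix NumberField

/-! ### The fundamental group of a factor -/

/-- Generators: the handles, and all boundary loops except the last one. -/
abbrev KN (g n : ℕ) := (Fin g × Bool) ⊕ Fin (n - 1)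

/-- The product of the commutators and of the boundary loops except the last one. -/
def surfW (g n : ℕ) : FreeGroup (KN g n ⊕ Empty) :=
  (List.ofFn fun l : Fin g => (FreeGroup.of (Sum.inl (Sum.inl (l, false))) *
    FreeGroup.of (Sum.inl (Sum.inl (l, true))) *
    (FreeGroup.of (Sum.inl (Sum.inl (l, false))))⁻¹ *
    (FreeGroup.of (Sum.inl (Sum.inl (l, true))))⁻¹ : FreeGroup (KN g n ⊕ Empty))).prod *
  (List.ofFn fun j : Fin (n - 1) =>
    (FreeGroup.of (Sum.inl (Sum.inr j)) : FreeGroup (KN g n ⊕ Empty))).prod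

/-- The relator, if there are no boundary loops. -/
def surfRel (g n : ℕ) : Set (FreeGroup (KN g n ⊕ Empty)) := {w | n = 0 ∧ w = surfW g n}

theorem surfRel_charOK (g n : ℕ) : CharOK (surfRel g n) := by
  rintro w ⟨rfl, rfl⟩ A _ χ -
  unfold surfW
  rw [map_mul, map_list_prod, map_list_prod, List.map_ofFn, List.map_ofFn]
  simp only [Function.comp_def, map_mul, map_inv]
  simp

theorem surfRel_irrDense (g n : ℕ) {r : ℕ} {R : Type*} [CommRing R] (φ : R →+* ℂ)
    (E : Subgroup ℂˣ) (hc : CoefOK φ E r) :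
    ∀ r' ≤ r, 0 < r' → IrrDense (surfRel g n) φ E r' := by
  intro r' hr' hr'0
  rcases Nat.eq_zero_or_pos n with rfl | hn
  · have hE : IsEmpty (Fin (0 - 1)) := Fin.isEmpty
    refine IrrDense.congr (Equiv.sumEmpty (Fin g × Bool) (Fin (0 - 1))).symm
      (Equiv.equivOfIsEmpty (Fin 0) Empty) _ _ ?_
      (surface_irrDense (g := g) (n := 0) φ E hc (Or.inr rfl) r' hr' hr'0)
    intro y
    have h1 : renE (Equiv.sumEmpty (Fin g × Bool) (Fin (0 - 1))).symm.symm
        (Equiv.equivOfIsEmpty (Fin 0) Empty).symm (surfW g 0) = relatorU g 0 := by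
      unfold surfW relatorU
      rw [map_mul, map_list_prod, map_list_prod, List.map_ofFn, List.map_ofFn]
      simp only [Function.comp_def, map_mul, map_inv, renE_inl]
      simp
    constructor
    · rintro hy w ⟨-, rfl⟩
      rw [h1]
      exact hy _ rfl
    · rintro hy w hw
      rw [Set.mem_singleton_iff.1 hw, ← h1]
      exact hy _ ⟨rfl, rfl⟩
  · refine IrrDense.congr (Fintype.equivFin (KN g n)).symm (Equiv.refl Empty) _ _ ?_
      (free_irrDense (N := Fintype.card (KN g n)) φ E r' hr'0)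
    intro y
    constructor
    · rintro - w ⟨h0, -⟩
      omega
    · rintro - w hw
      exact absurd hw (Set.notMem_empty w)

/-! ### The fundamental group of the product -/

variable {k r : ℕ} {g n : Fin k → ℕ}

/-- The generators of the product. -/
abbrev KP (g n : Fin k → ℕ) := (Σ i, KN (g i) (n i)) ⊕ (Σ _ : Fin k, Empty)

/-- The relators of the product. -/
def relP (g n : Fin k → ℕ) : Set (FreeGroup (KP g n)) := famRel fun i => surfRel (g i) (n i)

/-- Inclusion of a factor. -/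
def incP (g n : Fin k → ℕ) (i : Fin k) : FreeGroup (KN (g i) (n i) ⊕ Empty) →*
    FreeGroup (KP g n) :=
  FreeGroup.map (incS (κ := fun i => KN (g i) (n i)) (ι := fun _ => Empty) i)

/-- The word of a generator. -/
def wordG : Gens g n → FreeGroup (KP g n)
  | Sum.inl ⟨i, p⟩ => incP g n i (FreeGroup.of (Sum.inl (Sum.inl p)))
  | Sum.inr ⟨i, j⟩ => if h : j.1 < n i - 1 then
      incP g n i (FreeGroup.of (Sum.inl (Sum.inr ⟨j, h⟩))) else (incP g n i (surfW (g i) (n i)))⁻¹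

/-- Tuples in a group which satisfy the relations. -/
def IsRepG {H : Type*} [Group H] (X : Gens g n → H) : Prop :=
  (∀ i, (List.ofFn fun l : Fin (g i) => X (Sum.inl ⟨i, l, false⟩) * X (Sum.inl ⟨i, l, true⟩) *
    (X (Sum.inl ⟨i, l, false⟩))⁻¹ * (X (Sum.inl ⟨i, l, true⟩))⁻¹).prod *
      (List.ofFn fun j : Fin (n i) => X (Sum.inr ⟨i, j⟩)).prod = 1) ∧
  ∀ p q : Gens g n, factor p ≠ factor q → X p * X q = X q * X p

theorem wordG_mem (p : Gens g n) : ∃ w, wordG p = incP g n (factor p) w := by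
  rcases p with ⟨i, p⟩ | ⟨i, j⟩
  · exact ⟨_, rfl⟩
  · simp only [wordG]
    split_ifs with h
    · exact ⟨_, rfl⟩
    · exact ⟨(surfW (g i) (n i))⁻¹, (map_inv (incP g n i) _).symm⟩

/-- Different factors commute. -/
theorem commute_of_hom {H : Type*} [Group H] (x : FreeGroup (KP g n) →* H)
    (hx : ∀ w ∈ relP g n, x w = 1) {i j : Fin k} (hij : i ≠ j)
    (w : FreeGroup (KN (g i) (n i) ⊕ Empty)) (w' : FreeGroup (KN (g j) (n j) ⊕ Empty)) :
    Commute (x (incP g n i w)) (x (incP g n j w')) := by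
  have h0 : ∀ p q, Commute (x (incP g n i (FreeGroup.of p))) (x (incP g n j (FreeGroup.of q))) := by
    intro p q
    have := hx _ (Or.inr ⟨i, j, p, q, hij, rfl⟩)
    rw [map_mul, map_mul, map_mul, map_inv, map_inv, mul_inv_eq_one, mul_inv_eq_iff_eq_mul] at this
    exact this
  have step : ∀ {K : Type} (z : FreeGroup K →* H) (y : H), (∀ p, Commute y (z (FreeGroup.of p))) →
      ∀ w, Commute y (z w) := by
    intro K z y hy w
    have : (⊤ : Subgroup (FreeGroup K)) ≤ (Subgroup.centralizer {y}).comap z := by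
      rw [← FreeGroup.closure_range_of, Subgroup.closure_le]
      rintro _ ⟨p, rfl⟩
      rw [SetLike.mem_coe, Subgroup.mem_comap, Subgroup.mem_centralizer_singleton_iff]
      exact (hy p).symm
    have h := this (Subgroup.mem_top w)
    rw [Subgroup.mem_comap, Subgroup.mem_centralizer_singleton_iff] at h
    exact h.symm
  have h1 : ∀ q, Commute (x (incP g n i w)) (x (incP g n j (FreeGroup.of q))) := fun q =>
    (step (x.comp (incP g n i)) _ (fun p => (h0 p q).symm) w).symm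
  exact step (x.comp (incP g n j)) _ h1 w'

theorem rel_of_hom {H : Type*} [Group H] (x : FreeGroup (KP g n) →* H)
    (hx : ∀ w ∈ relP g n, x w = 1) : IsRepG (fun p : Gens g n => x (wordG p)) := by
  constructor
  · intro i
    have hW : x (incP g n i (surfW (g i) (n i))) =
        (List.ofFn fun l : Fin (g i) => x (wordG (Sum.inl ⟨i, l, false⟩ : Gens g n)) *
          x (wordG (Sum.inl ⟨i, l, true⟩ : Gens g n)) *
          (x (wordG (Sum.inl ⟨i, l, false⟩ : Gens g n)))⁻¹ *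
          (x (wordG (Sum.inl ⟨i, l, true⟩ : Gens g n)))⁻¹).prod *
        (List.ofFn fun j : Fin (n i - 1) =>
          x (wordG (Sum.inr ⟨i, ⟨j, by omega⟩⟩ : Gens g n))).prod := by
      unfold surfW
      rw [map_mul, map_mul, map_list_prod, map_list_prod, map_list_prod, map_list_prod,
        List.map_ofFn, List.map_ofFn, List.map_ofFn, List.map_ofFn]
      congr 1
      · congr 2
        funext l
        simp only [Function.comp, map_mul, map_inv]
        rfl
      · congr 2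
        funext j
        simp only [Function.comp, wordG]
        rw [dif_pos j.isLt]
    rcases Nat.eq_zero_or_pos (n i) with h0 | h0
    · have h1 : x (incP g n i (surfW (g i) (n i))) = 1 :=
        hx _ (Or.inl ⟨i, _, ⟨h0, rfl⟩, rfl⟩)
      rw [hW] at h1
      have e1 : (List.ofFn fun j : Fin (n i - 1) =>
          x (wordG (Sum.inr ⟨i, ⟨j, by omega⟩⟩ : Gens g n))) = [] :=
        List.eq_nil_of_length_eq_zero (by rw [List.length_ofFn]; omega)
      have e2 : (List.ofFn fun j : Fin (n i) =>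
          x (wordG (Sum.inr ⟨i, j⟩ : Gens g n))) = [] :=
        List.eq_nil_of_length_eq_zero (by rw [List.length_ofFn]; omega)
      rw [e1] at h1
      rw [e2]
      exact h1
    · have h2 : (List.ofFn fun j : Fin (n i) => x (wordG (Sum.inr ⟨i, j⟩ : Gens g n))) =
          (List.ofFn fun j : Fin (n i - 1) =>
            x (wordG (Sum.inr ⟨i, ⟨j, by omega⟩⟩ : Gens g n))) ++
          [(x (incP g n i (surfW (g i) (n i))))⁻¹] := by
        have h3 := List.ofFn_congr (show n i = n i - 1 + 1 by omega)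
          (fun j : Fin (n i) => x (wordG (Sum.inr ⟨i, j⟩ : Gens g n)))
        rw [h3, List.ofFn_succ', List.concat_eq_append]
        congr 2
        rw [← map_inv]
        congr 1
        simp only [wordG]
        rw [dif_neg]
        simp
      rw [h2, List.prod_append, ← mul_assoc, List.prod_singleton, ← hW, mul_inv_cancel]
  · intro p q hpq
    obtain ⟨w, hw⟩ := wordG_mem p
    obtain ⟨w', hw'⟩ := wordG_mem q
    simp only
    rw [hw, hw']
    exact commute_of_hom x hx hpq w w'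

/-- Values at the generators. -/
def liftFun {H : Type*} (X : Gens g n → H) : KP g n → H
  | Sum.inl ⟨i, Sum.inl p⟩ => X (Sum.inl ⟨i, p⟩)
  | Sum.inl ⟨i, Sum.inr j⟩ => X (Sum.inr ⟨i, ⟨j, by omega⟩⟩)
  | Sum.inr ⟨_, e⟩ => e.elim

theorem hom_of_rel {H : Type*} [Group H] (X : Gens g n → H) (hX : IsRepG X) :
    ∃ x : FreeGroup (KP g n) →* H, (∀ w ∈ relP g n, x w = 1) ∧ ∀ p, x (wordG p) = X p := by
  obtain ⟨x, hxa, hxb⟩ : ∃ x : FreeGroup (KP g n) →* H,
      (∀ i p, x (incP g n i (FreeGroup.of (Sum.inl (Sum.inl p)))) = X (Sum.inl ⟨i, p⟩)) ∧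
      ∀ i (j : Fin (n i - 1)), x (incP g n i (FreeGroup.of (Sum.inl (Sum.inr j)))) =
        X (Sum.inr ⟨i, ⟨j, by omega⟩⟩) := by
    refine ⟨FreeGroup.lift (liftFun X), fun i p => ?_, fun i j => ?_⟩
    · rw [incP, FreeGroup.map.of, FreeGroup.lift_apply_of]; rfl
    · rw [incP, FreeGroup.map.of, FreeGroup.lift_apply_of]; rfl
  have hW : ∀ i, x (incP g n i (surfW (g i) (n i))) =
      (List.ofFn fun l : Fin (g i) => X (Sum.inl ⟨i, l, false⟩) * X (Sum.inl ⟨i, l, true⟩) *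
        (X (Sum.inl ⟨i, l, false⟩))⁻¹ * (X (Sum.inl ⟨i, l, true⟩))⁻¹).prod *
      (List.ofFn fun j : Fin (n i - 1) => X (Sum.inr ⟨i, ⟨j, by omega⟩⟩)).prod := by
    intro i
    unfold surfW
    rw [map_mul, map_mul, map_list_prod, map_list_prod, map_list_prod, map_list_prod,
      List.map_ofFn, List.map_ofFn, List.map_ofFn, List.map_ofFn]
    simp only [Function.comp_def, map_mul, map_inv, hxa, hxb]
  have hword : ∀ p, x (wordG p) = X p := by
    rintro (⟨i, p⟩ | ⟨i, j⟩)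
    · exact hxa i p
    · simp only [wordG]
      split_ifs with h
      · exact hxb i _
      · have h1 := hX.1 i
        have h0 : 0 < n i := by have := j.isLt; omega
        have h2 : (List.ofFn fun j : Fin (n i) => X (Sum.inr ⟨i, j⟩)) =
            (List.ofFn fun j : Fin (n i - 1) => X (Sum.inr ⟨i, ⟨j, by omega⟩⟩)) ++
            [X (Sum.inr ⟨i, j⟩)] := by
          have h3 := List.ofFn_congr (show n i = n i - 1 + 1 by omega)
            (fun j : Fin (n i) => X (Sum.inr ⟨i, j⟩))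
          rw [h3, List.ofFn_succ', List.concat_eq_append]
          congr 2
          have h4 : Fin.cast (show n i - 1 + 1 = n i by omega) (Fin.last (n i - 1)) = j := by
            apply Fin.ext
            have := j.isLt
            simp
            omega
          exact congrArg (fun j => X (Sum.inr ⟨i, j⟩)) h4
        rw [h2, List.prod_append, ← mul_assoc, List.prod_singleton, ← hW] at h1
        rw [map_inv]
        exact inv_eq_of_mul_eq_one_right h1
  refine ⟨x, ?_, hword⟩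
  rintro w (⟨i, v, ⟨h0, rfl⟩, rfl⟩ | ⟨i, j, p, q, hij, rfl⟩)
  · change x (incP g n i (surfW (g i) (n i))) = 1
    rw [hW]
    have h1 := hX.1 i
    have e1 : (List.ofFn fun j : Fin (n i - 1) =>
        X (Sum.inr ⟨i, ⟨j, by omega⟩⟩)) = [] :=
      List.eq_nil_of_length_eq_zero (by rw [List.length_ofFn]; omega)
    have e2 : (List.ofFn fun j : Fin (n i) => X (Sum.inr ⟨i, j⟩)) = [] :=
      List.eq_nil_of_length_eq_zero (by rw [List.length_ofFn]; omega)
    rw [e2] at h1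
    rw [e1]
    exact h1
  · have hgen : ∀ (i : Fin k) (p : KN (g i) (n i) ⊕ Empty), ∃ s : Gens g n, factor s = i ∧
        x (FreeGroup.of (incS (κ := fun i => KN (g i) (n i)) (ι := fun _ => Empty) i p)) = X s := by
      rintro i ((p | j) | e)
      · exact ⟨Sum.inl ⟨i, p⟩, rfl, by rw [← hxa]; rfl⟩
      · exact ⟨Sum.inr ⟨i, ⟨j, by omega⟩⟩, rfl, by rw [← hxb]; rfl⟩
      · exact e.elim
    obtain ⟨s, hs, hs'⟩ := hgen i p
    obtain ⟨t, ht, ht'⟩ := hgen j q
    rw [map_mul, map_mul, map_mul, map_inv, map_inv, mul_inv_eq_one, mul_inv_eq_iff_eq_mul,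
      hs', ht']
    exact hX.2 s t (by rw [hs, ht]; exact hij)

/-! ### Polynomials in the entries of words -/

/-- The entries of a word in matrices of determinant one are polynomials in the entries of the
generators. -/
theorem exists_word_matrix {K : Type} (r : ℕ) (w : FreeGroup K) :
    ∃ M : Matrix (Fin r) (Fin r) (MvPolynomial (K × Fin r × Fin r) ℂ),
      ∀ x : FreeGroup K →* SpecialLinearGroup (Fin r) ℂ,
        M.map (MvPolynomial.aeval (R := ℂ) fun p => (x (FreeGroup.of p.1)).1 p.2.1 p.2.2) =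
          (x w).1 := by
  obtain ⟨S, hS⟩ : ∃ S : Subgroup (FreeGroup K), ∀ w, w ∈ S ↔
      ∃ M : Matrix (Fin r) (Fin r) (MvPolynomial (K × Fin r × Fin r) ℂ),
        ∀ x : FreeGroup K →* SpecialLinearGroup (Fin r) ℂ,
          M.map (MvPolynomial.aeval (R := ℂ) fun p => (x (FreeGroup.of p.1)).1 p.2.1 p.2.2) =
            (x w).1 := by
    refine ⟨{
      carrier := {w | ∃ M : Matrix (Fin r) (Fin r) (MvPolynomial (K × Fin r × Fin r) ℂ),
        ∀ x : FreeGroup K →* SpecialLinearGroup (Fin r) ℂ,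
          M.map (MvPolynomial.aeval (R := ℂ) fun p => (x (FreeGroup.of p.1)).1 p.2.1 p.2.2) =
            (x w).1}
      mul_mem' := ?_
      one_mem' := ?_
      inv_mem' := ?_ }, fun w => Iff.rfl⟩
    · rintro a b ⟨M, hM⟩ ⟨N, hN⟩
      refine ⟨M * N, fun x => ?_⟩
      have h1 := RingHom.map_mul (RingHom.mapMatrix (m := Fin r)
        (MvPolynomial.aeval (R := ℂ) fun p : K × Fin r × Fin r =>
          (x (FreeGroup.of p.1)).1 p.2.1 p.2.2).toRingHom) M N
      have h2 : (x (a * b)).1 = (x a).1 * (x b).1 := by rw [map_mul]; rfl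
      rw [h2, ← hM x, ← hN x]
      exact h1
    · refine ⟨1, fun x => ?_⟩
      rw [Matrix.map_one _ (map_zero _) (map_one _), map_one]
      rfl
    · rintro a ⟨M, hM⟩
      refine ⟨M.adjugate, fun x => ?_⟩
      have h1 := RingHom.map_adjugate (MvPolynomial.aeval (R := ℂ)
        fun p : K × Fin r × Fin r => (x (FreeGroup.of p.1)).1 p.2.1 p.2.2).toRingHom M
      have h2 : (x a⁻¹).1 = (x a).1.adjugate := by
        rw [map_inv]
        exact Matrix.SpecialLinearGroup.coe_inv _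
      rw [h2, ← hM x]
      exact h1
  have h : (⊤ : Subgroup (FreeGroup K)) ≤ S := by
    rw [← FreeGroup.closure_range_of, Subgroup.closure_le]
    rintro _ ⟨p, rfl⟩
    rw [SetLike.mem_coe, hS]
    refine ⟨Matrix.of fun i j => MvPolynomial.X (p, i, j), fun x => ?_⟩
    ext i j
    simp
  exact (hS w).1 (h (Subgroup.mem_top w))

/-- Pull back of a function to the tuples of generators. -/
theorem exists_pullback (F : MvPolynomial (Gens g n × Fin r × Fin r) ℂ) :
    ∃ f : MvPolynomial (KP g n × Fin r × Fin r) ℂ,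
      ∀ x : FreeGroup (KP g n) →* SpecialLinearGroup (Fin r) ℂ,
        evalG (SpecialLinearGroup.toGL.comp x) f = value F fun p => x (wordG p) := by
  choose M hM using fun p : Gens g n => exists_word_matrix r (wordG p)
  refine ⟨MvPolynomial.aeval (fun p => M p.1 p.2.1 p.2.2) F, fun x => ?_⟩
  have h : (evalG (SpecialLinearGroup.toGL.comp x)).comp
      (MvPolynomial.aeval (R := ℂ) (fun p : Gens g n × Fin r × Fin r => M p.1 p.2.1 p.2.2)) =
      MvPolynomial.aeval (fun p : Gens g n × Fin r × Fin r => (x (wordG p.1)).1 p.2.1 p.2.2) := by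
    apply MvPolynomial.algHom_ext
    intro p
    rw [AlgHom.comp_apply, MvPolynomial.aeval_X, MvPolynomial.aeval_X, ← hM p.1 x]
    rfl
  exact DFunLike.congr_fun h F

/-! ### Invariant subspaces -/

theorem stable_iff_hom (x : FreeGroup (KP g n) →* SpecialLinearGroup (Fin r) ℂ)
    (hgen : ∀ p, ∃ q : Gens g n, x (FreeGroup.of p) = x (wordG q))
    (W : Submodule ℂ (Fin r → ℂ)) :
    (∀ w, ∀ v ∈ W, ((SpecialLinearGroup.toGL.comp x) w : Mat r ℂ) *ᵥ v ∈ W) ↔
      IsInvSubspace (fun p : Gens g n => x (wordG p)) W := by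
  constructor
  · intro h p
    exact h (wordG p)
  · intro h w
    obtain ⟨H, hH⟩ : ∃ H : Subgroup (Mat r ℂ)ˣ, ∀ M, M ∈ H ↔
        ∀ v ∈ W, (M : Mat r ℂ) *ᵥ v ∈ W :=
      ⟨{ carrier := {M | ∀ v ∈ W, (M : Mat r ℂ) *ᵥ v ∈ W}
         mul_mem' := fun {a b} ha hb v hv => by
          rw [Units.val_mul, ← Matrix.mulVec_mulVec]
          exact ha _ (hb _ hv)
         one_mem' := fun v hv => by
          rw [Units.val_one, Matrix.one_mulVec]
          exact hv
         inv_mem' := fun {a} ha => Statement.inv_stable a W ha }, fun M => Iff.rfl⟩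
    have h1 : (⊤ : Subgroup (FreeGroup (KP g n))) ≤ H.comap (SpecialLinearGroup.toGL.comp x) := by
      rw [← FreeGroup.closure_range_of, Subgroup.closure_le]
      rintro _ ⟨p, rfl⟩
      rw [SetLike.mem_coe, Subgroup.mem_comap, hH]
      obtain ⟨q, hq⟩ := hgen p
      intro v hv
      have := h q v hv
      simp only at this
      rw [← hq] at this
      exact this
    exact (hH _).1 (h1 (Subgroup.mem_top w))

theorem of_eq_word (p : KP g n) : ∃ q : Gens g n, FreeGroup.of p = wordG q := by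
  rcases p with ⟨i, p | j⟩ | ⟨i, e⟩
  · refine ⟨Sum.inl ⟨i, p⟩, ?_⟩
    rw [wordG, incP, FreeGroup.map.of]
    rfl
  · refine ⟨Sum.inr ⟨i, ⟨j, by omega⟩⟩, ?_⟩
    rw [wordG, dif_pos j.isLt, incP, FreeGroup.map.of]
    rfl
  · exact e.elim

theorem SS_iff_hom (x : FreeGroup (KP g n) →* SpecialLinearGroup (Fin r) ℂ) :
    SS (SpecialLinearGroup.toGL.comp x) ↔ ∀ W : Submodule ℂ (Fin r → ℂ),
      IsInvSubspace (fun p : Gens g n => x (wordG p)) W → ∃ W' : Submodule ℂ (Fin r → ℂ),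
        IsInvSubspace (fun p : Gens g n => x (wordG p)) W' ∧ IsCompl W W' := by
  have h := stable_iff_hom x fun p => (of_eq_word p).imp fun q hq => by rw [hq]
  unfold SS
  simp only [h]

/-- **Density of the integral representations, for a product of curves and without boundary
conditions.** -/
theorem none_density_prod (g n : Fin k → ℕ) (r : ℕ) :
    ∃ L : IntermediateField ℚ ℂ, FiniteDimensional ℚ L ∧
      IsZariskiDenseRep {X ∈ YNone g n r | IsIntegralRep L X} (YNone g n r) := by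
  obtain ⟨L, hL, hc⟩ := exists_field_E ∅ Set.finite_empty (fun z hz => absurd hz (by simp)) r
  refine ⟨L, hL, fun X hX => hX.1, fun F hF X hX => ?_⟩
  rcases Nat.eq_zero_or_pos r with hr | hr
  · subst hr
    exact hF X ⟨hX, fun p i => i.elim0⟩
  obtain ⟨φ, hφ⟩ : ∃ φ, φ = phiO (algebraMap L ℂ) := ⟨_, rfl⟩
  rw [← hφ] at hc
  obtain ⟨ζ, hζ⟩ := hc.root r hr le_rfl
    (Units.mk0 (Complex.exp (2 * Real.pi * Complex.I / r)) (Complex.exp_ne_zero _)) (by
      have h1 : (Units.mk0 (Complex.exp (2 * Real.pi * Complex.I / r)) (Complex.exp_ne_zero _)) ^ r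
          = 1 := by
        apply Units.ext
        rw [Units.val_pow_eq_pow_val, Units.val_mk0,
          (Complex.isPrimitiveRoot_exp r hr.ne').pow_eq_one, Units.val_one]
      rw [h1]
      exact one_mem _)
  rw [Units.val_mk0] at hζ
  have hζp : IsPrimitiveRoot (φ ζ) r := by
    rw [hζ]
    exact Complex.isPrimitiveRoot_exp r hr.ne'
  obtain ⟨x, hx1, hx2⟩ := hom_of_rel X hX.1
  have hX' : (fun p : Gens g n => x (wordG p)) = X := funext hx2
  obtain ⟨f, hf⟩ := exists_pullback F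
  have hchar : CharOK (relP g n) := famRel_charOK _ fun i => surfRel_charOK _ _
  have hirr : ∀ r' ≤ r, 0 < r' → IrrDense (relP g n) φ _ r' :=
    fam_irrDense φ _ r k _ _ _ fun i => surfRel_irrDense (g i) (n i) φ _ hc
  have hemp : IsEmpty (Σ _ : Fin k, Empty) := ⟨fun s => s.2.elim⟩
  obtain ⟨C, hC⟩ : ∃ C : (Σ _ : Fin k, Empty) → (Mat r ℂ)ˣ, C = fun _ => 1 := ⟨_, rfl⟩
  have hxY : SpecialLinearGroup.toGL.comp x ∈ YG (relP g n) C := by
    refine ⟨fun w hw => ?_, fun j => isEmptyElim j, ?_⟩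
    · rw [MonoidHom.comp_apply, hx1 w hw, map_one]
    · rw [SS_iff_hom, hX']
      exact hX.2
  rw [← hX', ← hf x]
  refine unscaleG φ hc.inj ζ (hc.inj ?_) hζp hr (relP g n) hchar C (fun j => isEmptyElim j) f ?_
    (SpecialLinearGroup.toGL.comp x) (fun w => (x w).2) (fun f' hf' => partIVG φ _ hc (relP g n)
      hchar hirr C (fun j => isEmptyElim j) _ hxY f' hf')
  · rw [map_pow, map_one]
    exact hζp.pow_eq_one
  · intro y hy _ hyS
    obtain ⟨z, hz⟩ : ∃ z : FreeGroup (KP g n) →* SpecialLinearGroup (Fin r) ℂ,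
        z = (SpecialLinearGroup.map φ).comp y := ⟨_, rfl⟩
    have h1 : (slU φ).comp y = SpecialLinearGroup.toGL.comp z := by rw [hz]; rfl
    rw [h1, hf z]
    rw [h1, SS_iff_hom] at hyS
    refine hF _ ⟨⟨rel_of_hom z fun w hw => ?_, hyS⟩, fun p i j => ?_⟩
    · rw [hz, MonoidHom.comp_apply, hy w hw, map_one]
    · refine ⟨(y (wordG p)).1 i j, ?_⟩
      rw [hz, hφ]
      rfl

end Vale.Agent.P002R.Product
end

section

/-!
# P002, genus 0, rank one classes: lemmas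
-/

namespace Vale.Agent.P002R

open Matrix

variable {r : ℕ}

/-! ### conjugacy of rank one perturbations of the identity -/

theorem exists_both_ne {w w' : Fin r → ℂ} (hw : w ≠ 0) (hw' : w' ≠ 0) :
    ∃ a : Fin r → ℂ, w ⬝ᵥ a ≠ 0 ∧ w' ⬝ᵥ a ≠ 0 := by
  obtain ⟨i, hi⟩ := Function.ne_iff.1 hw
  obtain ⟨j, hj⟩ := Function.ne_iff.1 hw'
  rw [Pi.zero_apply] at hi hj
  by_cases h1 : w' i = 0
  · by_cases h2 : w j = 0
    · refine ⟨Pi.single i 1 + Pi.single j 1, ?_, ?_⟩
      · rw [dotProduct_add, dotProduct_single_one, dotProduct_single_one, h2, add_zero]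
        exact hi
      · rw [dotProduct_add, dotProduct_single_one, dotProduct_single_one, h1, zero_add]
        exact hj
    · exact ⟨Pi.single j 1, by rwa [dotProduct_single_one], by rwa [dotProduct_single_one]⟩
  · exact ⟨Pi.single i 1, by rwa [dotProduct_single_one], by rwa [dotProduct_single_one]⟩

theorem exists_both_ne' {w w' : Fin r → ℂ} (hw : w ≠ 0) (hw' : w' ≠ 0) :
    ∃ a : Fin r → ℂ, w ⬝ᵥ a ≠ 0 ∧ w' ⬝ᵥ a = 1 := by
  obtain ⟨a, h1, h2⟩ := exists_both_ne hw hw'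
  refine ⟨(w' ⬝ᵥ a)⁻¹ • a, ?_, ?_⟩
  · rw [dotProduct_smul, smul_eq_mul]
    exact mul_ne_zero (inv_ne_zero h2) h1
  · rw [dotProduct_smul, smul_eq_mul, inv_mul_cancel₀ h2]

theorem det_one_add_vmv (u v : Fin r → ℂ) :
    (1 + vecMulVec u v : Mat r ℂ).det = 1 + v ⬝ᵥ u := by
  rw [Matrix.vecMulVec_eq Unit, Matrix.det_one_add_replicateCol_mul_replicateRow]

theorem exists_conj_rankOne {v w v' w' : Fin r → ℂ} (hv : v ≠ 0) (hw : w ≠ 0) (hv' : v' ≠ 0)
    (hw' : w' ≠ 0) (h : w ⬝ᵥ v = w' ⬝ᵥ v') :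
    ∃ g : (Mat r ℂ)ˣ, (g : Mat r ℂ) * vecMulVec v w = vecMulVec v' w' * (g : Mat r ℂ) := by
  obtain ⟨b, hb1, hb2⟩ := exists_both_ne' hv' hv
  obtain ⟨g1, hg1⟩ : ∃ g1 : (Mat r ℂ)ˣ, (g1 : Mat r ℂ) = 1 + vecMulVec (v' - v) b := by
    have h1 : IsUnit (1 + vecMulVec (v' - v) b : Mat r ℂ) := by
      rw [Matrix.isUnit_iff_isUnit_det, det_one_add_vmv, dotProduct_sub, dotProduct_comm b v,
        hb2, add_sub_cancel, dotProduct_comm, isUnit_iff_ne_zero]
      exact hb1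
    exact ⟨h1.unit, rfl⟩
  have hg1v : (g1 : Mat r ℂ) *ᵥ v = v' := by
    rw [hg1, add_mulVec, one_mulVec, vmv_mulVec, dotProduct_comm b v, hb2, one_smul,
      add_sub_cancel]
  obtain ⟨w1, hw1⟩ : ∃ w1 : Fin r → ℂ, w1 ᵥ* (g1 : Mat r ℂ) = w :=
    ⟨w ᵥ* ((g1⁻¹ : (Mat r ℂ)ˣ) : Mat r ℂ), by rw [vecMul_vecMul, Units.inv_mul, vecMul_one]⟩
  have hw10 : w1 ≠ 0 := by
    rintro rfl
    rw [zero_vecMul] at hw1
    exact hw hw1.symm
  have hw1v : w1 ⬝ᵥ v' = w' ⬝ᵥ v' := by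
    rw [← hg1v, dotProduct_mulVec, hw1, h, hg1v]
  obtain ⟨a, ha1, ha2⟩ := exists_both_ne' hw10 hw'
  obtain ⟨g2, hg2⟩ : ∃ g2 : (Mat r ℂ)ˣ, (g2 : Mat r ℂ) = 1 + vecMulVec a (w1 - w') := by
    have h1 : IsUnit (1 + vecMulVec a (w1 - w') : Mat r ℂ) := by
      rw [Matrix.isUnit_iff_isUnit_det, det_one_add_vmv, sub_dotProduct, ha2, add_sub_cancel,
        isUnit_iff_ne_zero]
      exact ha1
    exact ⟨h1.unit, rfl⟩
  have hg2v : (g2 : Mat r ℂ) *ᵥ v' = v' := by
    rw [hg2, add_mulVec, one_mulVec, vmv_mulVec, sub_dotProduct, hw1v, sub_self, zero_smul,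
      add_zero]
  have hg2w : w' ᵥ* (g2 : Mat r ℂ) = w1 := by
    rw [hg2, vecMul_add, vecMul_one, vecMul_vecMulVec, ha2, one_smul, add_sub_cancel]
  refine ⟨g2 * g1, ?_⟩
  rw [Units.val_mul, Matrix.mul_assoc, Matrix.mul_vecMulVec, hg1v, Matrix.mul_vecMulVec, hg2v,
    ← Matrix.mul_assoc, Matrix.vecMulVec_mul, hg2w, Matrix.vecMulVec_mul, hw1]

theorem cjM_rankOne (z c : ℂ) {v w v' w' : Fin r → ℂ} (hv : v ≠ 0) (hw : w ≠ 0) (hv' : v' ≠ 0)
    (hw' : w' ≠ 0) (h : w ⬝ᵥ v = w' ⬝ᵥ v') :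
    CjM (z • (1 - c • vecMulVec v w) : Mat r ℂ) (z • (1 - c • vecMulVec v' w')) := by
  obtain ⟨g, hg⟩ := exists_conj_rankOne hv hw hv' hw' h
  refine ⟨g, ?_⟩
  rw [Matrix.mul_smul, Matrix.smul_mul, Matrix.mul_sub, Matrix.mul_one, Matrix.mul_smul, hg,
    Matrix.sub_mul, Units.mul_inv, Matrix.smul_mul, Matrix.mul_assoc, Units.mul_inv,
    Matrix.mul_one]

/-! ### coordinate subspaces -/

/-- The coordinate subspace is stable. -/
def CSt (I : Finset (Fin r)) (M : Mat r ℂ) : Prop := ∀ i, i ∉ I → ∀ j ∈ I, M i j = 0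

theorem CSt.mul {I : Finset (Fin r)} {M N : Mat r ℂ} (hM : CSt I M) (hN : CSt I N) :
    CSt I (M * N) := coord_stable_mul I hM hN

theorem CSt.inv {I : Finset (Fin r)} {M : Mat r ℂ} (hM : CSt I M) (h : IsUnit M.det) :
    CSt I M⁻¹ := coord_stable_inv h I hM

theorem CSt.sub {I : Finset (Fin r)} {M N : Mat r ℂ} (hM : CSt I M) (hN : CSt I N) :
    CSt I (M - N) := fun i hi j hj => by
  rw [Matrix.sub_apply, hM i hi j hj, hN i hi j hj, sub_zero]

theorem CSt.add {I : Finset (Fin r)} {M N : Mat r ℂ} (hM : CSt I M) (hN : CSt I N) :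
    CSt I (M + N) := fun i hi j hj => by
  rw [Matrix.add_apply, hM i hi j hj, hN i hi j hj, add_zero]

theorem CSt.smul {I : Finset (Fin r)} {M : Mat r ℂ} (hM : CSt I M) (c : ℂ) : CSt I (c • M) :=
  fun i hi j hj => by rw [Matrix.smul_apply, hM i hi j hj, smul_zero]

theorem cSt_diagonal (I : Finset (Fin r)) (d : Fin r → ℂ) : CSt I (diagonal d) :=
  fun _ hi _ hj => Matrix.diagonal_apply_ne _ fun h => hi (h ▸ hj)

theorem cSt_one (I : Finset (Fin r)) : CSt I (1 : Mat r ℂ) :=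
  fun _ hi _ hj => Matrix.one_apply_ne fun h => hi (h ▸ hj)

/-- `1 + e_i t` preserves the coordinate subspace when `t` is a row of a matrix with this
property. -/
theorem CSt.refl {I : Finset (Fin r)} {T : Mat r ℂ} (hT : CSt I T) (i : Fin r) :
    CSt I (1 + vecMulVec (Pi.single i 1) (T i)) := by
  refine (cSt_one I).add fun k hk j hj => ?_
  rw [vecMulVec_apply]
  by_cases h : k = i
  · rw [h] at hk ⊢
    rw [hT i hk j hj, mul_zero]
  · rw [Pi.single_eq_of_ne h, zero_mul]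

/-! ### subspaces stable under the virtual ends -/

/-- Vectors of a stable subspace, in an eigenbasis. -/
theorem mem_iff_coeff {W : Submodule ℂ (Fin r → ℂ)} {M P : Mat r ℂ} {ω : Fin r → ℂ}
    (hω : Function.Injective ω) (hP : IsUnit P.det) (h : M * P = P * diagonal ω)
    (hW : ∀ v ∈ W, M *ᵥ v ∈ W) (I : Finset (Fin r)) (hI : ∀ i, i ∈ I ↔ P.col i ∈ W)
    (v : Fin r → ℂ) : v ∈ W ↔ ∀ i, i ∉ I → (P⁻¹ *ᵥ v) i = 0 := by
  constructor
  · intro hv i hi
    by_contra hne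
    exact hi ((hI i).2 (mem_of_coeff hω hP h hW v hv i hne))
  · intro hv
    have h2 : v = ∑ i, (P⁻¹ *ᵥ v) i • P.col i := by
      have h3 : v = P *ᵥ (P⁻¹ *ᵥ v) := by
        rw [Matrix.mulVec_mulVec, Matrix.mul_nonsing_inv P hP, Matrix.one_mulVec]
      conv_lhs => rw [h3]
      ext k
      rw [Matrix.mulVec, dotProduct, Finset.sum_apply]
      refine Finset.sum_congr rfl fun i _ => ?_
      rw [Pi.smul_apply, smul_eq_mul, Matrix.col_apply, mul_comm]
    rw [h2]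
    refine Submodule.sum_mem _ fun i _ => ?_
    by_cases hi : i ∈ I
    · exact W.smul_mem _ ((hI i).1 hi)
    · rw [hv i hi, zero_smul]
      exact W.zero_mem

theorem exists_coord_of_stable {W : Submodule ℂ (Fin r → ℂ)} {E : Subgroup ℂˣ} {U L : Mat r ℂ}
    (hU : UpT U) (hU1 : ∀ i, U i i = 1) (hL : LoT L) (hLE : ∀ i, ∃ e ∈ E, (e : ℂ) = L i i)
    (Δ : Fin r → ℂ) (hΔ0 : ∀ i, Δ i ≠ 0)
    (hno : ∀ (I J : Finset (Fin r)), (∃ ε ∈ E, ∏ i ∈ I, Δ i = (ε : ℂ) * ∏ j ∈ J, Δ j) → I = J)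
    (l : List (Mat r ℂ)) (hrel : l.prod = U * L) (hlE : ∀ M ∈ l, EigIn E M)
    (hW0 : ∀ v ∈ W, (diagonal Δ * U⁻¹) *ᵥ v ∈ W) (hWl : ∀ M ∈ l, ∀ v ∈ W, M *ᵥ v ∈ W)
    (hW1 : ∀ v ∈ W, (L⁻¹ * diagonal fun i => (Δ i)⁻¹) *ᵥ v ∈ W) :
    ∃ I : Finset (Fin r), ∀ v, v ∈ W ↔ ∀ i, i ∉ I → v i = 0 := by
  classical
  have hL0 : ∀ i, L i i ≠ 0 := fun i => by
    obtain ⟨e, _, he⟩ := hLE i
    rw [← he]
    exact e.ne_zero
  have hU0 : ∀ i, U i i ≠ 0 := fun i => by rw [hU1]; exact one_ne_zero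
  have hUd : IsUnit U.det := by
    rw [hU.det, isUnit_iff_ne_zero, Finset.prod_ne_zero_iff]
    exact fun i _ => hU0 i
  have hLd : IsUnit L.det := by
    rw [hL.det, isUnit_iff_ne_zero, Finset.prod_ne_zero_iff]
    exact fun i _ => hL0 i
  have hinj : Function.Injective Δ := by
    intro i j hij
    have h1 := hno {i} {j} ⟨1, E.one_mem, by
      rw [Finset.prod_singleton, Finset.prod_singleton, hij, Units.val_one, one_mul]⟩
    exact Finset.singleton_inj.1 h1
  obtain ⟨b0, hb0⟩ : ∃ b0 : Mat r ℂ, b0 = diagonal Δ * U⁻¹ := ⟨_, rfl⟩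
  obtain ⟨b1, hb1⟩ : ∃ b1 : Mat r ℂ, b1 = L⁻¹ * diagonal fun i => (Δ i)⁻¹ := ⟨_, rfl⟩
  rw [← hb0] at hW0
  rw [← hb1] at hW1
  have hb0u : UpT b0 := by
    rw [hb0]
    exact (upT_diagonal Δ).mul (hU.inv hU0)
  have hb0d : ∀ i, b0 i i = Δ i := fun i => by
    rw [hb0, (upT_diagonal Δ).mul_diag (hU.inv hU0), Matrix.diagonal_apply_eq,
      inv_diag hU hU0, hU1, inv_one, mul_one]
  have hb1l : LoT b1 := by
    rw [hb1]
    exact (hL.inv hL0).mul (loT_diagonal _)
  have hb1d : ∀ i, b1 i i = (L i i)⁻¹ * (Δ i)⁻¹ := fun i => by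
    rw [hb1, (hL.inv hL0).mul_diag (loT_diagonal _), Matrix.diagonal_apply_eq,
      LoT.inv_diag hL hL0]
  have hinj1 : Function.Injective fun i => b1 i i := by
    intro i j hij
    simp only [hb1d] at hij
    rw [← mul_inv, ← mul_inv] at hij
    have h1 := inv_injective hij
    obtain ⟨e, he, he'⟩ := hLE i
    obtain ⟨e', he1, he1'⟩ := hLE j
    have h2 := hno {i} {j} ⟨e⁻¹ * e', E.mul_mem (E.inv_mem he) he1, by
      rw [Finset.prod_singleton, Finset.prod_singleton, Units.val_mul, Units.val_inv_eq_inv_val,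
        he', he1', mul_assoc, ← h1, ← mul_assoc, inv_mul_cancel₀ (hL0 i), one_mul]⟩
    exact Finset.singleton_inj.1 h2
  obtain ⟨P0, hP0u, hP0d, hP0⟩ := exists_diag_upT hb0u fun i j hij => by
    rw [hb0d, hb0d]
    exact isUnit_iff_ne_zero.2 (sub_ne_zero.2 fun h => hij (hinj h))
  obtain ⟨P1, hP1l, hP1d, hP1⟩ := exists_diag_loT hb1l fun i j hij =>
    isUnit_iff_ne_zero.2 (sub_ne_zero.2 fun h => hij (hinj1 h))
  have hP0D : IsUnit P0.det := by
    rw [hP0u.det, isUnit_iff_ne_zero, Finset.prod_ne_zero_iff]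
    exact fun i _ => by rw [hP0d]; exact one_ne_zero
  have hP1D : IsUnit P1.det := by
    rw [hP1l.det, isUnit_iff_ne_zero, Finset.prod_ne_zero_iff]
    exact fun i _ => by rw [hP1d]; exact one_ne_zero
  have hinj0 : Function.Injective fun i => b0 i i := by
    intro i j hij
    simp only [hb0d] at hij
    exact hinj hij
  obtain ⟨I, hI⟩ : ∃ I : Finset (Fin r), ∀ i, i ∈ I ↔ P0.col i ∈ W :=
    ⟨Finset.univ.filter fun i => P0.col i ∈ W, fun i => by simp⟩
  obtain ⟨J, hJ⟩ : ∃ J : Finset (Fin r), ∀ i, i ∈ J ↔ P1.col i ∈ W :=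
    ⟨Finset.univ.filter fun i => P1.col i ∈ W, fun i => by simp⟩
  have d0 := detOn_diag hinj0 hP0D hP0 hW0 I hI
  have d1 := detOn_diag hinj1 hP1D hP1 hW1 J hJ
  obtain ⟨e, he, dl⟩ := detOn_prod E l fun M hM => detOn_of_eigIn (hlE M hM) (hWl M hM)
  have hprod : b0 * l.prod * b1 = 1 := by
    rw [hrel, hb0, hb1]
    have h1 : U⁻¹ * (U * L) * L⁻¹ = 1 := by
      rw [← mul_assoc, Matrix.nonsing_inv_mul _ hUd, one_mul, Matrix.mul_nonsing_inv _ hLd]
    calc diagonal Δ * U⁻¹ * (U * L) * (L⁻¹ * diagonal fun i => (Δ i)⁻¹)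
        = diagonal Δ * (U⁻¹ * (U * L) * L⁻¹) * diagonal (fun i => (Δ i)⁻¹) := by
          simp only [mul_assoc]
      _ = 1 := by
          rw [h1, mul_one, Matrix.diagonal_mul_diagonal, ← Matrix.diagonal_one]
          congr 1
          funext i
          exact mul_inv_cancel₀ (hΔ0 i)
  have h1 := (d0.mul dl).mul d1
  rw [hprod] at h1
  have h2 := h1.unique detOn_one
  -- the index sets agree
  have hIJ : I = J := by
    choose θ hθE hθ using hLE
    refine hno I J ⟨e⁻¹ * ∏ j ∈ J, θ j, E.mul_mem (E.inv_mem he) (E.prod_mem fun j _ => hθE j), ?_⟩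
    simp only [hb0d, hb1d] at h2
    rw [Units.val_mul, Units.val_inv_eq_inv_val, Units.coe_prod]
    have h3 : (∏ j ∈ J, (L j j)⁻¹ * (Δ j)⁻¹) * (∏ j ∈ J, ((θ j : ℂ) * Δ j)) = 1 := by
      rw [← Finset.prod_mul_distrib]
      refine Finset.prod_eq_one fun j _ => ?_
      rw [hθ, mul_comm (L j j), ← mul_assoc, mul_assoc (L j j)⁻¹, inv_mul_cancel₀ (hΔ0 j), mul_one,
        inv_mul_cancel₀ (hL0 j)]
    have h4 : (∏ i ∈ I, Δ i) * (e : ℂ) = ∏ j ∈ J, ((θ j : ℂ) * Δ j) := by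
      have h5 : (∏ i ∈ I, Δ i) * (e : ℂ) * (∏ j ∈ J, (L j j)⁻¹ * (Δ j)⁻¹) *
          (∏ j ∈ J, ((θ j : ℂ) * Δ j)) = 1 * ∏ j ∈ J, ((θ j : ℂ) * Δ j) := by rw [h2]
      rwa [mul_assoc, h3, mul_one, one_mul] at h5
    rw [Finset.prod_mul_distrib] at h4
    rw [mul_assoc, ← h4, mul_comm (∏ i ∈ I, Δ i), ← mul_assoc, inv_mul_cancel₀ e.ne_zero, one_mul]
  subst hIJ
  have m0 := mem_iff_coeff hinj0 hP0D hP0 hW0 I hI
  have m1 := mem_iff_coeff hinj1 hP1D hP1 hW1 I hJ
  have hst : CSt I (P0⁻¹ * P1) := by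
    intro i hi j hj
    have h3 := (m0 _).1 ((hJ j).1 hj) i hi
    rw [Matrix.mul_apply]
    exact h3
  have hP00 : ∀ i, P0 i i ≠ 0 := fun i => by rw [hP0d]; exact one_ne_zero
  obtain ⟨-, s1⟩ := stab_UL (hP0u.inv hP00) (fun i => by
    rw [inv_diag hP0u hP00, hP0d, inv_one]; exact one_ne_zero) hP1l
    (fun i => by rw [hP1d]; exact one_ne_zero) I hst
  have s1' : CSt I P1 := s1
  refine ⟨I, fun v => ?_⟩
  rw [m1]
  constructor
  · intro h
    have h3 : v = P1 *ᵥ (P1⁻¹ *ᵥ v) := by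
      rw [Matrix.mulVec_mulVec, Matrix.mul_nonsing_inv _ hP1D, Matrix.one_mulVec]
    rw [h3]
    exact mulVec_mem_cSub (K := ℂ) s1' h
  · intro h
    exact mulVec_mem_cSub (K := ℂ) (s1'.inv hP1D) h

end Vale.Agent.P002R
end

section

/-!
# P002, genus 0, rank one classes: the tuple with virtual ends
-/

namespace Vale.Agent.P002R

open Matrix

variable {r : ℕ} {S T : Type*} [CommRing S] [CommRing T]

/-- The rows of the reflections, from the virtual ends. -/
def rT (s' δ' : S) (Δ' : Fin r → S) (B0 B1 : Mat r S) : Mat r S :=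
  s' • (diagonal Δ' * (δ' • B1.adjugate)) - diagonal Δ' * B0

/-- The inverses of the reflections. -/
def rS (a κ : S) (t : Fin r → S) (i : Fin r) : Mat r S :=
  a • (1 - κ • vecMulVec (Pi.single i 1) t)

/-- The tuple given by the tuple with virtual ends. -/
def rtup (m : ℕ) (s' δ' : S) (Δ' a κ : Fin r → S) (c : ℕ → Mat r S) (j : ℕ) : Mat r S :=
  if j < m + 1 then c (j + 1)
  else if h : j - (m + 1) < r then
    rS (a (Fin.rev ⟨j - (m + 1), h⟩)) (κ (Fin.rev ⟨j - (m + 1), h⟩))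
      (rT s' δ' Δ' (c 0) (c (m + 2)) (Fin.rev ⟨j - (m + 1), h⟩)) (Fin.rev ⟨j - (m + 1), h⟩)
  else 0

theorem rtup_lt {m : ℕ} (s' δ' : S) (Δ' a κ : Fin r → S) (c : ℕ → Mat r S) {j : ℕ}
    (h : j < m + 1) : rtup m s' δ' Δ' a κ c j = c (j + 1) := by
  rw [rtup, if_pos h]

theorem rtup_ge (m : ℕ) (s' δ' : S) (Δ' a κ : Fin r → S) (c : ℕ → Mat r S) (i : Fin r) :
    rtup m s' δ' Δ' a κ c (m + 1 + (Fin.rev i : ℕ)) =
      rS (a i) (κ i) (rT s' δ' Δ' (c 0) (c (m + 2)) i) i := by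
  have h1 : m + 1 + (Fin.rev i : ℕ) - (m + 1) < r := by
    rw [Nat.add_sub_cancel_left]
    exact (Fin.rev i).2
  have h2 : (⟨m + 1 + (Fin.rev i : ℕ) - (m + 1), h1⟩ : Fin r) = Fin.rev i := by
    ext
    exact Nat.add_sub_cancel_left _ _
  rw [rtup, if_neg (by omega), dif_pos h1, h2, Fin.rev_rev]

theorem smulM_map (φ : S →+* T) (c : S) (A : Mat r S) : (c • A).map φ = φ c • A.map φ := by
  ext i j
  rw [Matrix.map_apply, Matrix.smul_apply, Matrix.smul_apply, smul_eq_mul, smul_eq_mul, map_mul,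
    Matrix.map_apply]

theorem rT_map (φ : S →+* T) (s' δ' : S) (Δ' : Fin r → S) (B0 B1 : Mat r S) :
    (rT s' δ' Δ' B0 B1).map φ = rT (φ s') (φ δ') (fun i => φ (Δ' i)) (B0.map φ) (B1.map φ) := by
  have hd : (diagonal Δ').map φ = diagonal fun i => φ (Δ' i) := by
    rw [Matrix.diagonal_map (map_zero φ)]
  rw [rT, rT, Matrix.map_sub φ (map_sub φ), Matrix.map_mul, hd, smulM_map, Matrix.map_mul, hd,
    smulM_map, adjugate_map]

theorem rS_map (φ : S →+* T) (a κ : S) (t : Fin r → S) (i : Fin r) :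
    (rS a κ t i).map φ = rS (φ a) (φ κ) (fun j => φ (t j)) i := by
  ext k j
  rw [rS, rS, Matrix.map_apply, Matrix.smul_apply, Matrix.smul_apply, Matrix.sub_apply,
    Matrix.sub_apply, Matrix.smul_apply, Matrix.smul_apply, vecMulVec_apply, vecMulVec_apply,
    smul_eq_mul, smul_eq_mul, smul_eq_mul, smul_eq_mul, map_mul, map_sub, map_mul, map_mul]
  congr 2
  · rw [Matrix.one_apply, Matrix.one_apply]
    split_ifs
    · exact map_one φ
    · exact map_zero φ
  · congr 2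
    rw [Pi.single_apply, Pi.single_apply]
    split_ifs
    · exact map_one φ
    · exact map_zero φ

theorem rtup_map (φ : S →+* T) (m : ℕ) (s' δ' : S) (Δ' a κ : Fin r → S) (c : ℕ → Mat r S)
    (j : ℕ) : (rtup m s' δ' Δ' a κ c j).map φ =
      rtup m (φ s') (φ δ') (fun i => φ (Δ' i)) (fun i => φ (a i)) (fun i => φ (κ i))
        (fun j => (c j).map φ) j := by
  rw [rtup, rtup]
  split_ifs with h1 h2
  · rfl
  · rw [rS_map, ← rT_map]
    rfl
  · ext a b
    exact map_zero φ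

/-- The polynomial of the tuple. -/
theorem exists_rtup_poly {m : ℕ} (s' δ' : ℂ) (Δ' a κ : Fin r → ℂ) (β : Fin r → Fin r)
    (f : MvPolynomial (GenU 0 (m + 1 + r) × Fin r × Fin r) ℂ) :
    ∃ F : MvPolynomial (GenU 0 (m + 3) × Fin r × Fin r) ℂ, ∀ y : FU 0 (m + 3) →* (Mat r ℂ)ˣ,
      evalG y F = evalT (rtup m s' δ' Δ' a κ (cseq y)) f *
        ∏ i, rT s' δ' Δ' (cseq y 0) (cseq y (m + 2)) i (β i) := by
  obtain ⟨cg, hcg⟩ : ∃ cg : ℕ → Mat r (MvPolynomial (GenU 0 (m + 3) × Fin r × Fin r) ℂ),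
    cg = fun j => if h : j < m + 3 then
      Matrix.of fun a b => MvPolynomial.X (Sum.inr ⟨j, h⟩, (a, b)) else 1 := ⟨_, rfl⟩
  refine ⟨evalT (rtup m (MvPolynomial.C s') (MvPolynomial.C δ') (fun i => MvPolynomial.C (Δ' i))
    (fun i => MvPolynomial.C (a i)) (fun i => MvPolynomial.C (κ i)) cg) f *
    ∏ i, rT (MvPolynomial.C s') (MvPolynomial.C δ') (fun i => MvPolynomial.C (Δ' i))
      (cg 0) (cg (m + 2)) i (β i), fun y => ?_⟩
  have h1 : ∀ j, (cg j).map (evalG y) = cseq y j := by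
    intro j
    rw [hcg]
    by_cases h : j < m + 3
    · simp only [dif_pos h]
      ext a b
      rw [Matrix.map_apply, Matrix.of_apply, evalG_eqn, MvPolynomial.aeval_X, cseq, dif_pos h]
    · simp only [dif_neg h]
      rw [cseq, dif_neg h]
      exact Matrix.map_one _ (map_zero _) (map_one _)
  have h3 : ∀ z : ℂ, (evalG y : MvPolynomial (GenU 0 (m + 3) × Fin r × Fin r) ℂ →+* ℂ)
      (MvPolynomial.C z) = z := fun z => (evalG y).commutes z
  have h4 : ∀ j, (rtup m (MvPolynomial.C s') (MvPolynomial.C δ') (fun i => MvPolynomial.C (Δ' i))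
      (fun i => MvPolynomial.C (a i)) (fun i => MvPolynomial.C (κ i)) cg j).map (evalG y) =
      rtup m s' δ' Δ' a κ (cseq y) j := by
    intro j
    have h5 := rtup_map (evalG y : MvPolynomial (GenU 0 (m + 3) × Fin r × Fin r) ℂ →+* ℂ) m
      (MvPolynomial.C s') (MvPolynomial.C δ') (fun i => MvPolynomial.C (Δ' i))
      (fun i => MvPolynomial.C (a i)) (fun i => MvPolynomial.C (κ i)) cg j
    simp only [h3] at h5
    have h6 : (fun j => (cg j).map (evalG y :
        MvPolynomial (GenU 0 (m + 3) × Fin r × Fin r) ℂ →+* ℂ)) = cseq y := funext h1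
    rw [h6] at h5
    exact h5
  have h7 : (rT (MvPolynomial.C s') (MvPolynomial.C δ') (fun i => MvPolynomial.C (Δ' i))
      (cg 0) (cg (m + 2))).map (evalG y) = rT s' δ' Δ' (cseq y 0) (cseq y (m + 2)) := by
    have h5 := rT_map (evalG y : MvPolynomial (GenU 0 (m + 3) × Fin r × Fin r) ℂ →+* ℂ)
      (MvPolynomial.C s') (MvPolynomial.C δ') (fun i => MvPolynomial.C (Δ' i)) (cg 0) (cg (m + 2))
    simp only [h3] at h5
    have h8 : ∀ j, (cg j).map (evalG y :
        MvPolynomial (GenU 0 (m + 3) × Fin r × Fin r) ℂ →+* ℂ) = cseq y j := h1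
    rw [h8, h8] at h5
    exact h5
  rw [map_mul, evalT_map, map_prod]
  simp only [h4]
  congr 1
  refine Finset.prod_congr rfl fun i _ => ?_
  rw [← h7]
  rfl

/-! ### from the virtual ends to the reflections -/

theorem prod_smul_ofFn {n : ℕ} (s : Fin n → S) (A : Fin n → Mat r S) :
    (List.ofFn fun i => s i • A i).prod = (∏ i, s i) • (List.ofFn A).prod := by
  induction n with
  | zero => simp
  | succ n ih =>
    rw [List.ofFn_succ, List.prod_cons, ih, List.ofFn_succ, List.prod_cons, Fin.prod_univ_succ,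
      smul_mul_smul_comm]

theorem prod_single_ofFn (s : Fin r → S) (A : Mat r S) :
    (List.ofFn fun i => s i • (1 + vecMulVec (Pi.single i 1) (A i))).prod =
      (∏ i, s i) • (1 + dU A * A) := by
  rw [prod_smul_ofFn]
  have h1 := prod_refl (1 : Mat r S) A
  rw [Matrix.one_mul, Matrix.mul_one] at h1
  rw [← h1]
  congr 3
  funext i
  congr 2
  funext a
  rw [Matrix.one_apply, Pi.single_apply]

theorem upS_sub {L V : Mat r S} (hL : LoT L) (hV : UpT V) (hV1 : ∀ i, V i i = 1) (z : S) :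
    upS (z • L - V) = 1 - V := by
  ext i j
  rw [upS_apply, Matrix.sub_apply, Matrix.smul_apply, Matrix.sub_apply, Matrix.one_apply]
  by_cases hij : i < j
  · rw [if_pos hij, hL i j hij, if_neg hij.ne, smul_zero]
  · rw [if_neg hij]
    rcases eq_or_lt_of_le (not_lt.1 hij) with h2 | h2
    · rw [← h2, if_pos rfl, hV1, sub_self]
    · rw [if_neg h2.ne', hV i j h2, sub_zero]

theorem smul_one_add_dU {L V : Mat r ℂ} (hL : LoT L) (hV : UpT V) (hV1 : ∀ i, V i i = 1) {s : ℂ}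
    (hs : s ≠ 0) {P : Mat r ℂ} (hP : V * P = L) :
    s • (1 + dU (s⁻¹ • L - V) * (s⁻¹ • L - V)) = P := by
  have h1 := dU_mul (s⁻¹ • L - V)
  rw [upS_sub hL hV hV1, sub_sub_cancel] at h1
  have h2 : dU (s⁻¹ • L - V) * (s⁻¹ • L - V) = s⁻¹ • P - 1 := by
    rw [Matrix.mul_sub, h1, mul_smul_comm]
    congr 2
    conv_lhs => rw [← hP, ← Matrix.mul_assoc]
    rw [hP, h1, Matrix.one_mul]
  rw [h2, add_sub_cancel, smul_smul, mul_inv_cancel₀ hs, one_smul]

theorem rT_spec {s κ Δ : Fin r → ℂ} (hs : ∀ i, s i ≠ 0) (hκ : ∀ i, κ i ≠ 0) (hΔ : ∀ i, Δ i ≠ 0)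
    {B0 B1 P : Mat r ℂ} (h0 : UpT B0) (h0d : ∀ i, B0 i i = Δ i) (h1 : LoT B1)
    (h1d : ∀ i, B1 i i = ((∏ l, s l) * κ i * Δ i)⁻¹) (hP : B0 * P * B1 = 1) :
    (∀ i, 1 + rT (∏ l, s l)⁻¹ (∏ i, ((∏ l, s l) * κ i * Δ i)) (fun i => (Δ i)⁻¹) B0 B1 i i = κ i) ∧
    P = (List.ofFn fun i => s i • (1 + vecMulVec (Pi.single i 1)
      (rT (∏ l, s l)⁻¹ (∏ i, ((∏ l, s l) * κ i * Δ i)) (fun i => (Δ i)⁻¹) B0 B1 i))).prod := by
  obtain ⟨sP, hsP⟩ : ∃ sP, sP = ∏ l, s l := ⟨_, rfl⟩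
  have hsP0 : sP ≠ 0 := by
    rw [hsP, Finset.prod_ne_zero_iff]
    exact fun i _ => hs i
  rw [prod_single_ofFn]
  rw [← hsP] at h1d ⊢
  obtain ⟨δ, hδ⟩ : ∃ δ, δ = ∏ i, (sP * κ i * Δ i) := ⟨_, rfl⟩
  rw [← hδ]
  have hδ1 : δ * B1.det = 1 := by
    rw [h1.det, hδ, ← Finset.prod_mul_distrib]
    refine Finset.prod_eq_one fun i _ => ?_
    rw [h1d]
    exact mul_inv_cancel₀ (mul_ne_zero (mul_ne_zero hsP0 (hκ i)) (hΔ i))
  have hB1 : B1 * (δ • B1.adjugate) = 1 := by
    rw [mul_smul_comm, Matrix.mul_adjugate, smul_smul, hδ1, one_smul]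
  have hB1' : δ • B1.adjugate = B1⁻¹ := (Matrix.inv_eq_right_inv hB1).symm
  have hB10 : ∀ i, B1 i i ≠ 0 := fun i => by
    rw [h1d]
    exact inv_ne_zero (mul_ne_zero (mul_ne_zero hsP0 (hκ i)) (hΔ i))
  have hPB : B0 * P = δ • B1.adjugate := by
    calc B0 * P = B0 * P * (B1 * (δ • B1.adjugate)) := by rw [hB1, Matrix.mul_one]
      _ = (B0 * P * B1) * (δ • B1.adjugate) := by simp only [Matrix.mul_assoc]
      _ = _ := by rw [hP, Matrix.one_mul]
  obtain ⟨V, hV⟩ : ∃ V : Mat r ℂ, V = diagonal (fun i => (Δ i)⁻¹) * B0 := ⟨_, rfl⟩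
  obtain ⟨L, hL⟩ : ∃ L : Mat r ℂ, L = diagonal (fun i => (Δ i)⁻¹) * (δ • B1.adjugate) := ⟨_, rfl⟩
  have hVu : UpT V := by
    rw [hV]
    exact (upT_diagonal _).mul h0
  have hV1 : ∀ i, V i i = 1 := fun i => by
    rw [hV, (upT_diagonal _).mul_diag h0, Matrix.diagonal_apply_eq, h0d, inv_mul_cancel₀ (hΔ i)]
  have hLl : LoT L := by
    rw [hL, hB1']
    exact (loT_diagonal _).mul (h1.inv hB10)
  have hLd : ∀ i, L i i = sP * κ i := fun i => by
    rw [hL, hB1', (loT_diagonal _).mul_diag (h1.inv hB10), Matrix.diagonal_apply_eq,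
      LoT.inv_diag h1 hB10, h1d, inv_inv, mul_comm, mul_assoc, mul_inv_cancel₀ (hΔ i), mul_one]
  have hVP : V * P = L := by
    rw [hV, hL, Matrix.mul_assoc, hPB]
  have hT : rT sP⁻¹ δ (fun i => (Δ i)⁻¹) B0 B1 = sP⁻¹ • L - V := by rw [rT, ← hL, ← hV]
  rw [hT]
  refine ⟨fun i => ?_, (smul_one_add_dU hLl hVu hV1 hsP0 hVP).symm⟩
  rw [Matrix.sub_apply, Matrix.smul_apply, hLd, hV1, smul_eq_mul, ← mul_assoc,
    inv_mul_cancel₀ hsP0, one_mul, add_sub_cancel]

end Vale.Agent.P002R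
end
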