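import Mathlib
import Vale.Agent.P002.Bdl.B11
import Vale.Agent.P002.Bdl.B17
import Vale.Agent.P002.Bdl.B8
import Vale.Agent.P002.Bdl.B3
import Vale.Agent.P002.Bdl.B13
import Vale.Agent.P002.Bdl.B12
import Vale.Agent.P002.Bdl.B14
import Vale.Agent.P002.Bdl.B2
import Vale.Agent.P002.Bdl.B1

set_option linter.all false

section

/-!
# Density of the integral points of an arbitrary conjugacy class
-/

namespace Vale.Agent.P002G

open Matrix
open Vale.Agent.P002R (UpT LoT upT_one loT_one)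

variable {n m p : ℕ} {S R : Type*} [CommRing S] [CommRing R]

/-- A test for the rank. -/
theorem exists_test (A g0 : Matrix (Fin (m + p)) (Fin (m + p)) ℂ) (W' : Matrix (Fin m) (Fin m) ℂ)
    (Y' : Matrix (Fin p) (Fin m) ℂ) (hg0 : IsUnit g0) (hA : A * g0 = g0 * blk W' 0 Y' 0)
    (hinj : ∀ v, W' *ᵥ v = 0 → Y' *ᵥ v = 0 → v = 0) :
    ∃ E : Matrix (Fin (m + p)) (Fin (m + p)) ℂ → ℂ, IsPoly E ∧ E A ≠ 0 ∧
      ∀ (g g' : Matrix (Fin (m + p)) (Fin (m + p)) ℂ) (W : Matrix (Fin m) (Fin m) ℂ)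
        (Y : Matrix (Fin p) (Fin m) ℂ), E (g * blk W 0 Y 0 * g') ≠ 0 →
        ∀ v, W *ᵥ v = 0 → Y *ᵥ v = 0 → v = 0 := by
  have hgd := (Matrix.isUnit_iff_isUnit_det _).1 hg0
  obtain ⟨P, hP⟩ : ∃ P : Matrix (Fin (m + p)) (Fin m) ℂ,
      P = Matrix.of fun i j => if i = Fin.castAdd p j then 1 else 0 := ⟨_, rfl⟩
  obtain ⟨Q, hQ⟩ : ∃ Q : Matrix (Fin m) (Fin (m + p)) ℂ,
      Q = Matrix.of fun i j => if j = Fin.castAdd p i then 1 else 0 := ⟨_, rfl⟩
  have hPm : ∀ B : Matrix (Fin (m + p)) (Fin (m + p)) ℂ, ∀ i j,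
      (B * P) i j = B i (Fin.castAdd p j) := by
    intro B i j
    rw [Matrix.mul_apply, hP]
    simp
  have hBP : ∀ (W : Matrix (Fin m) (Fin m) ℂ) (Y : Matrix (Fin p) (Fin m) ℂ),
      blk W 0 Y 0 * P * Q = blk W 0 Y 0 := by
    intro W Y
    ext i j
    rw [Matrix.mul_apply]
    simp only [hPm]
    refine Fin.addCases (fun j => ?_) (fun j => ?_) j
    · rw [Finset.sum_eq_single j]
      · rw [hQ, Matrix.of_apply, if_pos rfl, mul_one]
      · intro k _ hk
        rw [hQ, Matrix.of_apply, if_neg, mul_zero]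
        exact fun h => hk (Fin.castAdd_injective m p h).symm
      · intro h; exact absurd (Finset.mem_univ _) h
    · rw [Finset.sum_eq_zero]
      · refine Fin.addCases (fun i => ?_) (fun i => ?_) i
        · rw [blk_apply₁₂]; rfl
        · rw [blk_apply₂₂]; rfl
      · intro k _
        rw [hQ, Matrix.of_apply, if_neg, mul_zero]
        intro h
        have := congrArg Fin.val h
        rw [Fin.val_natAdd, Fin.val_castAdd] at this
        have := k.2
        omega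
  have hinj' : ∀ (W : Matrix (Fin m) (Fin m) ℂ) (Y : Matrix (Fin p) (Fin m) ℂ) v,
      (blk W 0 Y 0 * P) *ᵥ v = 0 ↔ W *ᵥ v = 0 ∧ Y *ᵥ v = 0 := by
    intro W Y v
    have h1 : ∀ i, ((blk W 0 Y 0 * P) *ᵥ v) (Fin.castAdd p i) = (W *ᵥ v) i := by
      intro i
      rw [Matrix.mulVec, Matrix.mulVec, dotProduct, dotProduct]
      refine Finset.sum_congr rfl fun j _ => ?_
      rw [hPm, blk_apply₁₁]
    have h2 : ∀ i, ((blk W 0 Y 0 * P) *ᵥ v) (Fin.natAdd m i) = (Y *ᵥ v) i := by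
      intro i
      rw [Matrix.mulVec, Matrix.mulVec, dotProduct, dotProduct]
      refine Finset.sum_congr rfl fun j _ => ?_
      rw [hPm, blk_apply₂₁]
    constructor
    · intro h
      refine ⟨funext fun i => ?_, funext fun i => ?_⟩
      · rw [← h1, h]; rfl
      · rw [← h2, h]; rfl
    · rintro ⟨h3, h4⟩
      ext i
      refine Fin.addCases (fun i => ?_) (fun i => ?_) i
      · rw [h1, h3]; rfl
      · rw [h2, h4]; rfl
  -- a left inverse
  obtain ⟨N, hN⟩ : ∃ N : Matrix (Fin m) (Fin (m + p)) ℂ, N * (blk W' 0 Y' 0 * P) = 1 := by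
    obtain ⟨f, hf⟩ := LinearMap.exists_leftInverse_of_injective
      (blk W' 0 Y' 0 * P).mulVecLin (by
        rw [LinearMap.ker_eq_bot']
        intro v hv
        rw [Matrix.mulVecLin_apply] at hv
        have := (hinj' W' Y' v).1 hv
        exact hinj v this.1 this.2)
    refine ⟨LinearMap.toMatrix' f, ?_⟩
    apply Matrix.ext_of_mulVec_single
    intro i
    rw [← Matrix.mulVec_mulVec, Matrix.one_mulVec]
    have h1 := LinearMap.congr_fun hf (Pi.single i 1)
    rw [LinearMap.comp_apply, Matrix.mulVecLin_apply] at h1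
    conv_rhs => rw [← LinearMap.id_apply (R := ℂ) (Pi.single i 1 : Fin m → ℂ), ← h1]
    rw [← Matrix.toLin'_apply, Matrix.toLin'_toMatrix']
  refine ⟨fun Z => (N * g0⁻¹ * Z * (g0 * P)).det, ?_, ?_, ?_⟩
  · have hid : PolyMap fun g : Matrix (Fin (m + p)) (Fin (m + p)) ℂ => g :=
      polyMap_linear LinearMap.id
    exact isPoly_det (IsPoly.matrix_mul (IsPoly.matrix_mul (polyMap_const _) hid)
      (polyMap_const _))
  · have h1 : N * g0⁻¹ * A * (g0 * P) = 1 := by
      rw [← hN, Matrix.mul_assoc, ← Matrix.mul_assoc A, hA, Matrix.mul_assoc N,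
        Matrix.mul_assoc g0, ← Matrix.mul_assoc g0⁻¹, Matrix.nonsing_inv_mul _ hgd,
        Matrix.one_mul]
    beta_reduce
    rw [h1, Matrix.det_one]
    exact one_ne_zero
  · intro g g' W Y h v hv1 hv2
    have h1 : N * g0⁻¹ * (g * blk W 0 Y 0 * g') * (g0 * P) =
        N * g0⁻¹ * g * (blk W 0 Y 0 * P) * (Q * g' * (g0 * P)) := by
      conv_lhs => rw [← hBP W Y]
      simp only [Matrix.mul_assoc]
    beta_reduce at h
    rw [h1, Matrix.det_mul] at h
    have h2 := left_ne_zero_of_mul h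
    apply Matrix.eq_zero_of_mulVec_eq_zero h2
    rw [← Matrix.mulVec_mulVec, (hinj' W Y v).2 ⟨hv1, hv2⟩, Matrix.mulVec_zero]

/-- Conjugate matrices. -/
def Cj (A B : Matrix (Fin n) (Fin n) ℂ) : Prop :=
  ∃ g : Matrix (Fin n) (Fin n) ℂ, IsUnit g ∧ g * A = B * g

theorem Cj.symm {A B : Matrix (Fin n) (Fin n) ℂ} (h : Cj A B) : Cj B A := by
  obtain ⟨g, hg, h⟩ := h
  have hgd := (Matrix.isUnit_iff_isUnit_det _).1 hg
  refine ⟨g⁻¹, Matrix.isUnit_nonsing_inv_iff.2 hg, ?_⟩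
  calc g⁻¹ * B = g⁻¹ * (B * g) * g⁻¹ := by
        rw [Matrix.mul_assoc, Matrix.mul_assoc, Matrix.mul_nonsing_inv _ hgd, Matrix.mul_one]
    _ = A * g⁻¹ := by rw [← h, ← Matrix.mul_assoc, Matrix.nonsing_inv_mul _ hgd, Matrix.one_mul]

theorem Cj.trans {A B C : Matrix (Fin n) (Fin n) ℂ} (h : Cj A B) (h' : Cj B C) : Cj A C := by
  obtain ⟨g, hg, h⟩ := h
  obtain ⟨g', hg', h'⟩ := h'
  refine ⟨g' * g, hg'.mul hg, ?_⟩
  rw [Matrix.mul_assoc, h, ← Matrix.mul_assoc, h', Matrix.mul_assoc]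

/-- Conjugacy of the values of the chart. -/
theorem cj_chZ (ζ : ℂ) (W0 W : Matrix (Fin m) (Fin m) ℂ) (Y0 Y : Matrix (Fin p) (Fin m) ℂ)
    (x : Matrix (Fin m) (Fin p) ℂ) (hW : Cj W0 W)
    (h0 : ∀ v, (W0 - 1) *ᵥ v = 0 → Y0 *ᵥ v = 0 → v = 0)
    (h1 : ∀ v, (W - 1) *ᵥ v = 0 → Y *ᵥ v = 0 → v = 0) :
    Cj (ζ • blk W0 0 Y0 1) (chZ ζ W x Y) := by
  obtain ⟨a, ha, haW⟩ := hW
  have had := (Matrix.isUnit_iff_isUnit_det _).1 ha
  obtain ⟨g, hg, hgW⟩ := conj_of_inj W0 Y0 (Y * a) h0 (by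
    intro v hv hv'
    have h2 : a *ᵥ v = 0 := by
      apply h1
      · have h3 : (W - 1) * a = a * (W0 - 1) := by
          rw [Matrix.sub_mul, Matrix.mul_sub, ← haW, Matrix.one_mul, Matrix.mul_one]
        rw [Matrix.mulVec_mulVec, h3, ← Matrix.mulVec_mulVec, hv, Matrix.mulVec_zero]
      · rw [Matrix.mulVec_mulVec, hv']
    have h3 : a⁻¹ *ᵥ (a *ᵥ v) = 0 := by rw [h2, Matrix.mulVec_zero]
    rwa [Matrix.mulVec_mulVec, Matrix.nonsing_inv_mul _ had, Matrix.one_mulVec] at h3)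
  -- the matrix `blk 1 (-x) 0 1 * blk a 0 0 1 * g`
  have h2 : IsUnit (blk (1 : Matrix (Fin m) (Fin m) ℂ) (-x) 0 (1 : Matrix (Fin p) (Fin p) ℂ) *
      blk a 0 0 1) := by
    rw [Matrix.isUnit_iff_isUnit_det, Matrix.det_mul, det_blk', det_blk, Matrix.det_one,
      Matrix.det_one]
    simpa using had
  refine ⟨blk 1 (-x) 0 1 * blk a 0 0 1 * g, h2.mul hg, ?_⟩
  have h3 := conj_chZ ζ W0 (Y * a) x a ha (0 : Matrix (Fin p) (Fin m) ℂ)
    (1 : Matrix (Fin p) (Fin p) ℂ)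
  rw [Matrix.zero_mul, zero_add, sub_zero, Matrix.one_mul, Matrix.mul_assoc Y,
    Matrix.mul_nonsing_inv _ had, Matrix.mul_one, haW, Matrix.mul_assoc W,
    Matrix.mul_nonsing_inv _ had, Matrix.mul_one] at h3
  rw [Matrix.mul_assoc, Matrix.mul_smul, hgW, ← Matrix.smul_mul, ← Matrix.mul_assoc, h3,
    Matrix.mul_assoc]

theorem chZ_sub (ζ : ℂ) (W : Matrix (Fin m) (Fin m) ℂ) (Y : Matrix (Fin p) (Fin m) ℂ)
    (x : Matrix (Fin m) (Fin p) ℂ) :
    chZ ζ W x Y - ζ • 1 = (ζ • blk 1 (-x) 0 1) * blk (W - 1) 0 Y 0 * blk 1 x 0 1 := by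
  have h1 : blk (1 : Matrix (Fin m) (Fin m) ℂ) (-x) 0 (1 : Matrix (Fin p) (Fin p) ℂ) *
      blk 1 x 0 1 = 1 := by
    rw [blk_mul]
    simp only [Matrix.mul_zero, Matrix.zero_mul, add_zero, zero_add, Matrix.one_mul,
      Matrix.mul_one, add_neg_cancel]
    exact blk_one
  have h2 : blk W 0 Y 1 = 1 + blk (W - 1) 0 Y 0 := by
    rw [← blk_one]
    ext i j
    rw [Matrix.add_apply]
    refine Fin.addCases (fun i => ?_) (fun i => ?_) i <;>
      refine Fin.addCases (fun j => ?_) (fun j => ?_) j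
    · rw [blk_apply₁₁, blk_apply₁₁, blk_apply₁₁, Matrix.sub_apply]; ring
    · rw [blk_apply₁₂, blk_apply₁₂, blk_apply₁₂]; simp
    · rw [blk_apply₂₁, blk_apply₂₁, blk_apply₂₁]; simp
    · rw [blk_apply₂₂, blk_apply₂₂, blk_apply₂₂]; simp
  rw [chZ, h2, Matrix.mul_add, Matrix.add_mul, Matrix.mul_one, h1, smul_add, Matrix.smul_mul,
    Matrix.smul_mul]
  abel

/-- Eigenvalues. -/
theorem isRoot_iff (A : Matrix (Fin n) (Fin n) ℂ) (z : ℂ) :
    A.charpoly.IsRoot z ↔ (A - z • 1).det = 0 := by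
  rw [Polynomial.IsRoot.def, Matrix.eval_charpoly, Matrix.scalar_apply,
    ← Matrix.smul_one_eq_diagonal, ← neg_sub,
    Matrix.det_neg, mul_eq_zero, or_iff_right (pow_ne_zero _ (neg_ne_zero.2 one_ne_zero))]

/-- **Density of the integral points of a conjugacy class** in the cell, with a modulus. -/
theorem totCell (φ : R →+* ℂ) (u : Rˣ) (hu : ∀ k : ℕ, 0 < k → φ u ^ k ≠ 1) (D : R)
    (hD : ∃ M : ℕ, 0 < M ∧ D ∣ (u : R) ^ M - 1) : ∀ (n : ℕ) (J : Matrix (Fin n) (Fin n) ℂ)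
    (_ : IsUnit J) (_ : ∀ z, J.charpoly.IsRoot z → ∃ e : Rˣ, φ e = z)
    (F : Matrix (Fin n) (Fin n) ℂ → ℂ) (_ : IsPoly F)
    (_ : ∀ Z : Matrix (Fin n) (Fin n) R, InC Z → (∀ i j, j < i → D ∣ Z i j) →
      Cj J (Z.map φ) → F (Z.map φ) = 0)
    (g : Matrix (Fin n) (Fin n) ℂ) (_ : IsUnit g), F (g * J * g⁻¹) = 0 := by
  intro n
  induction n using Nat.strong_induction_on with
  | h n ih =>
  intro J hJu hJ F hF h
  rcases Nat.eq_zero_or_pos n with h0 | h0
  · subst h0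
    intro g _
    rw [Subsingleton.elim (g * J * g⁻¹) ((1 : Matrix (Fin 0) (Fin 0) R).map φ)]
    apply h 1 inC_one (fun i => i.elim0)
    exact ⟨1, isUnit_one, Subsingleton.elim _ _⟩
  -- an eigenvalue
  obtain ⟨ζ, hζ⟩ := IsAlgClosed.exists_root J.charpoly (by
    rw [Matrix.charpoly_degree_eq_dim, Fintype.card_fin]
    exact_mod_cast h0.ne')
  obtain ⟨e, he⟩ := hJ ζ hζ
  have hζ0 : ζ ≠ 0 := by rw [← he]; exact (e.isUnit.map φ).ne_zero
  obtain ⟨p, hp⟩ : ∃ p, Module.finrank ℂ (LinearMap.ker (J - ζ • 1).mulVecLin) = p := ⟨_, rfl⟩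
  have hp0 : 0 < p := by
    rw [← hp]
    apply Module.finrank_pos_iff_exists_ne_zero.2
    obtain ⟨v, hv0, hv⟩ := Matrix.exists_mulVec_eq_zero_iff.2 ((isRoot_iff J ζ).1 hζ)
    exact ⟨⟨v, by rw [LinearMap.mem_ker, Matrix.mulVecLin_apply]; exact hv⟩,
      fun h => hv0 (congrArg Subtype.val h)⟩
  have hpn : p ≤ n := by
    rw [← hp]
    refine (Submodule.finrank_le _).trans ?_
    rw [Module.finrank_fin_fun]
  obtain ⟨m, rfl⟩ : ∃ m, n = m + p := ⟨n - p, by omega⟩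
  obtain ⟨g0, W', Y', hg0, hA, hinj⟩ := adapted _ hp
  have hg0d := (Matrix.isUnit_iff_isUnit_det _).1 hg0
  obtain ⟨E, hE, hEA, hEt⟩ := exists_test _ g0 W' Y' hg0 hA hinj
  obtain ⟨W0, hW0⟩ : ∃ W0, W0 = 1 + ζ⁻¹ • W' := ⟨_, rfl⟩
  obtain ⟨Y0, hY0⟩ : ∃ Y0, Y0 = ζ⁻¹ • Y' := ⟨_, rfl⟩
  have hB0 : ζ • blk W0 0 Y0 1 = ζ • 1 + blk W' 0 Y' 0 := by
    rw [← blk_one, hW0, hY0]
    ext i j
    rw [Matrix.smul_apply, Matrix.add_apply, Matrix.smul_apply]
    refine Fin.addCases (fun i => ?_) (fun i => ?_) i <;>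
      refine Fin.addCases (fun j => ?_) (fun j => ?_) j
    · rw [blk_apply₁₁, blk_apply₁₁, blk_apply₁₁, Matrix.add_apply, Matrix.smul_apply]
      simp only [smul_eq_mul]
      field_simp
    · rw [blk_apply₁₂, blk_apply₁₂, blk_apply₁₂]; simp
    · rw [blk_apply₂₁, blk_apply₂₁, blk_apply₂₁, Matrix.smul_apply]
      simp only [smul_eq_mul]
      field_simp
      simp
    · rw [blk_apply₂₂, blk_apply₂₂, blk_apply₂₂]; simp
  have hJg : J * g0 = g0 * (ζ • blk W0 0 Y0 1) := by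
    rw [hB0, Matrix.mul_add, ← hA, Matrix.sub_mul, Matrix.mul_smul, Matrix.smul_mul,
      Matrix.mul_one, Matrix.one_mul]
    abel
  have hinj0 : ∀ v, (W0 - 1) *ᵥ v = 0 → Y0 *ᵥ v = 0 → v = 0 := by
    intro v hv1 hv2
    rw [hW0, add_sub_cancel_left, Matrix.smul_mulVec] at hv1
    rw [hY0, Matrix.smul_mulVec] at hv2
    exact hinj v ((smul_eq_zero.1 hv1).resolve_left (inv_ne_zero hζ0))
      ((smul_eq_zero.1 hv2).resolve_left (inv_ne_zero hζ0))
  have hcjJ : Cj (ζ • blk W0 0 Y0 1) J := ⟨g0, hg0, hJg.symm⟩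
  -- determinants
  have hdet : ∀ z : ℂ, (J - (ζ * z) • 1).det =
      ζ ^ (m + p) * ((W0 - z • 1).det * ((1 : Matrix (Fin p) (Fin p) ℂ) - z • 1).det) := by
    intro z
    have h1 : (J - (ζ * z) • 1) * g0 = g0 * (ζ • blk (W0 - z • 1) 0 Y0 (1 - z • 1)) := by
      have h2 : ζ • blk (W0 - z • 1) 0 Y0 (1 - z • 1) = ζ • blk W0 0 Y0 1 - (ζ * z) • 1 := by
        rw [← blk_one]
        ext i j
        rw [Matrix.smul_apply, Matrix.sub_apply, Matrix.smul_apply, Matrix.smul_apply]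
        refine Fin.addCases (fun i => ?_) (fun i => ?_) i <;>
          refine Fin.addCases (fun j => ?_) (fun j => ?_) j
        · rw [blk_apply₁₁, blk_apply₁₁, blk_apply₁₁, Matrix.sub_apply, Matrix.smul_apply]
          simp only [smul_eq_mul]
          ring
        · rw [blk_apply₁₂, blk_apply₁₂, blk_apply₁₂]; simp
        · rw [blk_apply₂₁, blk_apply₂₁, blk_apply₂₁]; simp
        · rw [blk_apply₂₂, blk_apply₂₂, blk_apply₂₂, Matrix.sub_apply, Matrix.smul_apply]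
          simp only [smul_eq_mul]
          ring
      rw [h2, Matrix.sub_mul, Matrix.mul_sub, hJg, Matrix.smul_mul, Matrix.one_mul,
        Matrix.mul_smul, Matrix.mul_smul, Matrix.mul_one]
    have h2 := congrArg Matrix.det h1
    rw [Matrix.det_mul, Matrix.det_mul, mul_comm, Matrix.det_smul, Fintype.card_fin,
      det_blk] at h2
    exact mul_left_cancel₀ hg0d.ne_zero h2
  have hW0u : IsUnit W0 := by
    have h1 := hdet 0
    rw [mul_zero, zero_smul, zero_smul, zero_smul, sub_zero, sub_zero, sub_zero, Matrix.det_one,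
      mul_one] at h1
    have h2 := ((Matrix.isUnit_iff_isUnit_det _).1 hJu).ne_zero
    rw [h1] at h2
    rw [Matrix.isUnit_iff_isUnit_det]
    exact isUnit_iff_ne_zero.2 (right_ne_zero_of_mul h2)
  have hW0r : ∀ z, W0.charpoly.IsRoot z → ∃ e : Rˣ, φ e = z := by
    intro z hz
    have h1 := hdet z
    rw [(isRoot_iff W0 z).1 hz, zero_mul, mul_zero] at h1
    obtain ⟨e', he'⟩ := hJ _ ((isRoot_iff J _).2 h1)
    refine ⟨e⁻¹ * e', ?_⟩
    have h2 : φ ((e⁻¹ : Rˣ) : R) * φ (e : R) = 1 := by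
      rw [← map_mul, Units.inv_mul, map_one]
    rw [Units.val_mul, map_mul, he', ← he, ← mul_assoc, h2, one_mul]
  -- the polynomial
  obtain ⟨G, hG⟩ : ∃ G : Matrix (Fin (m + p)) (Fin (m + p)) ℂ → ℂ,
      G = fun Z => E (Z - ζ • 1) * F Z := ⟨_, rfl⟩
  have hE' : IsPoly fun Z : Matrix (Fin (m + p)) (Fin (m + p)) ℂ => E (Z - ζ • 1) :=
    PolyMap.comp ((polyMap_linear LinearMap.id).sub (polyMap_const _)) hE
  have hGp : IsPoly G := by
    rw [hG]
    exact hE'.mul hF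
  -- integral `W`
  have step1 : ∀ W : Matrix (Fin m) (Fin m) R, InC W → (∀ i j, j < i → D ∣ W i j) →
      Cj W0 (W.map φ) → ∀ x Y, G (chZ ζ (W.map φ) x Y) = 0 := by
    intro W hW hWD hWc x Y
    obtain ⟨U, L, hU, hU1, hL, hL1, rfl⟩ := hW
    have hLu := (Matrix.isUnit_iff_isUnit_det _).1 (isUnit_of_loT hL hL1)
    have hlin1 : PolyMap fun z : Matrix (Fin m) (Fin p) ℂ × Matrix (Fin p) (Fin m) ℂ => z.1 :=
      polyMap_linear (LinearMap.fst ℂ (Matrix (Fin m) (Fin p) ℂ) (Matrix (Fin p) (Fin m) ℂ))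
    have hlin2 : PolyMap fun z : Matrix (Fin m) (Fin p) ℂ × Matrix (Fin p) (Fin m) ℂ => z.2 :=
      polyMap_linear (LinearMap.snd ℂ (Matrix (Fin m) (Fin p) ℂ) (Matrix (Fin p) (Fin m) ℂ))
    have key := pairs_dense φ u hu D hD
      (fun z : Matrix (Fin m) (Fin p) ℂ × Matrix (Fin p) (Fin m) ℂ =>
        G (chZ ζ ((U * L).map φ) ((L⁻¹).map φ * z.1) (z.2 * L.map φ)))
      ((polyMap_chZ (polyMap_const _) (IsPoly.matrix_mul (polyMap_const _) hlin1)
        (IsPoly.matrix_mul hlin2 (polyMap_const _)) ζ).comp hGp) ?_ (L.map φ * x)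
        (Y * (L⁻¹).map φ)
    · beta_reduce at key
      rw [← Matrix.mul_assoc, Matrix.mul_assoc Y, ← Matrix.map_mul, Matrix.nonsing_inv_mul _ hLu,
        Matrix.map_one φ (map_zero φ) (map_one φ), Matrix.one_mul, Matrix.mul_one] at key
      exact key
    · intro x' Y' hxY
      obtain ⟨h1, h2⟩ := chZ_inC e.isUnit hU hU1 hL hL1 D hWD hxY
      beta_reduce
      rw [← Matrix.map_mul, ← Matrix.map_mul, ← he, ← chZ_map, hG]
      beta_reduce
      by_cases hEz : E ((chZ (e : R) (U * L) (L⁻¹ * x') (Y' * L)).map φ - ζ • 1) = 0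
      · rw [hEz, zero_mul]
      · rw [h _ h1 h2, mul_zero]
        rw [chZ_map, he] at hEz ⊢
        rw [chZ_sub] at hEz
        exact hcjJ.symm.trans (cj_chZ ζ W0 _ Y0 _ _ hWc hinj0 (hEt _ _ _ _ hEz))
  -- arbitrary `W`
  have step2 : ∀ (x : Matrix (Fin m) (Fin p) ℂ) (Y : Matrix (Fin p) (Fin m) ℂ)
      (a : Matrix (Fin m) (Fin m) ℂ), IsUnit a → G (chZ ζ (a * W0 * a⁻¹) x Y) = 0 := by
    intro x Y
    exact ih m (by omega) W0 hW0u hW0r (fun W => G (chZ ζ W x Y))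
      ((polyMap_chZ (polyMap_linear LinearMap.id) (polyMap_const _) (polyMap_const _) ζ).comp hGp)
      fun W h1 h2 h3 => step1 W h1 h2 h3 x Y
  -- the orbit
  have hlin3 : PolyMap fun g : Matrix (Fin (m + p)) (Fin (m + p)) ℂ => g * g0 :=
    IsPoly.matrix_mul (polyMap_linear LinearMap.id) (polyMap_const _)
  apply orbit_irred J F (fun Z => E (Z - ζ • 1)) hF hE'
    (fun g => (Matrix.of fun i j => (g * g0) (Fin.natAdd m i) (Fin.natAdd m j) :
      Matrix (Fin p) (Fin p) ℂ).det)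
    (isPoly_det (polyMap_matrix fun i j => hlin3.entry _ _)) g0⁻¹ ?_ hEA
  · intro g hg hgd hgE
    obtain ⟨x, a, s, t, ha, hgg⟩ := exists_decomp (g * g0) (hg.mul hg0)
      (isUnit_iff_ne_zero.2 hgd)
    have h1 := conj_chZ ζ W0 Y0 x a ha s t
    rw [← hgg, Matrix.mul_assoc, ← hJg, ← Matrix.mul_assoc, ← Matrix.mul_assoc] at h1
    have h2 := hg0.mul_right_cancel h1
    have hgd' := (Matrix.isUnit_iff_isUnit_det _).1 hg
    have h3 : g * J * g⁻¹ = chZ ζ (a * W0 * a⁻¹) x ((s * W0 + t * Y0 - s) * a⁻¹) := by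
      rw [h2, Matrix.mul_assoc, Matrix.mul_nonsing_inv _ hgd', Matrix.mul_one]
    have h4 := step2 x ((s * W0 + t * Y0 - s) * a⁻¹) a ha
    rw [← h3, hG] at h4
    exact (mul_eq_zero.1 h4).resolve_left hgE
  · beta_reduce
    rw [Matrix.nonsing_inv_mul _ hg0d]
    have h1 : (Matrix.of fun i j => (1 : Matrix (Fin (m + p)) (Fin (m + p)) ℂ) (Fin.natAdd m i)
        (Fin.natAdd m j) : Matrix (Fin p) (Fin p) ℂ) = 1 := by
      ext i j
      rw [Matrix.of_apply, Matrix.one_apply, Matrix.one_apply]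
      simp
    rw [h1, Matrix.det_one]
    exact one_ne_zero

end Vale.Agent.P002G
end

section

/-!
# The density in the coordinates of the cell
-/

namespace Vale.Agent.P002G

open Matrix
open Vale.Agent.P002R (UpT LoT upT_one loT_one)

variable {n : ℕ} {R : Type*} [CommRing R]

/-- Functions of the coordinates that are rational functions of the matrix. -/
def IsQ (f : Matrix (Fin n) (Fin n) ℂ → ℂ) : Prop :=
  ∃ G N : Matrix (Fin n) (Fin n) ℂ → ℂ, IsPoly G ∧ IsPoly N ∧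
    ∀ X : Matrix (Fin n) (Fin n) ℂ, (∀ i, X i i ≠ 0) → N (zZ X) ≠ 0 ∧
      G (zZ X) = N (zZ X) * f X

theorem isQ_const (c : ℂ) : IsQ fun _ : Matrix (Fin n) (Fin n) ℂ => c :=
  ⟨fun _ => c, fun _ => 1, isPoly_const c, isPoly_const 1, fun X _ => ⟨one_ne_zero, by simp⟩⟩

theorem isQ_entry (i j : Fin n) : IsQ fun X : Matrix (Fin n) (Fin n) ℂ => zZ X i j :=
  ⟨fun Z => Z i j, fun _ => 1, (polyMap_linear LinearMap.id).entry i j, isPoly_const 1,
    fun X _ => ⟨one_ne_zero, by simp⟩⟩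

theorem IsQ.add {f g : Matrix (Fin n) (Fin n) ℂ → ℂ} (hf : IsQ f) (hg : IsQ g) :
    IsQ fun X => f X + g X := by
  obtain ⟨G, N, hG, hN, h⟩ := hf
  obtain ⟨G', N', hG', hN', h'⟩ := hg
  refine ⟨fun Z => G Z * N' Z + G' Z * N Z, fun Z => N Z * N' Z, (hG.mul hN').add (hG'.mul hN),
    hN.mul hN', fun X hX => ?_⟩
  obtain ⟨h1, h2⟩ := h X hX
  obtain ⟨h3, h4⟩ := h' X hX
  refine ⟨mul_ne_zero h1 h3, ?_⟩
  beta_reduce
  rw [h2, h4]
  ring

theorem IsQ.mul {f g : Matrix (Fin n) (Fin n) ℂ → ℂ} (hf : IsQ f) (hg : IsQ g) :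
    IsQ fun X => f X * g X := by
  obtain ⟨G, N, hG, hN, h⟩ := hf
  obtain ⟨G', N', hG', hN', h'⟩ := hg
  refine ⟨fun Z => G Z * G' Z, fun Z => N Z * N' Z, hG.mul hG', hN.mul hN', fun X hX => ?_⟩
  obtain ⟨h1, h2⟩ := h X hX
  obtain ⟨h3, h4⟩ := h' X hX
  refine ⟨mul_ne_zero h1 h3, ?_⟩
  beta_reduce
  rw [h2, h4]
  ring

theorem IsQ.sum {ι : Type*} (s : Finset ι) {f : ι → Matrix (Fin n) (Fin n) ℂ → ℂ}
    (hf : ∀ i ∈ s, IsQ (f i)) : IsQ fun X => ∑ i ∈ s, f i X := by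
  classical
  induction s using Finset.induction_on with
  | empty => simpa using isQ_const (n := n) 0
  | insert i s hi ih =>
    have h1 := (hf i (Finset.mem_insert_self i s)).add
      (ih fun j hj => hf j (Finset.mem_insert_of_mem hj))
    have h2 : (fun X => ∑ i ∈ insert i s, f i X) = fun X => f i X + ∑ i ∈ s, f i X :=
      funext fun X => Finset.sum_insert hi
    rw [h2]
    exact h1

theorem IsQ.congr {f g : Matrix (Fin n) (Fin n) ℂ → ℂ} (hf : IsQ f)
    (h : ∀ X : Matrix (Fin n) (Fin n) ℂ, (∀ i, X i i ≠ 0) → f X = g X) : IsQ g := by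
  obtain ⟨G, N, hG, hN, h'⟩ := hf
  exact ⟨G, N, hG, hN, fun X hX => ⟨(h' X hX).1, by rw [(h' X hX).2, h X hX]⟩⟩

theorem IsQ.inv {f : Matrix (Fin n) (Fin n) ℂ → ℂ} (hf : IsQ f)
    (h : ∀ X : Matrix (Fin n) (Fin n) ℂ, (∀ i, X i i ≠ 0) → f X ≠ 0) : IsQ fun X => (f X)⁻¹ := by
  obtain ⟨G, N, hG, hN, h'⟩ := hf
  refine ⟨N, G, hN, hG, fun X hX => ?_⟩
  obtain ⟨h1, h2⟩ := h' X hX
  have h3 := h X hX
  refine ⟨by rw [h2]; exact mul_ne_zero h1 h3, ?_⟩
  rw [h2, mul_assoc, mul_inv_cancel₀ h3, mul_one]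

theorem zZ_apply (X : Matrix (Fin n) (Fin n) ℂ) (i j : Fin n) :
    zZ X i j = ∑ k, (if i = k then 1 else if i < k then X i k else 0) *
      (if j ≤ k then X k j else 0) := rfl

/-- The coordinates are rational functions of the matrix. -/
theorem isQ_coord : ∀ (d : ℕ) (i j : Fin n), n ≤ max (i : ℕ) j + 1 + d →
    IsQ fun X : Matrix (Fin n) (Fin n) ℂ => X i j := by
  intro d
  induction d using Nat.strong_induction_on with
  | h d ih =>
  intro i j hd
  -- entries with larger index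
  have hlarge : ∀ a b : Fin n, max (i : ℕ) j < max (a : ℕ) b →
      IsQ fun X : Matrix (Fin n) (Fin n) ℂ => X a b := by
    intro a b hab
    have ha := a.2
    have hb := b.2
    exact ih (n - (max (a : ℕ) b + 1)) (by omega) a b (by omega)
  have hlow : ∀ a b : Fin n, b ≤ a → max (i : ℕ) j = a →
      IsQ fun X : Matrix (Fin n) (Fin n) ℂ => X a b := by
    intro a b hba hm
    have h1 : IsQ fun X : Matrix (Fin n) (Fin n) ℂ => zZ X a b +
        (-1) * ∑ k ∈ Finset.univ.filter (a < ·), X a k * X k b := by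
      refine (isQ_entry a b).add ((isQ_const (-1)).mul (IsQ.sum _ fun k hk => ?_))
      rw [Finset.mem_filter, Fin.lt_def] at hk
      have hk2 := hk.2
      exact (hlarge a k (by omega)).mul (hlarge k b (by omega))
    refine h1.congr fun X _ => ?_
    rw [zZ_apply, ← Finset.sum_filter_add_sum_filter_not Finset.univ (a < ·)]
    have h2 : ∑ k ∈ Finset.univ.filter (a < ·), (if a = k then 1 else if a < k then X a k else 0) *
        (if b ≤ k then X k b else 0) = ∑ k ∈ Finset.univ.filter (a < ·), X a k * X k b := by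
      refine Finset.sum_congr rfl fun k hk => ?_
      rw [Finset.mem_filter] at hk
      rw [if_neg hk.2.ne, if_pos hk.2, if_pos (hba.trans hk.2.le)]
    have h3 : ∑ k ∈ Finset.univ.filter (fun k => ¬ a < k),
        (if a = k then 1 else if a < k then X a k else 0) * (if b ≤ k then X k b else 0) =
        X a b := by
      rw [Finset.sum_eq_single a]
      · rw [if_pos rfl, if_pos hba, one_mul]
      · intro k hk hka
        rw [Finset.mem_filter] at hk
        rw [if_neg (Ne.symm hka), if_neg hk.2, zero_mul]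
      · intro h
        exfalso
        apply h
        rw [Finset.mem_filter]
        exact ⟨Finset.mem_univ _, lt_irrefl a⟩
    rw [h2, h3]
    ring
  rcases le_or_gt j i with hji | hij
  · exact hlow i j hji (by rw [Fin.le_def] at hji; omega)
  · -- upper entries
    have hjj : IsQ fun X : Matrix (Fin n) (Fin n) ℂ => X j j :=
      hlow j j le_rfl (by rw [Fin.lt_def] at hij; omega)
    have h1 : IsQ fun X : Matrix (Fin n) (Fin n) ℂ => (zZ X i j +
        (-1) * ∑ k ∈ Finset.univ.filter (j < ·), X i k * X k j) * (X j j)⁻¹ := by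
      refine ((isQ_entry i j).add ((isQ_const (-1)).mul (IsQ.sum _ fun k hk => ?_))).mul
        (hjj.inv fun X hX => hX j)
      rw [Finset.mem_filter, Fin.lt_def] at hk
      have hk2 := hk.2
      exact (hlarge i k (by omega)).mul (hlarge k j (by omega))
    refine h1.congr fun X hX => ?_
    rw [zZ_apply, ← Finset.sum_filter_add_sum_filter_not Finset.univ (j < ·)]
    have h2 : ∑ k ∈ Finset.univ.filter (j < ·), (if i = k then 1 else if i < k then X i k else 0) *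
        (if j ≤ k then X k j else 0) = ∑ k ∈ Finset.univ.filter (j < ·), X i k * X k j := by
      refine Finset.sum_congr rfl fun k hk => ?_
      rw [Finset.mem_filter] at hk
      have hik := hij.trans hk.2
      rw [if_neg hik.ne, if_pos hik, if_pos hk.2.le]
    have h3 : ∑ k ∈ Finset.univ.filter (fun k => ¬ j < k),
        (if i = k then 1 else if i < k then X i k else 0) * (if j ≤ k then X k j else 0) =
        X i j * X j j := by
      rw [Finset.sum_eq_single j]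
      · rw [if_neg hij.ne, if_pos hij, if_pos le_rfl]
      · intro k hk hkj
        rw [Finset.mem_filter] at hk
        rw [if_neg (fun h : j ≤ k => hk.2 (lt_of_le_of_ne h (Ne.symm hkj))), mul_zero]
      · intro h
        exfalso
        apply h
        rw [Finset.mem_filter]
        exact ⟨Finset.mem_univ _, lt_irrefl j⟩
    rw [h2, h3]
    have := hX j
    field_simp
    ring

/-- Polynomial functions of the coordinates are rational functions of the matrix. -/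
theorem IsPoly.isQ {F : Matrix (Fin n) (Fin n) ℂ → ℂ} (hF : IsPoly F) : IsQ F := by
  unfold IsPoly polyAlg at hF
  induction hF using Algebra.adjoin_induction with
  | mem f hf =>
    obtain ⟨l, rfl⟩ := hf
    have h1 : IsQ fun X : Matrix (Fin n) (Fin n) ℂ =>
        ∑ i, ∑ j, X i j * l (Matrix.single i j 1) :=
      IsQ.sum _ fun i _ => IsQ.sum _ fun j _ =>
        (isQ_coord (n := n) n i j (by omega)).mul (isQ_const _)
    refine h1.congr fun X _ => ?_
    conv_rhs => rw [Matrix.matrix_eq_sum_single X]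
    rw [map_sum]
    refine Finset.sum_congr rfl fun i _ => ?_
    rw [map_sum]
    refine Finset.sum_congr rfl fun j _ => ?_
    rw [← smul_eq_mul, ← map_smul, Matrix.smul_single, smul_eq_mul, mul_one]
  | algebraMap c => exact isQ_const c
  | add f g _ _ hf hg => exact hf.add hg
  | mul f g _ _ hf hg => exact hf.mul hg

/-- **Density in the coordinates of the cell.** -/
theorem totCoord (φ : R →+* ℂ) (u : Rˣ) (hu : ∀ k : ℕ, 0 < k → φ u ^ k ≠ 1) (D : R)
    (hD : ∃ M : ℕ, 0 < M ∧ D ∣ (u : R) ^ M - 1) {n : ℕ} (J : Matrix (Fin n) (Fin n) ℂ)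
    (hJu : IsUnit J) (hJ : ∀ z, J.charpoly.IsRoot z → ∃ e : Rˣ, φ e = z)
    (F : Matrix (Fin n) (Fin n) ℂ → ℂ) (hF : IsPoly F)
    (h : ∀ X : Matrix (Fin n) (Fin n) R, (∀ i, IsUnit (X i i)) → (∀ i j, j < i → D ∣ X i j) →
      Cj J (zZ (X.map φ)) → F (X.map φ) = 0)
    (X : Matrix (Fin n) (Fin n) ℂ) (hX : ∀ i, X i i ≠ 0) (hJX : Cj J (zZ X)) : F X = 0 := by
  obtain ⟨G, N, hG, hN, hGN⟩ := hF.isQ
  obtain ⟨g, hg, hgX⟩ := hJX
  have hgd := (Matrix.isUnit_iff_isUnit_det _).1 hg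
  have h1 := totCell φ u hu D hD n J hJu hJ G hG (by
    intro Z hZ hZD hZJ
    obtain ⟨U, L, hU, hU1, hL, hL1, rfl⟩ := hZ
    obtain ⟨X, hX⟩ : ∃ X : Matrix (Fin n) (Fin n) R,
        X = Matrix.of fun i j => if i < j then U i j else L i j := ⟨_, rfl⟩
    have hXU : uU X = U := by
      ext i j
      rw [uU, Matrix.of_apply, hX]
      rcases lt_trichotomy i j with h2 | h2 | h2
      · rw [if_neg h2.ne, if_pos h2, Matrix.of_apply, if_pos h2]
      · subst h2
        rw [if_pos rfl, hU1]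
      · rw [if_neg h2.ne', if_neg h2.not_gt, hU i j h2]
    have hXL : lL X = L := by
      ext i j
      rw [lL, Matrix.of_apply, hX]
      by_cases h2 : j ≤ i
      · rw [if_pos h2, Matrix.of_apply, if_neg (not_lt.2 h2)]
      · rw [if_neg h2, hL i j (not_le.1 h2)]
    have hZX : U * L = zZ X := by rw [zZ, hXU, hXL]
    have hXi : ∀ i, X i i = L i i := fun i => by rw [hX, Matrix.of_apply, if_neg (lt_irrefl i)]
    have hXD : ∀ i j, j < i → D ∣ X i j := by
      intro i j hij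
      have hLU : L = U⁻¹ * (U * L) := by
        rw [← Matrix.mul_assoc, Matrix.nonsing_inv_mul _
          ((Matrix.isUnit_iff_isUnit_det _).1 (isUnit_of_upT hU hU1)), Matrix.one_mul]
      -- the columns of `L` below the diagonal
      have key : ∀ (d : ℕ) (i : Fin n), j < i → n ≤ i + 1 + d → D ∣ L i j := by
        intro d
        induction d using Nat.strong_induction_on with
        | h d ih =>
        intro i hij hd
        have h2 := hZD i j hij
        rw [Matrix.mul_apply, ← Finset.add_sum_erase _ _ (Finset.mem_univ i), hU1, one_mul] at h2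
        refine (dvd_add_left (Finset.dvd_sum fun k hk => ?_)).1 h2
        rcases lt_or_gt_of_ne (Finset.ne_of_mem_erase hk) with h3 | h3
        · rw [hU i k h3, zero_mul]
          exact dvd_zero D
        · apply Dvd.dvd.mul_left
          have h4 : (i : ℕ) < k := h3
          have := k.2
          exact ih (n - (k + 1)) (by omega) k (hij.trans h3) (by omega)
      rw [hX, Matrix.of_apply, if_neg hij.not_gt]
      exact key n i hij (by omega)
    have h2 := h X (fun i => by rw [hXi]; exact hL1 i) hXD (by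
      rw [← zZ_map, ← hZX]
      exact hZJ)
    have h3 := (hGN (X.map φ) (fun i => by
      rw [Matrix.map_apply, hXi]
      exact ((hL1 i).map φ).ne_zero)).2
    rw [h2, mul_zero, ← zZ_map, ← hZX] at h3
    exact h3) g hg
  have h2 : g * J * g⁻¹ = zZ X := by
    rw [hgX, Matrix.mul_assoc, Matrix.mul_nonsing_inv _ hgd, Matrix.mul_one]
  rw [h2] at h1
  obtain ⟨h3, h4⟩ := hGN X hX
  rw [h1] at h4
  exact (mul_eq_zero.1 h4.symm).resolve_left h3

end Vale.Agent.P002G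
end

section

/-!
# Cyclic vectors of triangular matrices which are congruent to bidiagonal ones
-/

namespace Vale.Agent.P002G

open Matrix Polynomial

variable {n : ℕ} {S : Type*} [CommRing S]

theorem lcons_mulVec (q : S) (l : Fin n → S) (L : Matrix (Fin n) (Fin n) S) (x₀ : S)
    (y : Fin n → S) : lcons q l L *ᵥ (Fin.cons x₀ y) = Fin.cons (q * x₀) (x₀ • l + L *ᵥ y) := by
  ext i
  refine Fin.cases ?_ (fun i => ?_) i
  · simp [lcons, mulVec, dotProduct, Fin.sum_univ_succ]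
  · simp [lcons, mulVec, dotProduct, Fin.sum_univ_succ, mul_comm]

/-- Cyclic vectors of block triangular matrices. -/
theorem cyc_lcons {q : S} {l : Fin n → S} {L : Matrix (Fin n) (Fin n) S} {s : Sˣ} {x : Fin n → S}
    (h : Cyc L ((s : S) • l + L *ᵥ x - q • x)) : Cyc (lcons q l L) (Fin.cons (s : S) x) := by
  intro M hM hL
  obtain ⟨M', hM'⟩ : ∃ M' : Submodule S (Fin n → S), ∀ y, y ∈ M' ↔
      (Fin.cons 0 y : Fin (n + 1) → S) ∈ M := by
    have ha : ∀ x y : Fin n → S, (Fin.cons 0 (x + y) : Fin (n + 1) → S) =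
        Fin.cons 0 x + Fin.cons 0 y := by
      intro x y
      ext i
      refine Fin.cases ?_ (fun i => ?_) i <;> simp
    have hc : ∀ (c : S) (x : Fin n → S), (Fin.cons 0 (c • x) : Fin (n + 1) → S) =
        c • Fin.cons 0 x := by
      intro c x
      ext i
      refine Fin.cases ?_ (fun i => ?_) i <;> simp
    have h0 : (Fin.cons 0 (0 : Fin n → S) : Fin (n + 1) → S) = 0 := by
      ext i
      refine Fin.cases ?_ (fun i => ?_) i <;> simp
    exact ⟨{ carrier := {x | (Fin.cons 0 x : Fin (n + 1) → S) ∈ M}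
             add_mem' := fun {x y} hx hy => by
              rw [Set.mem_ofPred_eq, ha]; exact M.add_mem hx hy
             zero_mem' := by rw [Set.mem_ofPred_eq, h0]; exact M.zero_mem
             smul_mem' := fun c x hx => by
              rw [Set.mem_ofPred_eq, hc]; exact M.smul_mem c hx }, fun x => Iff.rfl⟩
  have h1 : M' = ⊤ := by
    apply h M'
    · rw [hM']
      have h2 := M.sub_mem (hL _ hM) (M.smul_mem q hM)
      rw [lcons_mulVec] at h2
      have h3 : (Fin.cons (q * (s : S)) ((s : S) • l + L *ᵥ x) : Fin (n + 1) → S) -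
          q • (Fin.cons (s : S) x : Fin (n + 1) → S) =
          Fin.cons 0 ((s : S) • l + L *ᵥ x - q • x) := by
        ext i
        refine Fin.cases ?_ (fun i => ?_) i <;> simp
      rwa [h3] at h2
    · intro y hy
      rw [hM'] at hy ⊢
      have h2 := hL _ hy
      rw [lcons_mulVec, mul_zero, zero_smul, zero_add] at h2
      exact h2
  rw [eq_top_iff]
  intro z _
  have hz : ∀ y : Fin n → S, (Fin.cons 0 y : Fin (n + 1) → S) ∈ M := by
    intro y
    rw [← hM', h1]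
    trivial
  have h2 := M.add_mem (M.smul_mem (z 0 * ((s⁻¹ : Sˣ) : S)) hM)
    (hz (Fin.tail z - (z 0 * ((s⁻¹ : Sˣ) : S)) • x))
  have h3 : (z 0 * ((s⁻¹ : Sˣ) : S)) • (Fin.cons (s : S) x : Fin (n + 1) → S) +
      Fin.cons 0 (Fin.tail z - (z 0 * ((s⁻¹ : Sˣ) : S)) • x) = z := by
    ext i
    refine Fin.cases ?_ (fun i => ?_) i
    · simp [mul_assoc]
    · simp [Fin.tail]
  rwa [h3] at h2

theorem Cyc.smul_unit {Z : Matrix (Fin n) (Fin n) S} {v : Fin n → S} (h : Cyc Z v) (s : Sˣ) :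
    Cyc Z ((s : S) • v) := by
  intro M hM hZ
  apply h M _ hZ
  have := M.smul_mem ((s⁻¹ : Sˣ) : S) hM
  rwa [smul_smul, Units.inv_mul, one_smul] at this

/-- A lower triangular matrix with diagonal `ν`, whose other entries are congruent to those of a
bidiagonal matrix with units below the diagonal, has a cyclic vector. -/
theorem exists_cyc_tri [IsDomain S] (Δ : S) : ∀ {n : ℕ} (ν : Fin n → S)
    (_ : ∀ j, ∏ i ∈ Finset.univ.filter (fun i => j < i), (ν i - ν j) ∣ Δ)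
    (_ : ∀ i j, j < i → ν i ≠ ν j)
    (s : ℕ → Sˣ) (E : S) (L : Matrix (Fin n) (Fin n) S), (∀ i, L i i = ν i) →
    (∀ i j, i < j → L i j = 0) →
    (∀ i j, j < i → Δ ^ n * E ∣ L i j - if (i : ℕ) = j + 1 then (s j : S) else 0) →
    ∀ t : Sˣ, ∃ v : Fin n → S, Cyc L v ∧
      ∀ i, E ∣ v i - if (i : ℕ) = 0 then (t : S) else 0 := by
  intro n
  induction n with
  | zero =>
    intro ν _ _ s E L _ _ _ t
    refine ⟨0, fun M _ _ => ?_, fun i => i.elim0⟩
    rw [eq_top_iff]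
    intro x _
    rw [Subsingleton.elim x 0]
    exact M.zero_mem
  | succ n ih =>
    intro ν hν hne s E L hd hu hl t
    obtain ⟨l, hl'⟩ : ∃ l : Fin n → S, l = fun i => L i.succ 0 := ⟨_, rfl⟩
    obtain ⟨L', hL'⟩ : ∃ L' : Matrix (Fin n) (Fin n) S, L' = Matrix.of fun i j => L i.succ j.succ :=
      ⟨_, rfl⟩
    have hLe : L = lcons (ν 0) l L' := by
      ext i j
      refine Fin.cases ?_ (fun i => ?_) i <;> refine Fin.cases ?_ (fun j => ?_) j
      · rw [hd]; rfl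
      · rw [hu _ _ (Fin.succ_pos j)]; rfl
      · rw [hl']; rfl
      · rw [hL']; rfl
    obtain ⟨v', hv1, hv2⟩ := ih (fun i => ν i.succ) (by
      intro j
      have h1 := hν j.succ
      have h2 : ∏ i ∈ Finset.univ.filter (fun i : Fin (n + 1) => j.succ < i), (ν i - ν j.succ) =
          ∏ i ∈ Finset.univ.filter (fun i : Fin n => j < i), (ν i.succ - ν j.succ) := by
        rw [Finset.prod_filter, Finset.prod_filter, Fin.prod_univ_succ,
          if_neg (Fin.not_lt_zero _), one_mul]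
        refine Finset.prod_congr rfl fun i _ => ?_
        simp only [Fin.succ_lt_succ_iff]
      rw [h2] at h1
      exact h1) (fun i j hij => hne _ _ (Fin.succ_lt_succ_iff.2 hij)) (fun k => s (k + 1)) (Δ * E)
      L' (fun i => by rw [hL', Matrix.of_apply, hd]) (fun i j hij => by
        rw [hL', Matrix.of_apply]
        exact hu _ _ (Fin.succ_lt_succ_iff.2 hij)) (fun i j hij => by
        rw [hL', Matrix.of_apply]
        have h1 := hl _ _ (Fin.succ_lt_succ_iff.2 hij)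
        have h2 : Δ ^ n * (Δ * E) = Δ ^ (n + 1) * E := by ring
        rw [h2]
        simpa using h1) (s 0)
    -- the determinant
    have hdet : (L' - ν 0 • (1 : Matrix (Fin n) (Fin n) S)).det =
        ∏ i ∈ Finset.univ.filter (fun i : Fin (n + 1) => 0 < i), (ν i - ν 0) := by
      rw [Matrix.det_of_isLowerTriangular]
      · rw [Finset.prod_filter, Fin.prod_univ_succ, if_neg (lt_irrefl _), one_mul]
        refine Finset.prod_congr rfl fun i _ => ?_
        rw [if_pos (Fin.succ_pos i)]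
        simp [hL', hd]
      · intro i j hij
        have h : i < j := hij
        rw [Matrix.sub_apply, Matrix.smul_apply, Matrix.one_apply_ne h.ne, smul_zero, sub_zero, hL',
          Matrix.of_apply]
        exact hu _ _ (Fin.succ_lt_succ_iff.2 h)
    have hdvd : (L' - ν 0 • (1 : Matrix (Fin n) (Fin n) S)).det ∣ Δ := by
      rw [hdet]; exact hν 0
    obtain ⟨Δ', hΔ'⟩ := hdvd
    have hvl : ∀ i, Δ * E ∣ v' i - l i := by
      intro i
      have h1 := hv2 i
      have h2 : Δ * E ∣ l i - if (i : ℕ) = 0 then (s 0 : S) else 0 := by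
        have h3 := hl i.succ 0 (Fin.succ_pos i)
        rw [hl']
        refine (Dvd.intro (Δ ^ n) ?_).trans (by simpa using h3)
        ring
      have h3 := dvd_sub h1 h2
      rwa [sub_sub_sub_cancel_right] at h3
    choose z hz using hvl
    obtain ⟨x, hx⟩ : ∃ x : Fin n → S, x = (t * Δ' * E) •
        ((L' - ν 0 • (1 : Matrix (Fin n) (Fin n) S)).adjugate *ᵥ z) := ⟨_, rfl⟩
    refine ⟨Fin.cons (t : S) x, ?_, ?_⟩
    · rw [hLe]
      apply cyc_lcons
      have h1 : L' *ᵥ x - ν 0 • x = (t : S) • (v' - l) := by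
        have h2 : L' *ᵥ x - ν 0 • x = (L' - ν 0 • (1 : Matrix (Fin n) (Fin n) S)) *ᵥ x := by
          rw [Matrix.sub_mulVec, smul_mulVec, Matrix.one_mulVec]
        rw [h2, hx, mulVec_smul, mulVec_mulVec, Matrix.mul_adjugate, smul_mulVec,
          Matrix.one_mulVec, smul_smul]
        ext i
        rw [Pi.smul_apply, Pi.smul_apply, smul_eq_mul, smul_eq_mul, Pi.sub_apply, hz, hΔ']
        ring
      have h2 : (t : S) • l + L' *ᵥ x - ν 0 • x = (t : S) • v' := by
        rw [add_sub_assoc, h1, smul_sub]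
        abel
      rw [h2]
      exact hv1.smul_unit t
    · intro i
      refine Fin.cases ?_ (fun i => ?_) i
      · simp
      · simp only [Fin.cons_succ, Fin.val_succ, Nat.succ_ne_zero, if_false, sub_zero]
        rw [hx, Pi.smul_apply, smul_eq_mul]
        exact (Dvd.intro_left _ rfl).mul_right _

end Vale.Agent.P002G
end

section

/-!
# Density of the integral cyclic vectors of a matrix with distinct eigenvalues
-/

namespace Vale.Agent.P002G

open Matrix Polynomial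

variable {n : ℕ} {R : Type*} [CommRing R]

theorem aeval_map_matrix (φ : R →+* ℂ) (Z : Matrix (Fin n) (Fin n) R) (p : R[X]) :
    (aeval Z p).map φ = aeval (Z.map φ) (p.map φ) := by
  rw [Polynomial.aeval_def, Polynomial.aeval_def, Polynomial.eval₂_map]
  have h7 := Polynomial.hom_eval₂ p (algebraMap R (Matrix (Fin n) (Fin n) R))
    φ.mapMatrix Z
  have h8 : (φ.mapMatrix : Matrix (Fin n) (Fin n) R →+* _).comp
      (algebraMap R (Matrix (Fin n) (Fin n) R)) =
      (algebraMap ℂ (Matrix (Fin n) (Fin n) ℂ)).comp φ := by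
    ext a b c
    simp [Matrix.algebraMap_matrix_apply]
    split_ifs <;> simp
  rw [h8] at h7
  exact h7

/-- The integral cyclic vectors of `Z` are dense. -/
theorem cyc_vectors_dense (φ : R →+* ℂ) (hφ : Function.Injective φ) (u : Rˣ)
    (hu : ∀ k : ℕ, 0 < k → φ (u : R) ^ k ≠ 1)
    (hUP : ∀ D : R, D ≠ 0 → ∃ M : ℕ, 0 < M ∧ D ∣ (u : R) ^ M - 1)
    (Z : Matrix (Fin n) (Fin n) R) {ν : Fin n → R}
    (hν : Function.Injective ν) (hX : Z.charpoly = ∏ i, (Polynomial.X - C (ν i)))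
    {v : Fin n → R} (hcyc : Cyc Z v) {F : (Fin n → ℂ) → ℂ} (hF : IsPoly F)
    (h : ∀ y : Fin n → R, Cyc Z y → F (fun i => φ (y i)) = 0)
    (y : Fin n → ℂ) : F y = 0 := by
  have : IsDomain R := hφ.isDomain φ
  have hνφ : Function.Injective fun i => φ (ν i) := hφ.comp hν
  -- the modulus
  obtain ⟨D, hD⟩ : ∃ D, D = ∏ i, lden ν i := ⟨_, rfl⟩
  have hD0 : D ≠ 0 := by
    rw [hD]
    exact Finset.prod_ne_zero_iff.2 fun i _ => lden_ne_zero hν i
  obtain ⟨M, hM, hMD⟩ := hUP D hD0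
  have hc : ∀ w : Rˣ, D ∣ (w : R) - 1 → ∀ i, ∃ c : R, 1 + c * lden ν i = w := by
    rintro w ⟨e, he⟩ i
    refine ⟨(∏ j ∈ Finset.univ.erase i, lden ν j) * e, ?_⟩
    have h1 : (∏ j ∈ Finset.univ.erase i, lden ν j) * lden ν i = ∏ i, lden ν i :=
      Finset.prod_erase_mul _ _ (Finset.mem_univ i)
    have h2 : ((∏ j ∈ Finset.univ.erase i, lden ν j) * e) * lden ν i = D * e := by
      rw [hD, ← h1]; ring
    rw [h2, ← he]
    ring
  -- the vectors `g i`
  obtain ⟨g, hg⟩ : ∃ g : Fin n → Fin n → R, g = fun i => aeval Z (lagr ν i) *ᵥ v := ⟨_, rfl⟩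
  have hlc : ∀ c : Fin n → R, aeval Z (ipol ν c) *ᵥ v = v + ∑ i, c i • g i := by
    intro c
    rw [ipol, map_add, map_one, map_sum, Matrix.add_mulVec, Matrix.one_mulVec, Matrix.sum_mulVec]
    congr 1
    refine Finset.sum_congr rfl fun i _ => ?_
    rw [map_mul, aeval_C, ← Algebra.smul_def, smul_mulVec, hg]
  -- the integral points
  have hint : ∀ k : Fin n → ℕ, F (fun j => φ (v j) +
      ∑ i, (φ (u : R) ^ (M * k i) - 1) / φ (lden ν i) * φ (g i j)) = 0 := by
    intro k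
    have hw : ∀ i, D ∣ ((u ^ (M * k i) : Rˣ) : R) - 1 := by
      intro i
      rw [Units.val_pow_eq_pow_val, pow_mul]
      exact dvd_pow_sub_one hMD (k i)
    choose c hc2 using fun i => hc (u ^ (M * k i)) (hw i) i
    choose c' hc2' using fun i => hc (u ^ (M * k i))⁻¹ (dvd_inv_sub_one (hw i)) i
    have hinv : aeval Z (ipol ν c) * aeval Z (ipol ν c') = 1 :=
      ipol_mul_inv hν hX fun i => by rw [hc2, hc2', Units.mul_inv]
    have h1 := h (aeval Z (ipol ν c) *ᵥ v) (by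
      refine hcyc.of_comm ?_ (IsUnit.of_mul_eq_one _ hinv)
      have h := congrArg (aeval Z) (mul_comm (ipol ν c) Polynomial.X)
      rw [map_mul, map_mul, aeval_X] at h
      exact h)
    have h2 : (fun i => φ ((aeval Z (ipol ν c) *ᵥ v) i)) = fun j => φ (v j) +
        ∑ i, (φ (u : R) ^ (M * k i) - 1) / φ (lden ν i) * φ (g i j) := by
      ext j
      rw [hlc, Pi.add_apply, map_add, Finset.sum_apply, map_sum]
      congr 1
      refine Finset.sum_congr rfl fun i _ => ?_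
      rw [Pi.smul_apply, smul_eq_mul, map_mul]
      congr 1
      have h3 : φ (lden ν i) ≠ 0 := fun h0 => lden_ne_zero hν i (hφ (h0.trans (map_zero φ).symm))
      rw [eq_div_iff h3, ← map_mul]
      have h4 := hc2 i
      rw [Units.val_pow_eq_pow_val] at h4
      have h5 : c i * lden ν i = (u : R) ^ (M * k i) - 1 := by rw [← h4]; ring
      rw [h5, map_sub, map_pow, map_one]
    rw [← h2]
    exact h1
  -- all complex values
  have hpoly : IsPoly fun y : Fin n → ℂ => F (fun j => φ (v j) +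
      ∑ i, (y i - 1) / φ (lden ν i) * φ (g i j)) := by
    apply PolyMap.comp _ hF
    refine polyMap_pi fun j => IsPoly.polyMap ?_
    refine (isPoly_const _).add (IsPoly.sum _ fun i _ => ?_)
    refine (((isPoly_coord i).sub (isPoly_const 1)).mul
      (isPoly_const ((φ (lden ν i))⁻¹ * φ (g i j)))).congr fun y => ?_
    rw [div_eq_mul_inv]
    ring
  have hall := hpoly.eq_zero_of_pi (fun _ => Set.range fun k : ℕ => φ (u : R) ^ (M * k))
    (fun _ => infinite_pow_unit φ u hu hM) (fun y hy => by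
      choose k hk using hy
      have := hint k
      beta_reduce at hk
      simp only [hk] at this
      exact this)
  -- surjectivity
  obtain ⟨p, hp⟩ := (hcyc.map φ).exists_poly y
  have h1 := hall fun i => p.eval (φ (ν i))
  have h2 : (fun j => φ (v j) +
      ∑ i, (p.eval (φ (ν i)) - 1) / φ (lden ν i) * φ (g i j)) = y := by
    obtain ⟨cc, hcc⟩ : ∃ cc : Fin n → ℂ, cc = fun i => (p.eval (φ (ν i)) - 1) / φ (lden ν i) :=
      ⟨_, rfl⟩
    have hgφ : ∀ i, (fun j => φ (g i j)) =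
        aeval (Z.map φ) (lagr (fun j => φ (ν j)) i) *ᵥ fun j => φ (v j) := by
      intro i
      ext j
      rw [hg, ← lagr_map, ← aeval_map_matrix]
      exact RingHom.map_mulVec φ _ v j
    have h3 : (fun j => φ (v j) + ∑ i, cc i * φ (g i j)) =
        aeval (Z.map φ) (ipol (fun j => φ (ν j)) cc) *ᵥ fun j => φ (v j) := by
      rw [ipol, map_add, map_one, map_sum, Matrix.add_mulVec, Matrix.one_mulVec,
        Matrix.sum_mulVec]
      ext j
      rw [Pi.add_apply, Finset.sum_apply]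
      congr 1
      refine Finset.sum_congr rfl fun i _ => ?_
      rw [map_mul, aeval_C, ← Algebra.smul_def, smul_mulVec, Pi.smul_apply,
        smul_eq_mul, ← hgφ]
    have h4 : aeval (Z.map φ) (ipol (fun j => φ (ν j)) cc) = aeval (Z.map φ) p := by
      rw [← sub_eq_zero, ← map_sub]
      apply aeval_eq_zero_of_roots hνφ
      · rw [Matrix.charpoly_map, hX, Polynomial.map_prod]
        simp
      · intro i
        rw [eval_sub]
        have h5 := eval_ipol (fun j => φ (ν j)) cc i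
        beta_reduce at h5
        rw [h5, ← lden_map, hcc]
        have h6 : φ (lden ν i) ≠ 0 := fun h0 =>
          lden_ne_zero hν i (hφ (h0.trans (map_zero φ).symm))
        beta_reduce
        rw [div_mul_cancel₀ _ h6]
        ring
    rw [hcc] at h3
    beta_reduce at h3
    rw [h3, ← hcc, h4, hp]
  rw [h2] at h1
  exact h1

end Vale.Agent.P002G
end

section

/-!
# The chart in genus one: integrality and rationality
-/

namespace Vale.Agent.P002G

open Matrix Polynomial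
open Vale.Agent.P002 (kry mul_kry kry_mulVec_single krylov_comm)
open Vale.Agent.P002R (GenU FU relatorU UpT LoT)

variable {r : ℕ} {S T : Type*} [CommRing S] [CommRing T]

theorem loT_lL' (X : Matrix (Fin r) (Fin r) S) : LoT (lL X) := P002R.loT_lL X

theorem upT_uU' (X : Matrix (Fin r) (Fin r) S) : UpT (uU X) := P002R.upT_uU X

theorem lL_diag' (X : Matrix (Fin r) (Fin r) S) (i : Fin r) : lL X i i = X i i :=
  P002R.lL_diag X i

theorem uU_diag' (X : Matrix (Fin r) (Fin r) S) (i : Fin r) : uU X i i = 1 :=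
  P002R.uU_diag X i

theorem loT_Lp (X : ℕ → Matrix (Fin r) (Fin r) S) (k : ℕ) : LoT (Lp X k) := by
  induction k with
  | zero => exact P002R.loT_one
  | succ k ih => exact (P002R.loT_lL (X k)).mul ih

theorem upT_Up (X : ℕ → Matrix (Fin r) (Fin r) S) (k : ℕ) : UpT (Up X k) := by
  induction k with
  | zero => exact P002R.upT_one
  | succ k ih => exact ih.mul (P002R.upT_uU (X k))

theorem Lp_diag (X : ℕ → Matrix (Fin r) (Fin r) S) (k : ℕ) (i : Fin r) :
    Lp X k i i = ∏ j ∈ Finset.range k, X j i i := by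
  induction k with
  | zero => simp [Lp_zero]
  | succ k ih =>
    rw [Lp_succ, (loT_lL' (X k)).mul_diag (loT_Lp X k), ih,
      Finset.prod_range_succ, mul_comm, lL_diag']

theorem Up_diag (X : ℕ → Matrix (Fin r) (Fin r) S) (k : ℕ) (i : Fin r) : Up X k i i = 1 := by
  induction k with
  | zero => simp [Up_zero]
  | succ k ih =>
    rw [Up_succ, (upT_Up X k).mul_diag (upT_uU' (X k)), ih, one_mul, uU_diag']

theorem charpoly_of_loT {A : Matrix (Fin r) (Fin r) S} (h : LoT A) :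
    A.charpoly = ∏ i, (X - C (A i i)) := by
  have h1 : (Aᵀ).charpoly = ∏ i, (X - C (Aᵀ i i)) :=
    Matrix.charpoly_of_isUpperTriangular Aᵀ fun i j hij => h j i hij
  rw [← Matrix.charpoly_transpose, h1]
  rfl

theorem loT_atil (ξ : Fin r → S) (X : ℕ → Matrix (Fin r) (Fin r) S) (m : ℕ) :
    LoT (atil ξ X m) := (P002R.loT_diagonal ξ).mul (loT_Lp X (m + 1))

theorem atil_diag (ξ : Fin r → S) (X : ℕ → Matrix (Fin r) (Fin r) S) (m : ℕ) (i : Fin r) :
    atil ξ X m i i = ξ i * ∏ j ∈ Finset.range (m + 1), X j i i := by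
  rw [atil, (P002R.loT_diagonal ξ).mul_diag (loT_Lp X (m + 1)), Matrix.diagonal_apply_eq, Lp_diag]

theorem charpoly_atil {ξ : Fin r → S} {X : ℕ → Matrix (Fin r) (Fin r) S} {m : ℕ} {ν : Fin r → S}
    (h : ∀ i, ξ i * ∏ j ∈ Finset.range (m + 1), X j i i = ν i) :
    (atil ξ X m).charpoly = ∏ i, (Polynomial.X - C (ν i)) := by
  rw [charpoly_of_loT (loT_atil ξ X m)]
  exact Finset.prod_congr rfl fun i _ => by rw [atil_diag, h]

/-! ### Congruences -/

theorem dvd_Lp {D : S} {X : ℕ → Matrix (Fin r) (Fin r) S} {m : ℕ}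
    (h : ∀ k < m, ∀ i j, j < i → D ∣ X k i j) (i j : Fin r) (hij : j < i) : D ∣ Lp X m i j := by
  induction m generalizing i j with
  | zero => rw [Lp_zero, Matrix.one_apply_ne hij.ne']; exact dvd_zero D
  | succ k ih =>
    rw [Lp_succ, Matrix.mul_apply]
    apply Finset.dvd_sum
    intro l _
    rcases lt_trichotomy l i with hl | hl | hl
    · refine Dvd.dvd.mul_right ?_ _
      have h1 : lL (X k) i l = X k i l := by
        simp only [lL, Matrix.of_apply]
        rw [if_pos hl.le]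
      rw [h1]
      exact h k (Nat.lt_succ_self k) i l hl
    · subst hl
      exact (ih (fun k hk => h k (by omega)) l j hij).mul_left _
    · have h1 : lL (X k) i l = 0 := by
        simp only [lL, Matrix.of_apply]
        rw [if_neg (not_le.2 hl)]
      rw [h1, zero_mul]
      exact dvd_zero D

theorem exists_cyc_atil [IsDomain S] {ξ : Fin r → S} (hξ : ∀ i, IsUnit (ξ i))
    {X : ℕ → Matrix (Fin r) (Fin r) S} {m : ℕ} (hX : ∀ j ≤ m, ∀ i, IsUnit (X j i i))
    {ν : Fin r → S} (hν : Function.Injective ν)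
    (h : ∀ i, ξ i * ∏ j ∈ Finset.range (m + 1), X j i i = ν i) {D : S}
    (hD : (∏ j, ∏ i ∈ Finset.univ.filter (fun i => j < i), (ν i - ν j)) ^ r ∣ D)
    (h1 : ∀ k < m, ∀ i j, j < i → D ∣ X k i j) (h2 : Bi D (X m)) :
    ∃ v, Cyc (atil ξ X m) v := by
  obtain ⟨Δ, hΔ⟩ : ∃ Δ : S, Δ = ∏ j, ∏ i ∈ Finset.univ.filter (fun i => j < i), (ν i - ν j) :=
    ⟨_, rfl⟩
  have hL : IsUnit (Lp X m) := isUnit_Lp fun j hj => hX j hj.le
  obtain ⟨Λ, hΛ⟩ : ∃ Λ, Λ = Lp X m * (diagonal ξ * lL (X m)) := ⟨_, rfl⟩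
  have hconj : (Lp X m)⁻¹ * Λ * Lp X m = atil ξ X m := by
    rw [hΛ, ← Matrix.mul_assoc (Lp X m)⁻¹, inv_mul_self hL, Matrix.one_mul, atil, Lp_succ,
      Matrix.mul_assoc]
  have hlow : LoT Λ := by
    rw [hΛ]
    exact (loT_Lp X m).mul ((P002R.loT_diagonal ξ).mul (loT_lL' (X m)))
  have hentry : ∀ i j, Λ i j = ∑ k, Lp X m i k * (ξ k * lL (X m) k j) := by
    intro i j
    rw [hΛ, Matrix.mul_apply]
    refine Finset.sum_congr rfl fun k _ => ?_
    rw [Matrix.diagonal_mul]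
  have hdiag : ∀ i, Λ i i = ν i := by
    intro i
    rw [hΛ, (loT_Lp X m).mul_diag ((P002R.loT_diagonal ξ).mul (loT_lL' (X m))),
      (P002R.loT_diagonal ξ).mul_diag (loT_lL' (X m)), Matrix.diagonal_apply_eq, Lp_diag,
      ← h i, Finset.prod_range_succ, lL_diag']
    ring
  have hs : ∀ k : ℕ, ∃ s : Sˣ, ∀ i : Fin r, (i : ℕ) = k + 1 → Lp X m i i * ξ i = s := by
    intro k
    by_cases hk : k + 1 < r
    · have h3 : IsUnit (Lp X m ⟨k + 1, hk⟩ ⟨k + 1, hk⟩ * ξ ⟨k + 1, hk⟩) := by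
        rw [Lp_diag]
        exact (IsUnit.prod_iff.2 fun j hj => hX j (Finset.mem_range.1 hj).le _).mul (hξ _)
      refine ⟨h3.unit, fun i hi => ?_⟩
      have : i = ⟨k + 1, hk⟩ := Fin.ext hi
      rw [this]
      rfl
    · exact ⟨1, fun i hi => absurd i.2 (by omega)⟩
  choose s hs using hs
  obtain ⟨v, hv, -⟩ := exists_cyc_tri Δ ν (fun j => by
      rw [hΔ]
      exact Finset.dvd_prod_of_mem _ (Finset.mem_univ j))
    (fun i j hij h => hij.ne (hν h).symm) s 1 Λ hdiag hlow (fun i j hij => by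
      rw [mul_one, hΔ]
      refine hD.trans ?_
      rw [hentry]
      have h3 : ∀ k ∈ Finset.univ.erase i, D ∣ Lp X m i k * (ξ k * lL (X m) k j) := by
        intro k hk
        rcases lt_or_gt_of_ne (Finset.ne_of_mem_erase hk) with hk | hk
        · exact (dvd_Lp h1 i k hk).mul_right _
        · rw [loT_Lp X m i k hk, zero_mul]
          exact dvd_zero D
      rw [← Finset.add_sum_erase _ _ (Finset.mem_univ i), add_sub_right_comm]
      refine dvd_add ?_ (Finset.dvd_sum h3)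
      have h4 : lL (X m) i j = X m i j := by
        simp only [lL, Matrix.of_apply]
        rw [if_pos hij.le]
      rw [h4]
      have h5 := h2 i j hij
      by_cases h6 : (i : ℕ) = j + 1
      · rw [if_pos h6] at h5 ⊢
        have h7 : Lp X m i i * (ξ i * X m i j) - (s j : S) =
            (s j : S) * (X m i j - 1) := by
          rw [← hs j i h6]; ring
        rw [h7]
        exact h5.mul_left _
      · rw [if_neg h6] at h5 ⊢
        rw [sub_zero] at h5 ⊢
        exact (h5.mul_left _).mul_left _) 1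
  refine ⟨(Lp X m)⁻¹ *ᵥ v, ?_⟩
  rw [← hconj]
  obtain ⟨P, hP⟩ : ∃ P : (Matrix (Fin r) (Fin r) S)ˣ, (P : Matrix (Fin r) (Fin r) S) =
      (Lp X m)⁻¹ ∧ ((P⁻¹ : (Matrix (Fin r) (Fin r) S)ˣ) : Matrix (Fin r) (Fin r) S) = Lp X m :=
    ⟨⟨(Lp X m)⁻¹, Lp X m, inv_mul_self hL, mul_inv_self' hL⟩, rfl, rfl⟩
  have := cyc_conj P hv
  rw [hP.1, hP.2] at this
  exact this

/-! ### Base change -/

theorem map_inv_unit (φ : S →+* T) {A : Matrix (Fin r) (Fin r) S} (h : IsUnit A) :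
    (A⁻¹).map φ = (A.map φ)⁻¹ := by
  have h1 : A.map φ * (A⁻¹).map φ = 1 := by
    rw [← Matrix.map_mul, mul_inv_self' h, Matrix.map_one φ (map_zero φ) (map_one φ)]
  exact (Matrix.inv_eq_right_inv h1).symm

theorem Lp_map (φ : S →+* T) (X : ℕ → Matrix (Fin r) (Fin r) S) (k : ℕ) :
    (Lp X k).map φ = Lp (fun j => (X j).map φ) k := by
  induction k with
  | zero => exact Matrix.map_one φ (map_zero φ) (map_one φ)
  | succ k ih => rw [Lp_succ, Matrix.map_mul, ih, lL_map, Lp_succ]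

theorem Up_map (φ : S →+* T) (X : ℕ → Matrix (Fin r) (Fin r) S) (k : ℕ) :
    (Up X k).map φ = Up (fun j => (X j).map φ) k := by
  induction k with
  | zero => exact Matrix.map_one φ (map_zero φ) (map_one φ)
  | succ k ih => rw [Up_succ, Matrix.map_mul, ih, uU_map, Up_succ]

theorem kry_map' (φ : S →+* T) (Z : Matrix (Fin r) (Fin r) S) (v : Fin r → S) :
    (kry Z v).map φ = kry (Z.map φ) fun i => φ (v i) := by
  ext i j
  simp only [kry, Matrix.of_apply, Matrix.map_apply]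
  have h2 : (Z.map φ) ^ (j : ℕ) = (Z ^ (j : ℕ)).map φ := by
    have := map_pow φ.mapMatrix Z (j : ℕ)
    exact this.symm
  rw [h2, RingHom.map_mulVec]
  rfl

theorem cmid_map (φ : S →+* T) {X : ℕ → Matrix (Fin r) (Fin r) S} {k : ℕ}
    (hX : ∀ j < k, ∀ i, IsUnit (X j i i)) :
    (cmid X k).map φ = cmid (fun j => (X j).map φ) k := by
  rw [cmid, Matrix.map_mul, Matrix.map_mul, map_inv_unit φ (isUnit_Lp hX), Lp_map, zZ_map, cmid]

theorem atil_map (φ : S →+* T) (ξ : Fin r → S) (X : ℕ → Matrix (Fin r) (Fin r) S) (m : ℕ) :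
    (atil ξ X m).map φ = atil (fun i => φ (ξ i)) (fun j => (X j).map φ) m := by
  rw [atil, Matrix.map_mul, Lp_map, atil, Matrix.diagonal_map (map_zero φ)]

theorem tup_map (φ : S →+* T) {ξ : Fin r → S} {X : ℕ → Matrix (Fin r) (Fin r) S} {m : ℕ}
    (hX : ∀ j ≤ m, ∀ i, IsUnit (X j i i)) {y : Fin r → S} (hc : Cyc (zZ (X m)) (en r S))
    (k : GenU 1 (m + 1)) : (tup ξ X m y k).map φ =
      tup (fun i => φ (ξ i)) (fun j => (X j).map φ) m (fun i => φ (y i)) k := by
  rcases k with ⟨i, _ | _⟩ | j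
  · exact cmid_map φ fun j hj => hX j hj.le
  · change (bmat ξ X m y).map φ = bmat _ _ m _
    rw [bmat, Matrix.map_mul, Matrix.map_mul, map_inv_unit φ ((cyc_iff _ _).1 hc), Lp_map,
      kry_map', kry_map', atil_map, zZ_map, en_map, bmat]
  · change (if (j : ℕ) = 0 then diagonal ξ * (Up X (m + 1))⁻¹ else cmid X (j - 1)).map φ =
      if (j : ℕ) = 0 then _ else _
    split_ifs
    · rw [Matrix.map_mul, map_inv_unit φ (isUnit_Up _ _), Up_map,
        Matrix.diagonal_map (map_zero φ)]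
    · exact cmid_map φ fun i hi => hX i (by have := j.2; omega)

/-! ### Rationality -/

section rational

variable {V : Type*} [AddCommGroup V] [Module ℂ V] {d : V → ℂ}

theorem ratMap_kry (hd : IsPoly d) {Z : V → Matrix (Fin r) (Fin r) ℂ} {v : V → Fin r → ℂ}
    (hZ : RatMap d Z) (hv : RatMap d v) : RatMap d fun x => kry (Z x) (v x) :=
  ratMap_matrix hd fun i j => by
    simp only [kry, Matrix.of_apply]
    exact (ratMap_mulVec hd (ratMap_pow hd hZ j) hv).coord i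

theorem ratMap_Lp (hd : IsPoly d) {X : V → ℕ → Matrix (Fin r) (Fin r) ℂ} {k : ℕ}
    (hX : ∀ j < k, RatMap d fun x => X x j) : RatMap d fun x => Lp (X x) k := by
  induction k with
  | zero => exact ratMap_const _
  | succ k ih =>
    exact IsRat.matrix_mul hd (ratMap_lL hd (hX k (Nat.lt_succ_self k)))
      (ih fun j hj => hX j (by omega))

theorem ratMap_Up (hd : IsPoly d) {X : V → ℕ → Matrix (Fin r) (Fin r) ℂ} {k : ℕ}
    (hX : ∀ j < k, RatMap d fun x => X x j) : RatMap d fun x => Up (X x) k := by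
  induction k with
  | zero => exact ratMap_const _
  | succ k ih =>
    exact IsRat.matrix_mul hd (ih fun j hj => hX j (by omega))
      (ratMap_uU hd (hX k (Nat.lt_succ_self k)))

theorem ratMap_Lp_inv (hd : IsPoly d) {X : V → ℕ → Matrix (Fin r) (Fin r) ℂ} {k : ℕ}
    (hX : ∀ j < k, RatMap d fun x => X x j) (hi : ∀ j < k, IsRat d fun x => (∏ i, X x j i i)⁻¹) :
    RatMap d fun x => (Lp (X x) k)⁻¹ := by
  refine ratMap_inv' hd (ratMap_Lp hd hX) ?_
  simp only [det_Lp]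
  refine (IsRat.prod (Finset.range k) (f := fun j x => (∏ i, X x j i i)⁻¹) fun j hj =>
    hi j (Finset.mem_range.1 hj)).congr fun x _ => ?_
  rw [Finset.prod_inv_distrib]

theorem det_Up (X : ℕ → Matrix (Fin r) (Fin r) S) (k : ℕ) : (Up X k).det = 1 := by
  induction k with
  | zero => simp [Up_zero]
  | succ k ih => rw [Up_succ, Matrix.det_mul, ih, det_uU, one_mul]

theorem ratMap_Up_inv (hd : IsPoly d) {X : V → ℕ → Matrix (Fin r) (Fin r) ℂ} {k : ℕ}
    (hX : ∀ j < k, RatMap d fun x => X x j) : RatMap d fun x => (Up (X x) k)⁻¹ := by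
  refine ratMap_inv' hd (ratMap_Up hd hX) ?_
  simp only [det_Up]
  exact (isPoly_const _).isRat

theorem ratMap_cmid (hd : IsPoly d) {X : V → ℕ → Matrix (Fin r) (Fin r) ℂ} {k : ℕ}
    (hX : ∀ j ≤ k, RatMap d fun x => X x j) (hi : ∀ j < k, IsRat d fun x => (∏ i, X x j i i)⁻¹) :
    RatMap d fun x => cmid (X x) k :=
  IsRat.matrix_mul hd (IsRat.matrix_mul hd (ratMap_Lp_inv hd (fun j hj => hX j hj.le) hi)
    (ratMap_zZ hd (hX k le_rfl))) (ratMap_Lp hd fun j hj => hX j hj.le)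

theorem ratMap_tup (hd : IsPoly d) (ξ : Fin r → ℂ) {m : ℕ}
    {X : V → ℕ → Matrix (Fin r) (Fin r) ℂ} {y : V → Fin r → ℂ}
    (hX : ∀ j ≤ m, RatMap d fun x => X x j) (hy : RatMap d y)
    (hi : ∀ j < m, IsRat d fun x => (∏ i, X x j i i)⁻¹)
    (hk : IsRat d fun x => (kry (zZ (X x m)) (en r ℂ)).det⁻¹) (k : GenU 1 (m + 1)) :
    RatMap d fun x => tup ξ (X x) m (y x) k := by
  rcases k with ⟨i, _ | _⟩ | j
  · exact ratMap_cmid hd hX hi
  · refine IsRat.matrix_mul hd (IsRat.matrix_mul hd (ratMap_kry hd (IsRat.matrix_mul hd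
      (ratMap_const _) (ratMap_Lp hd fun j hj => hX j (by omega))) hy)
      (ratMap_inv' hd (ratMap_kry hd (ratMap_zZ hd (hX m le_rfl)) (ratMap_const _)) hk))
      (ratMap_Lp hd fun j hj => hX j hj.le)
  · change RatMap d fun x => if (j : ℕ) = 0 then diagonal ξ * (Up (X x) (m + 1))⁻¹ else
      cmid (X x) (j - 1)
    split_ifs
    · exact IsRat.matrix_mul hd (ratMap_const _) (ratMap_Up_inv hd fun j hj => hX j (by omega))
    · exact ratMap_cmid hd (fun i hi => hX i (by have := j.2; omega))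
        fun i h => hi i (by have := j.2; omega)

end rational

end Vale.Agent.P002G
end

section

/-!
# The chart in genus one: density
-/

namespace Vale.Agent.P002G

open Matrix Polynomial
open Vale.Agent.P002 (kry mul_kry kry_mulVec_single krylov_comm)
open Vale.Agent.P002R (GenU FU relatorU UpT LoT)

variable {R : Type*} [CommRing R]

/-- Conjugacy over the complex numbers. -/
def CjC {r : ℕ} (J Z : Matrix (Fin r) (Fin r) ℂ) : Prop :=
  ∃ g : (Matrix (Fin r) (Fin r) ℂ)ˣ, Z = g * J * ((g⁻¹ : (Matrix (Fin r) (Fin r) ℂ)ˣ) :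
    Matrix (Fin r) (Fin r) ℂ)

/-- Total density of the integral points of the cells in the class of `J`, with a modulus. -/
def TotM {r : ℕ} (φ : R →+* ℂ) (J : Matrix (Fin r) (Fin r) ℂ) : Prop :=
  ∀ D : R, D ≠ 0 → ∀ F : Matrix (Fin r) (Fin r) ℂ → ℂ, IsPoly F →
    (∀ X : Matrix (Fin r) (Fin r) R, (∀ i, IsUnit (X i i)) → (∀ i j, j < i → D ∣ X i j) →
      CjC J (zZ (X.map φ)) → F (X.map φ) = 0) →
    ∀ X : Matrix (Fin r) (Fin r) ℂ, (∀ i, X i i ≠ 0) → CjC J (zZ X) → F X = 0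

/-- Products of dense subsets. -/
theorem dense_pi {ι V : Type*} [Finite ι] [AddCommGroup V] [Module ℂ V] (S T : ι → Set V)
    (h : ∀ i, ∀ f : V → ℂ, IsPoly f → (∀ x ∈ S i, f x = 0) → ∀ x ∈ T i, f x = 0)
    {f : (ι → V) → ℂ} (hf : IsPoly f) (hS : ∀ x, (∀ i, x i ∈ S i) → f x = 0)
    (x : ι → V) (hx : ∀ i, x i ∈ T i) : f x = 0 := by
  classical
  have := Fintype.ofFinite ι
  have key : ∀ (t : Finset ι) (x : ι → V), (∀ i ∈ t, x i ∈ T i) → (∀ i, i ∉ t → x i ∈ S i) →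
      f x = 0 := by
    intro t
    induction t using Finset.induction_on with
    | empty => exact fun x _ hx => hS x fun i => hx i (Finset.notMem_empty i)
    | insert j t hj ih =>
      intro x hx1 hx2
      have hm : PolyMap fun z : V => Function.update x j z := by
        apply polyMap_pi
        intro i
        by_cases hij : i = j
        · subst hij
          simp only [Function.update_self]
          exact polyMap_linear LinearMap.id
        · simp only [Function.update_of_ne hij]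
          exact polyMap_const _
      have h1 := h j (fun z => f (Function.update x j z)) (hm.comp hf) (fun z hz => ?_) (x j)
        (hx1 j (Finset.mem_insert_self j t))
      · simpa using h1
      · apply ih
        · intro i hi
          have hij : i ≠ j := fun h' => hj (h' ▸ hi)
          rw [Function.update_of_ne hij]
          exact hx1 i (Finset.mem_insert_of_mem hi)
        · intro i hi
          by_cases hij : i = j
          · subst hij
            simpa using hz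
          · rw [Function.update_of_ne hij]
            exact hx2 i fun h' => by
              rcases Finset.mem_insert.1 h' with h' | h'
              · exact hij h'
              · exact hi h'
  exact key Finset.univ x (fun i _ => hx i) fun i hi => absurd (Finset.mem_univ i) hi

/-- The sequence of the coordinates. -/
def xx {r m : ℕ} {S : Type*} (Xs : Fin m → Matrix (Fin r) (Fin r) S) (Y : Matrix (Fin r) (Fin r) S)
    (k : ℕ) : Matrix (Fin r) (Fin r) S := if h : k < m then Xs ⟨k, h⟩ else Y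

theorem xx_lt {r m : ℕ} {S : Type*} (Xs : Fin m → Matrix (Fin r) (Fin r) S)
    (Y : Matrix (Fin r) (Fin r) S) {k : ℕ} (h : k < m) : xx Xs Y k = Xs ⟨k, h⟩ := dif_pos h

theorem xx_self {r m : ℕ} {S : Type*} (Xs : Fin m → Matrix (Fin r) (Fin r) S)
    (Y : Matrix (Fin r) (Fin r) S) : xx Xs Y m = Y := dif_neg (lt_irrefl m)

theorem xx_map {r m : ℕ} {S T : Type*} (φ : S → T) (Xs : Fin m → Matrix (Fin r) (Fin r) S)
    (Y : Matrix (Fin r) (Fin r) S) : (fun j => (xx Xs Y j).map φ) =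
      xx (fun k => (Xs k).map φ) (Y.map φ) := by
  funext j
  by_cases h : j < m
  · rw [xx_lt _ _ h, xx_lt _ _ h]
  · rw [xx, xx, dif_neg h, dif_neg h]

theorem prod_xx {r m : ℕ} {S : Type*} [CommRing S] (Xs : Fin m → Matrix (Fin r) (Fin r) S)
    (Y : Matrix (Fin r) (Fin r) S) (i : Fin r) :
    ∏ j ∈ Finset.range (m + 1), xx Xs Y j i i = (∏ k, Xs k i i) * Y i i := by
  rw [Finset.prod_range_succ, xx_self, ← Fin.prod_univ_eq_prod_range (fun j => xx Xs Y j i i)]
  congr 1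
  exact Finset.prod_congr rfl fun k _ => by rw [xx_lt _ _ k.2]

theorem xx_units {r m : ℕ} {S : Type*} [CommRing S] {Xs : Fin m → Matrix (Fin r) (Fin r) S}
    {Y : Matrix (Fin r) (Fin r) S} (h1 : ∀ k i, IsUnit (Xs k i i)) (h2 : ∀ i, IsUnit (Y i i)) :
    ∀ j ≤ m, ∀ i, IsUnit (xx Xs Y j i i) := by
  intro j _ i
  by_cases h : j < m
  · rw [xx_lt _ _ h]; exact h1 _ i
  · rw [xx, dif_neg h]; exact h2 i

/-- Stages A and B. -/
theorem stageAB (φ : R →+* ℂ) (hφ : Function.Injective φ) (u : Rˣ)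
    (hu : ∀ k : ℕ, 0 < k → φ (u : R) ^ k ≠ 1)
    (hUP : ∀ D : R, D ≠ 0 → ∃ M : ℕ, 0 < M ∧ D ∣ (u : R) ^ M - 1) {n m : ℕ}
    (ξ : Fin (n + 1) → Rˣ) {ν : Fin (n + 1) → Rˣ} (hν : Function.Injective ν)
    (Xs : Fin m → Matrix (Fin (n + 1)) (Fin (n + 1)) R) (hXu : ∀ k i, IsUnit (Xs k i i))
    (hXD : ∀ k i j, j < i → (∏ j, ∏ i ∈ Finset.univ.filter (fun i => j < i),
      ((ν i : R) - ν j)) ^ (n + 1) ∣ Xs k i j)
    (g : Matrix (Fin (n + 1)) (Fin (n + 1)) ℂ × (Fin (n + 1) → ℂ) → ℂ) (hg : IsPoly g)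
    (hint : ∀ (Y : Matrix (Fin (n + 1)) (Fin (n + 1)) R) (y : Fin (n + 1) → R),
      (∀ i, IsUnit (Y i i)) → Cyc (zZ Y) (en (n + 1) R) →
      Cyc (atil (fun i => (ξ i : R)) (xx Xs Y) m) y →
      (atil (fun i => (ξ i : R)) (xx Xs Y) m).charpoly = (zZ Y).charpoly →
      g (Y.map φ, fun i => φ (y i)) = 0)
    (Y : Matrix (Fin (n + 1)) (Fin (n + 1)) ℂ)
    (hYd : ∀ i, φ (ξ i : R) * ((∏ k, φ (Xs k i i)) * Y i i) = φ (ν i : R))
    (hYc : (zZ Y).charpoly = ∏ i, (Polynomial.X - C (φ (ν i : R))))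
    (hYcyc : Cyc (zZ Y) (en (n + 1) ℂ)) (y : Fin (n + 1) → ℂ) : g (Y, y) = 0 := by
  have hdom : IsDomain R := hφ.isDomain φ
  obtain ⟨D, hD⟩ : ∃ D : R, D = (∏ j, ∏ i ∈ Finset.univ.filter (fun i => j < i),
      ((ν i : R) - ν j)) ^ (n + 1) := ⟨_, rfl⟩
  have hνR : Function.Injective fun i => (ν i : R) := fun i j h => hν (Units.ext h)
  have hD0 : D ≠ 0 := by
    rw [hD]
    apply pow_ne_zero
    rw [Finset.prod_ne_zero_iff]
    intro j _
    rw [Finset.prod_ne_zero_iff]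
    intro i hi
    rw [Finset.mem_filter] at hi
    exact sub_ne_zero.2 fun h => hi.2.ne (hνR h).symm
  -- the units `q`
  choose w hw using fun k i => hXu k i
  obtain ⟨q, hq⟩ : ∃ q : Fin (n + 1) → Rˣ, q = fun i => (ξ i)⁻¹ * (∏ k, w k i)⁻¹ * ν i :=
    ⟨_, rfl⟩
  have hq1 : ∀ i, ξ i * ((∏ k, w k i) * q i) = ν i := by
    intro i
    rw [hq]
    beta_reduce
    rw [mul_comm (ξ i)⁻¹, mul_assoc (∏ k, w k i)⁻¹, mul_inv_cancel_left, mul_inv_cancel_left]
  have hq2 : ∀ i, (ξ i : R) * ((∏ k, Xs k i i) * (q i : R)) = ν i := by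
    intro i
    have h1 := congrArg (fun v : Rˣ => (v : R)) (hq1 i)
    beta_reduce at h1
    rw [Units.val_mul, Units.val_mul, Units.coe_prod] at h1
    rw [← h1]
    congr 2
    exact Finset.prod_congr rfl fun k _ => (hw k i).symm
  have hYq : ∀ i, Y i i = φ (q i : R) := by
    intro i
    have h1 := congrArg φ (hq2 i)
    rw [map_mul, map_mul, map_prod, ← hYd i] at h1
    have h2 : φ (ξ i : R) * ∏ k, φ (Xs k i i) ≠ 0 := by
      apply mul_ne_zero ((ξ i).isUnit.map φ).ne_zero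
      rw [Finset.prod_ne_zero_iff]
      exact fun k _ => ((hXu k i).map φ).ne_zero
    rw [← mul_assoc, ← mul_assoc] at h1
    exact (mul_left_cancel₀ h2 h1).symm
  have hQ := QQ_all φ hφ u hu hUP n D hD0 q (∏ i, (Polynomial.X - C (ν i : R)))
    (monic_prod_of_monic _ _ fun i _ => monic_X_sub_C _) (by
      rw [natDegree_prod_of_monic _ _ fun i _ => monic_X_sub_C _]
      simp) (fun Y => g (Y, y))
    (((polyMap_linear LinearMap.id).prodMk (polyMap_const y)).comp hg)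
  refine hQ ?_ Y hYq ?_ hYcyc
  · intro Z hZd hZb hZc hZcyc
    have hZu : ∀ i, IsUnit (Z i i) := fun i => by rw [hZd]; exact (q i).isUnit
    have hX : ∀ j ≤ m, ∀ i, IsUnit (xx Xs Z j i i) := xx_units hXu hZu
    have hdiag : ∀ i, (ξ i : R) * ∏ j ∈ Finset.range (m + 1), xx Xs Z j i i = ν i := by
      intro i
      rw [prod_xx, hZd, hq2]
    have hcp := charpoly_atil (X := xx Xs Z) (m := m) (ξ := fun i => (ξ i : R))
      (ν := fun i => (ν i : R)) hdiag
    obtain ⟨v, hv⟩ := exists_cyc_atil (D := D) (X := xx Xs Z) (m := m)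
      (ξ := fun i => (ξ i : R)) (fun i => (ξ i).isUnit) hX hνR hdiag (by rw [hD])
      (fun k hk i j hij => by rw [xx_lt _ _ hk, hD]; exact hXD _ i j hij)
      (by rw [xx_self]; exact hZb)
    refine cyc_vectors_dense φ hφ u hu hUP (atil (fun i => (ξ i : R)) (xx Xs Z) m) hνR hcp hv
      (F := fun y => g (Z.map φ, y)) (((polyMap_const (Z.map φ)).prodMk
        (polyMap_linear LinearMap.id)).comp hg) ?_ y
    intro y' hy'
    exact hint Z y' hZu hZcyc hy' (by rw [hcp, hZc])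
  · rw [hYc, Polynomial.map_prod]
    simp

end Vale.Agent.P002G
end

section

/-!
# Total density, in the forms used by the charts
-/

namespace Vale.Agent.P002G

open Matrix

variable {r : ℕ} {R : Type*} [CommRing R]

theorem cj_of_cjC {J Z : Matrix (Fin r) (Fin r) ℂ} (h : CjC J Z) : Cj J Z := by
  obtain ⟨g, rfl⟩ := h
  exact ⟨g, g.isUnit, by rw [Matrix.mul_assoc, Units.inv_mul, Matrix.mul_one]⟩

theorem cjC_of_cj {J Z : Matrix (Fin r) (Fin r) ℂ} (h : Cj J Z) : CjC J Z := by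
  obtain ⟨g, ⟨g', rfl⟩, h⟩ := h
  exact ⟨g', by rw [h, Matrix.mul_assoc, Units.mul_inv, Matrix.mul_one]⟩

/-- Total density with a modulus, genus one. -/
theorem totM (φ : R →+* ℂ) (u : Rˣ) (hu : ∀ k : ℕ, 0 < k → φ u ^ k ≠ 1)
    (hUP : ∀ D : R, D ≠ 0 → ∃ M : ℕ, 0 < M ∧ D ∣ (u : R) ^ M - 1)
    (J : Matrix (Fin r) (Fin r) ℂ) (hJu : IsUnit J)
    (hJ : ∀ z, J.charpoly.IsRoot z → ∃ e : Rˣ, φ e = z) : TotM φ J := by
  intro D hD F hF h X hX hJX
  exact totCoord φ u hu D (hUP D hD) J hJu hJ F hF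
    (fun X h1 h2 h3 => h X h1 h2 (cjC_of_cj h3)) X hX (cj_of_cjC hJX)

theorem isPoly_eval (F : MvPolynomial (Fin r × Fin r) ℂ) :
    IsPoly fun X : Matrix (Fin r) (Fin r) ℂ =>
      MvPolynomial.eval (fun p : Fin r × Fin r => X p.1 p.2) F := by
  induction F using MvPolynomial.induction_on with
  | C a => simpa using isPoly_const a
  | add p q hp hq => simpa using hp.add hq
  | mul_X p i hp =>
    simpa using hp.mul (PolyMap.entry (ψ := fun X : Matrix (Fin r) (Fin r) ℂ => X)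
      (polyMap_linear LinearMap.id) i.1 i.2)

/-- Total density, genus zero. -/
theorem totD (φ : R →+* ℂ) (u : Rˣ) (hu : ∀ k : ℕ, 0 < k → φ u ^ k ≠ 1)
    (J : Matrix (Fin r) (Fin r) ℂ) (hJu : IsUnit J)
    (hJ : ∀ z, J.charpoly.IsRoot z → ∃ e : Rˣ, φ e = z) : P002R.TotD φ J := fun F h X hX hJX =>
  totCoord φ u hu 1 ⟨1, one_pos, one_dvd _⟩ J hJu hJ _ (isPoly_eval F)
    (fun X h1 _ h3 => h X h1 (cjC_of_cj h3)) X hX (cj_of_cjC hJX)

end Vale.Agent.P002G
end

section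

/-!
# P002: duality, the classes
-/

namespace Vale.Agent.P002R

open Matrix

variable {m p : ℕ}

/-- The dual class `W0` of `J` with respect to the eigenvalue `ζ`. -/
structure DualCls (ζ : ℂ) (J : Mat (m + p) ℂ) (W0 : Mat m ℂ) (Y0 : Matrix (Fin p) (Fin m) ℂ) :
    Prop where
  zeta : ζ ≠ 0
  cj : P002G.Cj (ζ • P002G.blk W0 0 Y0 1) J
  inj : ∀ v, (W0 - 1) *ᵥ v = 0 → Y0 *ᵥ v = 0 → v = 0

theorem exists_dualCls {ζ : ℂ} (hζ0 : ζ ≠ 0) (J : Mat (m + p) ℂ)
    (hp : Module.finrank ℂ (LinearMap.ker (J - ζ • 1).mulVecLin) = p) :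
    ∃ W0 Y0, DualCls ζ J W0 Y0 := by
  obtain ⟨g0, W', Y', hg0, hA, hinj⟩ := P002G.adapted _ hp
  obtain ⟨W0, hW0⟩ : ∃ W0, W0 = 1 + ζ⁻¹ • W' := ⟨_, rfl⟩
  obtain ⟨Y0, hY0⟩ : ∃ Y0, Y0 = ζ⁻¹ • Y' := ⟨_, rfl⟩
  have hB0 : ζ • P002G.blk W0 0 Y0 1 = ζ • 1 + P002G.blk W' 0 Y' 0 := by
    rw [← P002G.blk_one, hW0, hY0]
    ext i j
    rw [Matrix.smul_apply, Matrix.add_apply, Matrix.smul_apply]
    refine Fin.addCases (fun i => ?_) (fun i => ?_) i <;>
      refine Fin.addCases (fun j => ?_) (fun j => ?_) j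
    · rw [P002G.blk_apply₁₁, P002G.blk_apply₁₁, P002G.blk_apply₁₁, Matrix.add_apply, Matrix.smul_apply]
      simp only [smul_eq_mul]
      field_simp
    · rw [P002G.blk_apply₁₂, P002G.blk_apply₁₂, P002G.blk_apply₁₂]; simp
    · rw [P002G.blk_apply₂₁, P002G.blk_apply₂₁, P002G.blk_apply₂₁, Matrix.smul_apply]
      simp only [smul_eq_mul]
      field_simp
      simp
    · rw [P002G.blk_apply₂₂, P002G.blk_apply₂₂, P002G.blk_apply₂₂]; simp
  have hJg : J * g0 = g0 * (ζ • P002G.blk W0 0 Y0 1) := by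
    rw [hB0, Matrix.mul_add, ← hA, Matrix.sub_mul, Matrix.mul_smul, Matrix.smul_mul,
      Matrix.mul_one, Matrix.one_mul]
    abel
  refine ⟨W0, Y0, hζ0, ⟨g0, hg0, hJg.symm⟩, ?_⟩
  intro v hv1 hv2
  rw [hW0, add_sub_cancel_left, Matrix.smul_mulVec] at hv1
  rw [hY0, Matrix.smul_mulVec] at hv2
  exact hinj v ((smul_eq_zero.1 hv1).resolve_left (inv_ne_zero hζ0))
    ((smul_eq_zero.1 hv2).resolve_left (inv_ne_zero hζ0))

theorem DualCls.det_sub {ζ : ℂ} {J : Mat (m + p) ℂ} {W0 : Mat m ℂ} {Y0 : Matrix (Fin p) (Fin m) ℂ}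
    (h : DualCls ζ J W0 Y0) (z : ℂ) : (J - (ζ * z) • 1).det =
      ζ ^ (m + p) * ((W0 - z • 1).det * ((1 : Matrix (Fin p) (Fin p) ℂ) - z • 1).det) := by
  obtain ⟨g0, hg0, hJg⟩ := h.cj
  have hg0d := (Matrix.isUnit_iff_isUnit_det _).1 hg0
  have h1 : (J - (ζ * z) • 1) * g0 = g0 * (ζ • P002G.blk (W0 - z • 1) 0 Y0 (1 - z • 1)) := by
    have h2 : ζ • P002G.blk (W0 - z • 1) 0 Y0 (1 - z • 1) = ζ • P002G.blk W0 0 Y0 1 - (ζ * z) • 1 := by
      rw [← P002G.blk_one]
      ext i j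
      rw [Matrix.smul_apply, Matrix.sub_apply, Matrix.smul_apply, Matrix.smul_apply]
      refine Fin.addCases (fun i => ?_) (fun i => ?_) i <;>
        refine Fin.addCases (fun j => ?_) (fun j => ?_) j
      · rw [P002G.blk_apply₁₁, P002G.blk_apply₁₁, P002G.blk_apply₁₁, Matrix.sub_apply, Matrix.smul_apply]
        simp only [smul_eq_mul]
        ring
      · rw [P002G.blk_apply₁₂, P002G.blk_apply₁₂, P002G.blk_apply₁₂]; simp
      · rw [P002G.blk_apply₂₁, P002G.blk_apply₂₁, P002G.blk_apply₂₁]; simp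
      · rw [P002G.blk_apply₂₂, P002G.blk_apply₂₂, P002G.blk_apply₂₂, Matrix.sub_apply, Matrix.smul_apply]
        simp only [smul_eq_mul]
        ring
    rw [h2, Matrix.sub_mul, Matrix.mul_sub, hJg, Matrix.smul_mul, Matrix.one_mul,
      Matrix.mul_smul, Matrix.mul_one]
  have h2 := congrArg Matrix.det h1
  rw [Matrix.det_mul, Matrix.det_mul, mul_comm, Matrix.det_smul, Fintype.card_fin,
    P002G.det_blk] at h2
  exact mul_left_cancel₀ hg0d.ne_zero h2

theorem DualCls.det_J {ζ : ℂ} {J : Mat (m + p) ℂ} {W0 : Mat m ℂ} {Y0 : Matrix (Fin p) (Fin m) ℂ}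
    (h : DualCls ζ J W0 Y0) : J.det = ζ ^ (m + p) * W0.det := by
  have h1 := h.det_sub 0
  rw [mul_zero, zero_smul, zero_smul, zero_smul, sub_zero, sub_zero, sub_zero, Matrix.det_one,
    mul_one] at h1
  exact h1

theorem DualCls.isUnit {ζ : ℂ} {J : Mat (m + p) ℂ} {W0 : Mat m ℂ} {Y0 : Matrix (Fin p) (Fin m) ℂ}
    (h : DualCls ζ J W0 Y0) (hJ : IsUnit J) : IsUnit W0 := by
  have h2 := ((Matrix.isUnit_iff_isUnit_det _).1 hJ).ne_zero
  rw [h.det_J] at h2
  rw [Matrix.isUnit_iff_isUnit_det]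
  exact isUnit_iff_ne_zero.2 (right_ne_zero_of_mul h2)

theorem DualCls.root {R : Type*} [CommRing R] (φ : R →+* ℂ) {ζ : ℂ} {J : Mat (m + p) ℂ}
    {W0 : Mat m ℂ} {Y0 : Matrix (Fin p) (Fin m) ℂ} (h : DualCls ζ J W0 Y0) {e : Rˣ}
    (he : φ e = ζ) (hJ : ∀ z, J.charpoly.IsRoot z → ∃ e : Rˣ, φ e = z) (z : ℂ)
    (hz : W0.charpoly.IsRoot z) : ∃ e : Rˣ, φ e = z := by
  have h1 := h.det_sub z
  rw [(P002G.isRoot_iff W0 z).1 hz, zero_mul, mul_zero] at h1
  obtain ⟨e', he'⟩ := hJ _ ((P002G.isRoot_iff J _).2 h1)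
  refine ⟨e⁻¹ * e', ?_⟩
  have h2 : φ ((e⁻¹ : Rˣ) : R) * φ (e : R) = 1 := by
    rw [← map_mul, Units.inv_mul, map_one]
  rw [Units.val_mul, map_mul, he', ← he, ← mul_assoc, h2, one_mul]

/-- Every element of the cell in the class of `J` comes from a dual tuple. -/
theorem DualCls.exists_dual {ζ : ℂ} {J : Mat (m + p) ℂ} {W0 : Mat m ℂ}
    {Y0 : Matrix (Fin p) (Fin m) ℂ} (h : DualCls ζ J W0 Y0) (X : Mat (m + p) ℂ)
    (hX : CjM J (zZ X)) : ∃ (Ξ : Matrix (Fin m) (Fin (m + p)) ℂ)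
      (Υ : Matrix (Fin (m + p)) (Fin m) ℂ), X = dX ζ (Υ * Ξ) ∧
      1 + Ξ * (dU (Υ * Ξ) * Υ) = W0 ∧ (∀ v, Υ *ᵥ v = 0 → v = 0) ∧ ∀ w, w ᵥ* Ξ = 0 → w = 0 := by
  obtain ⟨h0, hh0⟩ := hX
  obtain ⟨g0, ⟨g1, rfl⟩, hJg⟩ := h.cj
  obtain ⟨G, hG⟩ : ∃ G : (Mat (m + p) ℂ)ˣ, G = h0 * g1 := ⟨_, rfl⟩
  have hZ : zZ X * G = G * (ζ • P002G.blk W0 0 Y0 1) := by
    rw [hh0, hG, Units.val_mul]
    calc (h0 : Mat (m + p) ℂ) * J * ((h0⁻¹ : (Mat (m + p) ℂ)ˣ) : Mat (m + p) ℂ) *
          ((h0 : Mat (m + p) ℂ) * (g1 : Mat (m + p) ℂ))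
        = (h0 : Mat (m + p) ℂ) * (J * ((((h0⁻¹ : (Mat (m + p) ℂ)ˣ) : Mat (m + p) ℂ) *
          (h0 : Mat (m + p) ℂ)) * (g1 : Mat (m + p) ℂ))) := by
          simp only [Matrix.mul_assoc]
      _ = _ := by rw [Units.inv_mul, Matrix.one_mul, ← hJg, Matrix.mul_assoc]
  obtain ⟨Ξ0, hΞ0⟩ : ∃ Ξ0 : Matrix (Fin m) (Fin (m + p)) ℂ, Ξ0 = Matrix.of fun i =>
    Fin.append (fun j => (1 : Mat m ℂ) i j) (fun _ => 0) := ⟨_, rfl⟩
  obtain ⟨Υ0, hΥ0⟩ : ∃ Υ0 : Matrix (Fin (m + p)) (Fin m) ℂ, Υ0 = Matrix.of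
    (Fin.append (fun i j => (W0 - 1) i j) (fun i j => Y0 i j)) := ⟨_, rfl⟩
  have hb : ζ • P002G.blk W0 0 Y0 1 = ζ • (1 + Υ0 * Ξ0) := by
    congr 1
    ext i j
    rw [Matrix.add_apply, Matrix.mul_apply]
    refine Fin.addCases (fun i => ?_) (fun i => ?_) i <;>
      refine Fin.addCases (fun j => ?_) (fun j => ?_) j
    · rw [P002G.blk_apply₁₁, hΞ0, hΥ0]
      simp only [Matrix.of_apply, Fin.append_left]
      have h1 : ∑ x, (W0 - 1) i x * (1 : Mat m ℂ) x j = (W0 - 1) i j := by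
        rw [← Matrix.mul_apply, Matrix.mul_one]
      rw [h1, Matrix.sub_apply, Matrix.one_apply, Matrix.one_apply]
      simp only [Fin.castAdd_inj]
      ring
    · rw [P002G.blk_apply₁₂, hΞ0, hΥ0]
      simp only [Matrix.of_apply, Fin.append_left, Fin.append_right, mul_zero,
        Finset.sum_const_zero, add_zero, Matrix.zero_apply]
      rw [Matrix.one_apply_ne]
      intro h
      have := congrArg Fin.val h
      simp only [Fin.val_castAdd, Fin.val_natAdd] at this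
      omega
    · rw [P002G.blk_apply₂₁, hΞ0, hΥ0]
      simp only [Matrix.of_apply, Fin.append_left, Fin.append_right]
      have h1 : ∑ x, Y0 i x * (1 : Mat m ℂ) x j = Y0 i j := by
        rw [← Matrix.mul_apply, Matrix.mul_one]
      rw [h1, Matrix.one_apply_ne, zero_add]
      intro h
      have := congrArg Fin.val h
      simp only [Fin.val_castAdd, Fin.val_natAdd] at this
      omega
    · rw [P002G.blk_apply₂₂, hΞ0, hΥ0]
      simp only [Matrix.of_apply, Fin.append_right, mul_zero,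
        Finset.sum_const_zero, add_zero]
      rw [Matrix.one_apply, Matrix.one_apply]
      simp only [Fin.natAdd_inj]
  have hΞΥ : 1 + Ξ0 * Υ0 = W0 := by
    ext i j
    rw [Matrix.add_apply, Matrix.mul_apply, Fin.sum_univ_add, hΞ0, hΥ0]
    simp only [Matrix.of_apply, Fin.append_left, Fin.append_right, zero_mul,
      Finset.sum_const_zero, add_zero]
    rw [← Matrix.mul_apply, Matrix.one_mul, Matrix.sub_apply]
    ring
  obtain ⟨V, hV⟩ : ∃ V : Mat (m + p) ℂ, V = (uU X)⁻¹ := ⟨_, rfl⟩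
  have hUd : IsUnit (uU X).det := by rw [det_uU]; exact isUnit_one
  have hVU : V * uU X = 1 := by rw [hV, Matrix.nonsing_inv_mul _ hUd]
  have hUV : uU X * V = 1 := by rw [hV, Matrix.mul_nonsing_inv _ hUd]
  obtain ⟨Gi, hGi⟩ : ∃ Gi : Mat (m + p) ℂ, Gi = ((G⁻¹ : (Mat (m + p) ℂ)ˣ) : Mat (m + p) ℂ) :=
    ⟨_, rfl⟩
  have hGG : (G : Mat (m + p) ℂ) * Gi = 1 := by rw [hGi, Units.mul_inv]
  have hGG' : Gi * (G : Mat (m + p) ℂ) = 1 := by rw [hGi, Units.inv_mul]
  have hT : V * ((G : Mat (m + p) ℂ) * Υ0) * (Ξ0 * Gi) = ζ⁻¹ • lL X - V := by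
    have h1 : zZ X = ζ • (1 + ((G : Mat (m + p) ℂ) * Υ0) * (Ξ0 * Gi)) := by
      calc zZ X = zZ X * G * Gi := by rw [Matrix.mul_assoc, hGG, Matrix.mul_one]
        _ = (G : Mat (m + p) ℂ) * (ζ • (1 + Υ0 * Ξ0)) * Gi := by rw [hZ, hb]
        _ = _ := by
          rw [Matrix.mul_smul, Matrix.smul_mul, Matrix.mul_add, Matrix.mul_one, Matrix.add_mul,
            hGG]
          simp only [Matrix.mul_assoc]
    have h2 : ζ⁻¹ • zZ X = 1 + ((G : Mat (m + p) ℂ) * Υ0) * (Ξ0 * Gi) := by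
      rw [h1, smul_smul, inv_mul_cancel₀ h.zeta, one_smul]
    have h3 : V * (ζ⁻¹ • zZ X) = ζ⁻¹ • lL X := by
      rw [zZ, Matrix.mul_smul, ← Matrix.mul_assoc, hVU, Matrix.one_mul]
    rw [h2, Matrix.mul_add, Matrix.mul_one] at h3
    rw [Matrix.mul_assoc, ← h3]
    abel
  have hX1 : X = dX ζ (V * ((G : Mat (m + p) ℂ) * Υ0) * (Ξ0 * Gi)) := by
    rw [hT]
    exact eq_dX (mul_inv_cancel₀ h.zeta) X V hVU
  refine ⟨Ξ0 * Gi, V * ((G : Mat (m + p) ℂ) * Υ0), hX1, ?_, ?_, ?_⟩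
  · have h1 : dU (V * ((G : Mat (m + p) ℂ) * Υ0) * (Ξ0 * Gi)) = uU X := by
      rw [← uU_dX ζ, ← hX1]
    rw [h1, ← Matrix.mul_assoc (uU X), hUV, Matrix.one_mul, Matrix.mul_assoc Ξ0,
      ← Matrix.mul_assoc Gi, hGG', Matrix.one_mul, hΞΥ]
  · intro v hv
    have h1 : (uU X * (V * ((G : Mat (m + p) ℂ) * Υ0))) *ᵥ v = 0 := by
      rw [← Matrix.mulVec_mulVec, hv, Matrix.mulVec_zero]
    rw [← Matrix.mul_assoc, hUV, Matrix.one_mul] at h1
    have h2 : (Gi * ((G : Mat (m + p) ℂ) * Υ0)) *ᵥ v = 0 := by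
      rw [← Matrix.mulVec_mulVec, h1, Matrix.mulVec_zero]
    rw [← Matrix.mul_assoc, hGG', Matrix.one_mul] at h2
    apply h.inj
    · funext i
      have h3 := congrFun h2 (Fin.castAdd p i)
      rw [hΥ0, Pi.zero_apply] at h3
      rw [Pi.zero_apply, ← h3]
      simp only [Matrix.mulVec, dotProduct, Matrix.of_apply, Fin.append_left]
    · funext i
      have h3 := congrFun h2 (Fin.natAdd m i)
      rw [hΥ0, Pi.zero_apply] at h3
      rw [Pi.zero_apply, ← h3]
      simp only [Matrix.mulVec, dotProduct, Matrix.of_apply, Fin.append_right]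
  · intro w hw
    have h1 : w ᵥ* (Ξ0 * Gi * (G : Mat (m + p) ℂ)) = 0 := by
      rw [← Matrix.vecMul_vecMul, hw, Matrix.zero_vecMul]
    rw [Matrix.mul_assoc, hGG', Matrix.mul_one] at h1
    funext i
    have h3 := congrFun h1 (Fin.castAdd p i)
    rw [hΞ0] at h3
    simp only [Matrix.vecMul, dotProduct, Matrix.of_apply, Fin.append_left] at h3
    rw [← dotProduct, ← Matrix.vecMul, Matrix.vecMul_one] at h3
    exact h3

/-- The matrix `[1 | x]`. -/
def oneX {S : Type*} [CommRing S] (x : Matrix (Fin m) (Fin p) S) : Matrix (Fin m) (Fin (m + p)) S :=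
  Matrix.of fun i => Fin.append (fun j => (1 : Mat m S) i j) (x i)

theorem oneX_left {S : Type*} [CommRing S] (x : Matrix (Fin m) (Fin p) S) (i j : Fin m) :
    oneX x i (Fin.castAdd p j) = (1 : Mat m S) i j := by
  rw [oneX, Matrix.of_apply, Fin.append_left]

theorem oneX_right {S : Type*} [CommRing S] (x : Matrix (Fin m) (Fin p) S) (i : Fin m)
    (j : Fin p) : oneX x i (Fin.natAdd m j) = x i j := by
  rw [oneX, Matrix.of_apply, Fin.append_right]

theorem DualCls.cj_oneX {ζ : ℂ} {J : Mat (m + p) ℂ} {W0 : Mat m ℂ}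
    {Y0 : Matrix (Fin p) (Fin m) ℂ} (h : DualCls ζ J W0 Y0) (x : Matrix (Fin m) (Fin p) ℂ)
    (Υ : Matrix (Fin (m + p)) (Fin m) ℂ) (hΥ : ∀ v, Υ *ᵥ v = 0 → v = 0)
    (hW : P002G.Cj W0 (1 + oneX x * (dU (Υ * oneX x) * Υ))) :
    CjM J (zZ (dX ζ (Υ * oneX x))) := by
  obtain ⟨U, hU⟩ : ∃ U, U = dU (Υ * oneX x) := ⟨_, rfl⟩
  obtain ⟨V, hV⟩ : ∃ V, V = 1 - upS (Υ * oneX x) := ⟨_, rfl⟩
  have hVU : V * U = 1 := by rw [hU, hV, mul_dU]
  obtain ⟨Υ', hΥ'⟩ : ∃ Υ', Υ' = U * Υ := ⟨_, rfl⟩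
  rw [← hU, ← hΥ'] at hW
  obtain ⟨Y, hY⟩ : ∃ Y : Matrix (Fin p) (Fin m) ℂ, Y = Matrix.of fun i j => Υ' (Fin.natAdd m i) j :=
    ⟨_, rfl⟩
  obtain ⟨A, hA⟩ : ∃ A : Matrix (Fin m) (Fin m) ℂ, A = Matrix.of fun i j =>
    Υ' (Fin.castAdd p i) j := ⟨_, rfl⟩
  have h1 : oneX x * Υ' = A + x * Y := by
    ext i j
    rw [Matrix.mul_apply, Fin.sum_univ_add, Matrix.add_apply, Matrix.mul_apply]
    simp only [oneX_left, oneX_right]
    congr 1
    · have h2 : ∀ a : Fin m, Υ' (Fin.castAdd p a) j = A a j := fun a => by rw [hA]; rfl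
      simp only [h2]
      rw [← Matrix.mul_apply, Matrix.one_mul]
    · exact Finset.sum_congr rfl fun a _ => by rw [hY]; rfl
  have h2 : zZ (dX ζ (Υ * oneX x)) = P002G.chZ ζ (1 + oneX x * Υ') x Y := by
    rw [zZ_dX, P002G.chZ_eq, ← hU, ← Matrix.mul_assoc, ← hΥ', h1]
    have h3 : 1 + (A + x * Y) - x * Y = 1 + A := by abel
    rw [h3]
    congr 1
    ext i j
    rw [Matrix.add_apply, Matrix.mul_apply]
    refine Fin.addCases (fun i => ?_) (fun i => ?_) i <;>
      refine Fin.addCases (fun j => ?_) (fun j => ?_) j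
    · rw [P002G.blk_apply₁₁]
      simp only [oneX_left]
      have h4 : ∑ a, Υ' (Fin.castAdd p i) a * (1 : Mat m ℂ) a j = A i j := by
        have h5 : ∀ a : Fin m, Υ' (Fin.castAdd p i) a = A i a := fun a => by rw [hA]; rfl
        simp only [h5]
        rw [← Matrix.mul_apply, Matrix.mul_one]
      rw [h4, Matrix.add_apply, Matrix.one_apply, Matrix.one_apply]
      simp only [Fin.castAdd_inj]
    · rw [P002G.blk_apply₁₂]
      simp only [oneX_right]
      have h4 : ∑ a, Υ' (Fin.castAdd p i) a * x a j = (A * x) i j := by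
        rw [Matrix.mul_apply]
        exact Finset.sum_congr rfl fun a _ => by rw [hA]; rfl
      rw [h4, Matrix.one_apply_ne, zero_add, Matrix.add_mul, Matrix.one_mul]
      · rw [Matrix.sub_apply, Matrix.add_apply]
        ring
      · intro h
        have := congrArg Fin.val h
        simp only [Fin.val_castAdd, Fin.val_natAdd] at this
        omega
    · rw [P002G.blk_apply₂₁]
      simp only [oneX_left]
      have h4 : ∑ a, Υ' (Fin.natAdd m i) a * (1 : Mat m ℂ) a j = Y i j := by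
        have h5 : ∀ a : Fin m, Υ' (Fin.natAdd m i) a = Y i a := fun a => by rw [hY]; rfl
        simp only [h5]
        rw [← Matrix.mul_apply, Matrix.mul_one]
      rw [h4, Matrix.one_apply_ne, zero_add]
      intro h
      have := congrArg Fin.val h
      simp only [Fin.val_castAdd, Fin.val_natAdd] at this
      omega
    · rw [P002G.blk_apply₂₂]
      simp only [oneX_right]
      have h4 : ∑ a, Υ' (Fin.natAdd m i) a * x a j = (Y * x) i j := by
        rw [Matrix.mul_apply]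
        exact Finset.sum_congr rfl fun a _ => by rw [hY]; rfl
      rw [h4, Matrix.add_apply, Matrix.one_apply, Matrix.one_apply]
      simp only [Fin.natAdd_inj]
  rw [h2]
  have h3 := P002G.cj_chZ ζ W0 (1 + oneX x * Υ') Y0 Y x hW h.inj (by
    intro v hv1 hv2
    rw [add_sub_cancel_left, h1, Matrix.add_mulVec, ← Matrix.mulVec_mulVec, hv2,
      Matrix.mulVec_zero, add_zero] at hv1
    have h4 : Υ' *ᵥ v = 0 := by
      funext i
      refine Fin.addCases (fun i => ?_) (fun i => ?_) i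
      · have h5 := congrFun hv1 i
        rw [hA] at h5
        exact h5
      · have h5 := congrFun hv2 i
        rw [hY] at h5
        exact h5
    apply hΥ
    have h5 : V *ᵥ (Υ' *ᵥ v) = 0 := by rw [h4, Matrix.mulVec_zero]
    rw [hΥ', Matrix.mulVec_mulVec, ← Matrix.mul_assoc, hVU, Matrix.one_mul] at h5
    exact h5)
  exact P002G.cjC_of_cj (h.cj.symm.trans h3)

/-- Gauge invariance. -/
theorem prod_gauge {r : ℕ} {S : Type*} [CommRing S] (Ξ : Matrix (Fin m) (Fin r) S)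
    (Υ : Matrix (Fin r) (Fin m) S) (g g' : Mat m S) (h : g' * g = 1) :
    (Υ * g') * (g * Ξ) = Υ * Ξ := by
  rw [Matrix.mul_assoc, ← Matrix.mul_assoc g', h, Matrix.one_mul]

theorem DualCls.cj_dX {ζ : ℂ} {J : Mat (m + p) ℂ} {W0 : Mat m ℂ}
    {Y0 : Matrix (Fin p) (Fin m) ℂ} (h : DualCls ζ J W0 Y0) (Ξ : Matrix (Fin m) (Fin (m + p)) ℂ)
    (Υ : Matrix (Fin (m + p)) (Fin m) ℂ) (hΥ : ∀ v, Υ *ᵥ v = 0 → v = 0)
    (hB : IsUnit (Matrix.of fun i j => Ξ i (Fin.castAdd p j) : Mat m ℂ).det)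
    (hW : P002G.Cj W0 (1 + Ξ * (dU (Υ * Ξ) * Υ))) :
    CjM J (zZ (dX ζ (Υ * Ξ))) := by
  obtain ⟨B, hBd⟩ : ∃ B : Mat m ℂ, B = Matrix.of fun i j => Ξ i (Fin.castAdd p j) := ⟨_, rfl⟩
  rw [← hBd] at hB
  have hBB : B⁻¹ * B = 1 := Matrix.nonsing_inv_mul _ hB
  have hBB' : B * B⁻¹ = 1 := Matrix.mul_nonsing_inv _ hB
  obtain ⟨x, hx⟩ : ∃ x : Matrix (Fin m) (Fin p) ℂ, x = Matrix.of fun i j =>
    (B⁻¹ * Ξ) i (Fin.natAdd m j) := ⟨_, rfl⟩
  have h1 : B⁻¹ * Ξ = oneX x := by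
    ext i j
    refine Fin.addCases (fun j => ?_) (fun j => ?_) j
    · rw [oneX_left, ← hBB, Matrix.mul_apply, Matrix.mul_apply]
      exact Finset.sum_congr rfl fun a _ => by rw [hBd]; rfl
    · rw [oneX_right, hx]
      rfl
  have h2 : (Υ * B) * oneX x = Υ * Ξ := by
    rw [← h1]
    exact prod_gauge Ξ Υ B⁻¹ B hBB'
  have h3 := h.cj_oneX x (Υ * B) (fun v hv => by
    have h4 : B *ᵥ v = 0 := hΥ _ (by rw [Matrix.mulVec_mulVec]; exact hv)
    have h5 : (B⁻¹ * B) *ᵥ v = 0 := by rw [← Matrix.mulVec_mulVec, h4, Matrix.mulVec_zero]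
    rwa [hBB, Matrix.one_mulVec] at h5) (by
    refine hW.trans ⟨B⁻¹, Matrix.isUnit_nonsing_inv_iff.2 ((Matrix.isUnit_iff_isUnit_det _).2 hB), ?_⟩
    rw [h2, ← h1, Matrix.mul_add, Matrix.mul_one, Matrix.add_mul, Matrix.one_mul]
    congr 1
    calc B⁻¹ * (Ξ * (dU (Υ * Ξ) * Υ)) = B⁻¹ * (Ξ * (dU (Υ * Ξ) * Υ)) * (B * B⁻¹) := by
          rw [hBB', Matrix.mul_one]
      _ = _ := by simp only [Matrix.mul_assoc])
  rw [h2] at h3
  exact h3

end Vale.Agent.P002R
end

section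

/-!
# P002: duality, the chart of the dual tuples
-/

namespace Vale.Agent.P002R

open Matrix

variable {n : ℕ} {S T : Type*} [CommRing S] [CommRing T]

/-- The parameters of the chart. -/
structure DIn (n : ℕ) (S : Type*) where
  z : S
  W : Mat n S
  v : ℕ → Fin n → S
  vi : ℕ → Fin n → S
  p : ℕ → Fin n → S
  dv : ℕ → S
  ka : ℕ → S

namespace DIn

/-- The rows of the reflections in the cell. -/
def y (I : DIn n S) (k : ℕ) (i : Fin n) : S := (I.p k i - 1) * I.vi k i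

/-- The elements of the cell. -/
def Y (I : DIn n S) : ℕ → Mat n S
  | 0 => I.W
  | k + 1 => dX 1 (vecMulVec (I.v k) (I.y k))

theorem Y_zero (I : DIn n S) : I.Y 0 = I.W := rfl

theorem Y_succ (I : DIn n S) (k : ℕ) : I.Y (k + 1) = dX 1 (vecMulVec (I.v k) (I.y k)) := rfl

/-- The vectors of the reflections. -/
def xi (I : DIn n S) (k : ℕ) : Fin n → S :=
  I.dv k • ((Lc I.Y (k + 1)).adjugate *ᵥ (uU (I.Y (k + 1)) *ᵥ I.v k))

/-- The covectors of the reflections. -/
def w (I : DIn n S) (k : ℕ) : Fin n → S := -(I.ka k) • (I.y k ᵥ* Lc I.Y (k + 1))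

/-- The matrix of the vectors. -/
def Xi (I : DIn n S) (e : ℕ) : Matrix (Fin n) (Fin (n + e)) S :=
  oneX (Matrix.of fun i (j : Fin e) => I.xi (e - 1 - j) i)

/-- The matrix of the covectors. -/
def Up (I : DIn n S) (e : ℕ) : Matrix (Fin (n + e)) (Fin n) S :=
  Matrix.of (Fin.append (fun i => (Lc I.Y (e + 1) - (Uc I.Y (e + 1)).adjugate) i)
    fun j : Fin e => I.w (e - 1 - j))

/-- The element of the cell. -/
def out (I : DIn n S) (e : ℕ) : Mat (n + e) S := dX I.z (I.Up e * I.Xi e)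

/-- The relations between the parameters. -/
structure Ok (I : DIn n S) : Prop where
  v : ∀ k i, I.v k i * I.vi k i = 1
  dv : ∀ k, I.dv k * (Lc I.Y (k + 1)).det = 1
  ka : ∀ k, I.ka k * ∏ i, I.p k i = 1

/-- Change of rings. -/
def map (φ : S →+* T) (I : DIn n S) : DIn n T where
  z := φ I.z
  W := I.W.map φ
  v := fun k i => φ (I.v k i)
  vi := fun k i => φ (I.vi k i)
  p := fun k i => φ (I.p k i)
  dv := fun k => φ (I.dv k)
  ka := fun k => φ (I.ka k)

theorem y_map (φ : S →+* T) (I : DIn n S) (k : ℕ) (i : Fin n) :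
    (I.map φ).y k i = φ (I.y k i) := by
  rw [y, y, map_mul, map_sub, map_one]
  rfl

theorem Y_map (φ : S →+* T) (I : DIn n S) (k : ℕ) : (I.map φ).Y k = (I.Y k).map φ := by
  cases k with
  | zero => rfl
  | succ k =>
    rw [Y_succ, Y_succ, dX_map, map_one]
    congr 1
    ext i j
    rw [Matrix.map_apply, vecMulVec_apply, vecMulVec_apply, y_map, map_mul]
    rfl

theorem Y_map' (φ : S →+* T) (I : DIn n S) : (I.map φ).Y = fun k => (I.Y k).map φ :=
  funext fun k => Y_map φ I k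

theorem Lc_map' (φ : S →+* T) (I : DIn n S) (k : ℕ) :
    Lc (I.map φ).Y k = (Lc I.Y k).map φ := by rw [Y_map', ← Lc_map]

theorem Uc_map' (φ : S →+* T) (I : DIn n S) (k : ℕ) :
    Uc (I.map φ).Y k = (Uc I.Y k).map φ := by rw [Y_map', ← Uc_map]

theorem map_mulVec' (φ : S →+* T) {a b : ℕ} (M : Matrix (Fin a) (Fin b) S) (x : Fin b → S) :
    (fun i => φ ((M *ᵥ x) i)) = M.map φ *ᵥ fun i => φ (x i) := by
  funext i
  exact RingHom.map_mulVec φ M x i

theorem map_vecMul' (φ : S →+* T) {a b : ℕ} (M : Matrix (Fin a) (Fin b) S) (x : Fin a → S) :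
    (fun i => φ ((x ᵥ* M) i)) = (fun i => φ (x i)) ᵥ* M.map φ := by
  funext i
  exact RingHom.map_vecMul φ M x i

theorem xi_map (φ : S →+* T) (I : DIn n S) (k : ℕ) :
    (I.map φ).xi k = fun i => φ (I.xi k i) := by
  have h1 : (fun i => φ (I.xi k i)) = φ (I.dv k) • fun i =>
      φ (((Lc I.Y (k + 1)).adjugate *ᵥ (uU (I.Y (k + 1)) *ᵥ I.v k)) i) := by
    funext i
    rw [xi, Pi.smul_apply, Pi.smul_apply, smul_eq_mul, smul_eq_mul, map_mul]
  rw [h1, map_mulVec', map_mulVec', adjugate_map, uU_map, xi, Lc_map', Y_map]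
  rfl

theorem w_map (φ : S →+* T) (I : DIn n S) (k : ℕ) :
    (I.map φ).w k = fun i => φ (I.w k i) := by
  have h1 : (fun i => φ (I.w k i)) = -φ (I.ka k) • fun i =>
      φ ((I.y k ᵥ* Lc I.Y (k + 1)) i) := by
    funext i
    rw [w, Pi.smul_apply, Pi.smul_apply, smul_eq_mul, smul_eq_mul, map_mul, map_neg]
  rw [h1, map_vecMul', w, Lc_map']
  have h2 : (fun i => φ (I.y k i)) = (I.map φ).y k := funext fun i => (y_map φ I k i).symm
  rw [h2]
  rfl

theorem Xi_map (φ : S →+* T) (I : DIn n S) (e : ℕ) : (I.map φ).Xi e = (I.Xi e).map φ := by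
  ext i j
  rw [Matrix.map_apply, Xi, Xi]
  refine Fin.addCases (fun j => ?_) (fun j => ?_) j
  · rw [oneX_left, oneX_left, Matrix.one_apply, Matrix.one_apply]
    split_ifs
    · exact (map_one φ).symm
    · exact (map_zero φ).symm
  · rw [oneX_right, oneX_right, Matrix.of_apply, Matrix.of_apply, xi_map]

theorem Up_map (φ : S →+* T) (I : DIn n S) (e : ℕ) : (I.map φ).Up e = (I.Up e).map φ := by
  ext i j
  rw [Matrix.map_apply, Up, Up, Matrix.of_apply, Matrix.of_apply]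
  refine Fin.addCases (fun i => ?_) (fun i => ?_) i
  · rw [Fin.append_left, Fin.append_left, Lc_map', Uc_map', ← adjugate_map, Matrix.sub_apply,
      Matrix.sub_apply, map_sub]
    rfl
  · rw [Fin.append_right, Fin.append_right, w_map]

theorem out_map (φ : S →+* T) (I : DIn n S) (e : ℕ) : (I.map φ).out e = (I.out e).map φ := by
  rw [out, out, dX_map, Matrix.map_mul, Up_map, Xi_map]
  rfl

theorem ok_map (φ : S →+* T) {I : DIn n S} (h : I.Ok) : (I.map φ).Ok := by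
  refine ⟨fun k i => ?_, fun k => ?_, fun k => ?_⟩
  · have h1 := congrArg φ (h.v k i)
    rw [map_mul, map_one] at h1
    exact h1
  · have h1 := congrArg φ (h.dv k)
    rw [map_mul, map_one, RingHom.map_det] at h1
    rw [Lc_map']
    exact h1
  · have h1 := congrArg φ (h.ka k)
    rw [map_mul, map_one, map_prod] at h1
    exact h1

/-! ### The identities -/

theorem Y_diag {I : DIn n S} (h : I.Ok) (k : ℕ) (i : Fin n) : I.Y (k + 1) i i = I.p k i := by
  rw [Y_succ, dX_diag, vecMulVec_apply, y, one_mul]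
  have h1 := h.v k i
  calc 1 + I.v k i * ((I.p k i - 1) * I.vi k i) = 1 + (I.p k i - 1) * (I.v k i * I.vi k i) := by
        ring
    _ = _ := by rw [h1]; ring

/-- The vector of the reflection in the cell. -/
def v' (I : DIn n S) (k : ℕ) : Fin n → S := uU (I.Y (k + 1)) *ᵥ I.v k

theorem zZ_Y (I : DIn n S) (k : ℕ) :
    zZ (I.Y (k + 1)) = 1 + vecMulVec (I.v' k) (I.y k) := by
  rw [Y_succ, zZ_dX, one_smul, v', Y_succ, uU_dX, Matrix.mul_vecMulVec]

theorem y_v' {I : DIn n S} (h : I.Ok) (k : ℕ) : 1 + I.y k ⬝ᵥ I.v' k = ∏ i, I.p k i := by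
  have h1 := prod_refl (Matrix.of fun (_ : Fin 1) i => I.y k i)
    (Matrix.of fun i (_ : Fin 1) => I.v k i)
  have h2 : (Matrix.of fun i (_ : Fin 1) => I.v k i) * (Matrix.of fun (_ : Fin 1) i => I.y k i) =
      vecMulVec (I.v k) (I.y k) := by
    ext i j
    rw [Matrix.mul_apply, Fin.sum_univ_one, vecMulVec_apply]
    rfl
  have h3 := congrFun (congrFun h1 0) 0
  rw [h2, Matrix.add_apply, Matrix.one_apply_eq, Matrix.mul_apply] at h3
  have h4 : ∑ j, (Matrix.of fun (_ : Fin 1) i => I.y k i) 0 j *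
      (dU (vecMulVec (I.v k) (I.y k)) * (Matrix.of fun i (_ : Fin 1) => I.v k i)) j 0 =
      I.y k ⬝ᵥ I.v' k := by
    rw [dotProduct, v', Y_succ, uU_dX]
    rfl
  rw [h4] at h3
  rw [← h3]
  have h5 : ∀ l : List (Mat 1 S), l.prod 0 0 = (l.map fun M => M 0 0).prod := by
    intro l
    induction l with
    | nil => simp
    | cons a l ih =>
      rw [List.prod_cons, List.map_cons, List.prod_cons, Matrix.mul_apply, Fin.sum_univ_one, ih]
  rw [h5, List.map_ofFn, List.prod_ofFn]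
  refine Finset.prod_congr rfl fun i _ => ?_
  simp only [Function.comp_apply, Matrix.add_apply, Matrix.one_apply_eq, vecMulVec_apply,
    Matrix.of_apply]
  have h6 := h.v k i
  rw [y]
  calc 1 + (I.p k i - 1) * I.vi k i * I.v k i = 1 + (I.p k i - 1) * (I.v k i * I.vi k i) := by
        ring
    _ = _ := by rw [h6]; ring

theorem Lc_xi {I : DIn n S} (h : I.Ok) (k : ℕ) : Lc I.Y (k + 1) *ᵥ I.xi k = I.v' k := by
  rw [xi, Matrix.mulVec_smul, Matrix.mulVec_mulVec, Matrix.mul_adjugate, Matrix.smul_mulVec,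
    Matrix.one_mulVec, smul_smul, h.dv, one_smul, v']

/-- The reflections in the chain. -/
def R (I : DIn n S) (k : ℕ) : Mat n S := 1 + vecMulVec (I.xi k) (I.w k)

theorem R_rel {I : DIn n S} (h : I.Ok) (k : ℕ) :
    zZ (I.Y (k + 1)) * Lc I.Y (k + 1) * I.R k = Lc I.Y (k + 1) := by
  have h1 : Lc I.Y (k + 1) * I.R k = (1 - I.ka k • vecMulVec (I.v' k) (I.y k)) *
      Lc I.Y (k + 1) := by
    rw [R, Matrix.mul_add, Matrix.mul_one, Matrix.mul_vecMulVec, Lc_xi h, w, Matrix.sub_mul,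
      Matrix.one_mul, Matrix.smul_mul, Matrix.vecMulVec_mul, Matrix.vecMulVec_smul, neg_smul,
      ← sub_eq_add_neg]
  rw [Matrix.mul_assoc, h1, ← Matrix.mul_assoc, zZ_Y]
  have h2 : vecMulVec (I.v' k) (I.y k) * vecMulVec (I.v' k) (I.y k) =
      (I.y k ⬝ᵥ I.v' k) • vecMulVec (I.v' k) (I.y k) := by
    rw [Matrix.vecMulVec_mul_vecMulVec, Matrix.vecMulVec_smul]
  have h3 : (1 + vecMulVec (I.v' k) (I.y k)) * (1 - I.ka k • vecMulVec (I.v' k) (I.y k)) =
      1 + (1 - I.ka k * (1 + I.y k ⬝ᵥ I.v' k)) • vecMulVec (I.v' k) (I.y k) := by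
    rw [Matrix.mul_sub, Matrix.mul_one, Matrix.add_mul, Matrix.one_mul, Matrix.mul_smul, h2]
    module
  rw [h3, y_v' h, h.ka, sub_self, zero_smul, add_zero, Matrix.one_mul]

theorem chain_rel {I : DIn n S} (h : I.Ok) (k : ℕ) :
    Uc I.Y (k + 2) * Lc I.Y (k + 2) * I.R k = Uc I.Y (k + 1) * Lc I.Y (k + 1) := by
  rw [Uc_succ I.Y (k + 1), Lc_succ I.Y (k + 1)]
  calc Uc I.Y (k + 1) * uU (I.Y (k + 1)) * (lL (I.Y (k + 1)) * Lc I.Y (k + 1)) * I.R k
      = Uc I.Y (k + 1) * (zZ (I.Y (k + 1)) * Lc I.Y (k + 1) * I.R k) := by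
        rw [zZ]
        simp only [Matrix.mul_assoc]
    _ = _ := by rw [R_rel h]

theorem chain_prod {I : DIn n S} (h : I.Ok) (e : ℕ) :
    Uc I.Y (e + 1) * Lc I.Y (e + 1) * (List.ofFn fun j : Fin e => I.R (e - 1 - j)).prod =
      zZ I.W := by
  induction e with
  | zero =>
    rw [List.ofFn_zero, List.prod_nil, Matrix.mul_one, Uc_succ, Lc_succ, Uc_zero, Lc_zero,
      Matrix.one_mul, Matrix.mul_one, Y_zero, zZ]
  | succ e ih =>
    rw [List.ofFn_succ, List.prod_cons, ← Matrix.mul_assoc]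
    have h1 : e + 1 - 1 - ((0 : Fin (e + 1)) : ℕ) = e := by simp
    rw [h1, chain_rel h, ← ih]
    congr 2
    refine congrArg List.ofFn (funext fun j => ?_)
    congr 1
    simp only [Fin.val_succ]
    omega

theorem first_prod (I : DIn n S) (e : ℕ) :
    1 + (1 : Mat n S) * (dU ((Lc I.Y (e + 1) - (Uc I.Y (e + 1)).adjugate) * 1) *
      (Lc I.Y (e + 1) - (Uc I.Y (e + 1)).adjugate)) = Uc I.Y (e + 1) * Lc I.Y (e + 1) := by
  obtain ⟨X, hX1, hX2, -⟩ := exists_coord (Uc I.Y (e + 1)) (Lc I.Y (e + 1)) (upT_Uc _ _)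
    (Uc_diag _ _) (loT_Lc _ _)
  have hV : (Uc I.Y (e + 1)).adjugate * uU X = 1 := by
    rw [hX1, Matrix.adjugate_mul, det_Uc, one_smul]
  have hV' : Uc I.Y (e + 1) * (Uc I.Y (e + 1)).adjugate = 1 := by
    rw [Matrix.mul_adjugate, det_Uc, one_smul]
  have h1 := eq_dX (one_mul (1 : S)) X _ hV
  rw [one_smul, hX2] at h1
  have h2 : dU (Lc I.Y (e + 1) - (Uc I.Y (e + 1)).adjugate) = Uc I.Y (e + 1) := by
    rw [← uU_dX 1, ← h1, hX1]
  rw [Matrix.mul_one, h2, Matrix.one_mul, Matrix.mul_sub, hV']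
  abel

theorem Up_left (I : DIn n S) (e : ℕ) (i : Fin n) : I.Up e (Fin.castAdd e i) =
    (Lc I.Y (e + 1) - (Uc I.Y (e + 1)).adjugate) i := by
  funext a
  rw [Up, Matrix.of_apply, Fin.append_left]

theorem Up_right (I : DIn n S) (e : ℕ) (j : Fin e) : I.Up e (Fin.natAdd n j) =
    I.w (e - 1 - j) := by
  funext a
  rw [Up, Matrix.of_apply, Fin.append_right]

theorem total_prod {I : DIn n S} (h : I.Ok) (e : ℕ) :
    1 + I.Xi e * (dU (I.Up e * I.Xi e) * I.Up e) = zZ I.W := by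
  rw [← prod_refl, ← chain_prod h e, ← first_prod, ← prod_refl]
  have h1 : (fun i => 1 + vecMulVec (fun a => I.Xi e a i) (I.Up e i)) = Fin.append
      (fun i : Fin n => 1 + vecMulVec (fun a => (1 : Mat n S) a i)
        ((Lc I.Y (e + 1) - (Uc I.Y (e + 1)).adjugate) i)) fun j : Fin e => I.R (e - 1 - j) := by
    funext i
    refine Fin.addCases (fun i => ?_) (fun i => ?_) i
    · rw [Fin.append_left, Up_left]
      congr 2
      funext a
      rw [Xi, oneX_left]
    · rw [Fin.append_right, Up_right, R]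
      congr 2
      funext a
      rw [Xi, oneX_right]
      rfl
  rw [h1, List.ofFn_fin_append, List.prod_append]

theorem out_left {I : DIn n S} (h : I.Ok) (e : ℕ) (i : Fin n) :
    I.out e (Fin.castAdd e i) (Fin.castAdd e i) = I.z * (I.W i i *
      ∏ k ∈ Finset.range e, I.p k i) := by
  rw [out, dX_diag, Matrix.mul_apply]
  have h1 : ∑ j, I.Up e (Fin.castAdd e i) j * I.Xi e j (Fin.castAdd e i) =
      (Lc I.Y (e + 1) - (Uc I.Y (e + 1)).adjugate) i i := by
    have h2 : ∀ j, I.Xi e j (Fin.castAdd e i) = (1 : Mat n S) j i := fun j => by rw [Xi, oneX_left]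
    simp only [h2]
    rw [← Matrix.mul_apply, Matrix.mul_one, Up, Matrix.of_apply, Fin.append_left]
  rw [h1, Matrix.sub_apply]
  have h3 : (Uc I.Y (e + 1)).adjugate i i = 1 := by
    refine (inv_upT (upT_Uc I.Y (e + 1)) (Uc_diag _ _) ?_).2 i
    rw [Matrix.adjugate_mul, det_Uc, one_smul]
  rw [h3, Lc_diag, Finset.prod_range_succ']
  have h4 : ∏ k ∈ Finset.range e, I.Y (k + 1) i i = ∏ k ∈ Finset.range e, I.p k i :=
    Finset.prod_congr rfl fun k _ => Y_diag h k i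
  rw [h4, Y_zero]
  ring

theorem out_right {I : DIn n S} (h : I.Ok) (e : ℕ) (j : Fin e) :
    I.out e (Fin.natAdd n j) (Fin.natAdd n j) = I.z * I.ka (e - 1 - j) := by
  rw [out, dX_diag, Matrix.mul_apply]
  obtain ⟨k, hk⟩ : ∃ k, k = e - 1 - (j : ℕ) := ⟨_, rfl⟩
  have h1 : ∑ a, I.Up e (Fin.natAdd n j) a * I.Xi e a (Fin.natAdd n j) = I.w k ⬝ᵥ I.xi k := by
    rw [dotProduct]
    refine Finset.sum_congr rfl fun a _ => ?_
    rw [Xi, oneX_right, Up, Matrix.of_apply, Fin.append_right, Matrix.of_apply, hk]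
  have h2 : I.w k ⬝ᵥ I.xi k = -(I.ka k) * (I.y k ⬝ᵥ I.v' k) := by
    rw [w, smul_dotProduct, ← Matrix.dotProduct_mulVec, Lc_xi h, smul_eq_mul]
  have h3 := y_v' h k
  have h4 := h.ka k
  rw [h1, h2, ← hk]
  congr 1
  calc 1 + -I.ka k * (I.y k ⬝ᵥ I.v' k) = 1 + I.ka k - I.ka k * (1 + I.y k ⬝ᵥ I.v' k) := by ring
    _ = _ := by rw [h3, h4]; ring

end DIn

end Vale.Agent.P002R
end

section

/-!
# P002: generic position for dual tuples
-/

namespace Vale.Agent.P002R

open Matrix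

/-- The first columns. -/
def dB {n e : ℕ} (Ξ : Matrix (Fin n) (Fin (n + e)) ℂ) : Mat n ℂ :=
  Matrix.of fun i j => Ξ i (Fin.castAdd e j)

/-- Generic position of a dual tuple. -/
structure DGood {n e : ℕ} (Ξ : Matrix (Fin n) (Fin (n + e)) ℂ)
    (Υ : Matrix (Fin (n + e)) (Fin n) ℂ) : Prop where
  basis : (dB Ξ).det ≠ 0
  cell : ∀ l : Fin e, ∃ X : Mat n ℂ, (∀ i, X i i ≠ 0) ∧
    dB Ξ * zZ X = ((List.ofFn (dR Ξ Υ)).take (n + l + 1)).prod * dB Ξ ∧
    ∀ i, (lL X *ᵥ ((dB Ξ)⁻¹ *ᵥ fun a => Ξ a (Fin.natAdd n l))) i ≠ 0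

/-- The claim on generic position: near every irreducible dual tuple there is one in generic
position, with the same determinants of the reflections and with the product in the same class. -/
def DNear (n e : ℕ) : Prop :=
  ∀ (Ξ : Matrix (Fin n) (Fin (n + e)) ℂ) (Υ : Matrix (Fin (n + e)) (Fin n) ℂ),
    (∀ i, (fun a => Ξ a i) ≠ 0) → (∀ i, Υ i ≠ 0) →
    (∀ i, 1 + Υ i ⬝ᵥ (fun a => Ξ a i) ≠ 0) →
    (∀ H : Submodule ℂ (Fin n → ℂ), (∀ i, ∀ x ∈ H, dR Ξ Υ i *ᵥ x ∈ H) → H = ⊥ ∨ H = ⊤) →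
    ∀ N ∈ nhds (Ξ, Υ), ∃ z ∈ N, DGood z.1 z.2 ∧
      (∀ i, z.2 i ⬝ᵥ (fun a => z.1 a i) = Υ i ⬝ᵥ (fun a => Ξ a i)) ∧
      P002G.Cj (List.ofFn (dR Ξ Υ)).prod (List.ofFn (dR z.1 z.2)).prod

end Vale.Agent.P002R
end

section

/-!
# P002: duality, the parameters of a dual tuple in generic position
-/

namespace Vale.Agent.P002R

open Matrix

variable {n e : ℕ}

theorem dX_diag_top (A : Mat n ℂ) : zZ (dX 1 A) = 1 + dU A * A := by
  rw [zZ_dX, one_smul]

/-- The first reflections, for the standard basis. -/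
theorem take_first (x : Matrix (Fin n) (Fin e) ℂ) (Υ : Matrix (Fin (n + e)) (Fin n) ℂ) :
    ((List.ofFn (dR (oneX x) Υ)).take n).prod =
      zZ (dX 1 (Matrix.of fun i j => Υ (Fin.castAdd e i) j)) := by
  obtain ⟨A, hA⟩ : ∃ A : Mat n ℂ, A = Matrix.of fun i j => Υ (Fin.castAdd e i) j := ⟨_, rfl⟩
  have h1 : List.ofFn (dR (oneX x) Υ) = List.ofFn (fun i : Fin n => dR (oneX x) Υ (Fin.castAdd e i))
      ++ List.ofFn (fun j : Fin e => dR (oneX x) Υ (Fin.natAdd n j)) := by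
    rw [← List.ofFn_fin_append]
    congr 1
    funext i
    refine Fin.addCases (fun i => ?_) (fun i => ?_) i
    · rw [Fin.append_left]
    · rw [Fin.append_right]
  rw [h1, List.take_left' (List.length_ofFn)]
  have h2 : (fun i : Fin n => dR (oneX x) Υ (Fin.castAdd e i)) = fun i : Fin n =>
      1 + vecMulVec (fun a => (1 : Mat n ℂ) a i) (A i) := by
    funext i
    rw [dR]
    congr 2
    · funext a
      rw [oneX_left]
    · rw [hA]
      rfl
  rw [h2, prod_refl, Matrix.mul_one, Matrix.one_mul, ← hA, zZ_dX, one_smul]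

theorem take_succ_prod {r : ℕ} (f : Fin r → Mat n ℂ) (k : Fin r) :
    ((List.ofFn f).take (k + 1)).prod = ((List.ofFn f).take k).prod * f k := by
  rw [List.prod_take_succ _ _ (by rw [List.length_ofFn]; exact k.2)]
  congr 1
  rw [List.getElem_ofFn]

/-- One step of the chain. -/
theorem dual_step (X X' : Mat n ℂ) (ξ υ : Fin n → ℂ) (hX : ∀ i, X i i ≠ 0)
    (hX' : ∀ i, X' i i ≠ 0) (hκ : 1 + υ ⬝ᵥ ξ ≠ 0) (h : zZ X' = zZ X * (1 + vecMulVec ξ υ))
    (hv : ∀ i, (lL X' *ᵥ ξ) i ≠ 0) :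
    ∃ (v y : Fin n → ℂ), (∀ i, v i ≠ 0) ∧
      lL (dX 1 (vecMulVec v y)) * lL X' = lL X ∧ uU X' * uU (dX 1 (vecMulVec v y)) = uU X ∧
      uU (dX 1 (vecMulVec v y)) *ᵥ v = lL X' *ᵥ ξ ∧
      -(1 + υ ⬝ᵥ ξ) • (y ᵥ* lL X') = υ ∧ (∀ i, 1 + v i * y i ≠ 0) ∧
      (1 + υ ⬝ᵥ ξ) * ∏ i, (1 + v i * y i) = 1 := by
  have hLd : IsUnit (lL X).det := by
    rw [det_lL, isUnit_iff_ne_zero, Finset.prod_ne_zero_iff]
    exact fun i _ => hX i
  have hLd' : IsUnit (lL X').det := by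
    rw [det_lL, isUnit_iff_ne_zero, Finset.prod_ne_zero_iff]
    exact fun i _ => hX' i
  have hUd' : IsUnit (uU X').det := by rw [det_uU]; exact isUnit_one
  obtain ⟨κ, hκd⟩ : ∃ κ, κ = 1 + υ ⬝ᵥ ξ := ⟨_, rfl⟩
  rw [← hκd] at hκ
  obtain ⟨Ui, hUi⟩ : ∃ Ui, Ui = (uU X')⁻¹ := ⟨_, rfl⟩
  obtain ⟨Li, hLi⟩ : ∃ Li, Li = (lL X')⁻¹ := ⟨_, rfl⟩
  have hUU : uU X' * Ui = 1 := by rw [hUi, Matrix.mul_nonsing_inv _ hUd']
  have hUU' : Ui * uU X' = 1 := by rw [hUi, Matrix.nonsing_inv_mul _ hUd']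
  have hLL : lL X' * Li = 1 := by rw [hLi, Matrix.mul_nonsing_inv _ hLd']
  have hLL' : Li * lL X' = 1 := by rw [hLi, Matrix.nonsing_inv_mul _ hLd']
  obtain ⟨hUi1, hUi2⟩ := inv_upT (upT_uU X') (uU_diag X') hUU'
  have hLi1 : LoT Li := by
    rw [hLi]
    exact (loT_lL X').inv fun i => by rw [lL_diag]; exact hX' i
  obtain ⟨Y, hY1, hY2, -⟩ := exists_coord (Ui * uU X) (lL X * Li) (hUi1.mul (upT_uU X))
    (fun i => by rw [hUi1.mul_diag (upT_uU X), hUi2, uU_diag, one_mul]) ((loT_lL X).mul hLi1)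
  -- the reflection
  have hR : (1 + vecMulVec ξ υ) * (1 - κ⁻¹ • vecMulVec ξ υ) = 1 := by
    have h2 : vecMulVec ξ υ * vecMulVec ξ υ = (υ ⬝ᵥ ξ) • vecMulVec ξ υ := by
      rw [Matrix.vecMulVec_mul_vecMulVec, Matrix.vecMulVec_smul]
    have h3 : υ ⬝ᵥ ξ = κ - 1 := by rw [hκd]; ring
    rw [Matrix.mul_sub, Matrix.mul_one, Matrix.add_mul, Matrix.one_mul, Matrix.mul_smul, h2, h3]
    have h4 : (1 : ℂ) - (κ⁻¹ + κ⁻¹ * (κ - 1)) = 0 := by field_simp; ring
    have h5 : 1 + vecMulVec ξ υ - (κ⁻¹ • vecMulVec ξ υ + κ⁻¹ • (κ - 1) • vecMulVec ξ υ) =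
        1 + ((1 : ℂ) - (κ⁻¹ + κ⁻¹ * (κ - 1))) • vecMulVec ξ υ := by module
    rw [h5, h4, zero_smul, add_zero]
  have hZX : zZ X = uU X' * lL X' * (1 - κ⁻¹ • vecMulVec ξ υ) := by
    have h2 : zZ X' * (1 - κ⁻¹ • vecMulVec ξ υ) = zZ X := by
      rw [h, Matrix.mul_assoc, hR, Matrix.mul_one]
    rw [← h2, zZ]
  obtain ⟨v', hv'⟩ : ∃ v', v' = lL X' *ᵥ ξ := ⟨_, rfl⟩
  obtain ⟨y, hy⟩ : ∃ y : Fin n → ℂ, y = -κ⁻¹ • (υ ᵥ* Li) := ⟨_, rfl⟩
  have hZY : zZ Y = 1 + vecMulVec v' y := by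
    rw [zZ, hY1, hY2]
    calc Ui * uU X * (lL X * Li) = Ui * zZ X * Li := by
          rw [zZ]; simp only [Matrix.mul_assoc]
      _ = (Ui * uU X') * (lL X' * (1 - κ⁻¹ • vecMulVec ξ υ)) * Li := by
          rw [hZX]; simp only [Matrix.mul_assoc]
      _ = _ := by
          rw [hUU', Matrix.one_mul, Matrix.mul_sub, Matrix.mul_one, Matrix.sub_mul, hLL,
            Matrix.mul_smul, Matrix.mul_vecMulVec, Matrix.smul_mul, Matrix.vecMulVec_mul, hy, hv',
            Matrix.vecMulVec_smul, neg_smul, ← sub_eq_add_neg]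
  obtain ⟨V, hV⟩ : ∃ V, V = (uU Y)⁻¹ := ⟨_, rfl⟩
  have hVU : V * uU Y = 1 := by
    rw [hV, Matrix.nonsing_inv_mul _ (by rw [det_uU]; exact isUnit_one)]
  have hVU' : uU Y * V = 1 := by
    rw [hV, Matrix.mul_nonsing_inv _ (by rw [det_uU]; exact isUnit_one)]
  obtain ⟨v, hvd⟩ : ∃ v, v = V *ᵥ v' := ⟨_, rfl⟩
  have hYd : Y = dX 1 (vecMulVec v y) := by
    have h2 := eq_dX (one_mul (1 : ℂ)) Y V hVU
    have h3 : (1 : ℂ) • lL Y - V = vecMulVec v y := by
      rw [hvd, ← Matrix.mul_vecMulVec]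
      have h4 : vecMulVec v' y = zZ Y - 1 := by rw [hZY, add_sub_cancel_left]
      rw [h4, Matrix.mul_sub, Matrix.mul_one, zZ, ← Matrix.mul_assoc, hVU, Matrix.one_mul, one_smul]
    rw [h3] at h2
    exact h2
  have hUv : uU Y *ᵥ v = v' := by rw [hvd, Matrix.mulVec_mulVec, hVU', Matrix.one_mulVec]
  have hv0 : ∀ i, v i ≠ 0 := by
    intro i hi
    have h2 := dV_eq (Matrix.of fun (_ : Fin 1) i => y i) (Matrix.of fun i (_ : Fin 1) => v i)
    have h3 : (Matrix.of fun i (_ : Fin 1) => v i) * (Matrix.of fun (_ : Fin 1) i => y i) =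
        vecMulVec v y := by
      ext i j
      rw [Matrix.mul_apply, Fin.sum_univ_one, vecMulVec_apply]
      rfl
    rw [h3] at h2
    have h4 := congrFun (congrFun h2 i) 0
    have h5 : (dU (vecMulVec v y) * (Matrix.of fun i (_ : Fin 1) => v i)) i 0 = v' i := by
      rw [← hUv, hYd, uU_dX]
      rfl
    have h6 : upS (vecMulVec v y) i = 0 := by
      funext j
      rw [upS_apply, vecMulVec_apply, hi, zero_mul, ite_self]
      rfl
    have h7 : (upS (vecMulVec v y) * (dU (vecMulVec v y) *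
        (Matrix.of fun i (_ : Fin 1) => v i))) i 0 = 0 := by
      rw [Matrix.mul_apply, h6]
      simp
    rw [h5, Matrix.add_apply, h7, add_zero, Matrix.of_apply, hi] at h4
    exact hv i (by rw [← hv']; exact h4)
  have hYdiag : ∀ i, Y i i = 1 + v i * y i := fun i => by
    rw [hYd, dX_diag, vecMulVec_apply, one_mul]
  have hYne : ∀ i, Y i i ≠ 0 := by
    intro i
    have h2 : lL Y i i = lL X i i * Li i i := by
      rw [hY2, (loT_lL X).mul_diag hLi1]
    rw [lL_diag, lL_diag] at h2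
    rw [h2]
    refine mul_ne_zero (hX i) ?_
    rw [hLi, (loT_lL X').inv_diag (fun i => by rw [lL_diag]; exact hX' i), lL_diag]
    exact inv_ne_zero (hX' i)
  refine ⟨v, y, hv0, ?_, ?_, ?_, ?_, fun i => ?_, ?_⟩
  · rw [← hYd, hY2, Matrix.mul_assoc, hLL', Matrix.mul_one]
  · rw [← hYd, hY1, ← Matrix.mul_assoc, hUU, Matrix.one_mul]
  · rw [← hYd, hUv, hv']
  · rw [← hκd, hy, Matrix.smul_vecMul, Matrix.vecMul_vecMul, hLL', Matrix.vecMul_one, smul_smul]
    have h2 : -κ * -κ⁻¹ = 1 := by field_simp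
    rw [h2, one_smul]
  · rw [← hYdiag]
    exact hYne i
  · have h2 : (zZ Y).det = ∏ i, (1 + v i * y i) := by
      rw [det_zZ]
      exact Finset.prod_congr rfl fun i _ => hYdiag i
    have h3 := congrArg Matrix.det hR
    rw [Matrix.det_mul, Matrix.det_one] at h3
    have h4 : (1 + vecMulVec ξ υ).det = κ := by
      rw [Matrix.vecMulVec_eq Unit, Matrix.det_one_add_replicateCol_mul_replicateRow, hκd]
    have h5 : (zZ Y).det = (1 - κ⁻¹ • vecMulVec ξ υ).det := by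
      have h6 : zZ Y = lL X' * (1 - κ⁻¹ • vecMulVec ξ υ) * Li := by
        rw [hZY, Matrix.mul_sub, Matrix.mul_one, Matrix.sub_mul, hLL,
            Matrix.mul_smul, Matrix.mul_vecMulVec, Matrix.smul_mul, Matrix.vecMulVec_mul, hy, hv',
            Matrix.vecMulVec_smul, neg_smul, ← sub_eq_add_neg]
      have h7 : (lL X').det * Li.det = 1 := by rw [← Matrix.det_mul, hLL, Matrix.det_one]
      rw [h6, Matrix.det_mul, Matrix.det_mul, mul_comm (lL X').det, mul_assoc, h7, mul_one]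
    rw [h4] at h3
    rw [← h2, h5, ← hκd]
    exact h3

end Vale.Agent.P002R
end

section

/-!
# P002, genus 0, one regular class: the class step
-/

namespace Vale.Agent.P002L

open Matrix Vale.Agent.P002R

variable {R A : Type} [CommRing R] [CommRing A] {φ : R →+* ℂ} {ι : R →+* A} {ψ : A →+* ℂ} {r : ℕ}

theorem letter_step (hL : Lifting φ ι ψ) {a b : Fin r} (hab : (b : ℕ) = a + 1)
    (w : Equiv.Perm (Fin r)) (v₀ : Mat r ℂ) (hv₀ : UU v₀) (ζ₀ : ℂ) :
    ∃ (w' : Equiv.Perm (Fin r)) (v₀' : Mat r ℂ), UU v₀' ∧ Step ι ψ w v₀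
      (fun g => ∃ ζ, ψ ζ = ζ₀ ∧ g = xx a b ζ * pm (Equiv.swap a b)) w' v₀' := by
  have hne : a ≠ b := fun h => by rw [h] at hab; omega
  have hlt : a < b := by rw [Fin.lt_def]; omega
  rcases lt_or_gt_of_ne (fun h => hne (w.injective h) : w a ≠ w b) with hw | hw
  · refine ⟨w * Equiv.swap a b, pushV a b ζ₀ v₀, uu_pushV hab hv₀ ζ₀, PEmpty, inferInstance,
      PEmpty.elim, PEmpty.elim, PEmpty.elim, 1, fun v hv hv0 z _ => ?_⟩
    obtain ⟨ζ, hζ⟩ := hL.surj ζ₀
    refine ⟨_, ⟨ζ, hζ, rfl⟩, xx (w a) (w b) (v a b + ζ), pushV a b ζ v, (uu_xx hw _).1, fun i => ?_,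
      uu_pushV hab hv ζ, ?_, ?_⟩
    · rw [(uu_xx hw _).2, Finset.univ_eq_empty, Finset.prod_empty, Pi.one_apply]
      simp
    · rw [pushV_map, hζ, hv0]
    · rw [mul_assoc, push_eq hab, ← mul_assoc, ← mul_assoc, pm_xx, mul_assoc (xx _ _ _),
        pm_mul_pm]
  · by_cases hy : v₀ a b + ζ₀ = 0
    · refine ⟨w * Equiv.swap a b, pushV a b ζ₀ v₀, uu_pushV hab hv₀ ζ₀, PEmpty, inferInstance,
        PEmpty.elim, PEmpty.elim, PEmpty.elim, 1, fun v hv hv0 z _ => ?_⟩
      have h1 : ψ (v a b) = v₀ a b := by rw [← hv0, map_apply]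
      have hζ : ψ (-v a b) = ζ₀ := by
        rw [map_neg, h1]
        exact (eq_neg_of_add_eq_zero_right hy).symm
      refine ⟨_, ⟨-v a b, hζ, rfl⟩, 1, pushV a b (-v a b) v, upT_one, fun i => ?_,
        uu_pushV hab hv _, ?_, ?_⟩
      · rw [one_apply_eq, Finset.univ_eq_empty, Finset.prod_empty, Pi.one_apply]
        simp
      · rw [pushV_map, hζ, hv0]
      · rw [mul_assoc, push_eq hab, add_neg_cancel, xx_zero, one_mul, one_mul, ← mul_assoc,
          pm_mul_pm]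
    · refine ⟨w, xx a b (v₀ a b + ζ₀)⁻¹ * pushV a b ζ₀ v₀, (uu_xx hlt _).mul (uu_pushV hab hv₀ ζ₀),
        Unit, inferInstance, fun _ => w a, fun _ => w b, fun _ => Units.mk0 _ hy,
        fun i => if i = w b then -1 else 1, fun v hv hv0 z hz => ?_⟩
      have h1 : ψ (v a b) = v₀ a b := by rw [← hv0, map_apply]
      have hz' : ψ (z ()) = v₀ a b + ζ₀ := hz ()
      have hzi : ψ (((z ())⁻¹ : Aˣ) : A) = (v₀ a b + ζ₀)⁻¹ := by
        have h2 : ψ (((z ())⁻¹ : Aˣ) : A) * ψ (z ()) = 1 := by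
          rw [← map_mul, Units.inv_mul, map_one]
        rw [hz'] at h2
        exact eq_inv_of_mul_eq_one_left h2
      have hζ : ψ (z () - v a b) = ζ₀ := by
        rw [map_sub, hz', h1]
        ring
      refine ⟨_, ⟨z () - v a b, hζ, rfl⟩, xx (w b) (w a) (((z ())⁻¹ : Aˣ) : A) * dd (w a) (w b) (z ()),
        xx a b (((z ())⁻¹ : Aˣ) : A) * pushV a b (z () - v a b) v, (uu_xx hw _).1.mul (upT_diagonal _),
        fun i => ?_, (uu_xx hlt _).mul (uu_pushV hab hv _), ?_, ?_⟩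
      · have h5 : UpT (dd (w a) (w b) (z ())) := upT_diagonal _
        rw [(uu_xx hw _).1.mul_diag h5, (uu_xx hw _).2, one_mul, dd,
          diagonal_apply_eq, Fintype.prod_unique, eb]
        have hne' : w b ≠ w a := fun h => hne (w.injective h).symm
        by_cases hi : i = w a
        · subst hi
          simp [hne'.symm]
        · by_cases hi' : i = w b
          · subst hi'
            simp [hne']
          · simp [hi, hi']
      · rw [Matrix.map_mul, xx_map, pushV_map, hζ, hv0, hzi]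
      · rw [mul_assoc, push_eq hab, add_sub_cancel, stay_id hne]
        have h3 : (pm w : Mat r A) * (xx b a (((z ())⁻¹ : Aˣ) : A) * dd a b (z ()) *
            xx a b (((z ())⁻¹ : Aˣ) : A) * pushV a b (z () - v a b) v) =
            (pm w * xx b a (((z ())⁻¹ : Aˣ) : A)) * dd a b (z ()) *
              (xx a b (((z ())⁻¹ : Aˣ) : A) * pushV a b (z () - v a b) v) := by
          simp only [mul_assoc]
        rw [h3, pm_xx, mul_assoc (xx _ _ _), pm_dd]
        simp only [mul_assoc]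

/-- The family of products `u * M` with prescribed complex point. -/
def FamUM (ι : R →+* A) (ψ : A →+* ℂ) (κ : Fin r → ℕ) (l : ℕ → Rˣ) (u₀ M₀ : Mat r ℂ)
    (g : Mat r A) : Prop :=
  ∃ u M : Mat r A, UU u ∧ u.map ψ = u₀ ∧ Kup κ (fun j => ι (l j)) M ∧ M.map ψ = M₀ ∧ g = u * M

theorem exists_lift_uu (hL : Lifting φ ι ψ) {u₀ : Mat r ℂ} (hu₀ : UU u₀) :
    ∃ u : Mat r A, UU u ∧ u.map ψ = u₀ := by
  choose s hs using hL.surj
  refine ⟨Matrix.of fun i j => if i = j then 1 else if i < j then s (u₀ i j) else 0,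
    ⟨fun i j h => ?_, fun i => ?_⟩, ?_⟩
  · rw [of_apply, if_neg h.ne', if_neg h.not_gt]
  · rw [of_apply, if_pos rfl]
  · ext i j
    rw [map_apply, of_apply]
    split_ifs with h1 h2
    · rw [map_one, ← h1, hu₀.2]
    · exact hs _
    · rw [map_zero, hu₀.1 i j (lt_of_le_of_ne (not_lt.1 h2) (Ne.symm h1))]

theorem exists_lift_kup (hL : Lifting φ ι ψ) {κ : Fin r → ℕ} {l : ℕ → Rˣ} {M₀ : Mat r ℂ}
    (hM₀ : Kup κ (fun j => φ (l j)) M₀) :
    ∃ M : Mat r A, Kup κ (fun j => ι (l j)) M ∧ M.map ψ = M₀ := by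
  choose s hs using hL.surj
  refine ⟨Matrix.of fun i j => if i = j then ι (l (κ i)) else if κ i < κ j then s (M₀ i j) else 0,
    ⟨fun i => ?_, fun i j h h' => ?_⟩, ?_⟩
  · rw [of_apply, if_pos rfl]
  · rw [of_apply, if_neg h, if_neg h']
  · ext i j
    rw [map_apply, of_apply]
    split_ifs with h1 h2
    · rw [hL.comp, ← h1, hM₀.1]
    · exact hs _
    · rw [map_zero, hM₀.2 i j h1 h2]

theorem base_step (hL : Lifting φ ι ψ) {κ : Fin r → ℕ} (hκ : Monotone κ) (l : ℕ → Rˣ)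
    (w : Equiv.Perm (Fin r)) (v₀ : Mat r ℂ) (hv₀ : UU v₀) {u₀ M₀ : Mat r ℂ} (hu₀ : UU u₀)
    (hM₀ : Kup κ (fun j => φ (l j)) M₀) :
    ∃ (w' : Equiv.Perm (Fin r)) (v₀' : Mat r ℂ), UU v₀' ∧
      Step ι ψ w v₀ (FamUM ι ψ κ l u₀ M₀) w' v₀' := by
  have hup : ∀ {S : Type} [CommRing S] (l' : ℕ → S) (M : Mat r S), Kup κ l' M → UpT M := by
    intro S _ l' M hM i j h
    exact hM.2 i j h.ne' (not_lt.2 (hκ h.le))
  have key : ∀ {S : Type} [CommRing S] (l' : ℕ → Sˣ) (v u M : Mat r S), UU v → UU u →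
      Kup κ (fun j => (l' j : S)) M →
      UU (diagonal (fun i => (((l' (κ i))⁻¹ : Sˣ) : S)) * (v * (u * M))) := by
    intro S _ l' v u M hv hu hM
    have h1 : UpT (v * (u * M)) := hv.1.mul (hu.1.mul (hup _ _ hM))
    refine ⟨(upT_diagonal _).mul h1, fun i => ?_⟩
    rw [(upT_diagonal _).mul_diag h1, diagonal_apply_eq, hv.1.mul_diag (hu.1.mul (hup _ _ hM)),
      hu.1.mul_diag (hup _ _ hM), hv.2, hu.2, hM.1, one_mul, one_mul, Units.inv_mul]
  refine ⟨w, diagonal (fun i => (((Units.map (φ : R →* ℂ) (l (κ i)))⁻¹ : ℂˣ) : ℂ)) *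
    (v₀ * (u₀ * M₀)), key (fun j => Units.map (φ : R →* ℂ) (l j)) v₀ u₀ M₀ hv₀ hu₀ hM₀,
    PEmpty, inferInstance, PEmpty.elim, PEmpty.elim, PEmpty.elim, fun i => l (κ (w.symm i)),
    fun v hv hv0 z _ => ?_⟩
  obtain ⟨u, hu, hu0⟩ := exists_lift_uu hL hu₀
  obtain ⟨M, hM, hM0⟩ := exists_lift_kup hL hM₀
  refine ⟨u * M, ⟨u, M, hu, hu0, hM, hM0, rfl⟩, diagonal fun i => ι (l (κ (w.symm i))),
    diagonal (fun i => (((Units.map (ι : R →* A) (l (κ i)))⁻¹ : Aˣ) : A)) * (v * (u * M)),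
    upT_diagonal _, fun i => ?_, key (fun j => Units.map (ι : R →* A) (l j)) v u M hv hu hM,
    ?_, ?_⟩
  · rw [diagonal_apply_eq, Finset.univ_eq_empty, Finset.prod_empty, Units.val_one, mul_one]
  · rw [Matrix.map_mul, Matrix.map_mul, Matrix.map_mul, hv0, hu0, hM0]
    congr 1
    rw [diagonal_map (map_zero ψ)]
    congr 1
    funext i
    rw [← map_inv, ← map_inv]
    exact hL.comp _
  · have h1 : (pm w : Mat r A) * diagonal (fun i => ι (l (κ i))) =
        diagonal (fun i => ι (l (κ (w.symm i)))) * pm w := by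
      refine pm_comm fun i j => ?_
      rw [diagonal_apply, diagonal_apply, Equiv.symm_apply_apply]
      simp only [EmbeddingLike.apply_eq_iff_eq]
    rw [← h1]
    have h2 : diagonal (fun i => ι (l (κ i))) *
        diagonal (fun i => (((Units.map (ι : R →* A) (l (κ i)))⁻¹ : Aˣ) : A)) = 1 := by
      rw [diagonal_mul_diagonal, ← diagonal_one]
      congr 1
      funext i
      exact (Units.map (ι : R →* A) (l (κ i))).mul_inv
    have h3 : (pm w : Mat r A) * diagonal (fun i => ι (l (κ i))) *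
        (diagonal (fun i => (((Units.map (ι : R →* A) (l (κ i)))⁻¹ : Aˣ) : A)) * (v * (u * M))) =
        pm w * (diagonal (fun i => ι (l (κ i))) *
        diagonal (fun i => (((Units.map (ι : R →* A) (l (κ i)))⁻¹ : Aˣ) : A))) * (v * (u * M)) := by
      simp only [mul_assoc]
    rw [h3, h2, mul_one, mul_assoc]

end Vale.Agent.P002L
end

section

/-!
# P002, genus 0, one regular class: the class step
-/

namespace Vale.Agent.P002L

open Matrix Vale.Agent.P002R

variable {R A : Type} [CommRing R] [CommRing A] {φ : R →+* ℂ} {ι : R →+* A} {ψ : A →+* ℂ} {r : ℕ}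

theorem exists_descent {κ : Fin r → ℕ} (h : ¬ Monotone κ) :
    ∃ a b : Fin r, (b : ℕ) = a + 1 ∧ κ b < κ a := by
  cases r with
  | zero => exact absurd (fun i => i.elim0) h
  | succ n =>
    rw [Fin.monotone_iff_le_succ] at h
    push Not at h
    obtain ⟨i, hi⟩ := h
    exact ⟨i.castSucc, i.succ, by simp, hi⟩

theorem measure_lt {κ : Fin r → ℕ} {a b : Fin r} (hab : (b : ℕ) = a + 1) (h : κ b < κ a) :
    ∑ i : Fin r, (r - i) * (κ ∘ Equiv.swap a b) i < ∑ i : Fin r, (r - i) * κ i := by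
  have hne : a ≠ b := fun h => by rw [h] at hab; omega
  have key : ∀ f : Fin r → ℕ, ∑ i, f i = f a + (f b + ∑ i ∈ (Finset.univ.erase a).erase b, f i) := by
    intro f
    rw [Finset.add_sum_erase _ _ (Finset.mem_erase.2 ⟨hne.symm, Finset.mem_univ _⟩),
      Finset.add_sum_erase _ _ (Finset.mem_univ _)]
  rw [key, key (fun i => (r - i) * κ i)]
  have h1 : ∑ i ∈ (Finset.univ.erase a).erase b, (r - i) * (κ ∘ Equiv.swap a b) i =
      ∑ i ∈ (Finset.univ.erase a).erase b, (r - i) * κ i := by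
    refine Finset.sum_congr rfl fun i hi => ?_
    have h2 := (Finset.mem_erase.1 hi).1
    have h3 := (Finset.mem_erase.1 (Finset.mem_erase.1 hi).2).1
    rw [Function.comp_apply, Equiv.swap_apply_of_ne_of_ne h3 h2]
  rw [h1, ← add_assoc, ← add_assoc]
  refine Nat.add_lt_add_right ?_ _
  simp only [Function.comp_apply, Equiv.swap_apply_left, Equiv.swap_apply_right]
  have h4 : r - (a : ℕ) = (r - (b : ℕ)) + 1 := by
    have := b.2
    omega
  rw [h4, add_mul, add_mul, one_mul, one_mul]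
  nlinarith

theorem class_step_aux (hL : Lifting φ ι ψ) (l : ℕ → Rˣ) : ∀ (N : ℕ) (κ : Fin r → ℕ),
    ∑ i : Fin r, (r - i) * κ i = N → ∀ (w : Equiv.Perm (Fin r)) (v₀ : Mat r ℂ), UU v₀ →
    ∀ u₀ M₀ : Mat r ℂ, UU u₀ → Kup κ (fun j => φ (l j)) M₀ →
    ∃ (w' : Equiv.Perm (Fin r)) (v₀' : Mat r ℂ), UU v₀' ∧
      Step ι ψ w v₀ (FamUM ι ψ κ l u₀ M₀) w' v₀' := by
  intro N
  induction N using Nat.strong_induction_on with
  | _ N ih =>
  intro κ hN w v₀ hv₀ u₀ M₀ hu₀ hM₀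
  by_cases hκ : Monotone κ
  · exact base_step hL hκ l w v₀ hv₀ hu₀ hM₀
  obtain ⟨a, b, hab, hκab⟩ := exists_descent hκ
  have hne : a ≠ b := fun h => by rw [h] at hab; omega
  have hlt : a < b := by rw [Fin.lt_def]; omega
  have hκ' : (κ ∘ Equiv.swap a b) a < (κ ∘ Equiv.swap a b) b := by
    rw [Function.comp_apply, Function.comp_apply, Equiv.swap_apply_left, Equiv.swap_apply_right]
    exact hκab
  have hκκ : (κ ∘ Equiv.swap a b) ∘ Equiv.swap a b = κ := by
    funext i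
    rw [Function.comp_apply, Function.comp_apply, Equiv.swap_apply_self]
  -- the data over the complex numbers
  obtain ⟨u₁, hu₁⟩ : ∃ u₁ : Mat r ℂ, u₁ = xx a b (-u₀ a b) * u₀ := ⟨_, rfl⟩
  have hu₁U : UU u₁ := by rw [hu₁]; exact (uu_xx hlt _).mul hu₀
  have hu₁0 : u₁ a b = 0 := by
    rw [hu₁, xx_mul_apply, if_pos rfl, hu₀.2 b]
    ring
  obtain ⟨u', hu'⟩ : ∃ u' : Mat r ℂ, u' = pm (Equiv.swap a b) * u₁ * pm (Equiv.swap a b) :=
    ⟨_, rfl⟩
  have hu'U : UU u' := by rw [hu']; exact uu_swap hab hu₁U hu₁0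
  have hu'0 : u' a b = 0 := by
    rw [hu', swap_conj_apply, Equiv.swap_apply_left, Equiv.swap_apply_right, hu₁U.1 b a hlt]
  have hM' : Kup (κ ∘ Equiv.swap a b) (fun j => φ (l j))
      (pm (Equiv.swap a b) * M₀ * pm (Equiv.swap a b)) := hM₀.swap a b
  -- the three steps
  obtain ⟨w₁, v₁, hv₁, hs₁⟩ := letter_step hL hab w v₀ hv₀ (u₀ a b)
  obtain ⟨w₂, v₂, hv₂, hs₂⟩ := ih _ (by rw [← hN]; exact measure_lt hab hκab)
    (κ ∘ Equiv.swap a b) rfl w₁ v₁ hv₁ u' _ hu'U hM'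
  obtain ⟨w₃, v₃, hv₃, hs₃⟩ := letter_step hL hab w₂ v₂ hv₂ 0
  refine ⟨w₃, v₃, hv₃, ((hs₁.comp hs₂).comp hs₃).mono ?_⟩
  rintro g ⟨g', g₃, ⟨g₁, g₂, ⟨ζ, hζ, rfl⟩, ⟨u, M, hu, hu0, hM, hM0, rfl⟩, rfl⟩, ⟨ζ', hζ', rfl⟩, rfl⟩
  obtain ⟨η, hη⟩ : ∃ η, η = u a b := ⟨_, rfl⟩
  have hη0 : ψ η = 0 := by rw [hη, ← hu'0, ← hu0, map_apply]
  have hun : UU (u * xx a b (-η)) := hu.mul (uu_xx hlt _)
  have hun0 : (u * xx a b (-η)) a b = 0 := by
    rw [mul_xx_apply, if_pos rfl, hu.2 a, hη]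
    ring
  refine ⟨xx a b ζ * (pm (Equiv.swap a b) * (u * xx a b (-η)) * pm (Equiv.swap a b)),
    pm (Equiv.swap a b) * (xx a b η * M * xx a b ζ') * pm (Equiv.swap a b),
    (uu_xx hlt _).mul (uu_swap hab hun hun0), ?_, ?_, ?_, ?_⟩
  · rw [Matrix.map_mul, Matrix.map_mul, Matrix.map_mul, Matrix.map_mul, xx_map, xx_map, pm_map,
      hζ, map_neg, hη0, neg_zero, xx_zero, mul_one, hu0, hu']
    have h1 : (pm (Equiv.swap a b) : Mat r ℂ) * (pm (Equiv.swap a b) * u₁ *
        pm (Equiv.swap a b)) * pm (Equiv.swap a b) = (pm (Equiv.swap a b) * pm (Equiv.swap a b)) *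
        u₁ * (pm (Equiv.swap a b) * pm (Equiv.swap a b)) := by
      simp only [mul_assoc]
    rw [h1, pm_swap_sq, one_mul, mul_one, hu₁, ← mul_assoc, xx_mul_xx hne, add_neg_cancel,
      xx_zero, one_mul]
  · have h2 := ((hM.xx_mul hκ' η).mul_xx hκ' ζ').swap a b
    rw [hκκ] at h2
    exact h2
  · rw [Matrix.map_mul, Matrix.map_mul, Matrix.map_mul, Matrix.map_mul, xx_map, xx_map, pm_map,
      hη0, hζ', xx_zero, one_mul, mul_one, hM0]
    have h1 : (pm (Equiv.swap a b) : Mat r ℂ) * (pm (Equiv.swap a b) * M₀ *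
        pm (Equiv.swap a b)) * pm (Equiv.swap a b) = (pm (Equiv.swap a b) * pm (Equiv.swap a b)) *
        M₀ * (pm (Equiv.swap a b) * pm (Equiv.swap a b)) := by
      simp only [mul_assoc]
    rw [h1, pm_swap_sq, one_mul, mul_one]
  · have h3 : xx a b ζ * (pm (Equiv.swap a b) * (u * xx a b (-η)) * pm (Equiv.swap a b)) *
        ((pm (Equiv.swap a b) : Mat r A) * (xx a b η * M * xx a b ζ') * pm (Equiv.swap a b)) =
        xx a b ζ * pm (Equiv.swap a b) * (u * (xx a b (-η) *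
        ((pm (Equiv.swap a b) * pm (Equiv.swap a b)) * xx a b η)) * M) *
        (xx a b ζ' * pm (Equiv.swap a b)) := by
      simp only [mul_assoc]
    rw [h3, pm_swap_sq, one_mul, xx_mul_xx hne, neg_add_cancel, xx_zero, mul_one]

/-- The class step. -/
theorem class_step (hL : Lifting φ ι ψ) (κ : Fin r → ℕ) (l : ℕ → Rˣ) (w : Equiv.Perm (Fin r))
    (v₀ : Mat r ℂ) (hv₀ : UU v₀) (u₀ M₀ c₀ : Mat r ℂ) (hu₀ : UU u₀)
    (hM₀ : Kup κ (fun j => φ (l j)) M₀) (hc : c₀ * u₀ = u₀ * M₀) :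
    ∃ (w' : Equiv.Perm (Fin r)) (v₀' : Mat r ℂ), UU v₀' ∧ Step ι ψ w v₀
      (fun c => ∃ u M : Mat r A, UU u ∧ Kup κ (fun j => ι (l j)) M ∧ c * u = u * M ∧
        c.map ψ = c₀) w' v₀' := by
  obtain ⟨w', v', hv', J, hJ, s, t, y, ε, h⟩ := class_step_aux hL l _ κ rfl w v₀ hv₀ u₀ M₀ hu₀ hM₀
  refine ⟨w', v' * u₀⁻¹, hv'.mul hu₀.inv, J, hJ, s, t, y, ε, fun v hv hv0 z hz => ?_⟩
  obtain ⟨g, ⟨u, M, hu, hu0, hM, hM0, rfl⟩, b, v₂, hb, hbd, hv₂, hv20, he⟩ := h v hv hv0 z hz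
  refine ⟨u * M * u⁻¹, ⟨u, M, hu, hM, ?_, ?_⟩, b, v₂ * u⁻¹, hb, hbd, hv₂.mul hu.inv, ?_, ?_⟩
  · rw [mul_assoc, hu.inv_mul, mul_one]
  · rw [Matrix.map_mul, Matrix.map_mul, hu.map_inv, hu0, hM0, ← hc, mul_assoc, hu₀.mul_inv, mul_one]
  · rw [Matrix.map_mul, hu.map_inv, hu0, hv20]
  · rw [← mul_assoc, he, mul_assoc]

end Vale.Agent.P002L
end

section

/-!
# P002: total density for the boundary classes
-/

namespace Vale.Agent.P002R

open Matrix

variable {r : ℕ} {R : Type*} [CommRing R]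

/-- The elements of `E` are units of the ring. -/
theorem CoefOK.exists_unit {φ : R →+* ℂ} {E : Subgroup ℂˣ} (hc : CoefOK φ E r) (hr : 0 < r)
    {z : ℂˣ} (hz : z ∈ E) : ∃ e : Rˣ, φ e = z := by
  obtain ⟨a, ha⟩ := hc.root 1 one_pos hr z (by rwa [pow_one])
  obtain ⟨b, hb⟩ := hc.root 1 one_pos hr z⁻¹ (by rw [pow_one]; exact E.inv_mem hz)
  refine ⟨⟨a, b, hc.inj ?_, hc.inj ?_⟩, ha⟩
  · rw [map_mul, ha, hb, map_one, Units.mul_inv]
  · rw [map_mul, ha, hb, map_one, Units.inv_mul]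

theorem CoefOK.exists_free {φ : R →+* ℂ} {E : Subgroup ℂˣ} (hc : CoefOK φ E r) :
    ∃ u : Rˣ, ∀ k : ℕ, 0 < k → φ u ^ k ≠ 1 := by
  obtain ⟨u, hu⟩ := hc.unit
  refine ⟨u, fun k hk h => hu k hk ?_⟩
  have h1 : Units.map (φ : R →* ℂ) u ^ k = 1 := by
    apply Units.ext
    rw [Units.val_pow_eq_pow_val, Units.val_one]
    exact h
  rw [h1]
  exact E.one_mem

theorem totD_of_eigIn {φ : R →+* ℂ} {E : Subgroup ℂˣ} (hc : CoefOK φ E r) (hr : 0 < r)
    (C : (Mat r ℂ)ˣ) (hC : EigIn E (C : Mat r ℂ)) : TotD φ (C : Mat r ℂ) := by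
  obtain ⟨u, hu⟩ := hc.exists_free
  refine P002G.totD φ u hu _ C.isUnit fun z hz => ?_
  obtain ⟨e, he, rfl⟩ := hC z hz
  exact hc.exists_unit hr he

theorem totM_of_eigIn {φ : R →+* ℂ} {E : Subgroup ℂˣ} (hc : CoefOK φ E r) (hr : 0 < r)
    (hUP : ∀ (u : Rˣ) (D : R), D ≠ 0 → ∃ M : ℕ, 0 < M ∧ D ∣ (u : R) ^ M - 1)
    (C : (Mat r ℂ)ˣ) (hC : EigIn E (C : Mat r ℂ)) : P002G.TotM φ (C : Mat r ℂ) := by
  obtain ⟨u, hu⟩ := hc.exists_free
  refine P002G.totM φ u hu (hUP u) _ C.isUnit fun z hz => ?_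
  obtain ⟨e, he, rfl⟩ := hC z hz
  exact hc.exists_unit hr he

end Vale.Agent.P002R
end

section

/-!
# P002, genus 1: irreducibility of the frozen tuple and minors
-/

namespace Vale.Agent.P002R

open Matrix Module Vale.Agent.P002

variable {r : ℕ}

/-- A right eigenvector is unique up to scalars if there is a cyclic vector. -/
theorem right_eigen_unique {J : P002R.Mat r ℂ} {v : Fin r → ℂ} (hv : (kry J v).det ≠ 0) {lam : ℂ}
    {u z : Fin r → ℂ} (hu : J *ᵥ u = lam • u) (hz : J *ᵥ z = lam • z) (hz0 : z ≠ 0) :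
    ∃ a : ℂ, u = a • z := by
  obtain ⟨M, hM⟩ : ∃ M : P002R.Mat r ℂ, M = J - lam • (1 : P002R.Mat r ℂ) := ⟨_, rfl⟩
  have hMv : ∀ w : Fin r → ℂ, M *ᵥ w = 0 ↔ J *ᵥ w = lam • w := by
    intro w
    rw [hM, Matrix.sub_mulVec, Matrix.smul_mulVec, Matrix.one_mulVec, sub_eq_zero]
  have hMt : ∀ w : Fin r → ℂ, Mᵀ *ᵥ w = 0 ↔ w ᵥ* J = lam • w := by
    intro w
    rw [hM, Matrix.mulVec_transpose, Matrix.vecMul_sub, Matrix.vecMul_smul, Matrix.vecMul_one,
      sub_eq_zero]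
  -- the left kernel has dimension at most one
  have h1 : finrank ℂ (LinearMap.ker Mᵀ.mulVecLin) ≤ 1 := by
    by_cases h0 : ∃ w : Fin r → ℂ, w ≠ 0 ∧ Mᵀ *ᵥ w = 0
    · obtain ⟨w, hw0, hw⟩ := h0
      refine finrank_le_one (⟨w, by rw [LinearMap.mem_ker]; exact hw⟩ :
        LinearMap.ker Mᵀ.mulVecLin) ?_
      rintro ⟨y, hy⟩
      rw [LinearMap.mem_ker, Matrix.mulVecLin_apply, hMt] at hy
      obtain ⟨c, hc⟩ := left_eigen_unique hv hy ((hMt w).1 hw) hw0
      exact ⟨c, Subtype.ext hc.symm⟩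
    · push Not at h0
      have h2 : LinearMap.ker Mᵀ.mulVecLin = ⊥ := by
        rw [eq_bot_iff]
        intro w hw
        rw [Submodule.mem_bot]
        by_contra hw0
        exact h0 w hw0 hw
      rw [h2, finrank_bot]
      exact Nat.zero_le _
  have h2 := LinearMap.finrank_range_add_finrank_ker Mᵀ.mulVecLin
  have h3 := LinearMap.finrank_range_add_finrank_ker M.mulVecLin
  have h4 : finrank ℂ (LinearMap.range Mᵀ.mulVecLin) = finrank ℂ (LinearMap.range M.mulVecLin) :=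
    Matrix.rank_transpose M
  have h5 : finrank ℂ (LinearMap.ker M.mulVecLin) ≤ 1 := by omega
  have hzk : z ∈ LinearMap.ker M.mulVecLin := by
    rw [LinearMap.mem_ker]
    exact (hMv z).2 hz
  have huk : u ∈ LinearMap.ker M.mulVecLin := by
    rw [LinearMap.mem_ker]
    exact (hMv u).2 hu
  have h6 : finrank ℂ (LinearMap.ker M.mulVecLin) = 1 := by
    refine le_antisymm h5 (Nat.one_le_iff_ne_zero.2 fun h => ?_)
    rw [Submodule.finrank_eq_zero] at h
    rw [h, Submodule.mem_bot] at hzk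
    exact hz0 hzk
  obtain ⟨c, hc⟩ := exists_smul_eq_of_finrank_eq_one h6
    (x := (⟨z, hzk⟩ : LinearMap.ker M.mulVecLin)) (fun h => hz0 (congrArg Subtype.val h)) ⟨u, huk⟩
  exact ⟨c, (congrArg Subtype.val hc).symm⟩

/-- A subspace invariant under `M` which contains a cyclic vector is everything. -/
theorem top_of_cyc {M : P002R.Mat r ℂ} {v : Fin r → ℂ} (hv : (kry M v).det ≠ 0)
    (W : Submodule ℂ (Fin r → ℂ)) (hW : ∀ w ∈ W, M *ᵥ w ∈ W) (hvW : v ∈ W) : W = ⊤ := by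
  have hpow : ∀ n : ℕ, (M ^ n) *ᵥ v ∈ W := by
    intro n
    induction n with
    | zero => rwa [pow_zero, Matrix.one_mulVec]
    | succ n ih =>
      rw [pow_succ', ← Matrix.mulVec_mulVec]
      exact hW _ ih
  rw [eq_top_iff]
  intro w _
  have hu : IsUnit (kry M v) := by
    rw [Matrix.isUnit_iff_isUnit_det, isUnit_iff_ne_zero]
    exact hv
  have hud : IsUnit (kry M v).det := (Matrix.isUnit_iff_isUnit_det _).1 hu
  have h1 : w = kry M v *ᵥ ((kry M v)⁻¹ *ᵥ w) := by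
    rw [Matrix.mulVec_mulVec, Matrix.mul_nonsing_inv _ hud, Matrix.one_mulVec]
  have h2 : ∀ c : Fin r → ℂ, kry M v *ᵥ c = ∑ j : Fin r, c j • ((M ^ (j : ℕ)) *ᵥ v) := by
    intro c
    ext i
    rw [Finset.sum_apply]
    simp only [Matrix.mulVec, dotProduct, Pi.smul_apply, smul_eq_mul]
    refine Finset.sum_congr rfl fun j _ => ?_
    rw [mul_comm]
    rfl
  rw [h1, h2]
  exact Submodule.sum_mem _ fun j _ => Submodule.smul_mem _ _ (hpow j)

variable {ι : Type}

/-- The matrices `c_j` and `a` generate an irreducible group. -/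
theorem gen_irr [DecidableEq ι] {K₀ : Subfield ℂ} {J : ι → P002R.Mat r ℂ}
    {Y : ι ⊕ Bool → P002R.Mat r ℂ} (hJ : ∀ j, IsUnit (J j)) (hY : ∀ j, IsUnit (Y j)) (i₀ : ι)
    (l : List ι) (hcyc : ∃ v, (kry (J i₀) v).det ≠ 0)
    (hE : ∀ (lam : ℂ) (u : Fin r → ℂ), u ≠ 0 → J i₀ *ᵥ u = lam • u →
      ∃ z : Fin r → ℂ, z ≠ 0 ∧ J i₀ *ᵥ z = lam • z ∧ ∀ i, z i ∈ K₀)
    (hk : ∀ e : Fin r → ℂ, (∀ i, e i ∈ K₀) → e ≠ 0 → (kry (Y (Sum.inr false))
      ((((l.map (cI J Y)).prod)⁻¹ * Y (Sum.inl i₀)) *ᵥ e)).det ≠ 0)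
    (W : Submodule ℂ (Fin r → ℂ)) (hW : ∀ j, ∀ w ∈ W, cI J Y j *ᵥ w ∈ W)
    (hWa : ∀ w ∈ W, Y (Sum.inr false) *ᵥ w ∈ W) : W = ⊥ ∨ W = ⊤ := by
  rcases eq_or_ne W ⊥ with h0 | h0
  · exact Or.inl h0
  right
  obtain ⟨v, hv⟩ := hcyc
  have hnt : Nontrivial W := Submodule.nontrivial_iff_ne_bot.2 h0
  have hinv : ∀ z ∈ W, Matrix.toLin' (cI J Y i₀) z ∈ W := by
    intro z hz
    rw [Matrix.toLin'_apply]
    exact hW i₀ z hz
  obtain ⟨lam, hlam⟩ := Module.End.exists_eigenvalue ((Matrix.toLin' (cI J Y i₀)).restrict hinv)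
  obtain ⟨⟨u, huW⟩, hu⟩ := hlam.exists_hasEigenvector
  have hu2 : Matrix.toLin' (cI J Y i₀) u = lam • u := congrArg Subtype.val hu.apply_eq_smul
  have hu3 : u ≠ 0 := fun h0 => hu.2 (Subtype.ext h0)
  rw [Matrix.toLin'_apply] at hu2
  have hud : IsUnit (Y (Sum.inl i₀)).det := (Matrix.isUnit_iff_isUnit_det _).1 (hY _)
  have a1 : Y (Sum.inl i₀) * (Y (Sum.inl i₀))⁻¹ = 1 := Matrix.mul_nonsing_inv _ hud
  have a2 : (Y (Sum.inl i₀))⁻¹ * Y (Sum.inl i₀) = 1 := Matrix.nonsing_inv_mul _ hud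
  obtain ⟨e', he'⟩ : ∃ e', e' = (Y (Sum.inl i₀))⁻¹ *ᵥ u := ⟨_, rfl⟩
  have hue : u = Y (Sum.inl i₀) *ᵥ e' := by
    rw [he', Matrix.mulVec_mulVec, a1, Matrix.one_mulVec]
  have he'0 : e' ≠ 0 := by
    rintro h
    apply hu3
    rw [hue, h, Matrix.mulVec_zero]
  have hJe' : J i₀ *ᵥ e' = lam • e' := by
    have h1 : (Y (Sum.inl i₀))⁻¹ *ᵥ (cI J Y i₀ *ᵥ u) = lam • e' := by
      rw [hu2, Matrix.mulVec_smul, he']
    rw [← h1, Matrix.mulVec_mulVec, hue, Matrix.mulVec_mulVec]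
    congr 1
    show J i₀ = (Y (Sum.inl i₀))⁻¹ * (Y (Sum.inl i₀) * J i₀ * (Y (Sum.inl i₀))⁻¹) * Y (Sum.inl i₀)
    simp only [Matrix.mul_assoc, mulL a2, a2, Matrix.mul_one]
  obtain ⟨z, hz0, hz, hzK⟩ := hE lam e' he'0 hJe'
  obtain ⟨t, ht⟩ := right_eigen_unique hv hJe' hz hz0
  have ht0 : t ≠ 0 := by
    rintro rfl
    apply he'0
    rw [ht, zero_smul]
  have hYz : Y (Sum.inl i₀) *ᵥ z ∈ W := by
    have h1 : Y (Sum.inl i₀) *ᵥ z = t⁻¹ • u := by
      rw [hue, ht, Matrix.mulVec_smul, smul_smul, inv_mul_cancel₀ ht0, one_smul]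
    rw [h1]
    exact Submodule.smul_mem _ _ huW
  have hPd : IsUnit ((l.map (cI J Y)).prod).det :=
    (Matrix.isUnit_iff_isUnit_det _).1 (isUnit_cI_prod hJ hY l)
  refine top_of_cyc (hk z hzK hz0) W hWa ?_
  rw [← Matrix.mulVec_mulVec]
  exact inv_stab (Matrix.nonsing_inv_mul _ hPd) W
    (fun w hw => prod_stab (cI J Y) W l (fun j _ => hW j) w hw) _ hYz

/-- the matrices of the sphere with the cut handle -/
noncomputable def qI (J : ι → P002R.Mat r ℂ) (Y : ι ⊕ Bool → P002R.Mat r ℂ) :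
    ι ⊕ Bool → P002R.Mat r ℂ := Sum.elim (cI J Y) fun s => if s then
      Y (Sum.inr true) * (Y (Sum.inr false))⁻¹ * (Y (Sum.inr true))⁻¹ else Y (Sum.inr false)

theorem qI_inl (J : ι → P002R.Mat r ℂ) (Y : ι ⊕ Bool → P002R.Mat r ℂ) (j : ι) :
    qI J Y (Sum.inl j) = cI J Y j := rfl

theorem qI_false (J : ι → P002R.Mat r ℂ) (Y : ι ⊕ Bool → P002R.Mat r ℂ) :
    qI J Y (Sum.inr false) = Y (Sum.inr false) := rfl

theorem qI_true (J : ι → P002R.Mat r ℂ) (Y : ι ⊕ Bool → P002R.Mat r ℂ) :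
    qI J Y (Sum.inr true) =
      Y (Sum.inr true) * (Y (Sum.inr false))⁻¹ * (Y (Sum.inr true))⁻¹ := rfl

theorem qI_prod (J : ι → P002R.Mat r ℂ) (Y : ι ⊕ Bool → P002R.Mat r ℂ) (l : List ι) :
    ((l.map Sum.inl).map (qI J Y)).prod = (l.map (cI J Y)).prod := by
  rw [List.map_map]
  rfl

/-- the functional equation with frozen `a` -/
theorem gen_F [DecidableEq ι] {K₀ : Subfield ℂ} {J : ι → P002R.Mat r ℂ}
    {Y : ι ⊕ Bool → P002R.Mat r ℂ} (hJ : ∀ j, IsUnit (J j)) (hY : ∀ j, IsUnit (Y j)) (i₀ : ι)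
    (l₁ l₂ : List ι) (hnd : (i₀ :: (l₁ ++ l₂)).Nodup) (hmem : ∀ j, j ∈ i₀ :: (l₁ ++ l₂))
    (hrel : PhiI J (i₀ :: (l₁ ++ l₂)) Y = 1)
    (hirr : ∀ W : Submodule ℂ (Fin r → ℂ), (∀ j, ∀ w ∈ W, cI J Y j *ᵥ w ∈ W) →
      (∀ w ∈ W, Y (Sum.inr false) *ᵥ w ∈ W) → W = ⊥ ∨ W = ⊤)
    (hgen : GenPt1 K₀ J (i₀ :: (l₁ ++ l₂)) Y)
    (u y : Fin r → ℂ) (hu : u ≠ 0) (hy : y ≠ 0) :
    ∃ (δ : Derivation ℤ ℂ ℂ) (x : ι ⊕ Bool → P002R.Mat r ℂ), (∀ a ∈ K₀, δ a = 0) ∧
      (∀ k, (Y k).map δ = x k * Y k) ∧ x (Sum.inr false) = 0 ∧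
      y ⬝ᵥ ((DL (cI J Y) (fun j => x (Sum.inl j)) l₁ + (l₁.map (cI J Y)).prod * x (Sum.inr true) -
        x (Sum.inl i₀) * (l₁.map (cI J Y)).prod) *ᵥ u) ≠ 0 := by
  have had : IsUnit (Y (Sum.inr false)).det := (Matrix.isUnit_iff_isUnit_det _).1 (hY _)
  have hL : ((i₀ :: (l₁ ++ l₂)).map Sum.inl ++ [Sum.inr false, Sum.inr true] : List (ι ⊕ Bool)) =
      Sum.inl i₀ :: (l₁.map Sum.inl ++ (l₂.map Sum.inl ++ [Sum.inr false, Sum.inr true])) := by
    simp
  have hqu : ∀ k, IsUnit (qI J Y k) := by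
    rintro (j | s)
    · exact isUnit_cI hJ hY j
    · cases s
      · exact hY _
      · rw [qI_true]
        exact ((hY _).mul (Matrix.isUnit_nonsing_inv_iff.2 (hY _))).mul
          (Matrix.isUnit_nonsing_inv_iff.2 (hY _))
  obtain ⟨x, hx1, hx2, hx3⟩ := rank_one_frozen (qI J Y) hqu (Sum.inl i₀) (Sum.inr true)
    (Sum.inr false) (l₁.map Sum.inl) (l₂.map Sum.inl) (by
      rw [← hL, List.nodup_append]
      refine ⟨(List.nodup_map_iff Sum.inl_injective).2 hnd, by simp, ?_⟩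
      intro k hk k' hk'
      rw [List.mem_map] at hk
      obtain ⟨j, -, rfl⟩ := hk
      simp only [List.mem_cons, List.not_mem_nil, or_false] at hk'
      rcases hk' with rfl | rfl <;> simp) (by
      rw [← hL, List.map_append, List.prod_append, qI_prod]
      simp only [List.map_cons, List.map_nil, List.prod_cons, List.prod_nil, Matrix.mul_one,
        qI_false, qI_true]
      rw [← hrel, PhiI, hI]
      simp only [List.map_cons, List.prod_cons, Matrix.mul_assoc]) (by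
      intro k
      rw [← hL, List.mem_append]
      rcases k with j | s
      · left
        exact List.mem_map_of_mem (hmem j)
      · right
        cases s <;> simp) (fun W hW => hirr W (fun j => hW (Sum.inl j)) (hW (Sum.inr false)))
    u y hu hy
  rw [← hL] at hx2
  have hD := D1_frozen (i₀ :: (l₁ ++ l₂)) (qI J Y) (fun j => qI_inl J Y j) (qI_false J Y)
    (qI_true J Y) x hx1
  rw [hx2] at hD
  obtain ⟨δ, h1, h2⟩ := hgen x hD
  refine ⟨δ, x, h1, h2, hx1, ?_⟩
  have h3 : ∀ l : List ι, DL (qI J Y) x (l.map Sum.inl) =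
      DL (cI J Y) (fun j => x (Sum.inl j)) l := by
    intro l
    induction l with
    | nil => rfl
    | cons j l ih =>
      rw [List.map_cons, DL_cons, DL_cons, ih, qI_prod, qI_inl]
  rw [h3, qI_prod] at hx3
  exact hx3

/-- Pairing with a singular submatrix: the derivative of the matrix pairs to zero. -/
theorem exists_pair_minor {κ : Type*} [Fintype κ] [DecidableEq κ] (G : P002R.Mat r ℂ)
    (f g : κ → Fin r) (hf : Function.Injective f) (hg : Function.Injective g)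
    (hdet : (G.submatrix f g).det = 0) :
    ∃ w s : Fin r → ℂ, w ≠ 0 ∧ s ≠ 0 ∧ (∀ δ : Derivation ℤ ℂ ℂ, s ⬝ᵥ (G.map δ *ᵥ w) = 0) ∧
      ∀ Z : P002R.Mat r ℂ, (∀ i j, i ≠ j → Z i j = 0) → s ⬝ᵥ ((G * Z) *ᵥ w) = 0 := by
  obtain ⟨v, hv0, hv⟩ := Matrix.exists_mulVec_eq_zero_iff.2 hdet
  obtain ⟨z, hz0, hz⟩ := Matrix.exists_vecMul_eq_zero_iff.2 hdet
  -- extension by zero
  obtain ⟨w, hw⟩ : ∃ w : Fin r → ℂ, ∀ M : P002R.Mat r ℂ, ∀ a, (M *ᵥ w) a =
      ∑ c, M a (g c) * v c := by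
    refine ⟨∑ c, v c • Pi.single (g c) 1, fun M a => ?_⟩
    rw [Matrix.mulVec_sum, Finset.sum_apply]
    refine Finset.sum_congr rfl fun c _ => ?_
    rw [Matrix.mulVec_smul, Matrix.mulVec_single_one, Pi.smul_apply, smul_eq_mul, mul_comm]
    rfl
  obtain ⟨s, hs⟩ : ∃ s : Fin r → ℂ, ∀ q : Fin r → ℂ, s ⬝ᵥ q = ∑ c, z c * q (f c) := by
    refine ⟨∑ c, z c • Pi.single (f c) 1, fun q => ?_⟩
    rw [sum_dotProduct]
    refine Finset.sum_congr rfl fun c _ => ?_
    rw [smul_dotProduct, single_dotProduct, one_mul, smul_eq_mul]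
  refine ⟨w, s, ?_, ?_, fun δ => ?_, fun Z hZ => ?_⟩
  · intro h0
    obtain ⟨c₀, hc₀⟩ := Function.ne_iff.1 hv0
    apply hc₀
    have h1 := hw 1 (g c₀)
    rw [h0, Matrix.mulVec_zero, Pi.zero_apply, Finset.sum_eq_single c₀] at h1
    · rw [Matrix.one_apply_eq, one_mul] at h1
      exact h1.symm
    · intro c _ hc
      rw [Matrix.one_apply_ne, zero_mul]
      intro h
      exact hc (hg h.symm)
    · intro h
      exact absurd (Finset.mem_univ _) h
  · intro h0
    obtain ⟨c₀, hc₀⟩ := Function.ne_iff.1 hz0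
    apply hc₀
    have h1 := hs (Pi.single (f c₀) 1)
    rw [h0, zero_dotProduct, Finset.sum_eq_single c₀] at h1
    · rw [Pi.single_eq_same, mul_one] at h1
      exact h1.symm
    · intro c _ hc
      rw [Pi.single_eq_of_ne, mul_zero]
      intro h
      exact hc (hf h)
    · intro h
      exact absurd (Finset.mem_univ _) h
  · rw [hs]
    -- `z δ(G') v = 0`
    have h2 : ∀ c, ∑ d, (G.map δ) (f c) (g d) * v d = - ∑ d, G (f c) (g d) * δ (v d) := by
      intro c
      have h3 := congrArg δ (congrFun hv c)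
      rw [Pi.zero_apply, map_zero] at h3
      simp only [Matrix.mulVec, dotProduct, Matrix.submatrix_apply, map_sum, Derivation.leibniz,
        smul_eq_mul, Finset.sum_add_distrib] at h3
      rw [eq_neg_iff_add_eq_zero, add_comm, ← h3]
      congr 1
      refine Finset.sum_congr rfl fun d _ => ?_
      rw [Matrix.map_apply, mul_comm]
    have h4 : ∑ c, z c * (G.map δ *ᵥ w) (f c) = - ∑ d, (∑ c, z c * G (f c) (g d)) * δ (v d) := by
      calc ∑ c, z c * (G.map δ *ᵥ w) (f c)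
          = ∑ c, z c * -∑ d, G (f c) (g d) * δ (v d) := by
            refine Finset.sum_congr rfl fun c _ => ?_
            rw [hw, h2]
        _ = - ∑ c, ∑ d, z c * (G (f c) (g d) * δ (v d)) := by
            rw [← Finset.sum_neg_distrib]
            refine Finset.sum_congr rfl fun c _ => ?_
            rw [mul_neg, Finset.mul_sum]
        _ = _ := by
            rw [Finset.sum_comm]
            congr 1
            refine Finset.sum_congr rfl fun d _ => ?_
            rw [Finset.sum_mul]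
            refine Finset.sum_congr rfl fun c _ => by ring
    rw [h4, neg_eq_zero]
    refine Finset.sum_eq_zero fun d _ => ?_
    have h5 := congrFun hz d
    have h6 : ∑ c, z c * G (f c) (g d) = 0 := h5
    rw [h6, zero_mul]
  · rw [hs]
    have h2 : ∀ c, ((G * Z) *ᵥ w) (f c) = ∑ d, G (f c) (g d) * (Z (g d) (g d) * v d) := by
      intro c
      rw [hw]
      refine Finset.sum_congr rfl fun d _ => ?_
      rw [Matrix.mul_apply, Finset.sum_eq_single (g d), mul_assoc]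
      · intro k _ hk
        rw [hZ k (g d) hk, mul_zero]
      · intro h
        exact absurd (Finset.mem_univ _) h
    calc ∑ c, z c * ((G * Z) *ᵥ w) (f c)
        = ∑ c, ∑ d, z c * (G (f c) (g d) * (Z (g d) (g d) * v d)) := by
          refine Finset.sum_congr rfl fun c _ => ?_
          rw [h2, Finset.mul_sum]
      _ = ∑ d, (∑ c, z c * G (f c) (g d)) * (Z (g d) (g d) * v d) := by
          rw [Finset.sum_comm]
          refine Finset.sum_congr rfl fun d _ => ?_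
          rw [Finset.sum_mul]
          refine Finset.sum_congr rfl fun c _ => by ring
      _ = 0 := by
          refine Finset.sum_eq_zero fun d _ => ?_
          have h5 := congrFun hz d
          have h6 : ∑ c, z c * G (f c) (g d) = 0 := h5
          rw [h6, zero_mul]

/-- minors at a generic point -/
theorem gen_minor [Fintype ι] [DecidableEq ι] {K₀ : Subfield ℂ} {J : ι → P002R.Mat r ℂ}
    (hJK : ∀ j a b, J j a b ∈ K₀)
    {Y : ι ⊕ Bool → P002R.Mat r ℂ} (hJ : ∀ j, IsUnit (J j)) (hY : ∀ j, IsUnit (Y j)) (i₀ : ι)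
    (l₁ l₂ : List ι) (hnd : (i₀ :: (l₁ ++ l₂)).Nodup) (hmem : ∀ j, j ∈ i₀ :: (l₁ ++ l₂))
    (hrel : PhiI J (i₀ :: (l₁ ++ l₂)) Y = 1)
    (hirr : ∀ W : Submodule ℂ (Fin r → ℂ), (∀ j, ∀ w ∈ W, cI J Y j *ᵥ w ∈ W) →
      (∀ w ∈ W, Y (Sum.inr false) *ᵥ w ∈ W) → W = ⊥ ∨ W = ⊤)
    (hgen : GenPt1 K₀ J (i₀ :: (l₁ ++ l₂)) Y)
    {A : P002R.Mat r ℂ} {ν : Fin r → ℂ} (hA : IsUnit A) (hν : Function.Injective ν)
    (haA : Y (Sum.inr false) * A = A * diagonal ν) {κ : Type*} [Fintype κ] [DecidableEq κ]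
    (f g : κ → Fin r) (hf : Function.Injective f) (hg : Function.Injective g) :
    (((Y (Sum.inl i₀))⁻¹ * (l₁.map (cI J Y)).prod * (Y (Sum.inr true) * A)).submatrix f g).det
      ≠ 0 := by
  intro hdet
  obtain ⟨P, hP⟩ : ∃ P, P = (l₁.map (cI J Y)).prod := ⟨_, rfl⟩
  obtain ⟨G, hG⟩ : ∃ G, G = (Y (Sum.inl i₀))⁻¹ * P * (Y (Sum.inr true) * A) := ⟨_, rfl⟩
  rw [← hP, ← hG] at hdet
  obtain ⟨w, s, hw0, hs0, hδs, hZs⟩ := exists_pair_minor G f g hf hg hdet
  have hAd : IsUnit A.det := (Matrix.isUnit_iff_isUnit_det _).1 hA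
  have h0d : IsUnit (Y (Sum.inl i₀)).det := (Matrix.isUnit_iff_isUnit_det _).1 (hY _)
  have hu : (Y (Sum.inr true) * A) *ᵥ w ≠ 0 := by
    intro h
    apply hw0
    have hud : IsUnit (Y (Sum.inr true) * A).det :=
      (Matrix.isUnit_iff_isUnit_det _).1 ((hY _).mul hA)
    calc w = ((Y (Sum.inr true) * A)⁻¹ * (Y (Sum.inr true) * A)) *ᵥ w := by
          rw [Matrix.nonsing_inv_mul _ hud, Matrix.one_mulVec]
      _ = 0 := by rw [← Matrix.mulVec_mulVec, h, Matrix.mulVec_zero]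
  have hy : s ᵥ* (Y (Sum.inl i₀))⁻¹ ≠ 0 := by
    intro h
    apply hs0
    calc s = s ᵥ* ((Y (Sum.inl i₀))⁻¹ * Y (Sum.inl i₀)) := by
          rw [Matrix.nonsing_inv_mul _ h0d, Matrix.vecMul_one]
      _ = 0 := by rw [← Matrix.vecMul_vecMul, h, Matrix.zero_vecMul]
  obtain ⟨δ, x, hδ, hx, hx0, hne⟩ := gen_F hJ hY i₀ l₁ l₂ hnd hmem hrel hirr hgen _ _ hu hy
  apply hne
  rw [← hP]
  obtain ⟨Z, hZ⟩ : ∃ Z, Z = A⁻¹ * A.map δ := ⟨_, rfl⟩
  have hAZ : A.map δ = A * Z := by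
    rw [hZ, ← Matrix.mul_assoc, Matrix.mul_nonsing_inv _ hAd, Matrix.one_mul]
  have hZ0 := der_eigenbasis δ (by rw [hx, hx0, Matrix.zero_mul]) hA hν haA hAZ
  have hGδ : G.map δ = (Y (Sum.inl i₀))⁻¹ * (DL (cI J Y) (fun j => x (Sum.inl j)) l₁ +
      P * x (Sum.inr true) - x (Sum.inl i₀) * P) * (Y (Sum.inr true) * A) + G * Z := by
    have a1 : Y (Sum.inl i₀) * (Y (Sum.inl i₀))⁻¹ = 1 := Matrix.mul_nonsing_inv _ h0d
    have hPδ : P.map δ = DL (cI J Y) (fun j => x (Sum.inl j)) l₁ := by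
      rw [hP, map_der_listI hJK hY δ hδ x hx]
    rw [hG, map_der_mul, map_der_mul, map_der_mul, map_der_inv (hY (Sum.inl i₀)), hx, hx, hPδ, hAZ]
    have e : -((Y (Sum.inl i₀))⁻¹ * (x (Sum.inl i₀) * Y (Sum.inl i₀)) * (Y (Sum.inl i₀))⁻¹) =
        -((Y (Sum.inl i₀))⁻¹ * x (Sum.inl i₀)) := by
      simp only [Matrix.mul_assoc, a1, Matrix.mul_one]
    rw [e]
    noncomm_ring
  have h1 := hδs δ
  rw [hGδ, Matrix.add_mulVec, dotProduct_add, hZs Z hZ0, add_zero] at h1
  have e1 : ∀ A B C : P002R.Mat r ℂ, (s ᵥ* A) ⬝ᵥ (B *ᵥ (C *ᵥ w)) =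
      s ⬝ᵥ ((A * B * C) *ᵥ w) := fun A B C => by
    rw [← Matrix.mulVec_mulVec, ← Matrix.mulVec_mulVec, Matrix.dotProduct_mulVec s]
  rw [e1]
  exact h1

end Vale.Agent.P002R
end

section

/-!
# P002, genus 1, arbitrary classes: idempotents commuting with the frozen tuple
-/

namespace Vale.Agent.P002R

open Matrix Module Vale.Agent.P002

variable {r : ℕ}

/-- matrices commuting with a matrix with distinct eigenvalues are diagonal in the eigenbasis -/
theorem diag_of_commute {M A N : P002R.Mat r ℂ} {ν : Fin r → ℂ} (hA : IsUnit A)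
    (hν : Function.Injective ν) (hMA : M * A = A * diagonal ν) (h : Commute N M) :
    ∃ n : Fin r → ℂ, N * A = A * diagonal n := by
  have hud : IsUnit A.det := (Matrix.isUnit_iff_isUnit_det _).1 hA
  have a1 : A * A⁻¹ = 1 := Matrix.mul_nonsing_inv _ hud
  have a2 : A⁻¹ * A = 1 := Matrix.nonsing_inv_mul _ hud
  obtain ⟨T, hT⟩ : ∃ T, T = A⁻¹ * (N * A) := ⟨_, rfl⟩
  have hAT : N * A = A * T := by rw [hT, mulL a1]
  have h1 : T * diagonal ν = diagonal ν * T := by
    have h2 : A * (T * diagonal ν) = A * (diagonal ν * T) := by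
      calc A * (T * diagonal ν) = N * (A * diagonal ν) := by
            rw [← Matrix.mul_assoc, ← hAT, Matrix.mul_assoc]
        _ = (N * M) * A := by rw [← hMA, Matrix.mul_assoc]
        _ = M * (N * A) := by rw [h.eq, Matrix.mul_assoc]
        _ = A * (diagonal ν * T) := by rw [hAT, ← Matrix.mul_assoc, hMA, Matrix.mul_assoc]
    exact hA.mul_left_cancel h2
  refine ⟨fun i => T i i, ?_⟩
  rw [hAT]
  congr 1
  ext i j
  by_cases hij : i = j
  · rw [hij, Matrix.diagonal_apply_eq]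
  · rw [Matrix.diagonal_apply_ne _ hij]
    have h3 := congrFun (congrFun h1 i) j
    rw [Matrix.mul_diagonal, Matrix.diagonal_mul] at h3
    have h4 : (ν i - ν j) * T i j = 0 := by linear_combination -h3
    rcases mul_eq_zero.1 h4 with h | h
    · exact absurd (hν (sub_eq_zero.1 h)) hij
    · exact h

theorem commute_of_diag {A N N' : P002R.Mat r ℂ} {n n' : Fin r → ℂ} (hA : IsUnit A)
    (h : N * A = A * diagonal n) (h' : N' * A = A * diagonal n') : Commute N N' := by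
  have h1 : N * N' * A = N' * N * A := by
    calc N * N' * A = N * (N' * A) := Matrix.mul_assoc _ _ _
      _ = A * (diagonal n * diagonal n') := by
        rw [h', ← Matrix.mul_assoc, h, Matrix.mul_assoc]
      _ = A * (diagonal n' * diagonal n) := by
        rw [Matrix.diagonal_mul_diagonal, Matrix.diagonal_mul_diagonal]
        congr 2
        funext i
        exact mul_comm _ _
      _ = N' * (N * A) := by rw [h, ← Matrix.mul_assoc N', h', Matrix.mul_assoc]
      _ = _ := (Matrix.mul_assoc _ _ _).symm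
  exact hA.mul_right_cancel h1

/-- Solving the commutator equation in an off diagonal block. -/
theorem exists_off {a A e S : P002R.Mat r ℂ} {ν : Fin r → ℂ} (hA : IsUnit A)
    (hν : Function.Injective ν) (haA : a * A = A * diagonal ν) (he : e * e = e)
    (hea : Commute e a) (hS : (1 - e) * S * e = S) :
    ∃ T : P002R.Mat r ℂ, T * a - a * T = S := by
  have hud : IsUnit A.det := (Matrix.isUnit_iff_isUnit_det _).1 hA
  have a1 : A * A⁻¹ = 1 := Matrix.mul_nonsing_inv _ hud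
  have a2 : A⁻¹ * A = 1 := Matrix.nonsing_inv_mul _ hud
  obtain ⟨n, hn⟩ := diag_of_commute hA hν haA hea
  have hn2 : ∀ i, n i * n i = n i := by
    intro i
    have h1 : A * (diagonal n * diagonal n) = A * diagonal n := by
      rw [← Matrix.mul_assoc, ← hn, Matrix.mul_assoc, ← hn, ← Matrix.mul_assoc, he]
    have h2 := hA.mul_left_cancel h1
    rw [Matrix.diagonal_mul_diagonal] at h2
    have h3 := congrFun (congrFun h2 i) i
    rwa [Matrix.diagonal_apply_eq, Matrix.diagonal_apply_eq] at h3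
  obtain ⟨S', hS'⟩ : ∃ S', S' = A⁻¹ * (S * A) := ⟨_, rfl⟩
  have hSA : S * A = A * S' := by rw [hS', mulL a1]
  have hS'd : ∀ i, S' i i = 0 := by
    intro i
    have h1 : A * ((1 - diagonal n) * S' * diagonal n) = A * S' := by
      calc A * ((1 - diagonal n) * S' * diagonal n)
          = (A - A * diagonal n) * S' * diagonal n := by
            simp only [Matrix.mul_sub, Matrix.sub_mul, Matrix.mul_assoc, Matrix.one_mul]
        _ = (1 - e) * (A * S') * diagonal n := by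
            rw [← hn]
            simp only [Matrix.sub_mul, Matrix.mul_assoc, Matrix.one_mul]
        _ = (1 - e) * S * (A * diagonal n) := by rw [← hSA]; simp only [Matrix.mul_assoc]
        _ = ((1 - e) * S * e) * A := by rw [← hn]; simp only [Matrix.mul_assoc]
        _ = A * S' := by rw [hS, hSA]
    have h2 := congrFun (congrFun (hA.mul_left_cancel h1) i) i
    rw [Matrix.mul_diagonal, Matrix.sub_mul, Matrix.sub_apply, Matrix.one_mul,
      Matrix.diagonal_mul] at h2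
    have h3 := hn2 i
    linear_combination -h2 - S' i i * h3
  obtain ⟨T', hT'⟩ : ∃ T' : P002R.Mat r ℂ, T' * diagonal ν - diagonal ν * T' = S' := by
    refine ⟨Matrix.of fun i j => if i = j then 0 else S' i j / (ν j - ν i), ?_⟩
    ext i j
    rw [Matrix.sub_apply, Matrix.mul_diagonal, Matrix.diagonal_mul, Matrix.of_apply]
    by_cases hij : i = j
    · rw [if_pos hij, zero_mul, mul_zero, sub_zero, hij, hS'd]
    · rw [if_neg hij]
      have h1 : ν j - ν i ≠ 0 := sub_ne_zero.2 fun h => hij (hν h).symm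
      field_simp
  have hAi : A⁻¹ * a = diagonal ν * A⁻¹ := by
    calc A⁻¹ * a = A⁻¹ * (a * A) * A⁻¹ := by
          simp only [Matrix.mul_assoc, a1, Matrix.mul_one]
      _ = _ := by rw [haA, mulL a2]
  refine ⟨A * T' * A⁻¹, ?_⟩
  calc A * T' * A⁻¹ * a - a * (A * T' * A⁻¹)
      = A * T' * (A⁻¹ * a) - (a * A) * T' * A⁻¹ := by simp only [Matrix.mul_assoc]
    _ = A * (T' * diagonal ν - diagonal ν * T') * A⁻¹ := by
      rw [hAi, haA]
      simp only [Matrix.mul_sub, Matrix.sub_mul, Matrix.mul_assoc]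
    _ = S := by
      rw [hT', ← hSA, Matrix.mul_assoc, a1, Matrix.mul_one]

variable {ι : Type}

/-- the general functional -/
theorem exists_FI (c : ι → P002R.Mat r ℂ) (a Θ Wm : P002R.Mat r ℂ) (j : ι) :
    ∃ F : (ι ⊕ Bool → P002R.Mat r ℂ) →ₗ[ℂ] ℂ, ∀ x, F x =
      trace (Θ * (x (Sum.inl j) * c j - c j * x (Sum.inl j))) +
        trace (Wm * (x (Sum.inr false) * a)) := by
  refine ⟨LinearMap.mk (AddHom.mk (fun x => trace (Θ * (x (Sum.inl j) * c j -
    c j * x (Sum.inl j))) + trace (Wm * (x (Sum.inr false) * a))) ?_) ?_, fun x => rfl⟩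
  · intro x x'
    have e1 : Θ * ((x + x') (Sum.inl j) * c j - c j * (x + x') (Sum.inl j)) =
        Θ * (x (Sum.inl j) * c j - c j * x (Sum.inl j)) +
          Θ * (x' (Sum.inl j) * c j - c j * x' (Sum.inl j)) := by
      rw [Pi.add_apply]
      noncomm_ring
    have e2 : Wm * ((x + x') (Sum.inr false) * a) = Wm * (x (Sum.inr false) * a) +
        Wm * (x' (Sum.inr false) * a) := by
      rw [Pi.add_apply]
      noncomm_ring
    rw [e1, e2, trace_add, trace_add]
    ring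
  · intro t x
    show trace (Θ * ((t • x) (Sum.inl j) * c j - c j * (t • x) (Sum.inl j))) +
      trace (Wm * ((t • x) (Sum.inr false) * a)) =
      t • (trace (Θ * (x (Sum.inl j) * c j - c j * x (Sum.inl j))) +
        trace (Wm * (x (Sum.inr false) * a)))
    have e1 : Θ * ((t • x) (Sum.inl j) * c j - c j * (t • x) (Sum.inl j)) =
        t • (Θ * (x (Sum.inl j) * c j - c j * x (Sum.inl j))) := by
      rw [Pi.smul_apply]
      simp only [Matrix.smul_mul, Matrix.mul_smul, smul_sub, Matrix.mul_sub]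
    have e2 : Wm * ((t • x) (Sum.inr false) * a) = t • (Wm * (x (Sum.inr false) * a)) := by
      rw [Pi.smul_apply]
      simp only [Matrix.smul_mul, Matrix.mul_smul]
    rw [e1, e2, trace_smul, trace_smul]
    simp only [smul_eq_mul]
    ring

/-- the dual equations -/
theorem dual_gen [DecidableEq ι] {c : ι → P002R.Mat r ℂ} {a b : P002R.Mat r ℂ}
    (ha : IsUnit a) (hb : IsUnit b) (L : List ι) (hnd : L.Nodup)
    (hrel : (L.map c).prod * (a * b * a⁻¹ * b⁻¹) = 1) (j : ι) (l' l'' : List ι)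
    (hL : L = l' ++ j :: l'') (Θ Wm N : P002R.Mat r ℂ)
    (hN : ∀ x : ι ⊕ Bool → P002R.Mat r ℂ,
      trace (Θ * (x (Sum.inl j) * c j - c j * x (Sum.inl j))) +
        trace (Wm * (x (Sum.inr false) * a)) = trace (N * D1 c a b L x)) :
    Commute N (b * a⁻¹ * b⁻¹) ∧
      (a * b * a⁻¹ * b⁻¹) * N * (L.map c).prod - b⁻¹ * N * b = a * Wm ∧
      N * c j = c j * (N - (c j * Θ - Θ * c j)) := by
  have had : IsUnit a.det := (Matrix.isUnit_iff_isUnit_det _).1 ha
  have hbd : IsUnit b.det := (Matrix.isUnit_iff_isUnit_det _).1 hb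
  obtain ⟨cP, hcP⟩ : ∃ cP, cP = (L.map c).prod := ⟨_, rfl⟩
  obtain ⟨h, hh⟩ : ∃ h, h = a * b * a⁻¹ * b⁻¹ := ⟨_, rfl⟩
  have H : HInv a a⁻¹ b b⁻¹ h cP :=
    ⟨Matrix.mul_nonsing_inv _ had, Matrix.nonsing_inv_mul _ had, Matrix.mul_nonsing_inv _ hbd,
      Matrix.nonsing_inv_mul _ hbd, hh, by rw [← hrel, hcP, hh]⟩
  rw [← hcP, ← hh]
  have hN' : ∀ x : ι ⊕ Bool → P002R.Mat r ℂ,
      trace (Θ * (x (Sum.inl j) * c j - c j * x (Sum.inl j))) +
        trace (Wm * (x (Sum.inr false) * a)) =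
      trace (N * (DL c (fun j => x (Sum.inl j)) L * h +
      cP * (x (Sum.inr false) * h + a * x (Sum.inr true) * (b * a⁻¹ * b⁻¹) -
        a * b * a⁻¹ * x (Sum.inr false) * b⁻¹ - h * x (Sum.inr true)))) := by
    intro x
    have h1 := hN x
    rw [D1, ← hh, ← hcP] at h1
    exact h1
  have hu1 : ∀ (s : Bool) (X : P002R.Mat r ℂ) (j : ι),
      (Function.update (0 : ι ⊕ Bool → P002R.Mat r ℂ) (Sum.inr s) X) (Sum.inl j) = 0 := by
    intro s X j
    rw [Function.update_of_ne (by simp), Pi.zero_apply]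
  have hu2 : ∀ (s : Bool) (X : P002R.Mat r ℂ) (j : ι),
      (Function.update (0 : ι ⊕ Bool → P002R.Mat r ℂ) (Sum.inl j) X) (Sum.inr s) = 0 := by
    intro s X j
    rw [Function.update_of_ne (by simp), Pi.zero_apply]
  have hu3 : ∀ (X : P002R.Mat r ℂ) (j k : ι), k ≠ j →
      (Function.update (0 : ι ⊕ Bool → P002R.Mat r ℂ) (Sum.inl j) X) (Sum.inl k) = 0 := by
    intro X j k hk
    rw [Function.update_of_ne (by simpa using hk), Pi.zero_apply]
  have hu4 : ∀ X : P002R.Mat r ℂ,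
      (Function.update (0 : ι ⊕ Bool → P002R.Mat r ℂ) (Sum.inr false) X) (Sum.inr true) = 0 := by
    intro X
    rw [Function.update_of_ne (by simp), Pi.zero_apply]
  have hu5 : ∀ X : P002R.Mat r ℂ,
      (Function.update (0 : ι ⊕ Bool → P002R.Mat r ℂ) (Sum.inr true) X) (Sum.inr false) = 0 := by
    intro X
    rw [Function.update_of_ne (by simp), Pi.zero_apply]
  have hndL : (l' ++ j :: l'').Nodup := hL ▸ hnd
  rw [List.nodup_append, List.nodup_cons] at hndL
  have hjl' : ∀ k ∈ l', k ≠ j := fun k hk => hndL.2.2 k hk j List.mem_cons_self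
  have hvar : ∀ (k : ι) (l₁ l₂ : List ι), L = l₁ ++ k :: l₂ → ∀ K : P002R.Mat r ℂ,
      DL c (fun i => (Function.update (0 : ι ⊕ Bool → P002R.Mat r ℂ) (Sum.inl k) K)
          (Sum.inl i)) L = (l₁.map c).prod * (K * c k - c k * K) * (l₂.map c).prod := by
    intro k l₁ l₂ hl K
    have hnd' : (l₁ ++ k :: l₂).Nodup := hl ▸ hnd
    rw [List.nodup_append, List.nodup_cons] at hnd'
    rw [hl, DL_split c _ l₁ l₂ k (fun i hi => ?_) (fun i hi => ?_), Function.update_self]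
    · exact hu3 K k i (hnd'.2.2 i hi k List.mem_cons_self)
    · refine hu3 K k i ?_
      rintro rfl
      exact hnd'.2.1.1 hi
  have hc1 := pre_ind c N l' (by
    intro l₁ k l₂ hl hcom
    obtain ⟨X, hX⟩ : ∃ X, X = (l₁.map c).prod := ⟨_, rfl⟩
    obtain ⟨Z, hZ⟩ : ∃ Z, Z = ((l₂ ++ j :: l'').map c).prod := ⟨_, rfl⟩
    rw [← hX] at hcom
    have hkj : k ≠ j := hjl' k (by rw [hl]; simp)
    have hLk : L = l₁ ++ k :: (l₂ ++ j :: l'') := by rw [hL, hl]; simp
    have h1 : ∀ K, trace ((0 : P002R.Mat r ℂ) * K) =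
        trace ((c k * (Z * h * N * X) - (Z * h * N * X) * c k) * K) := by
      intro K
      have h2 := hN' (Function.update 0 (Sum.inl k) K)
      rw [hvar k _ _ hLk K, hu2, hu2, hu3 K k j hkj.symm, ← hX, ← hZ] at h2
      simp only [Matrix.zero_mul, Matrix.mul_zero, add_zero, trace_zero, sub_self] at h2
      rw [← tr_comm, Matrix.zero_mul, trace_zero, h2]
      simp only [Matrix.mul_assoc]
    have h2 := eq_of_trace_eq h1
    have hcyc := cyc_one (X := X) (a := c k) (Y := Z * h) (by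
      rw [← H.rel, hcP, hLk, hX, hZ]
      simp only [List.map_append, List.map_cons, List.prod_append, List.prod_cons,
        Matrix.mul_assoc])
    refine comm_of_inv hcyc.1 ?_
    rw [show Z * h * X * N = Z * h * N * X by rw [Matrix.mul_assoc, ← hcom.eq, Matrix.mul_assoc,
      Matrix.mul_assoc, Matrix.mul_assoc], ← h2])
  have Eb := rankB_Eb (N := N) H (fun X => by
    have h2 := hN' (Function.update 0 (Sum.inr true) X)
    rw [Function.update_self, hu5, hu1,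
      DL_zero_fun c L _ (fun j => hu1 true X j)] at h2
    simp only [Matrix.zero_mul, Matrix.mul_zero, sub_zero, zero_add, trace_zero, add_zero] at h2
    exact h2.symm)
  have Ea := rankB_Ea (N := N) (Wm := Wm) H (fun X => by
    have h2 := hN' (Function.update 0 (Sum.inr false) X)
    rw [Function.update_self, hu4, hu1,
      DL_zero_fun c L _ (fun j => hu1 false X j)] at h2
    simp only [Matrix.zero_mul, Matrix.mul_zero, sub_zero, zero_add, trace_zero,
      add_zero] at h2 ⊢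
    exact h2)
  refine ⟨?_, Ea, ?_⟩
  · show N * (b * a⁻¹ * b⁻¹) = b * a⁻¹ * b⁻¹ * N
    have h1 : b * a⁻¹ * b⁻¹ * N = b * (a⁻¹ * (b⁻¹ * N)) := by simp only [Matrix.mul_assoc]
    rw [h1, Eb]
    simp only [Matrix.mul_assoc]
  · obtain ⟨X, hX⟩ : ∃ X, X = (l'.map c).prod := ⟨_, rfl⟩
    obtain ⟨Z, hZ⟩ : ∃ Z, Z = (l''.map c).prod := ⟨_, rfl⟩
    have hcom : Commute N X := hX ▸ hc1.1
    have h1 : ∀ K, trace ((c j * Θ - Θ * c j) * K) =
        trace ((c j * (Z * h * N * X) - (Z * h * N * X) * c j) * K) := by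
      intro K
      have h2 := hN' (Function.update 0 (Sum.inl j) K)
      rw [hvar j _ _ hL K, hu2, hu2, Function.update_self, ← hX, ← hZ] at h2
      simp only [Matrix.zero_mul, Matrix.mul_zero, add_zero, trace_zero, sub_self] at h2
      have h3 := tr_comm Θ 1 1 (c j) K
      simp only [Matrix.one_mul, Matrix.mul_one] at h3
      rw [← tr_comm, ← h3, h2]
      simp only [Matrix.mul_assoc]
    have h2 := eq_of_trace_eq h1
    have hcyc := cyc_one (X := X) (a := c j) (Y := Z * h) (by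
      rw [← H.rel, hcP, hL, hX, hZ]
      simp only [List.map_append, List.map_cons, List.prod_append, List.prod_cons,
        Matrix.mul_assoc])
    obtain ⟨V, hV⟩ : ∃ V, V = Z * h * X := ⟨_, rfl⟩
    rw [← hV] at hcyc
    have h3 : Z * h * N * X = V * N := by
      rw [hV, Matrix.mul_assoc _ X N, ← hcom.eq, ← Matrix.mul_assoc]
    rw [h3] at h2
    rw [h2]
    calc N * c j = c j * (V * N * c j) := by
          rw [← Matrix.mul_assoc, ← Matrix.mul_assoc, hcyc.1, Matrix.one_mul]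
      _ = c j * (N - (c j * (V * N) - V * N * c j)) := by
          rw [← Matrix.mul_assoc (c j) V N, hcyc.1, Matrix.one_mul, sub_sub_cancel]

end Vale.Agent.P002R
end

section

/-!
# P002, genus 1, arbitrary classes: the eigenvalues of `a` at a generic point
-/

namespace Vale.Agent.P002R

open Matrix Module Vale.Agent.P002

variable {r : ℕ}

/-- commuting with the complement of an idempotent -/
theorem scalar_of_block {c e : P002R.Mat r ℂ} (hec : Commute e c) (he0 : e ≠ 0)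
    (he1 : e ≠ 1) (hK : ∀ Θ : P002R.Mat r ℂ, c * ((1 - e) * Θ * e) = (1 - e) * Θ * e * c) :
    ∃ μ : ℂ, c = μ • (1 : P002R.Mat r ℂ) := by
  have hv : ∀ p q : Fin r → ℂ, (1 - e) * vecMulVec p q * e =
      vecMulVec ((1 - e) *ᵥ p) (q ᵥ* e) := by
    intro p q
    rw [Matrix.mul_vecMulVec, Matrix.vecMulVec_mul]
  have hv2 : ∀ p q : Fin r → ℂ, vecMulVec (c *ᵥ ((1 - e) *ᵥ p)) (q ᵥ* e) =
      vecMulVec ((1 - e) *ᵥ p) ((q ᵥ* e) ᵥ* c) := by
    intro p q
    have h1 := hK (vecMulVec p q)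
    rwa [hv, Matrix.mul_vecMulVec, Matrix.vecMulVec_mul] at h1
  -- a nonzero row
  obtain ⟨q₀, hq₀⟩ : ∃ q₀ : Fin r → ℂ, q₀ ᵥ* e ≠ 0 := by
    by_contra hcon
    push Not at hcon
    apply he0
    ext i j
    have h1 := congrFun (hcon (Pi.single i 1)) j
    rwa [Matrix.single_one_vecMul] at h1
  obtain ⟨p₀, hp₀⟩ : ∃ p₀ : Fin r → ℂ, (1 - e) *ᵥ p₀ ≠ 0 := by
    by_contra hcon
    push Not at hcon
    apply he1
    have h2 : (1 - e) = 0 := by
      ext i j
      have h1 := congrFun (hcon (Pi.single j 1)) i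
      rwa [Matrix.mulVec_single_one] at h1
    exact (sub_eq_zero.1 h2).symm
  obtain ⟨k, hk⟩ := Function.ne_iff.1 hq₀
  obtain ⟨i, hi⟩ := Function.ne_iff.1 hp₀
  rw [Pi.zero_apply] at hk hi
  obtain ⟨μ, hμ⟩ : ∃ μ, μ = ((q₀ ᵥ* e) ᵥ* c) k / (q₀ ᵥ* e) k := ⟨_, rfl⟩
  have h1 : ∀ p : Fin r → ℂ, c *ᵥ ((1 - e) *ᵥ p) = μ • ((1 - e) *ᵥ p) := by
    intro p
    funext l
    have h2 := congrFun (congrFun (hv2 p q₀) l) k
    rw [vecMulVec_apply, vecMulVec_apply] at h2
    rw [Pi.smul_apply, smul_eq_mul, hμ]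
    field_simp
    rw [h2]
    ring
  have h2 : ∀ q : Fin r → ℂ, (q ᵥ* e) ᵥ* c = μ • (q ᵥ* e) := by
    intro q
    funext l
    have h3 := congrFun (congrFun (hv2 p₀ q) i) l
    rw [vecMulVec_apply, vecMulVec_apply, h1, Pi.smul_apply, smul_eq_mul] at h3
    rw [Pi.smul_apply, smul_eq_mul]
    apply mul_left_cancel₀ hi
    rw [← h3]
    ring
  have h3 : c * (1 - e) = μ • (1 - e) := by
    ext l m
    have h4 := congrFun (h1 (Pi.single m 1)) l
    rw [Matrix.mulVec_mulVec, Matrix.mulVec_single_one, Matrix.mulVec_single_one] at h4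
    exact h4
  have h4 : e * c = μ • e := by
    ext l m
    have h5 := congrFun (h2 (Pi.single l 1)) m
    rw [Matrix.vecMul_vecMul, Matrix.single_one_vecMul, Matrix.single_one_vecMul] at h5
    exact h5
  refine ⟨μ, ?_⟩
  calc c = c * (1 - e) + c * e := by rw [← Matrix.mul_add, sub_add_cancel, Matrix.mul_one]
    _ = μ • (1 - e) + μ • e := by rw [h3, ← hec.eq, h4]
    _ = μ • 1 := by rw [← smul_add, sub_add_cancel]

/-- `a'` in the eigenbasis -/
theorem eigen_a' {a b A : P002R.Mat r ℂ} {ν : Fin r → ℂ} (ha : IsUnit a) (hb : IsUnit b)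
    (hA : IsUnit A) (haA : a * A = A * diagonal ν) :
    (∀ i, ν i ≠ 0) ∧ (b * a⁻¹ * b⁻¹) * (b * A) = (b * A) * diagonal fun i => (ν i)⁻¹ := by
  have had : IsUnit a.det := (Matrix.isUnit_iff_isUnit_det _).1 ha
  have hbd : IsUnit b.det := (Matrix.isUnit_iff_isUnit_det _).1 hb
  have hAd : IsUnit A.det := (Matrix.isUnit_iff_isUnit_det _).1 hA
  have a2 := Matrix.nonsing_inv_mul _ had
  have b2 := Matrix.nonsing_inv_mul _ hbd
  have A2 := Matrix.nonsing_inv_mul _ hAd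
  have hν : ∀ i, ν i ≠ 0 := by
    have h1 : IsUnit (diagonal ν : P002R.Mat r ℂ) := by
      have h2 : (diagonal ν : P002R.Mat r ℂ) = A⁻¹ * (a * A) := by
        rw [haA, mulL A2]
      rw [h2]
      exact (Matrix.isUnit_nonsing_inv_iff.2 hA).mul (ha.mul hA)
    rw [Matrix.isUnit_iff_isUnit_det, det_diagonal, isUnit_iff_ne_zero,
      Finset.prod_ne_zero_iff] at h1
    exact fun i => h1 i (Finset.mem_univ i)
  refine ⟨hν, ?_⟩
  have h2 : (diagonal ν : P002R.Mat r ℂ) * diagonal (fun i => (ν i)⁻¹) = 1 := by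
    rw [Matrix.diagonal_mul_diagonal, ← Matrix.diagonal_one]
    congr 1
    funext i
    exact mul_inv_cancel₀ (hν i)
  have h3 : a⁻¹ * A = A * diagonal fun i => (ν i)⁻¹ := by
    calc a⁻¹ * A = a⁻¹ * (A * diagonal ν * diagonal fun i => (ν i)⁻¹) := by
          rw [Matrix.mul_assoc, h2, Matrix.mul_one]
      _ = a⁻¹ * (a * A) * diagonal fun i => (ν i)⁻¹ := by
          rw [haA]; simp only [Matrix.mul_assoc]
      _ = _ := by rw [mulL a2]
  calc (b * a⁻¹ * b⁻¹) * (b * A) = b * (a⁻¹ * A) := by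
        simp only [Matrix.mul_assoc, mulL b2]
    _ = _ := by rw [h3, Matrix.mul_assoc]

/-- commuting with a one sided inverse -/
theorem commute_of_mul_one {e M M' : P002R.Mat r ℂ} (h : M * M' = 1) (he : Commute e M) :
    Commute e M' := by
  have h' : M' * M = 1 := mul_eq_one_comm.1 h
  show e * M' = M' * e
  calc e * M' = (M' * M) * e * M' := by rw [h', Matrix.one_mul]
    _ = M' * (e * M) * M' := by rw [he.eq]; simp only [Matrix.mul_assoc]
    _ = M' * e := by simp only [Matrix.mul_assoc, h, Matrix.mul_one]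

variable {ι : Type}

theorem map_der_cI [Fintype ι] {K₀ : Subfield ℂ} {J : ι → P002R.Mat r ℂ}
    {Y : ι ⊕ Bool → P002R.Mat r ℂ} (hJK : ∀ j a b, J j a b ∈ K₀) (hY : ∀ j, IsUnit (Y j))
    (δ : Derivation ℤ ℂ ℂ) (hδ : ∀ a ∈ K₀, δ a = 0) (x : ι ⊕ Bool → P002R.Mat r ℂ)
    (hx : ∀ k, (Y k).map δ = x k * Y k) (j : ι) :
    (cI J Y j).map δ = x (Sum.inl j) * cI J Y j - cI J Y j * x (Sum.inl j) := by
  have h1 := map_der_listI hJK hY δ hδ x hx [j]
  rw [DL_cons, DL_nil, List.map_cons, List.map_nil, List.prod_cons, List.prod_nil, Matrix.mul_one,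
    Matrix.mul_one, Matrix.mul_zero, add_zero] at h1
  exact h1

/-- the derivative of an idempotent commuting with `c` -/
theorem der_idem {c e dc : P002R.Mat r ℂ} (he : e * e = e) (hec : Commute e c)
    (δ : Derivation ℤ ℂ ℂ) (hc : c.map δ = dc) :
    e * dc * (1 - e) = c * (e * e.map δ * (1 - e)) - (e * e.map δ * (1 - e)) * c := by
  have h1 := congrArg (fun M : P002R.Mat r ℂ => M.map δ) hec.eq
  simp only [map_der_mul] at h1
  rw [hc] at h1
  have h2 : e * (e.map δ * c + e * dc) * (1 - e) = e * (dc * e + c * e.map δ) * (1 - e) := by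
    rw [h1]
  have h3 : e * (e.map δ * c + e * dc) * (1 - e) =
      (e * e.map δ * (1 - e)) * c + e * dc * (1 - e) := by
    have e1 : c * (1 - e) = (1 - e) * c := by
      rw [Matrix.mul_sub, Matrix.sub_mul, hec.eq, Matrix.mul_one, Matrix.one_mul]
    calc e * (e.map δ * c + e * dc) * (1 - e)
        = e * e.map δ * (c * (1 - e)) + (e * e) * dc * (1 - e) := by
          simp only [Matrix.mul_add, Matrix.add_mul, Matrix.mul_assoc]
      _ = _ := by rw [e1, he]; simp only [Matrix.mul_assoc]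
  have h4 : e * (dc * e + c * e.map δ) * (1 - e) = c * (e * e.map δ * (1 - e)) := by
    have e2 : e * (1 - e) = 0 := by rw [Matrix.mul_sub, he, Matrix.mul_one, sub_self]
    calc e * (dc * e + c * e.map δ) * (1 - e)
        = e * dc * (e * (1 - e)) + (e * c) * e.map δ * (1 - e) := by
          simp only [Matrix.mul_add, Matrix.add_mul, Matrix.mul_assoc]
      _ = _ := by rw [e2, hec.eq, Matrix.mul_zero, zero_add]; simp only [Matrix.mul_assoc]
  rw [h3, h4] at h2
  rw [← h2]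
  abel

/-- the trace against a block -/
theorem trace_block {e Θ dc : P002R.Mat r ℂ} :
    trace (((1 - e) * Θ * e) * dc) = trace (Θ * (e * dc * (1 - e))) := by
  rw [show ((1 - e) * Θ * e) * dc = (1 - e) * (Θ * (e * dc)) by simp only [Matrix.mul_assoc],
    Matrix.trace_mul_comm (1 - e)]
  simp only [Matrix.mul_assoc]

theorem trace_comm_swap (Θ c u : P002R.Mat r ℂ) :
    trace (Θ * (c * u - u * c)) = trace ((Θ * c - c * Θ) * u) := by
  rw [Matrix.mul_sub, Matrix.sub_mul, trace_sub, trace_sub, ← Matrix.mul_assoc, ← Matrix.mul_assoc,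
    Matrix.trace_mul_comm (Θ * u) c, ← Matrix.mul_assoc c Θ u]

/-- At a generic point no nontrivial idempotent commutes with the frozen tuple, unless the
classes are scalar. -/
theorem gen_idem [Fintype ι] [DecidableEq ι] {K₀ : Subfield ℂ} {J : ι → P002R.Mat r ℂ}
    (hJK : ∀ j a b, J j a b ∈ K₀) {Y : ι ⊕ Bool → P002R.Mat r ℂ} (hJ : ∀ j, IsUnit (J j))
    (hY : ∀ j, IsUnit (Y j)) (L : List ι) (hnd : L.Nodup) (hrel : PhiI J L Y = 1)
    (hgen : GenPt1 K₀ J L Y) {A : P002R.Mat r ℂ} {ν : Fin r → ℂ} (hA : IsUnit A)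
    (hν : Function.Injective ν) (haA : Y (Sum.inr false) * A = A * diagonal ν)
    {e : P002R.Mat r ℂ} (he : e * e = e) (hec : ∀ j, Commute e (cI J Y j))
    (hea : Commute e (Y (Sum.inr false))) (he0 : e ≠ 0) (he1 : e ≠ 1) (j : ι) (hj : j ∈ L) :
    ∃ μ : ℂ, cI J Y j = μ • (1 : P002R.Mat r ℂ) := by
  obtain ⟨a, ha⟩ : ∃ a, a = Y (Sum.inr false) := ⟨_, rfl⟩
  obtain ⟨b, hb⟩ : ∃ b, b = Y (Sum.inr true) := ⟨_, rfl⟩
  obtain ⟨c, hc⟩ : ∃ c, c = cI J Y j := ⟨_, rfl⟩
  have hau : IsUnit a := ha ▸ hY _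
  have hbu : IsUnit b := hb ▸ hY _
  have hcu : IsUnit c := hc ▸ isUnit_cI hJ hY j
  have hecj : Commute e c := hc ▸ hec j
  have hrel' : (L.map (cI J Y)).prod * (a * b * a⁻¹ * b⁻¹) = 1 := by
    rw [← hrel, PhiI, hI, ha, hb]
  rw [← ha] at haA hea
  -- `e` commutes with `a'`
  have hea' : Commute e (b * a⁻¹ * b⁻¹) := by
    have h1 : ((L.map (cI J Y)).prod * a) * (b * a⁻¹ * b⁻¹) = 1 := by
      rw [← hrel']; simp only [Matrix.mul_assoc]
    refine commute_of_mul_one h1 (Commute.mul_right ?_ hea)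
    have h2 : ∀ l : List ι, Commute e (l.map (cI J Y)).prod := by
      intro l
      induction l with
      | nil => simp
      | cons k l ih => rw [List.map_cons, List.prod_cons]; exact (hec k).mul_right ih
    exact h2 L
  obtain ⟨hν0, haA'⟩ := eigen_a' hau hbu hA haA
  have hν' : Function.Injective fun i => (ν i)⁻¹ := fun i k hik => hν (inv_injective hik)
  obtain ⟨l', l'', hL⟩ := List.append_of_mem hj
  rw [← hc]
  refine scalar_of_block hecj he0 he1 fun Θ₀ => ?_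
  obtain ⟨Θ, hΘ⟩ : ∃ Θ, Θ = (1 - e) * Θ₀ * e := ⟨_, rfl⟩
  have e2 : (1 - e) * (1 - e) = 1 - e := by
    have e0 : (1 - e) * (1 - e) = 1 - e - (e - e * e) := by noncomm_ring
    rw [e0, he, sub_self, sub_zero]
  have hΘe : (1 - e) * Θ * e = Θ := by
    rw [hΘ]
    calc (1 - e) * ((1 - e) * Θ₀ * e) * e = ((1 - e) * (1 - e)) * Θ₀ * (e * e) := by
          simp only [Matrix.mul_assoc]
      _ = _ := by rw [e2, he]
  rw [← hΘ]
  have hcomm1 : Commute (1 - e) c := (Commute.one_left c).sub_left hecj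
  have hblock : ∀ M : P002R.Mat r ℂ, Commute (1 - e) M → Commute e M →
      (1 - e) * (Θ * M - M * Θ) * e = Θ * M - M * Θ := by
    intro M h1 h2
    calc (1 - e) * (Θ * M - M * Θ) * e
        = (1 - e) * Θ * (M * e) - ((1 - e) * M) * Θ * e := by
          simp only [Matrix.mul_sub, Matrix.sub_mul, Matrix.mul_assoc]
      _ = ((1 - e) * Θ * e) * M - M * ((1 - e) * Θ * e) := by
          rw [← h2.eq, h1.eq]; simp only [Matrix.mul_assoc]
      _ = _ := by rw [hΘe]
  obtain ⟨T, hT⟩ := exists_off hA hν haA he hea (hblock c hcomm1 hecj)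
  obtain ⟨Wm, hWm⟩ : ∃ Wm, Wm = -((1 - e) * T * e) := ⟨_, rfl⟩
  obtain ⟨F, hF⟩ := exists_FI (cI J Y) a Θ Wm j
  obtain ⟨D, hD⟩ := exists_D1lin (cI J Y) a b L
  obtain ⟨N, hN⟩ := exists_factor D F (by
    intro x hx
    rw [hD, ha, hb] at hx
    obtain ⟨δ, hδ, hxδ⟩ := hgen x hx
    have h1 := map_der_cI hJK hY δ hδ x hxδ j
    have h2 := hxδ (Sum.inr false)
    rw [← ha] at h2
    rw [← hc] at h1
    obtain ⟨u, hu⟩ : ∃ u, u = e * e.map δ * (1 - e) := ⟨_, rfl⟩
    have h3 := der_idem he hecj δ h1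
    have h4 := der_idem he hea δ h2
    rw [← hu] at h3 h4
    rw [hF, ← hc]
    have h5 : trace (Θ * (x (Sum.inl j) * c - c * x (Sum.inl j))) =
        trace ((T * a - a * T) * u) := by
      rw [hT, ← trace_comm_swap, ← h3, ← trace_block, hΘe]
    have h6 : trace (Wm * (x (Sum.inr false) * a)) = -trace ((T * a - a * T) * u) := by
      rw [hWm, Matrix.neg_mul, trace_neg, trace_block, h4, trace_comm_swap]
    rw [h5, h6, add_neg_cancel])
  obtain ⟨hN1, -, hN2⟩ := dual_gen hau hbu L hnd hrel' j l' l'' hL Θ Wm N (fun x => by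
    rw [← hF, hN, hD])
  rw [← hc] at hN2
  -- `N` commutes with `e`
  obtain ⟨n, hn⟩ := diag_of_commute (hbu.mul hA) hν' haA' hN1
  obtain ⟨n', hn'⟩ := diag_of_commute (hbu.mul hA) hν' haA' hea'
  have hNe : Commute N e := commute_of_diag (hbu.mul hA) hn hn'
  obtain ⟨K, hK⟩ : ∃ K, K = c * Θ - Θ * c := ⟨_, rfl⟩
  rw [← hK] at hN2
  have hKe : (1 - e) * K * e = K := by
    have h1 := hblock c hcomm1 hecj
    have h2 : K = -(Θ * c - c * Θ) := by rw [hK, neg_sub]
    rw [h2, Matrix.mul_neg, Matrix.neg_mul, h1]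
  have e3 : (1 - e) * e = 0 := by rw [Matrix.sub_mul, he, Matrix.one_mul, sub_self]
  have h1 : c * K = 0 := by
    have h2 : (1 - e) * (N * c) * e = 0 := by
      calc (1 - e) * (N * c) * e = (1 - e) * (N * (c * e)) := by simp only [Matrix.mul_assoc]
        _ = (1 - e) * ((N * e) * c) := by rw [← hecj.eq]; simp only [Matrix.mul_assoc]
        _ = ((1 - e) * e) * (N * c) := by rw [hNe.eq]; simp only [Matrix.mul_assoc]
        _ = 0 := by rw [e3, Matrix.zero_mul]
    have h3 : (1 - e) * (c * (N - K)) * e = -(c * K) := by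
      calc (1 - e) * (c * (N - K)) * e
          = ((1 - e) * c) * (N * e) - ((1 - e) * c) * K * e := by
            simp only [Matrix.mul_sub, Matrix.sub_mul, Matrix.mul_assoc]
        _ = c * (((1 - e) * e) * N) - c * ((1 - e) * K * e) := by
            rw [hcomm1.eq, hNe.eq]; simp only [Matrix.mul_assoc]
        _ = _ := by rw [e3, hKe, Matrix.zero_mul, Matrix.mul_zero, zero_sub]
    rw [hN2, h3, neg_eq_zero] at h2
    exact h2
  have h2 : K = 0 := hcu.mul_left_cancel (by rw [h1, Matrix.mul_zero])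
  rw [hK, sub_eq_zero] at h2
  exact h2

end Vale.Agent.P002R
end

section

/-!
# P002, genus 1, arbitrary classes: the frozen tuple is irreducible at a generic point
-/

namespace Vale.Agent.P002R

open Matrix Module Vale.Agent.P002

variable {r : ℕ}

/-- spectral projections commute with the commutant -/
theorem commute_spectral {A N c : P002R.Mat r ℂ} {n : Fin r → ℂ} (hA : IsUnit A)
    (hn : N * A = A * diagonal n) (hNc : Commute N c) (g : ℂ → ℂ) :
    Commute (A * diagonal (fun i => g (n i)) * A⁻¹) c := by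
  have hud : IsUnit A.det := (Matrix.isUnit_iff_isUnit_det _).1 hA
  have a1 : A * A⁻¹ = 1 := Matrix.mul_nonsing_inv _ hud
  have a2 : A⁻¹ * A = 1 := Matrix.nonsing_inv_mul _ hud
  obtain ⟨C, hC⟩ : ∃ C, C = A⁻¹ * (c * A) := ⟨_, rfl⟩
  have hcA : c * A = A * C := by rw [hC, mulL a1]
  have h1 : diagonal n * C = C * diagonal n := by
    have h2 : A * (diagonal n * C) = A * (C * diagonal n) := by
      calc A * (diagonal n * C) = N * (A * C) := by rw [← Matrix.mul_assoc, ← hn, Matrix.mul_assoc]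
        _ = (N * c) * A := by rw [← hcA, Matrix.mul_assoc]
        _ = c * (N * A) := by rw [hNc.eq, Matrix.mul_assoc]
        _ = A * (C * diagonal n) := by
          rw [hn, ← Matrix.mul_assoc, hcA, Matrix.mul_assoc]
    exact hA.mul_left_cancel h2
  have h2 : diagonal (fun i => g (n i)) * C = C * diagonal (fun i => g (n i)) := by
    ext i j
    rw [Matrix.diagonal_mul, Matrix.mul_diagonal]
    have h3 := congrFun (congrFun h1 i) j
    rw [Matrix.diagonal_mul, Matrix.mul_diagonal] at h3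
    by_cases hij : n i = n j
    · rw [hij]
      ring
    · have h4 : (n i - n j) * C i j = 0 := by linear_combination h3
      rcases mul_eq_zero.1 h4 with h | h
      · exact absurd (sub_eq_zero.1 h) hij
      · rw [h, mul_zero, zero_mul]
  have hAc : A⁻¹ * c = C * A⁻¹ := by
    rw [hC]
    simp only [Matrix.mul_assoc, a1, Matrix.mul_one]
  show A * diagonal (fun i => g (n i)) * A⁻¹ * c = c * (A * diagonal (fun i => g (n i)) * A⁻¹)
  calc A * diagonal (fun i => g (n i)) * A⁻¹ * c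
      = A * (diagonal (fun i => g (n i)) * C) * A⁻¹ := by
        rw [Matrix.mul_assoc _ A⁻¹ c, hAc]
        simp only [Matrix.mul_assoc]
    _ = (c * A) * diagonal (fun i => g (n i)) * A⁻¹ := by
        rw [h2, hcA]
        simp only [Matrix.mul_assoc]
    _ = _ := by simp only [Matrix.mul_assoc]

variable {ι : Type}

/-- The logarithmic derivatives of the eigenvalues of `a` are free. -/
theorem gen_free [DecidableEq ι] {J : ι → P002R.Mat r ℂ}
    {Y : ι ⊕ Bool → P002R.Mat r ℂ} (hJ : ∀ j, IsUnit (J j))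
    (hY : ∀ j, IsUnit (Y j)) (L : List ι) (hnd : L.Nodup) (hmem : ∀ j, j ∈ L)
    (hrel : PhiI J L Y = 1) {A : P002R.Mat r ℂ} {ν : Fin r → ℂ} (hA : IsUnit A)
    (hν : Function.Injective ν) (haA : Y (Sum.inr false) * A = A * diagonal ν) (j₀ : ι)
    (hno : ∀ e : P002R.Mat r ℂ, e * e = e → (∀ j, Commute e (cI J Y j)) →
      Commute e (Y (Sum.inr false)) → e = 0 ∨ e = 1)
    (m : Fin r → ℂ) (hm : ∀ x : ι ⊕ Bool → P002R.Mat r ℂ,
      D1 (cI J Y) (Y (Sum.inr false)) (Y (Sum.inr true)) L x = 0 →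
      trace (A * diagonal m * A⁻¹ * x (Sum.inr false)) = 0) : m = 0 := by
  classical
  obtain ⟨a, ha⟩ : ∃ a, a = Y (Sum.inr false) := ⟨_, rfl⟩
  obtain ⟨b, hb⟩ : ∃ b, b = Y (Sum.inr true) := ⟨_, rfl⟩
  have hau : IsUnit a := ha ▸ hY _
  have hbu : IsUnit b := hb ▸ hY _
  have had : IsUnit a.det := (Matrix.isUnit_iff_isUnit_det _).1 hau
  have hbd : IsUnit b.det := (Matrix.isUnit_iff_isUnit_det _).1 hbu
  have hAd : IsUnit A.det := (Matrix.isUnit_iff_isUnit_det _).1 hA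
  have a1 := Matrix.mul_nonsing_inv _ had
  have b1 := Matrix.mul_nonsing_inv _ hbd
  have b2 := Matrix.nonsing_inv_mul _ hbd
  have A1 := Matrix.mul_nonsing_inv _ hAd
  have A2 := Matrix.nonsing_inv_mul _ hAd
  have hrel' : (L.map (cI J Y)).prod * (a * b * a⁻¹ * b⁻¹) = 1 := by
    rw [← hrel, PhiI, hI, ha, hb]
  rw [← ha, ← hb] at hm
  rw [← ha] at haA hno
  obtain ⟨E, hE⟩ : ∃ E, E = A * diagonal m * A⁻¹ := ⟨_, rfl⟩
  obtain ⟨F, hF⟩ := exists_FI (cI J Y) a 0 (a⁻¹ * E) j₀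
  obtain ⟨D, hD⟩ := exists_D1lin (cI J Y) a b L
  have htr : ∀ X : P002R.Mat r ℂ, trace (a⁻¹ * E * (X * a)) = trace (E * X) := by
    intro X
    rw [show a⁻¹ * E * (X * a) = (a⁻¹ * E * X) * a by simp only [Matrix.mul_assoc],
      Matrix.trace_mul_comm]
    congr 1
    simp only [Matrix.mul_assoc, mulL a1]
  obtain ⟨N, hN⟩ := exists_factor D F (by
    intro x hx
    rw [hD] at hx
    rw [hF, Matrix.zero_mul, trace_zero, zero_add, htr, hE]
    exact hm x hx)
  have hdual : ∀ k : ι, Commute N (b * a⁻¹ * b⁻¹) ∧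
      (a * b * a⁻¹ * b⁻¹) * N * (L.map (cI J Y)).prod - b⁻¹ * N * b = a * (a⁻¹ * E) ∧
      N * cI J Y k = cI J Y k * (N - (cI J Y k * 0 - 0 * cI J Y k)) := by
    intro k
    obtain ⟨l', l'', hL⟩ := List.append_of_mem (hmem k)
    refine dual_gen hau hbu L hnd hrel' k l' l'' hL 0 (a⁻¹ * E) N fun x => ?_
    rw [← hD, ← hN, hF, Matrix.zero_mul, Matrix.zero_mul, trace_zero]
  have hNc : ∀ k, Commute N (cI J Y k) := by
    intro k
    have h1 := (hdual k).2.2
    rw [Matrix.mul_zero, Matrix.zero_mul, sub_zero, sub_zero] at h1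
    exact h1
  obtain ⟨hN1, hN2, -⟩ := hdual j₀
  obtain ⟨P, hP⟩ : ∃ P, P = (L.map (cI J Y)).prod := ⟨_, rfl⟩
  have hPu : IsUnit P := hP ▸ isUnit_cI_prod hJ hY L
  have hNP : Commute N P := by
    have h2 : ∀ l : List ι, Commute N (l.map (cI J Y)).prod := by
      intro l
      induction l with
      | nil => simp
      | cons k l ih => rw [List.map_cons, List.prod_cons]; exact (hNc k).mul_right ih
    exact hP ▸ h2 L
  rw [← hP] at hN2 hrel'
  have hNa : Commute N a := by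
    have h1 : (b * a⁻¹ * b⁻¹) * (P * a) = 1 := by
      apply mul_eq_one_comm.1
      rw [← hrel']; simp only [Matrix.mul_assoc]
    have h2 : Commute N (P * a) := commute_of_mul_one h1 hN1
    have h3 : P * (N * a) = P * (a * N) := by
      rw [← Matrix.mul_assoc, ← hNP.eq, Matrix.mul_assoc, h2.eq, Matrix.mul_assoc]
    exact hPu.mul_left_cancel h3
  have h1 : (a * b * a⁻¹ * b⁻¹) * N * P = N := by
    rw [Matrix.mul_assoc, hNP.eq, ← Matrix.mul_assoc, mul_eq_one_comm.1 hrel', Matrix.one_mul]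
  rw [h1, mulL a1] at hN2
  obtain ⟨n, hn⟩ := diag_of_commute hA hν haA hNa
  -- `N` is a scalar
  have hsc : ∀ i k, n i = n k := by
    intro i₀ k₀
    obtain ⟨g, hg⟩ : ∃ g : ℂ → ℂ, g = fun z => if z = n i₀ then 1 else 0 := ⟨_, rfl⟩
    obtain ⟨e, he⟩ : ∃ e, e = A * diagonal (fun i => g (n i)) * A⁻¹ := ⟨_, rfl⟩
    have hee : e * e = e := by
      rw [he]
      have h2 : (diagonal (fun i => g (n i)) : P002R.Mat r ℂ) * diagonal (fun i => g (n i)) =
          diagonal fun i => g (n i) := by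
        rw [Matrix.diagonal_mul_diagonal]
        congr 1
        funext i
        rw [hg]
        simp only
        split_ifs <;> simp
      calc A * diagonal (fun i => g (n i)) * A⁻¹ * (A * diagonal (fun i => g (n i)) * A⁻¹)
          = A * (diagonal (fun i => g (n i)) * diagonal (fun i => g (n i))) * A⁻¹ := by
            simp only [Matrix.mul_assoc, mulL A2]
        _ = _ := by rw [h2]
    have heA : e * A = A * diagonal fun i => g (n i) := by
      rw [he]; simp only [Matrix.mul_assoc, A2, Matrix.mul_one]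
    have hdiag : ∀ i, g (n i) = (A⁻¹ * (e * A)) i i := by
      intro i
      rw [heA, mulL A2, Matrix.diagonal_apply_eq]
    rcases hno e hee (fun j => he ▸ commute_spectral hA hn (hNc j) g)
      (he ▸ commute_spectral hA hn hNa g) with h | h
    · exfalso
      have h2 := hdiag i₀
      rw [h, Matrix.zero_mul, Matrix.mul_zero, Matrix.zero_apply, hg] at h2
      simp at h2
    · have h2 := hdiag k₀
      rw [h, Matrix.one_mul, A2, Matrix.one_apply_eq, hg] at h2
      simp only at h2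
      by_contra hcon
      rw [if_neg (Ne.symm hcon)] at h2
      exact zero_ne_one h2
  have hE0 : E = 0 := by
    rcases Nat.eq_zero_or_pos r with hr | hr
    · subst hr
      exact Subsingleton.elim _ _
    · obtain ⟨i₀⟩ : Nonempty (Fin r) := ⟨⟨0, hr⟩⟩
      have h2 : N = n i₀ • (1 : P002R.Mat r ℂ) := by
        have h3 : diagonal n = n i₀ • (1 : P002R.Mat r ℂ) := by
          rw [Matrix.smul_one_eq_diagonal]
          congr 1
          funext i
          exact hsc i i₀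
        have h4 : N = N * A * A⁻¹ := by rw [Matrix.mul_assoc, A1, Matrix.mul_one]
        rw [h4, hn, h3, Matrix.mul_smul, Matrix.mul_one, Matrix.smul_mul, A1]
      rw [← hN2, h2, Matrix.mul_smul, Matrix.mul_one, Matrix.smul_mul, b2, sub_self]
  have h5 : (diagonal m : P002R.Mat r ℂ) = 0 := by
    have h6 : (diagonal m : P002R.Mat r ℂ) = A⁻¹ * E * A := by
      rw [hE]; simp only [Matrix.mul_assoc, mulL A2, A2, Matrix.mul_one]
    rw [h6, hE0, Matrix.mul_zero, Matrix.zero_mul]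
  funext i
  have h7 := congrFun (congrFun h5 i) i
  rwa [Matrix.diagonal_apply_eq] at h7

/-- derivation of the eigenvalues -/
theorem der_eigenvalues {a A X : P002R.Mat r ℂ} {ν : Fin r → ℂ} (δ : Derivation ℤ ℂ ℂ)
    (ha : a.map δ = X * a) (hA : IsUnit A) (haA : a * A = A * diagonal ν) (i : Fin r) :
    δ (ν i) = (A⁻¹ * X * A) i i * ν i := by
  have hud : IsUnit A.det := (Matrix.isUnit_iff_isUnit_det _).1 hA
  have a1 : A * A⁻¹ = 1 := Matrix.mul_nonsing_inv _ hud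
  have a2 : A⁻¹ * A = 1 := Matrix.nonsing_inv_mul _ hud
  obtain ⟨Z, hZ⟩ : ∃ Z, Z = A⁻¹ * A.map δ := ⟨_, rfl⟩
  have hAZ : A.map δ = A * Z := by rw [hZ, mulL a1]
  have h1 := congrArg (fun M : P002R.Mat r ℂ => M.map δ) haA
  simp only [map_der_mul] at h1
  rw [ha, hAZ] at h1
  have h2 : A⁻¹ * X * A * diagonal ν + diagonal ν * Z =
      Z * diagonal ν + (diagonal ν).map δ := by
    calc A⁻¹ * X * A * diagonal ν + diagonal ν * Z
        = A⁻¹ * (X * (A * diagonal ν)) + A⁻¹ * (A * diagonal ν) * Z := by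
          rw [mulL a2]; simp only [Matrix.mul_assoc]
      _ = A⁻¹ * (X * a * A + a * (A * Z)) := by
          rw [← haA, Matrix.mul_add]; simp only [Matrix.mul_assoc]
      _ = _ := by rw [h1, Matrix.mul_add, mulL a2, Matrix.mul_assoc, mulL a2]
  have h3 := congrFun (congrFun h2 i) i
  rw [Matrix.add_apply, Matrix.add_apply, Matrix.mul_diagonal, Matrix.diagonal_mul,
    Matrix.mul_diagonal, Matrix.map_apply, Matrix.diagonal_apply_eq] at h3
  linear_combination -h3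

end Vale.Agent.P002R
end

section

/-!
# P002, genus 1, arbitrary classes: determinants on invariant subspaces
-/

namespace Vale.Agent.P002R

open Matrix Module Vale.Agent.P002

variable {r : ℕ}

open scoped Classical in
/-- determinant of the restriction to a subspace -/
noncomputable def dSub (W : Submodule ℂ (Fin r → ℂ)) (M : P002R.Mat r ℂ) : ℂ :=
  if h : ∀ w ∈ W, M *ᵥ w ∈ W then
    LinearMap.det ((Matrix.toLin' M).restrict (p := W) (q := W)
      (fun w hw => by rw [Matrix.toLin'_apply]; exact h w hw))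
  else 0

theorem exists_dSub (W : Submodule ℂ (Fin r → ℂ)) (M : P002R.Mat r ℂ)
    (h : ∀ w ∈ W, M *ᵥ w ∈ W) : ∃ f : W →ₗ[ℂ] W, (∀ w : W, ((f w : W) : Fin r → ℂ) =
      M *ᵥ (w : Fin r → ℂ)) ∧ dSub W M = LinearMap.det f := by
  refine ⟨(Matrix.toLin' M).restrict (p := W) (q := W)
      (fun w hw => by rw [Matrix.toLin'_apply]; exact h w hw), fun w => rfl, ?_⟩
  rw [dSub, dif_pos h]

theorem dSub_mul (W : Submodule ℂ (Fin r → ℂ)) (M N : P002R.Mat r ℂ)
    (hM : ∀ w ∈ W, M *ᵥ w ∈ W) (hN : ∀ w ∈ W, N *ᵥ w ∈ W) :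
    dSub W (M * N) = dSub W M * dSub W N := by
  have hMN : ∀ w ∈ W, (M * N) *ᵥ w ∈ W := fun w hw => by
    rw [← Matrix.mulVec_mulVec]
    exact hM _ (hN _ hw)
  obtain ⟨f, hf, h1⟩ := exists_dSub W M hM
  obtain ⟨g, hg, h2⟩ := exists_dSub W N hN
  obtain ⟨k, hk, h3⟩ := exists_dSub W (M * N) hMN
  rw [h1, h2, h3, ← LinearMap.det_comp]
  congr 1
  ext1 w
  apply Subtype.ext
  rw [hk, LinearMap.comp_apply, hf, hg, Matrix.mulVec_mulVec]

theorem dSub_one (W : Submodule ℂ (Fin r → ℂ)) : dSub W (1 : P002R.Mat r ℂ) = 1 := by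
  obtain ⟨f, hf, h1⟩ := exists_dSub W (1 : P002R.Mat r ℂ) (fun w hw => by rwa [Matrix.one_mulVec])
  rw [h1]
  have h2 : f = LinearMap.id := by
    ext1 w
    apply Subtype.ext
    rw [hf, Matrix.one_mulVec]
    rfl
  rw [h2, LinearMap.det_id]

theorem aeval_eigen {M A : P002R.Mat r ℂ} {ν : Fin r → ℂ} (hMA : M * A = A * diagonal ν)
    (p : Polynomial ℂ) :
    Polynomial.aeval M p * A = A * diagonal fun i => p.eval (ν i) := by
  have hpow : ∀ k : ℕ, M ^ k * A = A * diagonal fun i => ν i ^ k := by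
    intro k
    induction k with
    | zero =>
      simp only [pow_zero, Matrix.one_mul]
      rw [show (diagonal fun _ : Fin r => (1 : ℂ)) = (1 : P002R.Mat r ℂ) from Matrix.diagonal_one,
        Matrix.mul_one]
    | succ k ih =>
      rw [pow_succ, Matrix.mul_assoc, hMA, ← Matrix.mul_assoc, ih, Matrix.mul_assoc,
        Matrix.diagonal_mul_diagonal]
      rfl
  induction p using Polynomial.induction_on' with
  | add p q hp hq =>
    rw [map_add, Matrix.add_mul, hp, hq, ← Matrix.mul_add, Matrix.diagonal_add]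
    simp only [Polynomial.eval_add]
  | monomial k a =>
    rw [Polynomial.aeval_monomial, Matrix.mul_assoc, hpow]
    simp only [Polynomial.eval_monomial]
    rw [Algebra.algebraMap_eq_smul_one, Matrix.smul_mul, Matrix.one_mul, ← Matrix.mul_smul]
    congr 1
    ext i j
    by_cases hij : i = j
    · subst hij
      simp
    · simp [Matrix.diagonal_apply_ne _ hij]

theorem aeval_stab {M : P002R.Mat r ℂ} (W : Submodule ℂ (Fin r → ℂ))
    (hM : ∀ w ∈ W, M *ᵥ w ∈ W) (p : Polynomial ℂ) :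
    ∀ w ∈ W, Polynomial.aeval M p *ᵥ w ∈ W := by
  have hpow : ∀ k : ℕ, ∀ w ∈ W, M ^ k *ᵥ w ∈ W := by
    intro k
    induction k with
    | zero => intro w hw; rwa [pow_zero, Matrix.one_mulVec]
    | succ k ih =>
      intro w hw
      rw [pow_succ, ← Matrix.mulVec_mulVec]
      exact ih _ (hM _ hw)
  induction p using Polynomial.induction_on' with
  | add p q hp hq =>
    intro w hw
    rw [map_add, Matrix.add_mulVec]
    exact W.add_mem (hp w hw) (hq w hw)
  | monomial k a =>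
    intro w hw
    rw [Polynomial.aeval_monomial, Algebra.algebraMap_eq_smul_one, Matrix.smul_mul,
      Matrix.one_mul, Matrix.smul_mulVec]
    exact W.smul_mem _ (hpow k w hw)

/-- An invariant subspace contains the eigenvectors which occur in its elements. -/
theorem col_mem {M A : P002R.Mat r ℂ} {ν : Fin r → ℂ} (hMA : M * A = A * diagonal ν)
    (hν : Function.Injective ν) (W : Submodule ℂ (Fin r → ℂ)) (hM : ∀ w ∈ W, M *ᵥ w ∈ W)
    (c : Fin r → ℂ) (hc : A *ᵥ c ∈ W) (i : Fin r) (hi : c i ≠ 0) :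
    A *ᵥ Pi.single i 1 ∈ W := by
  have h1 := aeval_stab W hM (Lagrange.basis Finset.univ ν i) _ hc
  rw [Matrix.mulVec_mulVec, aeval_eigen hMA, ← Matrix.mulVec_mulVec] at h1
  have h2 : (diagonal fun k => (Lagrange.basis Finset.univ ν i).eval (ν k)) *ᵥ c =
      c i • (Pi.single i 1 : Fin r → ℂ) := by
    funext k
    rw [Matrix.mulVec_diagonal, Pi.smul_apply, smul_eq_mul]
    by_cases hk : k = i
    · subst hk
      rw [Lagrange.eval_basis_self hν.injOn (Finset.mem_univ _), Pi.single_eq_same, one_mul,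
        mul_one]
    · rw [Lagrange.eval_basis_of_ne (Ne.symm hk) (Finset.mem_univ _), Pi.single_eq_of_ne hk,
        zero_mul, mul_zero]
  rw [h2, Matrix.mulVec_smul] at h1
  have h3 := W.smul_mem (c i)⁻¹ h1
  rwa [smul_smul, inv_mul_cancel₀ hi, one_smul] at h3

/-- The restriction of a matrix with distinct eigenvalues. -/
theorem dSub_eigen {M A : P002R.Mat r ℂ} {ν : Fin r → ℂ} (hA : IsUnit A)
    (hMA : M * A = A * diagonal ν)
    (hν : Function.Injective ν) (W : Submodule ℂ (Fin r → ℂ)) (hM : ∀ w ∈ W, M *ᵥ w ∈ W)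
    (I : Finset (Fin r)) (hI : ∀ i, i ∈ I ↔ A *ᵥ Pi.single i 1 ∈ W) :
    dSub W M = ∏ i ∈ I, ν i := by
  classical
  obtain ⟨f, hf, h1⟩ := exists_dSub W M hM
  have hud : IsUnit A.det := (Matrix.isUnit_iff_isUnit_det _).1 hA
  have a1 : A * A⁻¹ = 1 := Matrix.mul_nonsing_inv _ hud
  obtain ⟨v, hv⟩ : ∃ v : {i // i ∈ I} → W, ∀ i, ((v i : W) : Fin r → ℂ) =
      A *ᵥ Pi.single (i : Fin r) 1 :=
    ⟨fun i => ⟨A *ᵥ Pi.single (i : Fin r) 1, (hI i).1 i.2⟩, fun i => rfl⟩
  have hli : LinearIndependent ℂ v := by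
    apply LinearIndependent.of_comp W.subtype
    have h2 : LinearIndependent ℂ A.col := Matrix.linearIndependent_cols_iff_isUnit.2 hA
    have h3 := h2.comp (fun i : {i // i ∈ I} => (i : Fin r)) Subtype.val_injective
    have h4 : W.subtype ∘ v = A.col ∘ fun i : {i // i ∈ I} => (i : Fin r) := by
      funext i
      rw [Function.comp_apply, Submodule.subtype_apply, hv, Matrix.mulVec_single_one]
      rfl
    rw [h4]
    exact h3
  have hsp : ⊤ ≤ Submodule.span ℂ (Set.range v) := by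
    rintro ⟨w, hw⟩ -
    obtain ⟨c, hc⟩ : ∃ c, c = A⁻¹ *ᵥ w := ⟨_, rfl⟩
    have hwc : w = A *ᵥ c := by rw [hc, Matrix.mulVec_mulVec, a1, Matrix.one_mulVec]
    have hwm : A *ᵥ c ∈ W := hwc ▸ hw
    have h2 : (⟨w, hw⟩ : W) = ∑ i : {i // i ∈ I}, c i • v i := by
      apply Subtype.ext
      rw [Submodule.coe_sum]
      simp only [Submodule.coe_smul, hv]
      have h3 : w = ∑ i, c i • (A *ᵥ Pi.single i 1) := by
        have h4 : c = ∑ i, c i • (Pi.single i 1 : Fin r → ℂ) := by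
          funext k
          rw [Finset.sum_apply, Finset.sum_eq_single k]
          · rw [Pi.smul_apply, Pi.single_eq_same, smul_eq_mul, mul_one]
          · intro b _ hb
            rw [Pi.smul_apply, Pi.single_eq_of_ne hb.symm, smul_zero]
          · intro h
            exact absurd (Finset.mem_univ _) h
        rw [hwc]
        conv_lhs => rw [h4]
        rw [Matrix.mulVec_sum]
        refine Finset.sum_congr rfl fun i _ => ?_
        rw [Matrix.mulVec_smul]
      conv_lhs => rw [h3]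
      rw [Finset.sum_coe_sort I (fun i => c i • (A *ᵥ Pi.single i 1))]
      refine (Finset.sum_subset (Finset.subset_univ I) fun i _ hi => ?_).symm
      by_cases hci : c i = 0
      · rw [hci, zero_smul]
      · exact absurd ((hI i).2 (col_mem hMA hν W hM c hwm i hci)) hi
    rw [h2]
    exact Submodule.sum_mem _ fun i _ => Submodule.smul_mem _ _ (Submodule.subset_span ⟨i, rfl⟩)
  obtain ⟨B, hB⟩ : ∃ B : Basis {i // i ∈ I} ℂ W, ∀ i, B i = v i :=
    ⟨Basis.mk hli hsp, fun i => Basis.mk_apply hli hsp i⟩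
  have h5 : ∀ i, f (B i) = ν i • B i := by
    intro i
    apply Subtype.ext
    rw [hf, hB, Submodule.coe_smul, hv, Matrix.mulVec_mulVec, hMA, ← Matrix.mulVec_mulVec]
    have h6 : (diagonal ν : P002R.Mat r ℂ) *ᵥ (Pi.single (i : Fin r) 1 : Fin r → ℂ) =
        ν i • (Pi.single (i : Fin r) 1 : Fin r → ℂ) := by
      funext k
      rw [Matrix.mulVec_diagonal, Pi.smul_apply, smul_eq_mul]
      by_cases hk : k = (i : Fin r)
      · rw [hk]
      · rw [Pi.single_eq_of_ne hk, mul_zero, mul_zero]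
    rw [h6, Matrix.mulVec_smul]
  have h7 : LinearMap.toMatrix B B f = diagonal fun i : {i // i ∈ I} => ν i := by
    ext i j
    rw [LinearMap.toMatrix_apply, h5, map_smul, Finsupp.smul_apply, Basis.repr_self,
      Finsupp.single_apply, smul_eq_mul, Matrix.diagonal_apply]
    by_cases hij : i = j
    · rw [if_pos hij.symm, if_pos hij, mul_one, hij]
    · rw [if_neg (Ne.symm hij), if_neg hij, mul_zero]
  rw [h1, ← LinearMap.det_toMatrix B, h7, Matrix.det_diagonal]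
  exact Finset.prod_coe_sort I ν

/-- The determinant of a restriction lies in every field which contains the eigenvalues. -/
theorem dSub_mem {K₀ : Subfield ℂ} {M : P002R.Mat r ℂ} (hK : ∀ lam, M.charpoly.IsRoot lam → lam ∈ K₀)
    (W : Submodule ℂ (Fin r → ℂ)) (hM : ∀ w ∈ W, M *ᵥ w ∈ W) : dSub W M ∈ K₀ := by
  classical
  obtain ⟨f, hf, h1⟩ := exists_dSub W M hM
  rw [h1, ← LinearMap.det_toMatrix (Module.finBasis ℂ W), Matrix.det_eq_prod_roots_charpoly]
  refine Subfield.multiset_prod_mem K₀ _ fun lam hlam => ?_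
  rw [LinearMap.charpoly_toMatrix] at hlam
  have h2 : f.charpoly.IsRoot lam := Polynomial.isRoot_of_mem_roots hlam
  have h3 : Module.End.HasEigenvalue f lam :=
    (Module.End.hasEigenvalue_iff_isRoot_charpoly f lam).2 h2
  obtain ⟨w, hw⟩ := h3.exists_hasEigenvector
  apply hK
  rw [Polynomial.IsRoot.def, Matrix.eval_charpoly]
  apply Matrix.exists_mulVec_eq_zero_iff.1
  refine ⟨w, fun h => hw.2 (Subtype.ext h), ?_⟩
  have h4 : M *ᵥ (w : Fin r → ℂ) = lam • (w : Fin r → ℂ) := by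
    rw [← hf, hw.apply_eq_smul]
    rfl
  rw [Matrix.sub_mulVec, h4, Matrix.scalar_apply, ← Matrix.smul_one_eq_diagonal,
    Matrix.smul_mulVec, Matrix.one_mulVec, sub_self]

end Vale.Agent.P002R
end

section

/-!
# P002, genus 1, arbitrary classes: generic points
-/

namespace Vale.Agent.P002R

open Matrix Module Vale.Agent.P002

variable {r : ℕ} {ι : Type}

theorem charpoly_cI (J : ι → P002R.Mat r ℂ) {Y : ι ⊕ Bool → P002R.Mat r ℂ}
    (hY : ∀ j, IsUnit (Y j)) (j : ι) : (cI J Y j).charpoly = (J j).charpoly := by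
  obtain ⟨u, hu⟩ := hY (Sum.inl j)
  have h1 : cI J Y j = (u : P002R.Mat r ℂ) * J j * (u : P002R.Mat r ℂ)⁻¹ := by
    rw [cI_eqn, cj_apply, ← hu]
  rw [h1]
  exact Matrix.charpoly_units_conj u (J j)

/-- logarithmic derivative of a product -/
theorem der_prod {κ : Type*} [DecidableEq κ] (δ : Derivation ℤ ℂ ℂ) (s : Finset κ) (ν l : κ → ℂ)
    (h : ∀ i, δ (ν i) = l i * ν i) : δ (∏ i ∈ s, ν i) = (∑ i ∈ s, l i) * ∏ i ∈ s, ν i := by
  induction s using Finset.induction_on with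
  | empty => simp
  | insert i s hi ih =>
    rw [Finset.prod_insert hi, Derivation.leibniz, ih, h, Finset.sum_insert hi, smul_eq_mul,
      smul_eq_mul]
    ring

/-- The matrices `c_j` and `a` generate an irreducible group. -/
theorem gen_irr2 [Fintype ι] [DecidableEq ι] {K₀ : Subfield ℂ} {J : ι → P002R.Mat r ℂ}
    (hJK : ∀ j a b, J j a b ∈ K₀) (hJE : ∀ j lam, (J j).charpoly.IsRoot lam → lam ∈ K₀)
    {Y : ι ⊕ Bool → P002R.Mat r ℂ} (hJ : ∀ j, IsUnit (J j))
    (hY : ∀ j, IsUnit (Y j)) (L : List ι) (hnd : L.Nodup) (hmem : ∀ j, j ∈ L)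
    (hrel : PhiI J L Y = 1) (hadj : Algebra.adjoin ℂ (Set.range (allI J Y)) = ⊤)
    (hgen : GenPt1 K₀ J L Y) {A : P002R.Mat r ℂ} {ν : Fin r → ℂ} (hA : IsUnit A)
    (hν : Function.Injective ν) (haA : Y (Sum.inr false) * A = A * diagonal ν) (j₀ : ι)
    (hns : ∀ μ : ℂ, J j₀ ≠ μ • (1 : P002R.Mat r ℂ))
    (W : Submodule ℂ (Fin r → ℂ)) (hW : ∀ j, ∀ w ∈ W, cI J Y j *ᵥ w ∈ W)
    (hWa : ∀ w ∈ W, Y (Sum.inr false) *ᵥ w ∈ W) : W = ⊥ ∨ W = ⊤ := by
  classical
  -- no idempotents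
  have hno : ∀ e : P002R.Mat r ℂ, e * e = e → (∀ j, Commute e (cI J Y j)) →
      Commute e (Y (Sum.inr false)) → e = 0 ∨ e = 1 := by
    intro e he hec hea
    by_contra hcon
    push Not at hcon
    obtain ⟨μ, hμ⟩ := gen_idem hJK hJ hY L hnd hrel hgen hA hν haA he hec hea hcon.1 hcon.2 j₀
      (hmem j₀)
    apply hns μ
    have hud : IsUnit (Y (Sum.inl j₀)).det := (Matrix.isUnit_iff_isUnit_det _).1 (hY _)
    have a2 := Matrix.nonsing_inv_mul _ hud
    have h1 : J j₀ = (Y (Sum.inl j₀))⁻¹ * cI J Y j₀ * Y (Sum.inl j₀) := by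
      rw [cI_eqn, cj_apply]
      simp only [Matrix.mul_assoc, mulL a2, a2, Matrix.mul_one]
    rw [h1, hμ, Matrix.mul_smul, Matrix.mul_one, Matrix.smul_mul, a2]
  obtain ⟨a, ha⟩ : ∃ a, a = Y (Sum.inr false) := ⟨_, rfl⟩
  obtain ⟨b, hb⟩ : ∃ b, b = Y (Sum.inr true) := ⟨_, rfl⟩
  have hau : IsUnit a := ha ▸ hY _
  have hbu : IsUnit b := hb ▸ hY _
  have hAd : IsUnit A.det := (Matrix.isUnit_iff_isUnit_det _).1 hA
  have A2 := Matrix.nonsing_inv_mul _ hAd
  obtain ⟨P, hP⟩ : ∃ P, P = (L.map (cI J Y)).prod := ⟨_, rfl⟩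
  have hrel' : P * (a * b * a⁻¹ * b⁻¹) = 1 := by
    rw [← hrel, PhiI, hI, ha, hb, hP]
  have haA2 : a * A = A * diagonal ν := by rw [ha]; exact haA
  obtain ⟨hν0, haA'⟩ := eigen_a' hau hbu hA haA2
  have hν' : Function.Injective fun i => (ν i)⁻¹ := fun i k hik => hν (inv_injective hik)
  obtain ⟨a', ha'⟩ : ∃ a', a' = b * a⁻¹ * b⁻¹ := ⟨_, rfl⟩
  rw [← ha'] at haA'
  have hrel2 : (P * a) * a' = 1 := by
    rw [← hrel', ha']; simp only [Matrix.mul_assoc]
  -- stability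
  have hWP : ∀ w ∈ W, P *ᵥ w ∈ W := fun w hw => by
    rw [hP]
    exact prod_stab (cI J Y) W L (fun j _ => hW j) w hw
  have hWa2 : ∀ w ∈ W, a *ᵥ w ∈ W := fun w hw => by rw [ha]; exact hWa w hw
  have hWPa : ∀ w ∈ W, (P * a) *ᵥ w ∈ W := fun w hw => by
    rw [← Matrix.mulVec_mulVec]
    exact hWP _ (hWa2 w hw)
  have hWa' : ∀ w ∈ W, a' *ᵥ w ∈ W := inv_stab (mul_eq_one_comm.1 hrel2) W hWPa
  -- the index sets
  obtain ⟨I, hI1⟩ : ∃ I : Finset (Fin r), ∀ i, i ∈ I ↔ A *ᵥ Pi.single i 1 ∈ W :=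
    ⟨Finset.univ.filter fun i => A *ᵥ Pi.single i 1 ∈ W, fun i => by simp⟩
  obtain ⟨I', hI2⟩ : ∃ I' : Finset (Fin r), ∀ i, i ∈ I' ↔ (b * A) *ᵥ Pi.single i 1 ∈ W :=
    ⟨Finset.univ.filter fun i => (b * A) *ᵥ Pi.single i 1 ∈ W, fun i => by simp⟩
  have hd1 := dSub_eigen hA haA2 hν W hWa2 I hI1
  have hd2 := dSub_eigen (hbu.mul hA) haA' hν' W hWa' I' hI2
  have hd3 : dSub W P ∈ K₀ := by
    have h2 : ∀ l : List ι, dSub W (l.map (cI J Y)).prod ∈ K₀ := by
      intro l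
      induction l with
      | nil =>
        rw [List.map_nil, List.prod_nil, dSub_one]
        exact K₀.one_mem
      | cons k l ih =>
        rw [List.map_cons, List.prod_cons, dSub_mul W _ _ (hW k)
          (prod_stab (cI J Y) W l fun j _ => hW j)]
        refine K₀.mul_mem (dSub_mem (fun lam hlam => hJE k lam ?_) W (hW k)) ih
        rwa [charpoly_cI J hY] at hlam
    rw [hP]
    exact h2 L
  have hd4 : dSub W P * (∏ i ∈ I, ν i) * ∏ i ∈ I', (ν i)⁻¹ = 1 := by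
    rw [← hd1, ← hd2, ← dSub_mul W P a hWP hWa2, ← dSub_mul W (P * a) a' hWPa hWa', hrel2, dSub_one]
  have hd5 : dSub W P * (∏ i ∈ I, ν i) = ∏ i ∈ I', ν i := by
    rw [Finset.prod_inv_distrib] at hd4
    have h3 : (∏ i ∈ I', ν i) ≠ 0 := Finset.prod_ne_zero_iff.2 fun i _ => hν0 i
    field_simp at hd4
    exact hd4
  -- the index sets agree
  obtain ⟨m, hm⟩ : ∃ m : Fin r → ℂ, ∀ i, m i = (if i ∈ I then 1 else 0) - (if i ∈ I' then 1 else 0) :=
    ⟨_, fun i => rfl⟩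
  have hm0 : m = 0 := by
    refine gen_free hJ hY L hnd hmem hrel hA hν haA j₀ hno m fun x hx => ?_
    obtain ⟨δ, hδ, hxδ⟩ := hgen x hx
    obtain ⟨X, hX⟩ : ∃ X, X = x (Sum.inr false) := ⟨_, rfl⟩
    have h1 : a.map δ = X * a := by rw [ha, hX]; exact hxδ _
    have h2 := der_eigenvalues δ h1 hA haA2
    have h3 := der_prod δ I ν (fun i => (A⁻¹ * X * A) i i) h2
    have h4 := der_prod δ I' ν (fun i => (A⁻¹ * X * A) i i) h2
    have h5 := congrArg δ hd5
    rw [Derivation.leibniz, h3, h4, hδ _ hd3, smul_zero, add_zero, smul_eq_mul] at h5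
    have h6 : (∑ i ∈ I, (A⁻¹ * X * A) i i - ∑ i ∈ I', (A⁻¹ * X * A) i i) * ∏ i ∈ I', ν i = 0 := by
      rw [sub_mul, ← h5, ← hd5]
      ring
    have h7 : (∏ i ∈ I', ν i) ≠ 0 := Finset.prod_ne_zero_iff.2 fun i _ => hν0 i
    have h8 := (mul_eq_zero.1 h6).resolve_right h7
    rw [← hX, show A * diagonal m * A⁻¹ * X = A * (diagonal m * A⁻¹ * X) by
      simp only [Matrix.mul_assoc], Matrix.trace_mul_comm, Matrix.trace]
    have h9 : ∀ i, (diagonal m * A⁻¹ * X * A).diag i = m i * (A⁻¹ * X * A) i i := by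
      intro i
      rw [Matrix.diag_apply, show diagonal m * A⁻¹ * X * A = diagonal m * (A⁻¹ * X * A) by
        simp only [Matrix.mul_assoc], Matrix.diagonal_mul]
    simp only [h9, hm, sub_mul, ite_mul, one_mul, zero_mul, Finset.sum_sub_distrib,
      Finset.sum_ite_mem, Finset.univ_inter]
    exact h8
  have hII : ∀ i, i ∈ I → i ∈ I' := by
    intro i hi
    have h1 := hm i
    rw [hm0, if_pos hi, Pi.zero_apply] at h1
    by_contra hcon
    rw [if_neg hcon, sub_zero] at h1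
    exact zero_ne_one h1
  -- `b` preserves `W`
  have hWb : ∀ w ∈ W, b *ᵥ w ∈ W := by
    intro w hw
    have a1 : A * A⁻¹ = 1 := Matrix.mul_nonsing_inv _ hAd
    obtain ⟨c, hc⟩ : ∃ c, c = A⁻¹ *ᵥ w := ⟨_, rfl⟩
    have hwc : w = A *ᵥ c := by rw [hc, Matrix.mulVec_mulVec, a1, Matrix.one_mulVec]
    have hwm : A *ᵥ c ∈ W := hwc ▸ hw
    have h4 : c = ∑ i, c i • (Pi.single i 1 : Fin r → ℂ) := by
      funext k
      rw [Finset.sum_apply, Finset.sum_eq_single k]
      · rw [Pi.smul_apply, Pi.single_eq_same, smul_eq_mul, mul_one]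
      · intro b _ hb
        rw [Pi.smul_apply, Pi.single_eq_of_ne hb.symm, smul_zero]
      · intro h
        exact absurd (Finset.mem_univ _) h
    rw [hwc, Matrix.mulVec_mulVec, h4, Matrix.mulVec_sum]
    refine Submodule.sum_mem _ fun i _ => ?_
    rw [Matrix.mulVec_smul]
    by_cases hci : c i = 0
    · rw [hci, zero_smul]
      exact W.zero_mem
    · exact W.smul_mem _ ((hI2 i).1 (hII i ((hI1 i).2 (col_mem haA2 hν W hWa2 c hwm i hci))))
  refine eq_bot_or_top_of_adjoin (allI J Y) hadj W fun k => ?_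
  rcases k with j | s
  · exact hW j
  · cases s
    · exact hWa
    · rw [allI_inr, ← hb]
      exact hWb

end Vale.Agent.P002R
end

section

/-!
# P002, genus 1, arbitrary classes: minors at a generic point
-/

namespace Vale.Agent.P002R

open Matrix Module Vale.Agent.P002

variable {r : ℕ}

theorem DL_const {κ : Type*} (q : κ → P002R.Mat r ℂ) (z : P002R.Mat r ℂ) (l : List κ) :
    DL q (fun _ => z) l = z * (l.map q).prod - (l.map q).prod * z := by
  induction l with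
  | nil => rw [DL_nil, List.map_nil, List.prod_nil, Matrix.mul_one, Matrix.one_mul, sub_self]
  | cons j l ih =>
    rw [DL_cons, ih, List.map_cons, List.prod_cons]
    noncomm_ring

theorem DL_rotate {κ : Type*} (q x : κ → P002R.Mat r ℂ) (t : κ) (l : List κ)
    (hrel : q t * (l.map q).prod = 1) (h : DL q x (t :: l) = 0) :
    DL q x (l ++ [t]) = 0 := by
  obtain ⟨P, hP⟩ : ∃ P, P = (l.map q).prod := ⟨_, rfl⟩
  obtain ⟨E, hE⟩ : ∃ E, E = DL q x l := ⟨_, rfl⟩
  have h2 : P * q t = 1 := mul_eq_one_comm.1 (hP ▸ hrel)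
  rw [DL_cons, ← hP, ← hE] at h
  rw [DL_append, DL_cons, DL_nil, List.map_cons, List.map_nil, List.prod_cons, List.prod_nil,
    ← hP, ← hE]
  have h3 : P * ((x t * q t - q t * x t) * P + q t * E) * q t = 0 := by
    rw [h, Matrix.mul_zero, Matrix.zero_mul]
  have h4 : P * ((x t * q t - q t * x t) * P + q t * E) * q t =
      P * ((x t * q t - q t * x t) * (P * q t)) + P * q t * (E * q t) := by
    simp only [Matrix.mul_add, Matrix.add_mul, Matrix.mul_assoc]
  rw [h4, h2, Matrix.mul_one, Matrix.one_mul] at h3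
  rw [Matrix.mul_one, Matrix.mul_one, Matrix.mul_zero, add_zero, ← h3, add_comm]

variable {ι : Type}

/-- the functional equation with frozen `a`, ends `a'` and `a` -/
theorem gen_F2 [DecidableEq ι] {K₀ : Subfield ℂ} {J : ι → P002R.Mat r ℂ}
    {Y : ι ⊕ Bool → P002R.Mat r ℂ} (hJ : ∀ j, IsUnit (J j)) (hY : ∀ j, IsUnit (Y j))
    (l₁ l₂ : List ι) (hnd : (l₁ ++ l₂).Nodup) (hmem : ∀ j, j ∈ l₁ ++ l₂)
    (hrel : PhiI J (l₁ ++ l₂) Y = 1)
    (hirr : ∀ W : Submodule ℂ (Fin r → ℂ), (∀ j, ∀ w ∈ W, cI J Y j *ᵥ w ∈ W) →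
      (∀ w ∈ W, Y (Sum.inr false) *ᵥ w ∈ W) → W = ⊥ ∨ W = ⊤)
    (hgen : GenPt1 K₀ J (l₁ ++ l₂) Y)
    (u y : Fin r → ℂ) (hu : u ≠ 0) (hy : y ≠ 0) :
    ∃ (δ : Derivation ℤ ℂ ℂ) (x : ι ⊕ Bool → P002R.Mat r ℂ), (∀ a ∈ K₀, δ a = 0) ∧
      (∀ k, (Y k).map δ = x k * Y k) ∧ x (Sum.inr false) = 0 ∧
      y ⬝ᵥ ((DL (cI J Y) (fun j => x (Sum.inl j)) l₁ - x (Sum.inr true) *
        (l₁.map (cI J Y)).prod) *ᵥ u) ≠ 0 := by
  obtain ⟨M, hM⟩ : ∃ M : List (ι ⊕ Bool), M = (l₁ ++ l₂).map Sum.inl ++ [Sum.inr false] :=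
    ⟨_, rfl⟩
  have hL : (Sum.inr true :: M : List (ι ⊕ Bool)) =
      Sum.inr true :: (l₁.map Sum.inl ++ (l₂.map Sum.inl ++ Sum.inr false :: [])) := by
    rw [hM]; simp
  have hqu : ∀ k, IsUnit (qI J Y k) := by
    rintro (j | s)
    · exact isUnit_cI hJ hY j
    · cases s
      · exact hY _
      · rw [qI_true]
        exact ((hY _).mul (Matrix.isUnit_nonsing_inv_iff.2 (hY _))).mul
          (Matrix.isUnit_nonsing_inv_iff.2 (hY _))
  have hrelM : qI J Y (Sum.inr true) * (M.map (qI J Y)).prod = 1 := by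
    apply mul_eq_one_comm.1
    rw [hM, List.map_append, List.prod_append, qI_prod]
    simp only [List.map_cons, List.map_nil, List.prod_cons, List.prod_nil, Matrix.mul_one,
      qI_false, qI_true]
    rw [← hrel, PhiI, hI]
    simp only [Matrix.mul_assoc]
  obtain ⟨x, hx2, hx3⟩ := rank_one (qI J Y) hqu (Sum.inr true) (Sum.inr false)
    (l₁.map Sum.inl) (l₂.map Sum.inl) [] (by
      rw [← hL, hM, List.nodup_cons, List.nodup_append]
      refine ⟨by simp, (List.nodup_map_iff Sum.inl_injective).2 hnd, by simp, ?_⟩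
      intro k hk k' hk'
      rw [List.mem_map] at hk
      obtain ⟨j, -, rfl⟩ := hk
      simp only [List.mem_cons, List.not_mem_nil, or_false] at hk'
      rw [hk']
      simp) (by
      rw [← hL, List.map_cons, List.prod_cons]
      exact hrelM) (by
      intro k
      rw [← hL, hM, List.mem_cons, List.mem_append]
      rcases k with j | s
      · right
        left
        exact List.mem_map_of_mem (hmem j)
      · cases s <;> simp) (fun W hW => hirr W (fun j => hW (Sum.inl j)) (hW (Sum.inr false)))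
    u y hu hy
  rw [← hL] at hx2
  -- subtract a constant
  obtain ⟨z, hz⟩ : ∃ z, z = x (Sum.inr false) := ⟨_, rfl⟩
  obtain ⟨x', hx'⟩ : ∃ x' : ι ⊕ Bool → P002R.Mat r ℂ, x' = x + (-1 : ℂ) • fun _ => z := ⟨_, rfl⟩
  have hx'k : ∀ k, x' k = x k - z := by
    intro k
    rw [hx', Pi.add_apply, Pi.smul_apply, neg_one_smul, ← sub_eq_add_neg]
  have hDL : ∀ l, DL (qI J Y) x' l = DL (qI J Y) x l -
      (z * (l.map (qI J Y)).prod - (l.map (qI J Y)).prod * z) := by
    intro l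
    rw [hx', DL_add, DL_smul, DL_const, neg_one_smul, ← sub_eq_add_neg]
  have hx'2 : DL (qI J Y) x' (Sum.inr true :: M) = 0 := by
    rw [hDL, hx2, List.map_cons, List.prod_cons, hrelM, Matrix.mul_one, Matrix.one_mul, sub_self,
      sub_zero]
  have hx'1 : x' (Sum.inr false) = 0 := by rw [hx'k, ← hz, sub_self]
  have hD := D1_frozen (l₁ ++ l₂) (qI J Y) (fun j => qI_inl J Y j) (qI_false J Y)
    (qI_true J Y) x' hx'1
  have hM2 : ((l₁ ++ l₂).map Sum.inl ++ [Sum.inr false, Sum.inr true] : List (ι ⊕ Bool)) =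
      M ++ [Sum.inr true] := by
    rw [hM]; simp
  rw [hM2, DL_rotate (qI J Y) x' _ M hrelM hx'2] at hD
  obtain ⟨δ, h1, h2⟩ := hgen x' hD
  refine ⟨δ, x', h1, h2, hx'1, ?_⟩
  have h3 : ∀ l : List ι, DL (qI J Y) x' (l.map Sum.inl) =
      DL (cI J Y) (fun j => x' (Sum.inl j)) l := by
    intro l
    induction l with
    | nil => rfl
    | cons j l ih =>
      rw [List.map_cons, DL_cons, DL_cons, ih, qI_prod, qI_inl]
  rw [← h3, hDL, hx'k]
  rw [← hz, qI_prod] at hx3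
  rw [qI_prod]
  have h4 : DL (qI J Y) x (l₁.map Sum.inl) - (z * (l₁.map (cI J Y)).prod -
      (l₁.map (cI J Y)).prod * z) - (x (Sum.inr true) - z) * (l₁.map (cI J Y)).prod =
      DL (qI J Y) x (l₁.map Sum.inl) + (l₁.map (cI J Y)).prod * z - x (Sum.inr true) *
        (l₁.map (cI J Y)).prod := by
    noncomm_ring
  rw [h4]
  exact hx3

/-- Pairing with a singular submatrix, left multiplication by a diagonal matrix. -/
theorem exists_pair_minor2 {κ : Type*} [Fintype κ] [DecidableEq κ] (G : P002R.Mat r ℂ)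
    (f g : κ → Fin r) (hf : Function.Injective f) (hg : Function.Injective g)
    (hdet : (G.submatrix f g).det = 0) :
    ∃ w s : Fin r → ℂ, w ≠ 0 ∧ s ≠ 0 ∧ (∀ δ : Derivation ℤ ℂ ℂ, s ⬝ᵥ (G.map δ *ᵥ w) = 0) ∧
      ∀ Z : P002R.Mat r ℂ, (∀ i j, i ≠ j → Z i j = 0) → s ⬝ᵥ ((G * Z) *ᵥ w) = 0 ∧
        s ⬝ᵥ ((Z * G) *ᵥ w) = 0 := by
  obtain ⟨v, hv0, hv⟩ := Matrix.exists_mulVec_eq_zero_iff.2 hdet
  obtain ⟨z, hz0, hz⟩ := Matrix.exists_vecMul_eq_zero_iff.2 hdet
  -- extension by zero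
  obtain ⟨w, hw⟩ : ∃ w : Fin r → ℂ, ∀ M : P002R.Mat r ℂ, ∀ a, (M *ᵥ w) a =
      ∑ c, M a (g c) * v c := by
    refine ⟨∑ c, v c • Pi.single (g c) 1, fun M a => ?_⟩
    rw [Matrix.mulVec_sum, Finset.sum_apply]
    refine Finset.sum_congr rfl fun c _ => ?_
    rw [Matrix.mulVec_smul, Matrix.mulVec_single_one, Pi.smul_apply, smul_eq_mul, mul_comm]
    rfl
  obtain ⟨s, hs⟩ : ∃ s : Fin r → ℂ, ∀ q : Fin r → ℂ, s ⬝ᵥ q = ∑ c, z c * q (f c) := by
    refine ⟨∑ c, z c • Pi.single (f c) 1, fun q => ?_⟩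
    rw [sum_dotProduct]
    refine Finset.sum_congr rfl fun c _ => ?_
    rw [smul_dotProduct, single_dotProduct, one_mul, smul_eq_mul]
  refine ⟨w, s, ?_, ?_, fun δ => ?_, fun Z hZ => ⟨?_, ?_⟩⟩
  · intro h0
    obtain ⟨c₀, hc₀⟩ := Function.ne_iff.1 hv0
    apply hc₀
    have h1 := hw 1 (g c₀)
    rw [h0, Matrix.mulVec_zero, Pi.zero_apply, Finset.sum_eq_single c₀] at h1
    · rw [Matrix.one_apply_eq, one_mul] at h1
      exact h1.symm
    · intro c _ hc
      rw [Matrix.one_apply_ne, zero_mul]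
      intro h
      exact hc (hg h.symm)
    · intro h
      exact absurd (Finset.mem_univ _) h
  · intro h0
    obtain ⟨c₀, hc₀⟩ := Function.ne_iff.1 hz0
    apply hc₀
    have h1 := hs (Pi.single (f c₀) 1)
    rw [h0, zero_dotProduct, Finset.sum_eq_single c₀] at h1
    · rw [Pi.single_eq_same, mul_one] at h1
      exact h1.symm
    · intro c _ hc
      rw [Pi.single_eq_of_ne, mul_zero]
      intro h
      exact hc (hf h)
    · intro h
      exact absurd (Finset.mem_univ _) h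
  · rw [hs]
    -- `z δ(G') v = 0`
    have h2 : ∀ c, ∑ d, (G.map δ) (f c) (g d) * v d = - ∑ d, G (f c) (g d) * δ (v d) := by
      intro c
      have h3 := congrArg δ (congrFun hv c)
      rw [Pi.zero_apply, map_zero] at h3
      simp only [Matrix.mulVec, dotProduct, Matrix.submatrix_apply, map_sum, Derivation.leibniz,
        smul_eq_mul, Finset.sum_add_distrib] at h3
      rw [eq_neg_iff_add_eq_zero, add_comm, ← h3]
      congr 1
      refine Finset.sum_congr rfl fun d _ => ?_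
      rw [Matrix.map_apply, mul_comm]
    have h4 : ∑ c, z c * (G.map δ *ᵥ w) (f c) = - ∑ d, (∑ c, z c * G (f c) (g d)) * δ (v d) := by
      calc ∑ c, z c * (G.map δ *ᵥ w) (f c)
          = ∑ c, z c * -∑ d, G (f c) (g d) * δ (v d) := by
            refine Finset.sum_congr rfl fun c _ => ?_
            rw [hw, h2]
        _ = - ∑ c, ∑ d, z c * (G (f c) (g d) * δ (v d)) := by
            rw [← Finset.sum_neg_distrib]
            refine Finset.sum_congr rfl fun c _ => ?_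
            rw [mul_neg, Finset.mul_sum]
        _ = _ := by
            rw [Finset.sum_comm]
            congr 1
            refine Finset.sum_congr rfl fun d _ => ?_
            rw [Finset.sum_mul]
            refine Finset.sum_congr rfl fun c _ => by ring
    rw [h4, neg_eq_zero]
    refine Finset.sum_eq_zero fun d _ => ?_
    have h5 := congrFun hz d
    have h6 : ∑ c, z c * G (f c) (g d) = 0 := h5
    rw [h6, zero_mul]
  · rw [hs]
    have h2 : ∀ c, ((G * Z) *ᵥ w) (f c) = ∑ d, G (f c) (g d) * (Z (g d) (g d) * v d) := by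
      intro c
      rw [hw]
      refine Finset.sum_congr rfl fun d _ => ?_
      rw [Matrix.mul_apply, Finset.sum_eq_single (g d), mul_assoc]
      · intro k _ hk
        rw [hZ k (g d) hk, mul_zero]
      · intro h
        exact absurd (Finset.mem_univ _) h
    calc ∑ c, z c * ((G * Z) *ᵥ w) (f c)
        = ∑ c, ∑ d, z c * (G (f c) (g d) * (Z (g d) (g d) * v d)) := by
          refine Finset.sum_congr rfl fun c _ => ?_
          rw [h2, Finset.mul_sum]
      _ = ∑ d, (∑ c, z c * G (f c) (g d)) * (Z (g d) (g d) * v d) := by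
          rw [Finset.sum_comm]
          refine Finset.sum_congr rfl fun d _ => ?_
          rw [Finset.sum_mul]
          refine Finset.sum_congr rfl fun c _ => by ring
      _ = 0 := by
          refine Finset.sum_eq_zero fun d _ => ?_
          have h5 := congrFun hz d
          have h6 : ∑ c, z c * G (f c) (g d) = 0 := h5
          rw [h6, zero_mul]
  · rw [hs]
    refine Finset.sum_eq_zero fun c _ => ?_
    have h2 : ((Z * G) *ᵥ w) (f c) = Z (f c) (f c) * ∑ d, G (f c) (g d) * v d := by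
      rw [hw, Finset.mul_sum]
      refine Finset.sum_congr rfl fun d _ => ?_
      rw [Matrix.mul_apply, Finset.sum_eq_single (f c), mul_assoc]
      · intro k _ hk
        rw [hZ (f c) k (Ne.symm hk), zero_mul]
      · intro h
        exact absurd (Finset.mem_univ _) h
    have h5 := congrFun hv c
    have h6 : ∑ d, G (f c) (g d) * v d = 0 := h5
    rw [h2, h6, mul_zero, mul_zero]

/-- minors at a generic point, ends `b a⁻¹ b⁻¹` and `a` -/
theorem gen_minor2 [Fintype ι] [DecidableEq ι] {K₀ : Subfield ℂ} {J : ι → P002R.Mat r ℂ}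
    (hJK : ∀ j a b, J j a b ∈ K₀)
    {Y : ι ⊕ Bool → P002R.Mat r ℂ} (hJ : ∀ j, IsUnit (J j)) (hY : ∀ j, IsUnit (Y j))
    (l₁ l₂ : List ι) (hnd : (l₁ ++ l₂).Nodup) (hmem : ∀ j, j ∈ l₁ ++ l₂)
    (hrel : PhiI J (l₁ ++ l₂) Y = 1)
    (hirr : ∀ W : Submodule ℂ (Fin r → ℂ), (∀ j, ∀ w ∈ W, cI J Y j *ᵥ w ∈ W) →
      (∀ w ∈ W, Y (Sum.inr false) *ᵥ w ∈ W) → W = ⊥ ∨ W = ⊤)
    (hgen : GenPt1 K₀ J (l₁ ++ l₂) Y)
    {A : P002R.Mat r ℂ} {ν : Fin r → ℂ} (hA : IsUnit A) (hν : Function.Injective ν)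
    (haA : Y (Sum.inr false) * A = A * diagonal ν) {κ : Type*} [Fintype κ] [DecidableEq κ]
    (f g : κ → Fin r) (hf : Function.Injective f) (hg : Function.Injective g) :
    (((Y (Sum.inr true) * A)⁻¹ * (l₁.map (cI J Y)).prod * A).submatrix f g).det ≠ 0 := by
  intro hdet
  obtain ⟨P, hP⟩ : ∃ P, P = (l₁.map (cI J Y)).prod := ⟨_, rfl⟩
  obtain ⟨b, hb⟩ : ∃ b, b = Y (Sum.inr true) := ⟨_, rfl⟩
  have hbu : IsUnit b := hb ▸ hY _
  have hBu : IsUnit (b * A) := hbu.mul hA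
  rw [← hb, ← hP] at hdet
  obtain ⟨G, hG⟩ : ∃ G, G = (b * A)⁻¹ * P * A := ⟨_, rfl⟩
  rw [← hG] at hdet
  obtain ⟨w, s, hw0, hs0, hδs, hZs⟩ := exists_pair_minor2 G f g hf hg hdet
  have hAd : IsUnit A.det := (Matrix.isUnit_iff_isUnit_det _).1 hA
  have hBd : IsUnit (b * A).det := (Matrix.isUnit_iff_isUnit_det _).1 hBu
  have A1 := Matrix.mul_nonsing_inv _ hAd
  have B1 := Matrix.mul_nonsing_inv _ hBd
  have B2 := Matrix.nonsing_inv_mul _ hBd
  have hu : A *ᵥ w ≠ 0 := by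
    intro h
    apply hw0
    calc w = (A⁻¹ * A) *ᵥ w := by
          rw [Matrix.nonsing_inv_mul _ hAd, Matrix.one_mulVec]
      _ = 0 := by rw [← Matrix.mulVec_mulVec, h, Matrix.mulVec_zero]
  have hy : s ᵥ* (b * A)⁻¹ ≠ 0 := by
    intro h
    apply hs0
    calc s = s ᵥ* ((b * A)⁻¹ * (b * A)) := by
          rw [B2, Matrix.vecMul_one]
      _ = 0 := by rw [← Matrix.vecMul_vecMul, h, Matrix.zero_vecMul]
  obtain ⟨δ, x, hδ, hx, hx0, hne⟩ := gen_F2 hJ hY l₁ l₂ hnd hmem hrel hirr hgen _ _ hu hy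
  apply hne
  rw [← hP]
  obtain ⟨Z, hZ⟩ : ∃ Z, Z = A⁻¹ * A.map δ := ⟨_, rfl⟩
  have hAZ : A.map δ = A * Z := by
    rw [hZ, mulL A1]
  have hZ0 := der_eigenbasis δ (by rw [hx, hx0, Matrix.zero_mul]) hA hν haA hAZ
  have hBδ : (b * A).map δ = x (Sum.inr true) * (b * A) + (b * A) * Z := by
    rw [map_der_mul, hAZ, hb, hx]
    simp only [Matrix.mul_assoc]
  have hGδ : G.map δ = (b * A)⁻¹ * (DL (cI J Y) (fun j => x (Sum.inl j)) l₁ -
      x (Sum.inr true) * P) * A + (G * Z - Z * G) := by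
    have hPδ : P.map δ = DL (cI J Y) (fun j => x (Sum.inl j)) l₁ := by
      rw [hP, map_der_listI hJK hY δ hδ x hx]
    have e : -((b * A)⁻¹ * (x (Sum.inr true) * (b * A) + (b * A) * Z) * (b * A)⁻¹) =
        -((b * A)⁻¹ * x (Sum.inr true)) - Z * (b * A)⁻¹ := by
      rw [Matrix.mul_add, Matrix.add_mul, neg_add, ← sub_eq_add_neg]
      congr 1
      · have e1 : (b * A)⁻¹ * (x (Sum.inr true) * (b * A)) * (b * A)⁻¹ =
          (b * A)⁻¹ * (x (Sum.inr true) * ((b * A) * (b * A)⁻¹)) := by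
          simp only [Matrix.mul_assoc]
        rw [e1, B1, Matrix.mul_one]
      · rw [← Matrix.mul_assoc (b * A)⁻¹ (b * A), B2, Matrix.one_mul]
    rw [hG, map_der_mul, map_der_mul, map_der_inv hBu, hBδ, hPδ, hAZ, e]
    noncomm_ring
  have h1 := hδs δ
  obtain ⟨h2, h3⟩ := hZs Z hZ0
  rw [hGδ, Matrix.add_mulVec, dotProduct_add, Matrix.sub_mulVec, dotProduct_sub, h2, h3, sub_zero,
    add_zero] at h1
  have e1 : ∀ A B C : P002R.Mat r ℂ, (s ᵥ* A) ⬝ᵥ (B *ᵥ (C *ᵥ w)) =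
      s ⬝ᵥ ((A * B * C) *ᵥ w) := fun A B C => by
    rw [← Matrix.mulVec_mulVec, ← Matrix.mulVec_mulVec, Matrix.dotProduct_mulVec s]
  rw [e1]
  exact h1

/-- The eigenvalues of `a` are multiplicatively independent at a generic point. -/
theorem gen_mult_indep [DecidableEq ι] {K₀ : Subfield ℂ} {J : ι → P002R.Mat r ℂ}
    {Y : ι ⊕ Bool → P002R.Mat r ℂ} (hY : ∀ j, IsUnit (Y j)) (L : List ι)
    (hgen : GenPt1 K₀ J L Y) {A : P002R.Mat r ℂ} {ν : Fin r → ℂ} (hA : IsUnit A)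
    (haA : Y (Sum.inr false) * A = A * diagonal ν)
    (hfree : ∀ m : Fin r → ℂ, (∀ x : ι ⊕ Bool → P002R.Mat r ℂ,
      D1 (cI J Y) (Y (Sum.inr false)) (Y (Sum.inr true)) L x = 0 →
      trace (A * diagonal m * A⁻¹ * x (Sum.inr false)) = 0) → m = 0)
    (m m' : Fin r → ℕ) (h : ∏ i, ν i ^ m i = ∏ i, ν i ^ m' i) : m = m' := by
  have hν0 : ∀ i, ν i ≠ 0 := (eigen_a' (hY _) (hY (Sum.inr true)) hA haA).1
  have key : (fun i => (m i : ℂ) - (m' i : ℂ)) = 0 := by
    refine hfree _ fun x hx => ?_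
    obtain ⟨δ, -, hxδ⟩ := hgen x hx
    obtain ⟨X, hX⟩ : ∃ X, X = x (Sum.inr false) := ⟨_, rfl⟩
    obtain ⟨t, ht⟩ : ∃ t : Fin r → ℂ, ∀ i, t i = (A⁻¹ * X * A) i i := ⟨_, fun i => rfl⟩
    have h2 : ∀ i, δ (ν i) = t i * ν i := fun i => by
      rw [ht]
      exact der_eigenvalues δ (by rw [hX]; exact hxδ _) hA haA i
    have hpow : ∀ (k : ℕ) (i : Fin r), δ (ν i ^ k) = ((k : ℂ) * t i) * ν i ^ k := by
      intro k i
      induction k with
      | zero => simp
      | succ k ih =>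
        rw [pow_succ, Derivation.leibniz, ih, h2, smul_eq_mul, smul_eq_mul]
        push_cast
        ring
    have h3 := der_prod δ Finset.univ (fun i => ν i ^ m i) (fun i => (m i : ℂ) * t i)
      (fun i => hpow _ i)
    have h4 := der_prod δ Finset.univ (fun i => ν i ^ m' i) (fun i => (m' i : ℂ) * t i)
      (fun i => hpow _ i)
    rw [h, h4] at h3
    have h5 : (∏ i, ν i ^ m' i) ≠ 0 := Finset.prod_ne_zero_iff.2 fun i _ => pow_ne_zero _ (hν0 i)
    have h6 := mul_right_cancel₀ h5 h3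
    rw [← hX, show A * diagonal (fun i => (m i : ℂ) - (m' i : ℂ)) * A⁻¹ * X =
      A * (diagonal (fun i => (m i : ℂ) - (m' i : ℂ)) * A⁻¹ * X) by
      simp only [Matrix.mul_assoc], Matrix.trace_mul_comm, Matrix.trace]
    have h9 : ∀ i, (diagonal (fun i => (m i : ℂ) - (m' i : ℂ)) * A⁻¹ * X * A).diag i =
        (m i : ℂ) * t i - (m' i : ℂ) * t i := by
      intro i
      rw [Matrix.diag_apply, show diagonal (fun i => (m i : ℂ) - (m' i : ℂ)) * A⁻¹ * X * A =
        diagonal (fun i => (m i : ℂ) - (m' i : ℂ)) * (A⁻¹ * X * A) by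
        simp only [Matrix.mul_assoc], Matrix.diagonal_mul, ← ht, sub_mul]
    simp only [h9, Finset.sum_sub_distrib]
    rw [h6, sub_self]
  funext i
  have h1 := congrFun key i
  rw [Pi.zero_apply, sub_eq_zero] at h1
  exact_mod_cast h1

end Vale.Agent.P002R
end
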