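import Mathlib
import Vale.Agent.P002.Bdl.B13
import Vale.Agent.P002.Bdl.B17
import Vale.Agent.P002.Bdl.B3
import Vale.Agent.P002.Bdl.B8
import Vale.Agent.P002.Bdl.B14
import Vale.Agent.P002.Bdl.B15
import Vale.Agent.P002.Bdl.B11

set_option linter.all false

section

/-!
# P002, genus 0, two regular classes: integral points of the chart
-/

namespace Vale.Agent.P002R

open Matrix

variable {R : Type*} [CommRing R] {r m : ℕ}

/-- All eigenvalues are units of the ring. -/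
def EigU (φ : R →+* ℂ) (M : Mat r ℂ) : Prop :=
  ∀ z : ℂ, M.charpoly.IsRoot z → ∃ e : Rˣ, φ (e : R) = z

theorem EigU.det {φ : R →+* ℂ} {M : Mat r ℂ} (h : EigU φ M) : ∃ e : Rˣ, φ (e : R) = M.det := by
  rw [Matrix.det_eq_prod_roots_charpoly]
  have key : ∀ s : Multiset ℂ, (∀ z ∈ s, ∃ e : Rˣ, φ (e : R) = z) →
      ∃ e : Rˣ, φ (e : R) = s.prod := by
    intro s
    induction s using Multiset.induction_on with
    | empty => exact fun _ => ⟨1, by simp⟩
    | cons a s ih =>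
      intro hs
      obtain ⟨e, he⟩ := hs a (Multiset.mem_cons_self a s)
      obtain ⟨e', he'⟩ := ih fun z hz => hs z (Multiset.mem_cons_of_mem hz)
      exact ⟨e * e', by rw [Units.val_mul, map_mul, he, he', Multiset.prod_cons]⟩
  refine key _ fun z hz => h z ?_
  exact (Polynomial.mem_roots'.1 hz).2

theorem chart_integral2 (φ : R →+* ℂ) (hinj : Function.Injective φ)
    (C : Fin (m + 3) → (Mat r ℂ)ˣ) (hE : ∀ j, EigU φ (C j : Mat r ℂ))
    (h0 : ∃ v, P002G.Cyc (C 0 : Mat r ℂ) v)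
    (hl : ∃ v, P002G.Cyc (C (Fin.last (m + 2)) : Mat r ℂ) v)
    (δ : ℕ → Rˣ) (ξ ξ' : Fin r → Rˣ)
    (hδ : ∀ l (hl : l < m + 1), φ (δ l) = (C ⟨l + 1, by omega⟩ : Mat r ℂ).det)
    (hξ : (C 0 : Mat r ℂ).charpoly = ∏ i, (Polynomial.X - Polynomial.C (φ (ξ i))))
    (hξ' : (C (Fin.last (m + 2)) : Mat r ℂ).charpoly =
      ∏ i, (Polynomial.X - Polynomial.C (φ (ξ' i))))
    (Y : ℕ → Mat r R)
    (hY : ∀ k (hk : k < m + 1), CjM (C ⟨k + 1, by omega⟩ : Mat r ℂ) (zZ ((Y k).map φ)))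
    (hprod : ∀ i, (∏ l ∈ Finset.range (m + 1), φ (Y l i i)) * φ (ξ i) * φ (ξ' i) = 1) :
    (∀ k ≤ m + 1, φ (kap' δ k) * (Lc (fun k => (Y k).map φ) k).det = 1) ∧
    ∃ (y : FU 0 (m + 3) →* (Mat r ℂ)ˣ) (cR : ℕ → Mat r R), y (relatorU 0 (m + 3)) = 1 ∧
      (∀ j : Fin (m + 3), (y (FreeGroup.of (Sum.inr j)) : Mat r ℂ) =
        ctup (m + 1) (fun i => φ ((ξ i)⁻¹ : Rˣ)) (fun i => φ (ξ i)) (fun k => φ (kap' δ k))
          (fun k => (Y k).map φ) j) ∧
      (∀ j : Fin (m + 3), (y (FreeGroup.of (Sum.inr j)) : Mat r ℂ) = (cR j).map φ) ∧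
      UpT (cR 0) ∧ LoT (cR (m + 2)) ∧ (∀ i, cR 0 i i = ξ i) ∧ (∀ i, cR (m + 2) i i = ξ' i) ∧
      ((∃ v, P002G.Cyc (ctup (m + 1) (fun i => φ ((ξ i)⁻¹ : Rˣ)) (fun i => φ (ξ i))
          (fun k => φ (kap' δ k)) (fun k => (Y k).map φ) 0) v) →
        (∃ v, P002G.Cyc (ctup (m + 1) (fun i => φ ((ξ i)⁻¹ : Rˣ)) (fun i => φ (ξ i))
          (fun k => φ (kap' δ k)) (fun k => (Y k).map φ) (m + 2)) v) →
        (∀ j, IsConj (C j) (y (FreeGroup.of (Sum.inr j)))) ∧
          ∀ j : Fin (m + 3), IsUnit (cR j).det) := by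
  obtain ⟨Y', hY'⟩ : ∃ Y' : ℕ → Mat r ℂ, Y' = fun k => (Y k).map φ := ⟨_, rfl⟩
  have hdet : ∀ l < m + 1, (zZ (Y' l)).det = φ (δ l) := by
    intro l hlm
    rw [hδ l hlm, hY']
    exact (hY l hlm).det
  have hκ : ∀ k ≤ m + 1, φ (kap' δ k) * (Lc Y' k).det = 1 := fun k hk =>
    kap'_mul δ φ Y' k fun l hl => hdet l (lt_of_lt_of_le hl hk)
  rw [← hY']
  refine ⟨hκ, ?_⟩
  obtain ⟨t, ht⟩ : ∃ t : Fin r → ℂ, t = fun i => φ ((ξ i)⁻¹ : Rˣ) := ⟨_, rfl⟩
  obtain ⟨t', ht'⟩ : ∃ t' : Fin r → ℂ, t' = fun i => φ (ξ i) := ⟨_, rfl⟩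
  obtain ⟨κ, hκdef⟩ : ∃ κ : ℕ → ℂ, κ = fun k => φ (kap' δ k) := ⟨_, rfl⟩
  have hκ' : ∀ k ≤ m + 1, κ k * (Lc Y' k).det = 1 := by rw [hκdef]; exact hκ
  obtain ⟨cR, hcR⟩ : ∃ cR : ℕ → Mat r R, cR =
    ctup (m + 1) (fun i => (((ξ i)⁻¹ : Rˣ) : R)) (fun i => (ξ i : R)) (kap' δ) Y := ⟨_, rfl⟩
  have hint : ∀ j, ctup (m + 1) t t' κ Y' j = (cR j).map φ := by
    intro j
    rw [hcR, ctup_map, ht, ht', hκdef, hY']
  rw [← ht, ← ht', ← hκdef]
  have htt : ∀ i, t' i * t i = 1 := by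
    intro i
    rw [ht, ht']
    simp only
    rw [← map_mul, Units.mul_inv, map_one]
  obtain ⟨y, hy1, hy2⟩ := exists_hom (m + 3) (fun j => ctup (m + 1) t t' κ Y' j)
    (ctup_prod (m + 1) t t' κ Y' hκ' htt)
  obtain ⟨hu1, hu2⟩ := ctup_zero_upT (m + 1) t t' κ Y'
  obtain ⟨hl1, hl2⟩ := ctup_last_loT (m + 1) t t' κ Y' (hκ' _ le_rfl)
  have h9 : ∀ i, φ (ξ' i) = ctup (m + 1) t t' κ Y' (m + 1 + 1) i i := by
    intro i
    have h5 := hl2 i
    have h6 := hprod i
    have h7 : Lc Y' (m + 1) i i = ∏ l ∈ Finset.range (m + 1), φ (Y l i i) := by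
      rw [Lc_diag, hY']
      rfl
    rw [← h7] at h6
    have h8 := htt i
    have h10 : φ (ξ i) = t' i := by rw [ht']
    rw [h10] at h6
    calc φ (ξ' i) = φ (ξ' i) * (t' i * t i) := by rw [h8, mul_one]
      _ = φ (ξ' i) * (t' i * (ctup (m + 1) t t' κ Y' (m + 1 + 1) i i * Lc Y' (m + 1) i i)) := by
        rw [h5]
      _ = ctup (m + 1) t t' κ Y' (m + 1 + 1) i i * (Lc Y' (m + 1) i i * t' i * φ (ξ' i)) := by
        ring
      _ = _ := by rw [h6, mul_one]
  refine ⟨y, cR, hy1, hy2, fun j => (hy2 j).trans (hint j), ?_, ?_, ?_, ?_, fun hc0 hcl => ?_⟩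
  · intro i j hij
    apply hinj
    have h1 := hu1 i j hij
    rw [hint, Matrix.map_apply] at h1
    rw [h1, map_zero]
  · intro i j hij
    apply hinj
    have h1 := hl1 i j hij
    rw [hint, Matrix.map_apply] at h1
    rw [h1, map_zero]
  · intro i
    apply hinj
    have h1 := hu2 i
    rw [hint, Matrix.map_apply] at h1
    rw [h1, ht']
  · intro i
    apply hinj
    have h1 := h9 i
    rw [hint, Matrix.map_apply] at h1
    exact h1.symm
  have hconj : ∀ j, IsConj (C j) (y (FreeGroup.of (Sum.inr j))) := by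
    intro j
    rcases Nat.eq_zero_or_pos (j : ℕ) with h | h
    · have hj : j = 0 := Fin.ext h
      subst hj
      obtain ⟨v, hv⟩ := h0
      obtain ⟨w, hw⟩ := hc0
      have h3 : (y (FreeGroup.of (Sum.inr 0)) : Mat r ℂ) = ctup (m + 1) t t' κ Y' 0 := hy2 0
      refine isConj_of_cyc (v := v) (w := w) _ _ ?_ hv (by rw [h3]; exact hw)
      rw [h3, charpoly_upT hu1, hξ]
      refine Finset.prod_congr rfl fun i _ => ?_
      rw [hu2, ht']
    obtain ⟨k, hk⟩ : ∃ k, (j : ℕ) = k + 1 := ⟨(j : ℕ) - 1, by omega⟩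
    have hkN : k + 1 < m + 3 := by have := j.2; omega
    have hj : j = ⟨k + 1, hkN⟩ := Fin.ext hk
    clear hk h
    subst hj
    rcases Nat.lt_or_ge k (m + 1) with hkm | hkm
    · have h3 : (y (FreeGroup.of (Sum.inr ⟨k + 1, by omega⟩)) : Mat r ℂ) =
        ctup (m + 1) t t' κ Y' (k + 1) := hy2 _
      obtain ⟨L, hL, hL'⟩ := ctup_mid_cjM (m + 1) t t' κ Y' k hkm (hκ' k hkm.le)
      have h4 : CjM (y (FreeGroup.of (Sum.inr ⟨k + 1, by omega⟩)) : Mat r ℂ) (zZ (Y' k)) := by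
        rw [h3]
        exact ⟨L, hL'⟩
      apply isConj_of_cjM
      refine CjM.trans ?_ h4.symm
      rw [hY']
      exact hY k hkm
    · have hkm' : k = m + 1 := by omega
      subst hkm'
      obtain ⟨v, hv⟩ := hl
      obtain ⟨w, hw⟩ := hcl
      have h3 : (y (FreeGroup.of (Sum.inr ⟨m + 1 + 1, by omega⟩)) : Mat r ℂ) =
        ctup (m + 1) t t' κ Y' (m + 1 + 1) := hy2 _
      refine isConj_of_cyc (v := v) (w := w) _ _ ?_ hv (by rw [h3]; exact hw)
      rw [h3, charpoly_loT hl1]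
      refine hξ'.trans ?_
      refine Finset.prod_congr rfl fun i _ => ?_
      rw [h9]
  refine ⟨hconj, fun j => ?_⟩
  obtain ⟨e, he⟩ := (hE j).det
  have h1 : φ (cR j).det = φ (e : R) := by
    rw [he, ← (cjM_of_isConj (hconj j)).det, hy2 j, hint, RingHom.map_det]
    rfl
  rw [hinj h1]
  exact e.isUnit

end Vale.Agent.P002R
end

section

/-!
# P002: duality, the rational family
-/

namespace Vale.Agent.P002R

open Matrix

section formulas

variable {G H : Type*} [DivisionCommMonoid G] [DivisionCommMonoid H] {n : ℕ}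

/-- The determinants of the reflections. -/
def qeG (e : ℕ) (z : G) (q : Fin (n + e) → G) (j : ℕ) : G :=
  if h : j < e then z⁻¹ * q (Fin.natAdd n ⟨j, h⟩) else 1

/-- The determinants of the reflections, reversed. -/
def kaG (e : ℕ) (z : G) (q : Fin (n + e) → G) (k : ℕ) : G :=
  if k < e then qeG e z q (e - 1 - k) else 1

/-- The diagonals of the reflections. -/
def pG0 (e : ℕ) (z : G) (q : Fin (n + e) → G) (i₀ : Fin n) (b : ℕ → Fin n → G) (k : ℕ)
    (i : Fin n) : G :=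
  if i = i₀ then (kaG e z q k)⁻¹ * ∏ j ∈ Finset.univ.erase i₀, (b k j)⁻¹ else b k i

/-- The diagonals of the reflections, the last one is determined by the others. -/
def pG (e : ℕ) (z : G) (q : Fin (n + e) → G) (i₀ : Fin n) (W : Fin n → G) (b : ℕ → Fin n → G)
    (k : ℕ) (i : Fin n) : G :=
  if k + 1 < e then pG0 e z q i₀ b k i else if k + 1 = e then
    z⁻¹ * q (Fin.castAdd e i) * (W i)⁻¹ * ∏ l ∈ Finset.range (e - 1), (pG0 e z q i₀ b l i)⁻¹
  else 1

theorem qeG_map (f : G →* H) (hf : ∀ g, f g⁻¹ = (f g)⁻¹) (e : ℕ) (z : G) (q : Fin (n + e) → G)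
    (j : ℕ) : f (qeG e z q j) = qeG e (f z) (fun i => f (q i)) j := by
  unfold qeG
  split_ifs
  · rw [map_mul, hf]
  · exact map_one f

theorem kaG_map (f : G →* H) (hf : ∀ g, f g⁻¹ = (f g)⁻¹) (e : ℕ) (z : G) (q : Fin (n + e) → G)
    (j : ℕ) : f (kaG e z q j) = kaG e (f z) (fun i => f (q i)) j := by
  unfold kaG
  split_ifs
  · exact qeG_map f hf e z q _
  · exact map_one f

theorem pG0_map (f : G →* H) (hf : ∀ g, f g⁻¹ = (f g)⁻¹) (e : ℕ) (z : G) (q : Fin (n + e) → G)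
    (i₀ : Fin n) (b : ℕ → Fin n → G) (k : ℕ) (i : Fin n) :
    f (pG0 e z q i₀ b k i) = pG0 e (f z) (fun i => f (q i)) i₀ (fun k i => f (b k i)) k i := by
  unfold pG0
  split_ifs
  · rw [map_mul, hf, kaG_map f hf, map_prod]
    simp only [hf]
  · rfl

theorem pG_map (f : G →* H) (hf : ∀ g, f g⁻¹ = (f g)⁻¹) (e : ℕ) (z : G) (q : Fin (n + e) → G)
    (i₀ : Fin n) (W : Fin n → G) (b : ℕ → Fin n → G) (k : ℕ) (i : Fin n) :
    f (pG e z q i₀ W b k i) =
      pG e (f z) (fun i => f (q i)) i₀ (fun i => f (W i)) (fun k i => f (b k i)) k i := by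
  unfold pG
  split_ifs
  · exact pG0_map f hf e z q i₀ b k i
  · rw [map_mul, map_mul, map_mul, map_prod]
    simp only [hf, pG0_map f hf]
  · exact map_one f

end formulas

section group

variable {G : Type*} [CommGroup G] {n : ℕ}

theorem prod_qeG (e : ℕ) (z : G) (q : Fin (n + e) → G) :
    ∏ j ∈ Finset.range e, qeG e z q j = z⁻¹ ^ e * ∏ j : Fin e, q (Fin.natAdd n j) := by
  rw [← Fin.prod_univ_eq_prod_range]
  have h1 : ∀ j : Fin e, qeG e z q j = z⁻¹ * q (Fin.natAdd n j) := by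
    intro j
    rw [qeG, dif_pos j.2]
  simp only [h1]
  rw [Finset.prod_mul_distrib, Finset.prod_const, Finset.card_univ, Fintype.card_fin]

theorem prod_kaG (e : ℕ) (z : G) (q : Fin (n + e) → G) :
    ∏ k ∈ Finset.range e, kaG e z q k = z⁻¹ ^ e * ∏ j : Fin e, q (Fin.natAdd n j) := by
  rw [← prod_qeG, ← Finset.prod_range_reflect]
  refine Finset.prod_congr rfl fun k hk => ?_
  rw [Finset.mem_range] at hk
  rw [kaG, if_pos (by omega)]
  congr 1
  omega

theorem prod_pG0 (e : ℕ) (z : G) (q : Fin (n + e) → G) (i₀ : Fin n) (b : ℕ → Fin n → G)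
    (k : ℕ) : ∏ i, pG0 e z q i₀ b k i = (kaG e z q k)⁻¹ := by
  rw [← Finset.mul_prod_erase _ _ (Finset.mem_univ i₀)]
  have h1 : ∏ i ∈ Finset.univ.erase i₀, pG0 e z q i₀ b k i =
      ∏ i ∈ Finset.univ.erase i₀, b k i := by
    refine Finset.prod_congr rfl fun i hi => ?_
    rw [pG0, if_neg (Finset.ne_of_mem_erase hi)]
  rw [h1, pG0, if_pos rfl, mul_assoc, ← Finset.prod_mul_distrib]
  simp

/-- The diagonals. -/
theorem prod_pG_left (e : ℕ) (he : 0 < e) (z : G) (q : Fin (n + e) → G) (i₀ : Fin n)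
    (W : Fin n → G) (b : ℕ → Fin n → G) (i : Fin n) :
    z * (W i * ∏ k ∈ Finset.range e, pG e z q i₀ W b k i) = q (Fin.castAdd e i) := by
  obtain ⟨e', rfl⟩ : ∃ e', e = e' + 1 := ⟨e - 1, by omega⟩
  rw [Finset.prod_range_succ]
  have h1 : ∏ k ∈ Finset.range e', pG (e' + 1) z q i₀ W b k i =
      ∏ k ∈ Finset.range e', pG0 (e' + 1) z q i₀ b k i := by
    refine Finset.prod_congr rfl fun k hk => ?_
    rw [Finset.mem_range] at hk
    rw [pG, if_pos (by omega)]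
  rw [h1, pG, if_neg (by omega), if_pos rfl, Nat.add_sub_cancel, Finset.prod_inv_distrib]
  obtain ⟨P, hP⟩ : ∃ P, P = ∏ k ∈ Finset.range e', pG0 (e' + 1) z q i₀ b k i := ⟨_, rfl⟩
  rw [← hP]
  calc z * (W i * (P * (z⁻¹ * q (Fin.castAdd (e' + 1) i) * (W i)⁻¹ * P⁻¹)))
      = (z * z⁻¹) * (W i * (W i)⁻¹) * (P * P⁻¹) * q (Fin.castAdd (e' + 1) i) := by
        simp only [mul_assoc, mul_comm, mul_left_comm]
    _ = _ := by simp

theorem kaG_mul_prod (e : ℕ) (z : G) (q : Fin (n + e) → G) (i₀ : Fin n)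
    (W : Fin n → G) (b : ℕ → Fin n → G) (hq : ∏ i, q i = z ^ (n + e) * ∏ i, W i) (k : ℕ) :
    kaG e z q k * ∏ i, pG e z q i₀ W b k i = 1 := by
  rcases lt_trichotomy (k + 1) e with h | h | h
  · have h1 : ∀ i, pG e z q i₀ W b k i = pG0 e z q i₀ b k i := fun i => by rw [pG, if_pos h]
    simp only [h1]
    rw [prod_pG0, mul_inv_cancel]
  · subst h
    have h2 : ∀ i : Fin n, pG (k + 1) z q i₀ W b k i =
        z⁻¹ * q (Fin.castAdd (k + 1) i) * (W i)⁻¹ *
          ∏ l ∈ Finset.range k, (pG0 (k + 1) z q i₀ b l i)⁻¹ := fun i => by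
      rw [pG, if_neg (lt_irrefl _), if_pos rfl, Nat.add_sub_cancel]
    simp only [h2]
    rw [Finset.prod_mul_distrib, Finset.prod_mul_distrib, Finset.prod_mul_distrib,
      Finset.prod_comm]
    simp only [Finset.prod_inv_distrib, prod_pG0, inv_inv]
    have h3 := prod_kaG (k + 1) z q
    rw [Finset.prod_range_succ] at h3
    rw [Fin.prod_univ_add] at hq
    rw [Finset.prod_const, Finset.card_univ, Fintype.card_fin]
    obtain ⟨K, hK⟩ : ∃ K, K = ∏ x ∈ Finset.range k, kaG (k + 1) z q x := ⟨_, rfl⟩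
    obtain ⟨Q1, hQ1⟩ : ∃ Q1, Q1 = ∏ i : Fin n, q (Fin.castAdd (k + 1) i) := ⟨_, rfl⟩
    obtain ⟨Q2, hQ2⟩ : ∃ Q2, Q2 = ∏ i : Fin (k + 1), q (Fin.natAdd n i) := ⟨_, rfl⟩
    obtain ⟨P, hP⟩ : ∃ P, P = ∏ i : Fin n, W i := ⟨_, rfl⟩
    rw [← hK, ← hQ2] at h3
    rw [← hQ1, ← hQ2, ← hP] at hq
    rw [← hK, ← hQ1, ← hP, ← inv_pow]
    calc kaG (k + 1) z q k * (z⁻¹ ^ n * Q1 * P⁻¹ * K)
        = (K * kaG (k + 1) z q k) * z⁻¹ ^ n * Q1 * P⁻¹ := by
          simp only [mul_assoc, mul_comm, mul_left_comm]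
      _ = (Q1 * Q2) * (z⁻¹ ^ (n + (k + 1))) * P⁻¹ := by
          rw [h3, pow_add z⁻¹ n]
          simp only [mul_assoc, mul_comm, mul_left_comm]
      _ = _ := by
          rw [hq, inv_pow]
          calc z ^ (n + (k + 1)) * P * (z ^ (n + (k + 1)))⁻¹ * P⁻¹
              = (z ^ (n + (k + 1)) * (z ^ (n + (k + 1)))⁻¹) * (P * P⁻¹) := by
                simp only [mul_assoc, mul_comm, mul_left_comm]
            _ = 1 := by simp
  · have h1 : ∀ i, pG e z q i₀ W b k i = 1 := fun i => by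
      rw [pG, if_neg (by omega), if_neg (by omega)]
    simp only [h1]
    rw [kaG, if_neg (by omega)]
    simp

end group

end Vale.Agent.P002R
end

section

/-!
# P002, genus 0, one regular class: lifting of flows on graphs
-/

namespace Vale.Agent.P002L

open Matrix Vale.Agent.P002R

/-- Contraction of the edge from `q` to `p`. -/
def ctr {r : ℕ} (p q a : Fin r) : Fin r := if a = q then p else a

theorem ctr_at {r : ℕ} {p q : Fin r} (hpq : p ≠ q) (a : Fin r) :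
    (if p = ctr p q a then (1 : ℤ) else 0) = (if p = a then 1 else 0) + if q = a then 1 else 0 := by
  unfold ctr
  by_cases h : a = q
  · subst h
    rw [if_pos rfl, if_pos rfl, if_neg hpq, if_pos rfl, zero_add]
  · rw [if_neg h, if_neg (Ne.symm h), add_zero]

theorem ctr_off {r : ℕ} {p q : Fin r} (hpq : p ≠ q) (a : Fin r) :
    (if q = ctr p q a then (1 : ℤ) else 0) = 0 := by
  unfold ctr
  by_cases h : a = q
  · rw [if_pos h, if_neg hpq.symm]
  · rw [if_neg h, if_neg (Ne.symm h)]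

theorem ctr_ne {r : ℕ} {p q v : Fin r} (hp : v ≠ p) (hq : v ≠ q) (a : Fin r) :
    (if v = ctr p q a then (1 : ℤ) else 0) = if v = a then 1 else 0 := by
  unfold ctr
  by_cases h : a = q
  · subst h
    rw [if_pos rfl, if_neg hp, if_neg hq]
  · rw [if_neg h]

theorem eb_ctr_at {r : ℕ} {p q : Fin r} (hpq : p ≠ q) (a b : Fin r) :
    eb (ctr p q a) (ctr p q b) p = eb a b p + eb a b q := by
  unfold eb
  rw [ctr_at hpq, ctr_at hpq]
  ring

theorem eb_ctr_off {r : ℕ} {p q : Fin r} (hpq : p ≠ q) (a b : Fin r) :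
    eb (ctr p q a) (ctr p q b) q = 0 := by
  unfold eb
  rw [ctr_off hpq, ctr_off hpq, sub_zero]

theorem eb_ctr_ne {r : ℕ} {p q v : Fin r} (hp : v ≠ p) (hq : v ≠ q) (a b : Fin r) :
    eb (ctr p q a) (ctr p q b) v = eb a b v := by
  unfold eb
  rw [ctr_ne hp hq, ctr_ne hp hq]

theorem eb_self {r : ℕ} (a v : Fin r) : eb a a v = 0 := sub_self _

theorem eb_left {r : ℕ} {a b : Fin r} (h : a ≠ b) : eb a b a = 1 := by
  unfold eb
  rw [if_pos rfl, if_neg h, sub_zero]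

theorem eb_right {r : ℕ} {a b : Fin r} (h : a ≠ b) : eb a b b = -1 := by
  unfold eb
  rw [if_neg h.symm, if_pos rfl, zero_sub]

theorem eb_ne {r : ℕ} {a b v : Fin r} (ha : v ≠ a) (hb : v ≠ b) : eb a b v = 0 := by
  unfold eb
  rw [if_neg ha, if_neg hb, sub_zero]

/-- Lifting of flows on graphs. -/
theorem graph_lift {G₁ G₂ G₃ : Type*} [CommGroup G₁] [CommGroup G₂] [CommGroup G₃] (ι : G₁ →* G₂)
    (ψ : G₂ →* G₃) (hψ : Function.Surjective ψ) (hι : Function.Injective (ψ.comp ι)) {r n : ℕ}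
    (s t : Fin n → Fin r) (τ : Fin r → G₁) (y : Fin n → G₃)
    (h : ∀ v, ∏ j, y j ^ eb (s j) (t j) v = ψ (ι (τ v))) :
    ∃ z : Fin n → G₂, (∀ j, ψ (z j) = y j) ∧ ∀ v, ∏ j, z j ^ eb (s j) (t j) v = ι (τ v) := by
  induction n generalizing τ with
  | zero =>
    refine ⟨fun j => j.elim0, fun j => j.elim0, fun v => ?_⟩
    have h1 := h v
    rw [Finset.univ_eq_empty, Finset.prod_empty] at h1 ⊢
    have h2 : τ v = 1 := hι (by
      rw [MonoidHom.comp_apply, ← h1, map_one])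
    rw [h2, map_one]
  | succ n ih =>
    obtain ⟨p, hp⟩ : ∃ p, p = s (Fin.last n) := ⟨_, rfl⟩
    obtain ⟨q, hq⟩ : ∃ q, q = t (Fin.last n) := ⟨_, rfl⟩
    simp only [Fin.prod_univ_castSucc, ← hp, ← hq] at h ⊢
    by_cases hpq : p = q
    · subst hpq
      obtain ⟨z, hz1, hz2⟩ := ih (fun j => s j.castSucc) (fun j => t j.castSucc) τ
        (fun j => y j.castSucc) (fun v => by
          have h1 := h v
          rw [eb_self, zpow_zero, mul_one] at h1
          exact h1)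
      obtain ⟨w, hw⟩ := hψ (y (Fin.last n))
      refine ⟨Fin.snoc z w, fun j => ?_, fun v => ?_⟩
      · refine Fin.lastCases ?_ (fun j => ?_) j
        · rw [Fin.snoc_last, hw]
        · rw [Fin.snoc_castSucc, hz1]
      · rw [eb_self, zpow_zero, mul_one, ← hz2 v]
        refine Finset.prod_congr rfl fun j _ => ?_
        rw [Fin.snoc_castSucc]
    · obtain ⟨z, hz1, hz2⟩ := ih (fun j => ctr p q (s j.castSucc)) (fun j => ctr p q (t j.castSucc))
        (fun v => if v = p then τ p * τ q else if v = q then 1 else τ v)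
        (fun j => y j.castSucc) (fun v => by
          by_cases hvp : v = p
          · subst hvp
            have h1 := h v
            have h2 := h q
            rw [eb_left hpq, zpow_one] at h1
            rw [eb_right hpq, _root_.zpow_neg_one] at h2
            rw [if_pos rfl, map_mul, map_mul, ← h1, ← h2]
            simp only [eb_ctr_at hpq, _root_.zpow_add]
            rw [Finset.prod_mul_distrib]
            rw [mul_mul_mul_comm, mul_inv_cancel, mul_one]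
          · by_cases hvq : v = q
            · subst hvq
              rw [if_neg hvp, if_pos rfl, map_one, map_one]
              refine Finset.prod_eq_one fun j _ => ?_
              rw [eb_ctr_off hpq, zpow_zero]
            · rw [if_neg hvp, if_neg hvq, ← h v, eb_ne hvp hvq, zpow_zero, mul_one]
              refine Finset.prod_congr rfl fun j _ => ?_
              rw [eb_ctr_ne hvp hvq])
      obtain ⟨w, hw⟩ : ∃ w : G₂, w = ι (τ p) /
        ∏ j : Fin n, z j ^ eb (s j.castSucc) (t j.castSucc) p := ⟨_, rfl⟩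
      have hprod : ∀ v, (∏ j : Fin n, (Fin.snoc z w : Fin (n + 1) → G₂) j.castSucc ^
          eb (s j.castSucc) (t j.castSucc) v) =
          ∏ j : Fin n, z j ^ eb (s j.castSucc) (t j.castSucc) v := by
        intro v
        refine Finset.prod_congr rfl fun j _ => ?_
        rw [Fin.snoc_castSucc]
      refine ⟨Fin.snoc z w, fun j => ?_, fun v => ?_⟩
      · refine Fin.lastCases ?_ (fun j => ?_) j
        · rw [Fin.snoc_last, hw, map_div, map_prod]
          have h1 := h p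
          rw [eb_left hpq, zpow_one] at h1
          rw [← h1, div_eq_iff_eq_mul, mul_comm]
          congr 1
          refine Finset.prod_congr rfl fun j _ => ?_
          rw [map_zpow, hz1]
        · rw [Fin.snoc_castSucc, hz1]
      · rw [hprod, Fin.snoc_last]
        by_cases hvp : v = p
        · subst hvp
          rw [eb_left hpq, zpow_one, hw, mul_div_cancel]
        · by_cases hvq : v = q
          · subst hvq
            have h1 := hz2 p
            rw [if_pos rfl, map_mul] at h1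
            simp only [eb_ctr_at hpq, _root_.zpow_add] at h1
            rw [Finset.prod_mul_distrib] at h1
            rw [eb_right hpq, _root_.zpow_neg_one, hw, inv_div, ← mul_div_assoc, div_eq_iff_eq_mul,
              mul_comm, h1, mul_comm]
          · have h1 := hz2 v
            rw [if_neg hvp, if_neg hvq] at h1
            rw [eb_ne hvp hvq, zpow_zero, mul_one, ← h1]
            refine Finset.prod_congr rfl fun j _ => ?_
            rw [eb_ctr_ne hvp hvq]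

end Vale.Agent.P002L
end

section

/-!
# P002, genus 0, one regular class: the ring of exponents
-/

namespace Vale.Agent.P002L

open Matrix Vale.Agent.P002R

section

variable {G : Type} [CommGroup G]

/-- Evaluation of the group ring. -/
noncomputable def evG {S T : Type*} [CommRing S] [CommRing T] (α : S →+* T) (χ : G →* T) :
    MonoidAlgebra S G →+* T :=
  MonoidAlgebra.liftNCRingHom α χ fun _ _ => Commute.all _ _

theorem evG_single {S T : Type*} [CommRing S] [CommRing T] (α : S →+* T) (χ : G →* T) (g : G)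
    (s : S) : evG α χ (MonoidAlgebra.single g s) = α s * χ g :=
  MonoidAlgebra.liftNCRingHom_single α χ _ g s

theorem evG_map {S T : Type*} [CommRing S] [CommRing T] (α : S →+* T) (χ : G →* T)
    (a : MonoidAlgebra S G) :
    evG (RingHom.id T) χ (MonoidAlgebra.mapRingHom G α a) = evG α χ a := by
  have h : (evG (RingHom.id T) χ).comp (MonoidAlgebra.mapRingHom G α) = evG α χ := by
    refine MonoidAlgebra.ringHom_ext (fun s => ?_) fun g => ?_
    · rw [RingHom.comp_apply, MonoidAlgebra.mapRingHom_single, evG_single, evG_single]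
      rfl
    · rw [RingHom.comp_apply, MonoidAlgebra.mapRingHom_single, evG_single, evG_single, map_one]
      rfl
  exact RingHom.congr_fun h a

theorem comp_evG {S T U : Type*} [CommRing S] [CommRing T] [CommRing U] (α : S →+* T)
    (β : T →+* U) (χ : G →* T) (a : MonoidAlgebra S G) :
    β (evG α χ a) = evG (β.comp α) ((β : T →* U).comp χ) a := by
  have h : β.comp (evG α χ) = evG (β.comp α) ((β : T →* U).comp χ) := by
    refine MonoidAlgebra.ringHom_ext (fun s => ?_) fun g => ?_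
    · rw [RingHom.comp_apply, evG_single, evG_single, map_mul]
      rfl
    · rw [RingHom.comp_apply, evG_single, evG_single, map_mul]
      rfl
  exact RingHom.congr_fun h a

theorem evG_eq_sum {T : Type*} [CommRing T] (χ : G →* T) (a : MonoidAlgebra T G) :
    evG (RingHom.id T) χ a = a.coeff.sum fun g s => s * χ g := by
  conv_lhs => rw [← MonoidAlgebra.sum_coeff_single a]
  rw [map_finsuppSum]
  refine Finsupp.sum_congr fun g _ => ?_
  rw [evG_single]
  rfl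

end

theorem evG_eval₂ {G : Type} [CommGroup G] {σ : Type} (χ : G →* ℂ) (a : σ → MonoidAlgebra ℂ G)
    (f : MvPolynomial σ ℂ) :
    evG (RingHom.id ℂ) χ (MvPolynomial.eval₂ (MonoidAlgebra.singleOneRingHom) a f) =
      MvPolynomial.eval (fun i => evG (RingHom.id ℂ) χ (a i)) f := by
  rw [MvPolynomial.eval₂_comp_left]
  have h : (evG (RingHom.id ℂ) χ).comp
      (MonoidAlgebra.singleOneRingHom : ℂ →+* MonoidAlgebra ℂ G) = RingHom.id ℂ := by
    refine RingHom.ext fun s => ?_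
    change evG _ _ (MonoidAlgebra.single 1 s) = s
    rw [evG_single, map_one, mul_one]
    rfl
  rw [h]
  rfl

/-- The free abelian group on the nonzero complex numbers. -/
abbrev FG : Type := Multiplicative (ℂˣ →₀ ℤ)

/-- The tautological character. -/
noncomputable def tautC : FG →* ℂˣ :=
  AddMonoidHom.toMultiplicativeLeft
    (Finsupp.liftAddHom fun c : ℂˣ => (zmultiplesHom (Additive ℂˣ) (Additive.ofMul c)))

theorem tautC_single (c : ℂˣ) : tautC (Multiplicative.ofAdd (Finsupp.single c 1)) = c := by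
  change ((Finsupp.liftAddHom fun c : ℂˣ => (zmultiplesHom (Additive ℂˣ) (Additive.ofMul c)))
    (Finsupp.single c (1 : ℤ))).toMul = c
  rw [Finsupp.liftAddHom_apply_single, zmultiplesHom_apply, one_zsmul]
  rfl

/-- The character given by a linear form and a unit. -/
noncomputable def chL {R : Type} [CommRing R] (u : Rˣ) (l : (ℂˣ →₀ ℤ) →+ ℤ) : FG →* Rˣ :=
  (zpowersHom Rˣ u).comp (AddMonoidHom.toMultiplicative l)

theorem chL_apply {R : Type} [CommRing R] (u : Rˣ) (l : (ℂˣ →₀ ℤ) →+ ℤ) (g : ℂˣ →₀ ℤ) :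
    chL u l (Multiplicative.ofAdd g) = u ^ l g := rfl

theorem chL_apply' {R : Type} [CommRing R] (u : Rˣ) (l : (ℂˣ →₀ ℤ) →+ ℤ) (g : FG) :
    chL u l g = u ^ l g.toAdd := rfl

/-- Evaluation at a group element as a character of the dual group. -/
noncomputable def thG (v : ℂˣ) (g : FG) : Multiplicative ((ℂˣ →₀ ℤ) →+ ℤ) →* ℂ where
  toFun l := ((v ^ (l.toAdd g.toAdd) : ℂˣ) : ℂ)
  map_one' := by
    change ((v ^ (0 : ℤ) : ℂˣ) : ℂ) = 1
    rw [zpow_zero, Units.val_one]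
  map_mul' l m := by
    change ((v ^ (l.toAdd g.toAdd + m.toAdd g.toAdd) : ℂˣ) : ℂ) = _
    rw [_root_.zpow_add, Units.val_mul]

theorem thG_injective (v : ℂˣ) (hv : ∀ k : ℕ, 0 < k → v ^ k ≠ 1) :
    Function.Injective (thG v) := by
  intro g h hgh
  by_contra hne
  have h1 : ∃ c, g.toAdd c ≠ h.toAdd c := by
    by_contra h2
    push Not at h2
    exact hne (Multiplicative.toAdd.injective (Finsupp.ext h2))
  obtain ⟨c, hc⟩ := h1
  have h2 := DFunLike.congr_fun hgh (Multiplicative.ofAdd (Finsupp.applyAddHom c))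
  have h3 : v ^ (g.toAdd c) = v ^ (h.toAdd c) := Units.ext h2
  have h4 : ¬ IsOfFinOrder v := by
    rw [isOfFinOrder_iff_pow_eq_one]
    rintro ⟨k, hk, hk'⟩
    exact hv k hk hk'
  exact hc (injective_zpow_iff_not_isOfFinOrder.2 h4 h3)

/-- An element of the group ring which is killed by all characters with values in the powers
of a unit of infinite order is zero. -/
theorem eq_zero_of_chars (v : ℂˣ) (hv : ∀ k : ℕ, 0 < k → v ^ k ≠ 1) (F : MonoidAlgebra ℂ FG)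
    (h : ∀ l : (ℂˣ →₀ ℤ) →+ ℤ, evG (RingHom.id ℂ) ((Units.coeHom ℂ).comp (chL v l)) F = 0) :
    F = 0 := by
  have h1 := (linearIndependent_monoidHom (Multiplicative ((ℂˣ →₀ ℤ) →+ ℤ)) ℂ).comp (thG v)
    (thG_injective v hv)
  rw [linearIndependent_iff] at h1
  have h2 := h1 F.coeff (by
    funext l
    have h3 := h l.toAdd
    rw [evG_eq_sum] at h3
    rw [Finsupp.linearCombination_apply, Finsupp.sum, Finset.sum_apply]
    rw [Pi.zero_apply, ← h3, Finsupp.sum]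
    refine Finset.sum_congr rfl fun g _ => ?_
    rfl)
  ext g
  rw [h2]
  rfl

theorem exists_lifting {R : Type} [CommRing R] (φ : R →+* ℂ) (hφ : Function.Injective φ) (u : Rˣ)
    (hu : ∀ k : ℕ, 0 < k → φ u ^ k ≠ 1) :
    ∃ (A : Type) (_ : CommRing A) (ι : R →+* A) (ψ : A →+* ℂ), Lifting φ ι ψ := by
  refine ⟨MonoidAlgebra R FG, inferInstance, MonoidAlgebra.singleOneRingHom,
    evG φ ((Units.coeHom ℂ).comp tautC), ?_, hφ, ?_, ?_, ?_⟩
  · intro a
    change evG φ _ (MonoidAlgebra.single 1 a) = _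
    rw [evG_single, map_one, mul_one]
  · intro c
    by_cases hc : c = 0
    · exact ⟨0, by rw [map_zero, hc]⟩
    · refine ⟨MonoidAlgebra.single (Multiplicative.ofAdd (Finsupp.single (Units.mk0 c hc) 1)) 1, ?_⟩
      rw [evG_single, map_one, one_mul, MonoidHom.comp_apply, tautC_single]
      rfl
  · intro c
    refine ⟨(MonoidAlgebra.of R FG).toHomUnits (Multiplicative.ofAdd (Finsupp.single c 1)), ?_⟩
    change evG φ _ (MonoidAlgebra.single _ 1) = _
    rw [evG_single, map_one, one_mul, MonoidHom.comp_apply, tautC_single]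
    rfl
  · intro σ f a h
    obtain ⟨v, hv⟩ : ∃ v : ℂˣ, v = Units.map (φ : R →* ℂ) u := ⟨_, rfl⟩
    have hv' : ∀ k : ℕ, 0 < k → v ^ k ≠ 1 := by
      intro k hk h1
      apply hu k hk
      have h2 := congrArg (fun w : ℂˣ => (w : ℂ)) h1
      rw [hv] at h2
      exact h2
    have hF : MvPolynomial.eval₂ (MonoidAlgebra.singleOneRingHom : ℂ →+* MonoidAlgebra ℂ FG)
        (fun i => MonoidAlgebra.mapRingHom FG φ (a i)) f = 0 := by
      refine eq_zero_of_chars v hv' _ fun l => ?_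
      have h1 := h (evG (RingHom.id R) ((Units.coeHom R).comp (chL u l))) (fun s => by
        change evG _ _ (MonoidAlgebra.single 1 s) = s
        rw [evG_single, map_one, mul_one]
        rfl)
      rw [evG_eval₂, ← h1]
      refine congrArg (fun w => MvPolynomial.eval w f) (funext fun i => ?_)
      rw [evG_map, comp_evG]
      congr 2
      refine MonoidHom.ext fun g => ?_
      change ((chL v l g : ℂˣ) : ℂ) = φ ((chL u l g : Rˣ) : R)
      rw [hv, chL_apply', chL_apply', ← map_zpow]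
      rfl
    have h2 := congrArg (evG (RingHom.id ℂ) ((Units.coeHom ℂ).comp tautC)) hF
    rw [evG_eval₂, map_zero] at h2
    rw [← h2]
    refine congrArg (fun w => MvPolynomial.eval w f) (funext fun i => ?_)
    rw [evG_map]

end Vale.Agent.P002L
end

section

/-!
# Classes of the form scalar plus rank at most one
-/

namespace Vale.Agent.P002R

open Matrix

/-- `M` is a scalar matrix plus a matrix of rank at most one. -/
def RO (r : ℕ) (M : Mat r ℂ) : Prop := ∃ z : ℂ, (M - z • (1 : Mat r ℂ)).rank ≤ 1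

theorem RO.of_surj {r s : ℕ} {M : Mat r ℂ} {N : Mat s ℂ} (hM : RO r M)
    (π : (Fin r → ℂ) →ₗ[ℂ] (Fin s → ℂ)) (hπ : Function.Surjective π)
    (h : ∀ x, π (M *ᵥ x) = N *ᵥ π x) : RO s N := by
  obtain ⟨z, hz⟩ := hM
  refine ⟨z, le_trans ?_ hz⟩
  rw [Matrix.rank, Matrix.rank]
  have h1 : LinearMap.range (N - z • (1 : Mat s ℂ)).mulVecLin ≤
      (LinearMap.range (M - z • (1 : Mat r ℂ)).mulVecLin).map π := by
    rintro _ ⟨y, rfl⟩
    obtain ⟨x, rfl⟩ := hπ y
    refine ⟨(M - z • (1 : Mat r ℂ)) *ᵥ x, ⟨x, rfl⟩, ?_⟩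
    rw [Matrix.mulVecLin_apply, Matrix.sub_mulVec, Matrix.sub_mulVec, map_sub, h,
      Matrix.smul_mulVec, Matrix.smul_mulVec, Matrix.one_mulVec, Matrix.one_mulVec, map_smul]
  exact (Submodule.finrank_mono h1).trans (Submodule.finrank_map_le _ _)

/-- Conditions which are inherited by quotients. -/
theorem classOK_of_surj (E : Subgroup ℂˣ) (H : ∀ r : ℕ, Mat r ℂ → Prop)
    (hH : ∀ {r s : ℕ} {M : Mat r ℂ} {N : Mat s ℂ}, H r M →
      ∀ π : (Fin r → ℂ) →ₗ[ℂ] (Fin s → ℂ), Function.Surjective π →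
      (∀ x, π (M *ᵥ x) = N *ᵥ π x) → H s N) :
    ClassOK E fun r M => EigIn E M ∧ H r M where
  eig := fun h => h.1
  conj := fun {r X Y} h hX => by
    refine ⟨hX.1.conj h, ?_⟩
    obtain ⟨U, rfl⟩ := isConj_iff.mp h
    refine hH hX.2 (Matrix.mulVecLin (U : Mat r ℂ)) ?_ fun x => ?_
    · intro y
      refine ⟨((U⁻¹ : (Mat r ℂ)ˣ) : Mat r ℂ) *ᵥ y, ?_⟩
      rw [Matrix.mulVecLin_apply, mulVec_mulVec, Units.mul_inv, one_mulVec]
    · rw [Matrix.mulVecLin_apply, Matrix.mulVecLin_apply, Units.val_mul, Units.val_mul,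
        mulVec_mulVec, mulVec_mulVec, Matrix.mul_assoc, Units.inv_mul, Matrix.mul_one]
  blk := fun {r r₁ r₂ D A B} h => by
    rw [blkU_coe] at h
    refine ⟨⟨(EigIn.blk (by rw [blkU_coe]; exact h.1)).1, ?_⟩,
      ⟨(EigIn.blk (by rw [blkU_coe]; exact h.1)).2, ?_⟩⟩
    · refine hH h.2 (Matrix.mulVecLin D.Q₁) (fun y => ⟨D.P₁ *ᵥ y, ?_⟩) fun x => ?_
      · rw [Matrix.mulVecLin_apply, mulVec_mulVec, D.h11, one_mulVec]
      · rw [Matrix.mulVecLin_apply, Matrix.mulVecLin_apply, mulVec_mulVec, mulVec_mulVec,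
          P002.Dec.blk_complex, Matrix.mul_add, ← Matrix.mul_assoc, ← Matrix.mul_assoc,
          ← Matrix.mul_assoc, ← Matrix.mul_assoc, D.h11, D.h12, Matrix.one_mul, Matrix.zero_mul,
          Matrix.zero_mul, add_zero]
    · refine hH h.2 (Matrix.mulVecLin D.Q₂) (fun y => ⟨D.P₂ *ᵥ y, ?_⟩) fun x => ?_
      · rw [Matrix.mulVecLin_apply, mulVec_mulVec, D.h22, one_mulVec]
      · rw [Matrix.mulVecLin_apply, Matrix.mulVecLin_apply, mulVec_mulVec, mulVec_mulVec,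
          P002.Dec.blk_complex, Matrix.mul_add, ← Matrix.mul_assoc, ← Matrix.mul_assoc,
          ← Matrix.mul_assoc, ← Matrix.mul_assoc, D.h22, D.h21, Matrix.one_mul, Matrix.zero_mul,
          Matrix.zero_mul, zero_add]
  kr₁ := fun {r r₁ r₂ e A} h hA => by
    refine ⟨hA.1.kr₁ h, ?_⟩
    refine hH hA.2 (LinearMap.funLeft ℂ ℂ fun i => e (i, ⟨0, h⟩))
      (LinearMap.funLeft_surjective_of_injective ℂ ℂ _ fun i j hij => by simpa using hij)
      fun x => ?_
    ext i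
    simp only [LinearMap.funLeft_apply, mulVec, dotProduct]
    rw [← e.sum_comp, Fintype.sum_prod_type]
    refine Finset.sum_congr rfl fun k _ => ?_
    simp only [kr_apply, Matrix.one_apply]
    simp
  kr₂ := fun {r r₁ r₂ e B} h hB => by
    refine ⟨hB.1.kr₂ h, ?_⟩
    refine hH hB.2 (LinearMap.funLeft ℂ ℂ fun i => e (⟨0, h⟩, i))
      (LinearMap.funLeft_surjective_of_injective ℂ ℂ _ fun i j hij => by simpa using hij)
      fun x => ?_
    ext i
    simp only [LinearMap.funLeft_apply, mulVec, dotProduct]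
    rw [← e.sum_comp, Fintype.sum_prod_type_right]
    refine Finset.sum_congr rfl fun k _ => ?_
    simp only [kr_apply, Matrix.one_apply]
    simp

/-- The condition on the classes. -/
def QD (E : Subgroup ℂˣ) (P₁ P₂ : Prop) (r : ℕ) (M : Mat r ℂ) : Prop :=
  EigIn E M ∧ (P₁ → HasCyc r M) ∧ (P₂ → RO r M)

theorem classOK_QD (E : Subgroup ℂˣ) (P₁ P₂ : Prop) : ClassOK E (QD E P₁ P₂) :=
  classOK_of_surj E (fun r M => (P₁ → HasCyc r M) ∧ (P₂ → RO r M)) fun h π hπ hM =>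
    ⟨fun h1 => (h.1 h1).of_surj π hπ hM, fun h2 => (h.2 h2).of_surj π hπ hM⟩

/-- A matrix without a cyclic vector has an eigenspace of dimension at least two. -/
theorem exists_eigenspace {r : ℕ} {M : Mat r ℂ} (h : ¬ HasCyc r M) :
    ∃ z : ℂ, (M - z • (1 : Mat r ℂ)).rank + 2 ≤ r := by
  by_contra hcon
  push Not at hcon
  apply h
  -- left eigenvectors
  have hdim : ∀ z : ℂ, Module.finrank ℂ (LinearMap.ker (Mᵀ - z • (1 : Mat r ℂ)).mulVecLin) ≤ 1 := by
    intro z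
    have h1 := (Mᵀ - z • (1 : Mat r ℂ)).mulVecLin.finrank_range_add_finrank_ker
    have h2 : Module.finrank ℂ (LinearMap.range (Mᵀ - z • (1 : Mat r ℂ)).mulVecLin) =
        (M - z • (1 : Mat r ℂ)).rank := by
      rw [← Matrix.rank_transpose (M - z • (1 : Mat r ℂ)), Matrix.transpose_sub,
        Matrix.transpose_smul, Matrix.transpose_one]
      rfl
    rw [h2, Module.finrank_fin_fun] at h1
    have := hcon z
    omega
  -- a vector outside of finitely many hyperplanes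
  obtain ⟨ι, hι⟩ : ∃ ι : Set ℂ, ∀ z, z ∈ ι ↔ ∃ l : Fin r → ℂ, l ≠ 0 ∧ Mᵀ *ᵥ l = z • l :=
    ⟨{z | ∃ l : Fin r → ℂ, l ≠ 0 ∧ Mᵀ *ᵥ l = z • l}, fun _ => Iff.rfl⟩
  have hfin : Finite ι := by
    refine Set.Finite.subset (Polynomial.finite_setOfPred_isRoot
      (Matrix.charpoly_monic Mᵀ).ne_zero) fun z hz => ?_
    obtain ⟨l, hl, hz⟩ := (hι z).1 hz
    rw [Set.mem_ofPred_eq, Polynomial.IsRoot.def, Matrix.eval_charpoly]
    refine (Matrix.exists_mulVec_eq_zero_iff.1 ⟨l, hl, ?_⟩)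
    rw [Matrix.sub_mulVec, hz, Matrix.scalar_apply, ← Matrix.smul_one_eq_diagonal,
      Matrix.smul_mulVec, Matrix.one_mulVec, sub_self]
  have hex : ∃ v : Fin r → ℂ, ∀ z : ℂ, ∀ l : Fin r → ℂ, l ≠ 0 → Mᵀ *ᵥ l = z • l → l ⬝ᵥ v ≠ 0 := by
    have h3 : ∀ z : ι, ∃ l : Fin r → ℂ, l ≠ 0 ∧ Mᵀ *ᵥ l = (z : ℂ) • l := fun z => (hι z).1 z.2
    choose l hl0 hl using h3
    have h4 : ∀ z : ι, ∃ p : Submodule ℂ (Fin r → ℂ), ∀ v, v ∈ p ↔ l z ⬝ᵥ v = 0 := by
      intro z
      refine ⟨{ carrier := {v | l z ⬝ᵥ v = 0}, add_mem' := ?_, zero_mem' := ?_, smul_mem' := ?_ },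
        fun _ => Iff.rfl⟩
      · intro a b ha hb
        rw [Set.mem_ofPred_eq] at ha hb ⊢
        rw [dotProduct_add, ha, hb, add_zero]
      · exact dotProduct_zero _
      · intro c a ha
        rw [Set.mem_ofPred_eq] at ha ⊢
        rw [dotProduct_smul, ha, smul_zero]
    choose p hp using h4
    have h5 : (⋃ z, (p z : Set (Fin r → ℂ))) ≠ Set.univ := by
      intro h6
      obtain ⟨z, hz⟩ := Subspace.exists_eq_top_of_iUnion_eq_univ h6
      apply hl0 z
      ext i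
      have h7 : (Pi.single i 1 : Fin r → ℂ) ∈ p z := hz ▸ Submodule.mem_top
      rw [hp, dotProduct_single, mul_one] at h7
      exact h7
    obtain ⟨v, hv⟩ := (Set.ne_univ_iff_exists_notMem _).1 h5
    refine ⟨v, fun z m hm0 hm hmv => hv ?_⟩
    have hz : z ∈ ι := (hι z).2 ⟨m, hm0, hm⟩
    refine Set.mem_iUnion.2 ⟨⟨z, hz⟩, ?_⟩
    rw [SetLike.mem_coe, hp]
    obtain ⟨w, hw⟩ := finrank_le_one_iff.1 (hdim z)
    have hk : ∀ m : Fin r → ℂ, Mᵀ *ᵥ m = z • m →
        m ∈ LinearMap.ker (Mᵀ - z • (1 : Mat r ℂ)).mulVecLin := by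
      intro m hm
      rw [LinearMap.mem_ker, Matrix.mulVecLin_apply, Matrix.sub_mulVec, hm, Matrix.smul_mulVec,
        Matrix.one_mulVec, sub_self]
    obtain ⟨a, ha⟩ := hw ⟨m, hk m hm⟩
    obtain ⟨b, hb⟩ := hw ⟨l ⟨z, hz⟩, hk _ (hl ⟨z, hz⟩)⟩
    have ha' : a • (w : Fin r → ℂ) = m := congrArg Subtype.val ha
    have hb' : b • (w : Fin r → ℂ) = l ⟨z, hz⟩ := congrArg Subtype.val hb
    have ha0 : a ≠ 0 := by
      rintro rfl
      exact hm0 (by rw [← ha', zero_smul])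
    rw [← ha', smul_dotProduct, smul_eq_mul, mul_eq_zero, or_iff_right ha0] at hmv
    rw [← hb', smul_dotProduct, hmv, smul_zero]
  obtain ⟨v, hv⟩ := hex
  refine ⟨v, fun W hW hWM => ?_⟩
  by_contra hWtop
  obtain ⟨f, hf0, hfW⟩ := Submodule.exists_le_ker_of_lt_top W (lt_top_iff_ne_top.2 hWtop)
  obtain ⟨U, hU⟩ : ∃ U : Submodule ℂ (Fin r → ℂ), ∀ l, l ∈ U ↔ ∀ w ∈ W, l ⬝ᵥ w = 0 := by
    refine ⟨{ carrier := {l | ∀ w ∈ W, l ⬝ᵥ w = 0}, add_mem' := ?_, zero_mem' := ?_,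
              smul_mem' := ?_ }, fun _ => Iff.rfl⟩
    · intro a b ha hb w hw
      rw [add_dotProduct, ha w hw, hb w hw, add_zero]
    · intro w _
      exact zero_dotProduct _
    · intro c a ha w hw
      rw [smul_dotProduct, ha w hw, smul_zero]
  have hfl : ∀ w, (fun i => f (Pi.single i 1)) ⬝ᵥ w = f w := by
    intro w
    conv_rhs => rw [← Finset.univ_sum_single w, map_sum]
    refine Finset.sum_congr rfl fun i _ => ?_
    have h8 : (Pi.single i (w i) : Fin r → ℂ) = w i • (Pi.single i 1 : Fin r → ℂ) := by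
      rw [← Pi.single_smul, smul_eq_mul, mul_one]
    rw [h8, map_smul, smul_eq_mul, mul_comm]
  have hne : (fun i => f (Pi.single i 1)) ∈ U := by
    rw [hU]
    intro w hw
    rw [hfl]
    exact LinearMap.mem_ker.1 (hfW hw)
  have hne0 : (fun i => f (Pi.single i 1)) ≠ 0 := by
    intro h0
    apply hf0
    ext i
    exact congrFun h0 i
  have hinv : ∀ l ∈ U, Mᵀ.mulVecLin l ∈ U := by
    intro l hl
    rw [hU] at hl ⊢
    intro w hw
    rw [Matrix.mulVecLin_apply, Matrix.mulVec_transpose, ← Matrix.dotProduct_mulVec]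
    exact hl _ (hWM w hw)
  have hnt : Nontrivial U := ⟨⟨_, hne⟩, 0, fun h => hne0 (congrArg Subtype.val h)⟩
  obtain ⟨z, hz⟩ := Module.End.exists_eigenvalue ((Mᵀ.mulVecLin).restrict hinv)
  obtain ⟨l, hl⟩ := hz.exists_hasEigenvector
  refine hv z (l : Fin r → ℂ) (fun h => hl.2 (Subtype.ext h)) ?_ ((hU _).1 l.2 v hW)
  exact congrArg Subtype.val hl.apply_eq_smul

/-- In rank at most three every class without a cyclic vector is scalar plus rank one. -/
theorem ro_of_not_hasCyc {r : ℕ} (hr : r ≤ 3) {M : Mat r ℂ} (h : ¬ HasCyc r M) : RO r M := by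
  obtain ⟨z, hz⟩ := exists_eigenspace h
  exact ⟨z, by omega⟩

end Vale.Agent.P002R
end

section

/-!
# P002, genus 0: statements for irreducible representations
-/

namespace Vale.Agent.P002L

open Matrix Vale.Agent.P002R

/-- Genus zero, one regular class. -/
def G01Irr : Prop :=
  ∀ {m r : ℕ}, 0 < r → ∀ {R : Type} [CommRing R] (φ : R →+* ℂ) (E : Subgroup ℂˣ),
    CoefOK φ E r →
    ∀ C : Fin (m + 1) → (Mat r ℂ)ˣ, (∀ j, EigIn E (C j : Mat r ℂ)) →
    HasCyc r (C 0 : Mat r ℂ) →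
    ∀ x ∈ YG ({relatorU 0 (m + 1)} : Set (FreeGroup ((Fin 0 × Bool) ⊕ Fin (m + 1)))) C,
    (∀ M : Mat r ℂ, (∀ w, Commute M (x w : Mat r ℂ)) → ∃ c : ℂ, M = c • (1 : Mat r ℂ)) →
    ∀ f : MvPolynomial (((Fin 0 × Bool) ⊕ Fin (m + 1)) × Fin r × Fin r) ℂ,
    (∀ y ∈ DGT ({relatorU 0 (m + 1)} : Set (FreeGroup ((Fin 0 × Bool) ⊕ Fin (m + 1)))) φ C,
      evalG y f = 0) → evalG x f = 0

/-- Genus zero, the last `r` classes are scalar plus rank one and not scalar. -/
def G0R : Prop :=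
  ∀ {m r : ℕ}, 0 < r → ∀ {R : Type} [CommRing R] (φ : R →+* ℂ) (E : Subgroup ℂˣ),
    CoefOK φ E r → (∀ (u : Rˣ) (D : R), D ≠ 0 → ∃ M : ℕ, 0 < M ∧ D ∣ (u : R) ^ M - 1) →
    ∀ C : Fin (m + 1 + r) → (Mat r ℂ)ˣ, (∀ j, EigIn E (C j : Mat r ℂ)) →
    (∀ j : Fin r, RO r (C (Fin.natAdd (m + 1) j) : Mat r ℂ) ∧
      ∀ c : ℂ, (C (Fin.natAdd (m + 1) j) : Mat r ℂ) ≠ c • (1 : Mat r ℂ)) →
    ∀ x ∈ YG ({relatorU 0 (m + 1 + r)} : Set (FreeGroup ((Fin 0 × Bool) ⊕ Fin (m + 1 + r)))) C,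
    (∀ M : Mat r ℂ, (∀ w, Commute M (x w : Mat r ℂ)) → ∃ c : ℂ, M = c • (1 : Mat r ℂ)) →
    ∀ f : MvPolynomial (((Fin 0 × Bool) ⊕ Fin (m + 1 + r)) × Fin r × Fin r) ℂ,
    (∀ y ∈ DGT ({relatorU 0 (m + 1 + r)} :
        Set (FreeGroup ((Fin 0 × Bool) ⊕ Fin (m + 1 + r)))) φ C,
      evalG y f = 0) → evalG x f = 0

end Vale.Agent.P002L
end

section

/-!
# P002, genus 0: every irreducible representation is a limit of representations in chart form
-/

namespace Vale.Agent.P002R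

open Matrix

variable {n r : ℕ}

/-- The images of the boundary generators. -/
def bt (x : FU 0 n →* (Mat r ℂ)ˣ) (j : Fin n) : Mat r ℂ :=
  (x (FreeGroup.of (Sum.inr j)) : Mat r ℂ)

theorem bt_eqn (x : FU 0 n →* (Mat r ℂ)ˣ) (j : Fin n) :
    bt x j = (x (FreeGroup.of (Sum.inr j)) : Mat r ℂ) := rfl

/-- The representation with given boundary. -/
def mkR (c : Fin n → (Mat r ℂ)ˣ) : FU 0 n →* (Mat r ℂ)ˣ :=
  FreeGroup.lift (Sum.elim (fun k => k.1.elim0) c)

theorem mkR_inr (c : Fin n → (Mat r ℂ)ˣ) (j : Fin n) :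
    mkR c (FreeGroup.of (Sum.inr j)) = c j := by
  rw [mkR, FreeGroup.lift_apply_of]
  rfl

theorem bt_mkR (c : Fin n → (Mat r ℂ)ˣ) (j : Fin n) : bt (mkR c) j = (c j : Mat r ℂ) := by
  rw [bt_eqn, mkR_inr]

theorem relU_iff (x : FU 0 n →* (Mat r ℂ)ˣ) :
    x (relatorU 0 n) = 1 ↔ ((List.finRange n).map (bt x)).prod = 1 := by
  have h1 : ((x (relatorU 0 n) : (Mat r ℂ)ˣ) : Mat r ℂ) =
      ((List.finRange n).map (bt x)).prod := by
    unfold relatorU
    rw [List.ofFn_zero, List.prod_nil, mul_one, map_list_prod, List.ofFn_eq_map, List.map_map,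
      ← Units.coeHom_apply, map_list_prod, List.map_map]
    rfl
  rw [← h1, Units.val_eq_one]

/-- Evaluation at a tuple. -/
noncomputable def evT (f : MvPolynomial (GenU 0 n × Fin r × Fin r) ℂ) (c : Fin n → Mat r ℂ) : ℂ :=
  MvPolynomial.eval (fun p => (Sum.elim (fun _ => (0 : Mat r ℂ)) c p.1) p.2.1 p.2.2) f

theorem evalG_eq_evT (x : FU 0 n →* (Mat r ℂ)ˣ) (f : MvPolynomial (GenU 0 n × Fin r × Fin r) ℂ) :
    evalG x f = evT f (bt x) := by
  rw [evalG_eq_eval, evT]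
  have h1 : (fun p : GenU 0 n × Fin r × Fin r =>
      (x (FreeGroup.of p.1) : Mat r ℂ) p.2.1 p.2.2) =
      fun p => (Sum.elim (fun _ => (0 : Mat r ℂ)) (bt x) p.1) p.2.1 p.2.2 := by
    funext p
    obtain ⟨k | j, a, b⟩ := p
    · exact k.1.elim0
    · rfl
  rw [h1]

theorem evT_continuous (f : MvPolynomial (GenU 0 n × Fin r × Fin r) ℂ) :
    Continuous (evT f) := by
  have h1 : Continuous fun c : Fin n → Mat r ℂ => fun p : GenU 0 n × Fin r × Fin r =>
      (Sum.elim (fun _ => (0 : Mat r ℂ)) c p.1) p.2.1 p.2.2 := by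
    refine continuous_pi fun p => ?_
    obtain ⟨k | j, a, b⟩ := p
    · exact k.1.elim0
    · exact (continuous_apply b).comp ((continuous_apply a).comp (continuous_apply j))
  exact (MvPolynomial.continuous_eval f).comp h1

/-! ### Triangular forms -/

theorem exists_upT (C : (Mat r ℂ)ˣ) : ∃ J : (Mat r ℂ)ˣ, IsConj C J ∧ UpT (J : Mat r ℂ) := by
  obtain ⟨d, ν, -, hν, -, h⟩ := P002.exists_jordan (C : Mat r ℂ)
  obtain ⟨P, hP⟩ := h 1 one_ne_zero
  refine ⟨P⁻¹ * C * P, isConj_iff.2 ⟨P⁻¹, by rw [inv_inv]⟩, ?_⟩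
  have h1 : ((P⁻¹ * C * P : (Mat r ℂ)ˣ) : Mat r ℂ) =
      diagonal d + (1 : ℂ) • ν.map (Int.cast : ℤ → ℂ) := by
    rw [Units.val_mul, Units.val_mul, hP]
    calc ((P⁻¹ : (Mat r ℂ)ˣ) : Mat r ℂ) * ((P : Mat r ℂ) *
          (diagonal d + (1 : ℂ) • ν.map (Int.cast : ℤ → ℂ)) * ((P⁻¹ : (Mat r ℂ)ˣ) : Mat r ℂ)) *
          (P : Mat r ℂ)
        = (((P⁻¹ : (Mat r ℂ)ˣ) : Mat r ℂ) * (P : Mat r ℂ)) *
          (diagonal d + (1 : ℂ) • ν.map (Int.cast : ℤ → ℂ)) *
          (((P⁻¹ : (Mat r ℂ)ˣ) : Mat r ℂ) * (P : Mat r ℂ)) := by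
          simp only [Matrix.mul_assoc]
      _ = _ := by rw [Units.inv_mul, Matrix.one_mul, Matrix.mul_one]
  rw [h1]
  intro i j hij
  rw [Matrix.add_apply, Matrix.diagonal_apply_ne _ hij.ne', Matrix.smul_apply, Matrix.map_apply,
    hν i j hij.not_gt, Int.cast_zero, smul_zero, add_zero]

/-- transposed unit -/
def trU (C : (Mat r ℂ)ˣ) : (Mat r ℂ)ˣ where
  val := (C : Mat r ℂ)ᵀ
  inv := ((C⁻¹ : (Mat r ℂ)ˣ) : Mat r ℂ)ᵀ
  val_inv := by rw [← Matrix.transpose_mul, Units.inv_mul, Matrix.transpose_one]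
  inv_val := by rw [← Matrix.transpose_mul, Units.mul_inv, Matrix.transpose_one]

theorem trU_val (C : (Mat r ℂ)ˣ) : (trU C : Mat r ℂ) = (C : Mat r ℂ)ᵀ := rfl

theorem exists_loT (C : (Mat r ℂ)ˣ) : ∃ J : (Mat r ℂ)ˣ, IsConj C J ∧ LoT (J : Mat r ℂ) := by
  obtain ⟨J, hJ, hup⟩ := exists_upT (trU C)
  refine ⟨trU J, ?_, ?_⟩
  · obtain ⟨P, hP⟩ := isConj_iff.1 hJ
    refine isConj_iff.2 ⟨(trU P)⁻¹, ?_⟩
    rw [inv_inv, ← hP]
    apply Units.ext
    have h1 : ((trU P)⁻¹ : (Mat r ℂ)ˣ) = trU P⁻¹ := by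
      rw [inv_eq_iff_mul_eq_one]
      apply Units.ext
      rw [Units.val_mul, trU_val, trU_val, ← Matrix.transpose_mul, Units.inv_mul,
        Matrix.transpose_one, Units.val_one]
    rw [h1]
    simp only [Units.val_mul, trU_val, Matrix.transpose_mul, Matrix.transpose_transpose,
      Matrix.mul_assoc]
  · rw [trU_val]
    exact hup.transpose

section normed

open scoped Matrix.Norms.Operator

theorem continuousAt_cj_norm (J : Fin n → Mat r ℂ) {Y : Fin n → Mat r ℂ} (hY : ∀ j, IsUnit (Y j)) :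
    ContinuousAt (fun Y : Fin n → Mat r ℂ => cj J Y) Y := by
  refine continuousAt_pi.2 fun j => ?_
  obtain ⟨D, hD, -⟩ := deriv_cj J hY j
  exact hD.hasFDerivAt.continuousAt

end normed

theorem continuousAt_cj (J : Fin n → Mat r ℂ) {Y : Fin n → Mat r ℂ} (hY : ∀ j, IsUnit (Y j)) :
    ContinuousAt (fun Y : Fin n → Mat r ℂ => cj J Y) Y := continuousAt_cj_norm J hY

theorem hasCyc_iff (M : Mat r ℂ) : HasCyc r M ↔ ∃ v, (P002.kry M v).det ≠ 0 := by
  unfold HasCyc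
  refine exists_congr fun v => ?_
  have h1 := P002G.cyc_iff M v
  rw [Matrix.isUnit_iff_isUnit_det, isUnit_iff_ne_zero] at h1
  exact h1

/-- Representations in chart form. -/
structure ChartForm (b e : Fin n) (x : FU 0 n →* (Mat r ℂ)ˣ) : Prop where
  up : UpT (bt x b)
  lo : LoT (bt x e)
  cell : ∀ l₁ l₂ : List (Fin n), List.finRange n = b :: (l₁ ++ (l₂ ++ [e])) →
    ∃ X : Mat r ℂ, (l₁.map (bt x)).prod = zZ X ∧ ∀ i, X i i ≠ 0
  cyc : ∀ (t : Fin n) (l₁ l₂ : List (Fin n)),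
    List.finRange n = b :: (l₁ ++ t :: l₂) → HasCyc r (bt x t) →
    ∀ i₀ : Fin r, (i₀ : ℕ) = 0 →
      (P002.kry (bt x t) (((l₁.map (bt x)).prod)⁻¹ *ᵥ (Pi.single i₀ 1 : Fin r → ℂ))).det ≠ 0

theorem unit_conj (g M : (Mat r ℂ)ˣ) :
    ((g⁻¹ * M * g : (Mat r ℂ)ˣ) : Mat r ℂ) = (g : Mat r ℂ)⁻¹ * (M : Mat r ℂ) * (g : Mat r ℂ) := by
  rw [Units.val_mul, Units.val_mul, Matrix.coe_units_inv]

/-- products of conjugates -/
theorem prod_conj {ι : Type*} (g : (Mat r ℂ)ˣ) (c : ι → Mat r ℂ) (l : List ι) :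
    (l.map fun j => (g : Mat r ℂ)⁻¹ * c j * (g : Mat r ℂ)).prod =
      (g : Mat r ℂ)⁻¹ * (l.map c).prod * (g : Mat r ℂ) := by
  have h1 : (g : Mat r ℂ) * (g : Mat r ℂ)⁻¹ = 1 := by
    rw [← Matrix.coe_units_inv, Units.mul_inv]
  have h2 : (g : Mat r ℂ)⁻¹ * (g : Mat r ℂ) = 1 := by
    rw [← Matrix.coe_units_inv, Units.inv_mul]
  induction l with
  | nil => simp [h2]
  | cons j l ih =>
    rw [List.map_cons, List.prod_cons, ih, List.map_cons, List.prod_cons]
    calc (g : Mat r ℂ)⁻¹ * c j * (g : Mat r ℂ) *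
          ((g : Mat r ℂ)⁻¹ * (l.map c).prod * (g : Mat r ℂ))
        = (g : Mat r ℂ)⁻¹ * c j * ((g : Mat r ℂ) * (g : Mat r ℂ)⁻¹) * (l.map c).prod *
          (g : Mat r ℂ) := by simp only [Matrix.mul_assoc]
      _ = _ := by rw [h1, Matrix.mul_one]; simp only [Matrix.mul_assoc]

/-- Nonvanishing of all minors gives the decomposition. -/
theorem exists_zZ (G : Mat r ℂ) (h : ∀ (k : ℕ) (f g : Fin k → Fin r), Function.Injective f →
    Function.Injective g → (G.submatrix f g).det ≠ 0) :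
    ∃ X : Mat r ℂ, G = zZ X ∧ ∀ i, X i i ≠ 0 := by
  refine exists_UL G fun k _ => ?_
  obtain ⟨e⟩ : Nonempty (Fin (Fintype.card {i : Fin r // k ≤ (i : ℕ)}) ≃
    {i : Fin r // k ≤ (i : ℕ)}) := ⟨(Fintype.equivFin _).symm⟩
  rw [← Matrix.det_submatrix_equiv_self e]
  exact h _ (fun i => ((e i : {i : Fin r // k ≤ (i : ℕ)}) : Fin r))
    (fun i => ((e i : {i : Fin r // k ≤ (i : ℕ)}) : Fin r))
    (Subtype.val_injective.comp e.injective) (Subtype.val_injective.comp e.injective)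

theorem hasCyc_conj {M N g : Mat r ℂ} (h : g * M = N * g) (hg : IsUnit g) (hM : HasCyc r M) :
    HasCyc r N := by
  rw [hasCyc_iff] at hM ⊢
  obtain ⟨v, hv⟩ := hM
  refine ⟨g *ᵥ v, ?_⟩
  rw [← P002.mul_kry g M v N h, det_mul]
  exact mul_ne_zero (isUnit_iff_ne_zero.1 ((Matrix.isUnit_iff_isUnit_det _).1 hg)) hv

theorem uU_single (X : Mat r ℂ) (i₀ : Fin r) (hi₀ : (i₀ : ℕ) = 0) :
    uU X *ᵥ (Pi.single i₀ 1 : Fin r → ℂ) = Pi.single i₀ 1 := by
  ext i
  rw [Matrix.mulVec_single_one]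
  show uU X i i₀ = _
  rw [uU_apply]
  by_cases h : i = i₀
  · rw [if_pos h, h, Pi.single_eq_same]
  · rw [if_neg h, Pi.single_eq_of_ne h, if_neg]
    rw [Fin.lt_def]
    omega

/-- Density of the representations in chart form. -/
theorem exists_chartForm (hr : 0 < r) (b e : Fin n) (l₀ : List (Fin n))
    (hL : List.finRange n = b :: (l₀ ++ [e])) (C : Fin n → (Mat r ℂ)ˣ)
    (x : FU 0 n →* (Mat r ℂ)ˣ) (hrel : x (relatorU 0 n) = 1)
    (hcl : ∀ j, IsConj (C j) (x (FreeGroup.of (Sum.inr j))))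
    (hadj : Algebra.adjoin ℂ (Set.range fun w => (x w : Mat r ℂ)) = ⊤)
    (f : MvPolynomial (GenU 0 n × Fin r × Fin r) ℂ) (hf : evalG x f ≠ 0) :
    ∃ (x' : FU 0 n →* (Mat r ℂ)ˣ) (g : (Mat r ℂ)ˣ), evalG (conjH g x') f ≠ 0 ∧
      x' (relatorU 0 n) = 1 ∧ (∀ j, IsConj (C j) (x' (FreeGroup.of (Sum.inr j)))) ∧
      Algebra.adjoin ℂ (Set.range fun w => (x' w : Mat r ℂ)) = ⊤ ∧ ChartForm b e x' := by
  classical
  -- normal forms
  obtain ⟨Ju, hJu, hJup⟩ := exists_upT (C b)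
  obtain ⟨Jl, hJl, hJlo⟩ := exists_loT (C e)
  have hbe : b ≠ e := by
    have h1 := List.nodup_finRange n
    rw [hL, List.nodup_cons] at h1
    intro h
    exact h1.1 (List.mem_append_right _ (by rw [h]; exact List.mem_singleton_self e))
  obtain ⟨J, hJ0, hJlast, hJc⟩ : ∃ J : Fin n → (Mat r ℂ)ˣ, J b = Ju ∧
      J e = Jl ∧ ∀ j, IsConj (C j) (J j) := by
    refine ⟨fun j => if j = b then Ju else if j = e then Jl else C j, if_pos rfl,
      ?_, fun j => ?_⟩
    · show (if e = b then Ju else if e = e then Jl else C e) = Jl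
      rw [if_neg hbe.symm, if_pos rfl]
    · simp only
      by_cases h1 : j = b
      · rw [if_pos h1, h1]
        exact hJu
      · rw [if_neg h1]
        by_cases h2 : j = e
        · rw [if_pos h2, h2]
          exact hJl
        · rw [if_neg h2]
  have hy : ∀ j, ∃ y : (Mat r ℂ)ˣ, y * J j * y⁻¹ = x (FreeGroup.of (Sum.inr j)) := fun j =>
    isConj_iff.1 ((hJc j).symm.trans (hcl j))
  choose y hy using hy
  obtain ⟨Y₀, hY₀⟩ : ∃ Y₀ : Fin n → Mat r ℂ, ∀ j, Y₀ j = (y j : Mat r ℂ) := ⟨_, fun _ => rfl⟩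
  obtain ⟨J', hJ'⟩ : ∃ J' : Fin n → Mat r ℂ, ∀ j, J' j = (J j : Mat r ℂ) := ⟨_, fun _ => rfl⟩
  have hY₀u : ∀ j, IsUnit (Y₀ j) := fun j => by rw [hY₀]; exact (y j).isUnit
  have hJ'u : ∀ j, IsUnit (J' j) := fun j => by rw [hJ']; exact (J j).isUnit
  have hcj : cj J' Y₀ = bt x := by
    funext j
    rw [cj_apply, hY₀, hJ', bt_eqn, ← hy, Units.val_mul, Units.val_mul, Matrix.coe_units_inv]
  have hrel' : ((List.finRange n).map (cj J' Y₀)).prod = 1 := by
    rw [hcj]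
    exact (relU_iff x).1 hrel
  have hgen : ∀ z : FU 0 n →* (Mat r ℂ)ˣ,
      Algebra.adjoin ℂ (Set.range fun w => (z w : Mat r ℂ)) = ⊤ ↔
        Algebra.adjoin ℂ (Set.range (bt z)) = ⊤ := by
    intro z
    constructor
    · intro h
      have h1 := adjoin_gen_eq_top z h
      rw [eq_top_iff, ← h1, Algebra.adjoin_le_iff]
      rintro _ ⟨k | j, rfl⟩
      · exact k.1.elim0
      · exact Algebra.subset_adjoin ⟨j, rfl⟩
    · intro h
      rw [eq_top_iff, ← h, Algebra.adjoin_le_iff]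
      rintro _ ⟨j, rfl⟩
      exact Algebra.subset_adjoin ⟨FreeGroup.of (Sum.inr j), rfl⟩
  have hadj' : Algebra.adjoin ℂ (Set.range (cj J' Y₀)) = ⊤ := by
    rw [hcj]
    exact (hgen x).1 hadj
  -- the neighbourhood
  have hU : {Y : Fin n → Mat r ℂ | evT f (cj J' Y) ≠ 0} ∈ nhds Y₀ := by
    have h1 : ContinuousAt (fun Y : Fin n → Mat r ℂ => evT f (cj J' Y)) Y₀ :=
      ContinuousAt.comp (f := fun Y : Fin n → Mat r ℂ => cj J' Y)
        (evT_continuous f).continuousAt (continuousAt_cj J' hY₀u)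
    refine h1.eventually_ne ?_
    rw [hcj, ← evalG_eq_evT]
    exact hf
  obtain ⟨Y, hYU, hYu, hYrel, hYadj, hYgen⟩ := exists_generic_flags hr (List.finRange n)
    (List.nodup_finRange _) (fun j => List.mem_finRange j) J' hJ'u Y₀ hY₀u hrel' hadj' _ hU
  have hYU' : evT f (cj J' Y) ≠ 0 := hYU
  -- the representation of the generic point
  choose yy hyy using hYu
  obtain ⟨z, hz⟩ : ∃ z : FU 0 n →* (Mat r ℂ)ˣ, ∀ j,
      z (FreeGroup.of (Sum.inr j)) = yy j * J j * (yy j)⁻¹ :=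
    ⟨mkR fun j => yy j * J j * (yy j)⁻¹, fun j => mkR_inr _ j⟩
  have hbz : bt z = cj J' Y := by
    funext j
    rw [cj_apply, hJ', ← hyy, bt_eqn, hz, Units.val_mul, Units.val_mul, Matrix.coe_units_inv]
  -- the conjugating element
  obtain ⟨X₀, hX₀, hX₀d⟩ := exists_zZ ((Y b)⁻¹ * Y e) (by
    intro k f g hf hg
    have h1 := (hYgen b e [] l₀ [] hL).1 k f g hf hg
    rw [List.map_nil, List.prod_nil, Matrix.mul_one] at h1
    exact h1)
  have hU₀u : IsUnit (uU X₀).det := by rw [det_uU]; exact isUnit_one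
  have hL₀u : IsUnit (lL X₀).det := by
    rw [det_lL, isUnit_iff_ne_zero]
    exact Finset.prod_ne_zero_iff.2 fun i _ => hX₀d i
  have hU₀1 : uU X₀ * (uU X₀)⁻¹ = 1 := Matrix.mul_nonsing_inv _ hU₀u
  have hU₀2 : (uU X₀)⁻¹ * uU X₀ = 1 := Matrix.nonsing_inv_mul _ hU₀u
  have hL₀1 : lL X₀ * (lL X₀)⁻¹ = 1 := Matrix.mul_nonsing_inv _ hL₀u
  have hL₀2 : (lL X₀)⁻¹ * lL X₀ = 1 := Matrix.nonsing_inv_mul _ hL₀u
  have hYb1 : Y b * (Y b)⁻¹ = 1 := by
    rw [← hyy, ← Matrix.coe_units_inv, Units.mul_inv]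
  have hYb2 : (Y b)⁻¹ * Y b = 1 := by
    rw [← hyy, ← Matrix.coe_units_inv, Units.inv_mul]
  have hYe1 : Y e * (Y e)⁻¹ = 1 := by
    rw [← hyy, ← Matrix.coe_units_inv, Units.mul_inv]
  have hYe2 : (Y e)⁻¹ * Y e = 1 := by
    rw [← hyy, ← Matrix.coe_units_inv, Units.inv_mul]
  obtain ⟨g, hg⟩ : ∃ g : (Mat r ℂ)ˣ, (g : Mat r ℂ) = Y b * uU X₀ := by
    have h1 : IsUnit (Y b * uU X₀) := by
      rw [← hyy]
      exact (yy b).isUnit.mul ((Matrix.isUnit_iff_isUnit_det _).2 hU₀u)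
    exact ⟨h1.unit, rfl⟩
  have hge : (g : Mat r ℂ) = Y e * (lL X₀)⁻¹ := by
    have h1 : Y e = Y b * uU X₀ * lL X₀ := by
      rw [Matrix.mul_assoc]
      show Y e = Y b * zZ X₀
      rw [← hX₀, ← Matrix.mul_assoc, hYb1, Matrix.one_mul]
    rw [h1, Matrix.mul_assoc _ (lL X₀), hL₀1, Matrix.mul_one, hg]
  have hginv1 : (g : Mat r ℂ)⁻¹ = (uU X₀)⁻¹ * (Y b)⁻¹ := by
    rw [hg]
    exact Matrix.mul_inv_rev _ _
  have hginv2 : (g : Mat r ℂ)⁻¹ = lL X₀ * (Y e)⁻¹ := by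
    rw [hge, Matrix.mul_inv_rev, Matrix.nonsing_inv_nonsing_inv _ hL₀u]
  have hbx : ∀ j, bt (conjH g⁻¹ z) j = (g : Mat r ℂ)⁻¹ * cj J' Y j * (g : Mat r ℂ) := by
    intro j
    rw [bt_eqn, conjH_apply, inv_inv, unit_conj, ← bt_eqn, hbz]
  have hbl : ∀ l : List (Fin n), (l.map (bt (conjH g⁻¹ z))).prod =
      (g : Mat r ℂ)⁻¹ * (l.map (cj J' Y)).prod * (g : Mat r ℂ) := by
    intro l
    rw [← prod_conj]
    congr 2
    funext j
    exact hbx j
  refine ⟨conjH g⁻¹ z, g, ?_, ?_, ?_, ?_, ?_⟩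
  · have h1 : conjH g (conjH g⁻¹ z) = z := by
      ext1 w
      simp only [conjH_apply]
      group
    rw [h1, evalG_eq_evT, hbz]
    exact hYU'
  · rw [conjH_apply]
    have h1 : z (relatorU 0 n) = 1 := by
      rw [relU_iff, hbz]
      exact hYrel
    rw [h1, mul_one, inv_inv, inv_mul_cancel]
  · intro j
    refine (hJc j).trans ?_
    rw [conjH_apply, hz, isConj_iff]
    exact ⟨g⁻¹ * yy j, by group⟩
  · refine adjoin_conj_top z g⁻¹ ?_
    rw [hgen, hbz]
    exact hYadj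
  · refine ⟨?_, ?_, ?_, ?_⟩
    · -- upper triangular
      rw [hbx, cj_apply, hJ', hJ0]
      have h1 : (g : Mat r ℂ)⁻¹ * (Y b * (Ju : Mat r ℂ) * (Y b)⁻¹) * (g : Mat r ℂ) =
          (uU X₀)⁻¹ * (Ju : Mat r ℂ) * uU X₀ := by
        rw [hginv1, hg]
        calc (uU X₀)⁻¹ * (Y b)⁻¹ * (Y b * (Ju : Mat r ℂ) * (Y b)⁻¹) * (Y b * uU X₀)
            = (uU X₀)⁻¹ * ((Y b)⁻¹ * Y b) * (Ju : Mat r ℂ) * ((Y b)⁻¹ * Y b) * uU X₀ := by
              simp only [Matrix.mul_assoc]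
          _ = _ := by rw [hYb2, Matrix.mul_one, Matrix.mul_one]
      rw [h1]
      exact ((upT_uU X₀).inv fun i => by rw [uU_diag]; exact one_ne_zero).mul hJup |>.mul
        (upT_uU X₀)
    · rw [hbx, cj_apply, hJ', hJlast]
      have h1 : (g : Mat r ℂ)⁻¹ * (Y e * (Jl : Mat r ℂ) * (Y e)⁻¹) * (g : Mat r ℂ) =
          lL X₀ * (Jl : Mat r ℂ) * (lL X₀)⁻¹ := by
        rw [hginv2, hge]
        calc lL X₀ * (Y e)⁻¹ * (Y e * (Jl : Mat r ℂ) * (Y e)⁻¹) * (Y e * (lL X₀)⁻¹)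
            = lL X₀ * ((Y e)⁻¹ * Y e) * (Jl : Mat r ℂ) * ((Y e)⁻¹ * Y e) * (lL X₀)⁻¹ := by
              simp only [Matrix.mul_assoc]
          _ = _ := by rw [hYe2, Matrix.mul_one, Matrix.mul_one]
      rw [h1]
      exact ((loT_lL X₀).mul hJlo).mul ((loT_lL X₀).inv fun i => by rw [lL_diag]; exact hX₀d i)
    · intro l₁ l₂ hl
      obtain ⟨X, hX, hXd⟩ := exists_zZ ((Y b)⁻¹ * (l₁.map (cj J' Y)).prod * Y e)
        (hYgen b e l₁ l₂ [] hl).1
      have h1 : (l₁.map (bt (conjH g⁻¹ z))).prod =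
          ((uU X₀)⁻¹ * uU X) * (lL X * (lL X₀)⁻¹) := by
        rw [hbl, hginv1, hge]
        calc (uU X₀)⁻¹ * (Y b)⁻¹ * (l₁.map (cj J' Y)).prod * (Y e * (lL X₀)⁻¹)
            = (uU X₀)⁻¹ * ((Y b)⁻¹ * (l₁.map (cj J' Y)).prod * Y e) * (lL X₀)⁻¹ := by
              simp only [Matrix.mul_assoc]
          _ = _ := by rw [hX, zZ_eqn]; simp only [Matrix.mul_assoc]
      have hUi : UpT (uU X₀)⁻¹ := (upT_uU X₀).inv fun i => by rw [uU_diag]; exact one_ne_zero
      have hLi : LoT (lL X₀)⁻¹ := (loT_lL X₀).inv fun i => by rw [lL_diag]; exact hX₀d i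
      obtain ⟨X', h2, h3, h4⟩ := exists_coord ((uU X₀)⁻¹ * uU X) (lL X * (lL X₀)⁻¹)
        (hUi.mul (upT_uU X)) (fun i => by
          rw [hUi.mul_diag (upT_uU X), uU_diag, inv_diag (upT_uU X₀)
            (fun i => by rw [uU_diag]; exact one_ne_zero), uU_diag, inv_one, mul_one])
        ((loT_lL X).mul hLi)
      refine ⟨X', ?_, fun i => ?_⟩
      · rw [h1, zZ_eqn, h2, h3]
      · rw [h4, (loT_lL X).mul_diag hLi, lL_diag, LoT.inv_diag (loT_lL X₀)
          (fun i => by rw [lL_diag]; exact hX₀d i), lL_diag]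
        exact mul_ne_zero (hXd i) (inv_ne_zero (hX₀d i))
    · intro t l₁ l₂ hl ht i₀ hi₀
      have hg1 : (g : Mat r ℂ) * (g : Mat r ℂ)⁻¹ = 1 := by
        rw [← Matrix.coe_units_inv, Units.mul_inv]
      have hg2 : (g : Mat r ℂ)⁻¹ * (g : Mat r ℂ) = 1 := by
        rw [← Matrix.coe_units_inv, Units.inv_mul]
      have hYt2 : (Y t)⁻¹ * Y t = 1 := by
        rw [← hyy, ← Matrix.coe_units_inv, Units.inv_mul]
      have hYu : IsUnit (Y t)⁻¹ := by
        rw [← hyy, ← Matrix.coe_units_inv]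
        exact Units.isUnit _
      have hgu : IsUnit (g : Mat r ℂ)⁻¹ := by
        rw [← Matrix.coe_units_inv]
        exact Units.isUnit _
      have hct : HasCyc r (J' t) := by
        refine hasCyc_conj (g := (Y t)⁻¹ * (g : Mat r ℂ)) (M := bt (conjH g⁻¹ z) t) ?_
          (hYu.mul g.isUnit) ht
        rw [hbx, cj_apply]
        calc (Y t)⁻¹ * (g : Mat r ℂ) * ((g : Mat r ℂ)⁻¹ * (Y t * J' t * (Y t)⁻¹) * (g : Mat r ℂ))
            = (Y t)⁻¹ * ((g : Mat r ℂ) * (g : Mat r ℂ)⁻¹) * Y t * J' t * (Y t)⁻¹ * (g : Mat r ℂ) := by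
              simp only [Matrix.mul_assoc]
          _ = J' t * ((Y t)⁻¹ * (g : Mat r ℂ)) := by
              rw [hg1, Matrix.mul_one, hYt2, Matrix.one_mul, Matrix.mul_assoc]
      have h1 := (hYgen b t l₁ [] l₂ hl).2 ((hasCyc_iff _).1 hct) i₀
      obtain ⟨P, hP⟩ : ∃ P, P = (l₁.map (cj J' Y)).prod := ⟨_, rfl⟩
      rw [hbl, ← hP]
      rw [← hP] at h1
      have h2 : ((g : Mat r ℂ)⁻¹ * P * (g : Mat r ℂ))⁻¹ *ᵥ (Pi.single i₀ 1 : Fin r → ℂ) =
          (g : Mat r ℂ)⁻¹ *ᵥ ((P⁻¹ * Y b) *ᵥ Pi.single i₀ 1) := by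
        have hgd : IsUnit (g : Mat r ℂ).det := (Matrix.isUnit_iff_isUnit_det _).1 g.isUnit
        rw [Matrix.mul_inv_rev, Matrix.mul_inv_rev, Matrix.nonsing_inv_nonsing_inv _ hgd]
        conv_lhs => rw [hg]
        rw [← hg, ← Matrix.mulVec_mulVec, ← Matrix.mulVec_mulVec, ← Matrix.mulVec_mulVec]
        rw [show (g : Mat r ℂ) *ᵥ (Pi.single i₀ 1 : Fin r → ℂ) = Y b *ᵥ Pi.single i₀ 1 by
          rw [hg, ← Matrix.mulVec_mulVec, uU_single _ _ hi₀]]
      rw [h2, hbx, ← P002.mul_kry (g : Mat r ℂ)⁻¹ (cj J' Y t), det_mul]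
      · exact mul_ne_zero (isUnit_iff_ne_zero.1 ((Matrix.isUnit_iff_isUnit_det _).1 hgu)) h1
      · rw [Matrix.mul_assoc, hg1, Matrix.mul_one]

/-- Conjugation acts on polynomials. -/
theorem exists_conjP {K : Type*} (g : (Mat r ℂ)ˣ) (f : MvPolynomial (K × Fin r × Fin r) ℂ) :
    ∃ f' : MvPolynomial (K × Fin r × Fin r) ℂ, ∀ y : FreeGroup K →* (Mat r ℂ)ˣ,
      evalG y f' = evalG (conjH g y) f := by
  refine ⟨MvPolynomial.aeval (fun p : K × Fin r × Fin r =>
    ∑ b, (∑ a, MvPolynomial.C ((g : Mat r ℂ) p.2.1 a) * MvPolynomial.X (p.1, a, b)) *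
      MvPolynomial.C (((g⁻¹ : (Mat r ℂ)ˣ) : Mat r ℂ) b p.2.2)) f, fun y => ?_⟩
  rw [← AlgHom.comp_apply, MvPolynomial.comp_aeval]
  unfold evalG
  refine congrArg (fun h : K × Fin r × Fin r → ℂ => MvPolynomial.aeval h f) ?_
  funext p
  rw [conjH_apply, Units.val_mul, Units.val_mul, Matrix.mul_apply, map_sum]
  refine Finset.sum_congr rfl fun b _ => ?_
  rw [map_mul, Matrix.mul_apply, map_sum]
  congr 1
  · refine Finset.sum_congr rfl fun a _ => ?_
    rw [map_mul, MvPolynomial.aeval_X, MvPolynomial.aeval_C]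
    rfl
  · rw [MvPolynomial.aeval_C]
    rfl

/-- Splitting the list of the punctures. -/
theorem finRange_split (m k : ℕ) (hk : k ≤ m + 1) :
    List.finRange (m + 3) = 0 :: ((List.ofFn fun j : Fin k => (⟨j + 1, by omega⟩ : Fin (m + 3))) ++
      ((List.ofFn fun j : Fin (m + 1 - k) => (⟨k + 1 + j, by omega⟩ : Fin (m + 3))) ++
        [Fin.last (m + 2)])) := by
  apply List.ext_getElem
  · simp
    omega
  · intro i h1 h2
    rw [List.getElem_finRange]
    rcases i with _ | i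
    · rfl
    · rw [List.getElem_cons_succ, List.getElem_append]
      split_ifs with h
      · rw [List.getElem_ofFn]
        ext
        rfl
      · rw [List.getElem_append]
        rw [List.length_ofFn] at h
        split_ifs with h'
        · rw [List.getElem_ofFn]
          ext
          simp only [Fin.val_cast, List.length_ofFn]
          omega
        · simp only [List.length_ofFn] at h'
          rw [List.length_finRange] at h1
          ext
          simp only [Fin.val_cast, List.getElem_singleton, Fin.val_last]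
          omega

end Vale.Agent.P002R
end

section

/-!
# P002, genus 0: from the chart to all irreducible representations
-/

namespace Vale.Agent.P002R

open Matrix

/-- The sequence of the boundary matrices. -/
def cseqB {N r : ℕ} (x : FU 0 N →* (Mat r ℂ)ˣ) (j : ℕ) : Mat r ℂ :=
  if h : j < N then (x (FreeGroup.of (Sum.inr ⟨j, h⟩)) : Mat r ℂ) else 1

theorem cseqB_lt {N r : ℕ} (x : FU 0 N →* (Mat r ℂ)ˣ) (j : ℕ) (h : j < N) :
    cseqB x j = bt x ⟨j, h⟩ := by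
  rw [cseqB, dif_pos h]
  rfl

/-- Density of the integral points in the chart. -/
def ChartDens {R : Type} [CommRing R] (φ : R →+* ℂ) (n : ℕ) : Prop :=
  ∀ {m : ℕ} (C : Fin (m + 3) → (Mat (n + 1) ℂ)ˣ) (x : FU 0 (m + 3) →* (Mat (n + 1) ℂ)ˣ),
    (∃ v, P002G.Cyc (C 0 : Mat (n + 1) ℂ) v) →
    (∃ v, P002G.Cyc (C (Fin.last (m + 2)) : Mat (n + 1) ℂ) v) →
    x (relatorU 0 (m + 3)) = 1 → (∀ j, IsConj (C j) (x (FreeGroup.of (Sum.inr j)))) →
    UpT (cseqB x 0) → LoT (cseqB x (m + 2)) →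
    (∀ k ≤ m + 1, ∃ X : Mat (n + 1) ℂ,
      (List.ofFn fun j : Fin k => cseqB x (j + 1)).prod = zZ X ∧ ∀ i, X i i ≠ 0) →
    P002G.Cyc (cseqB x (m + 1))
      (((List.ofFn fun j : Fin m => cseqB x (j + 1)).prod)⁻¹ *ᵥ P002G.e0 n ℂ) →
    ∀ f : MvPolynomial (GenU 0 (m + 3) × Fin (n + 1) × Fin (n + 1)) ℂ,
    (∀ y : FU 0 (m + 3) →* (Mat (n + 1) ℂ)ˣ, y (relatorU 0 (m + 3)) = 1 →
      (∀ j, IsConj (C j) (y (FreeGroup.of (Sum.inr j)))) →
      (∀ k, y (FreeGroup.of k) ∈ GR (n + 1) φ) → evalG y f = 0) → evalG x f = 0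

theorem e0_eq_single (n : ℕ) : P002G.e0 n ℂ = Pi.single (0 : Fin (n + 1)) 1 := by
  ext i
  refine Fin.cases ?_ (fun i => ?_) i
  · rw [Pi.single_eq_same]
    rfl
  · rw [Pi.single_eq_of_ne (Fin.succ_ne_zero i)]
    rfl

theorem irr_of_chartDens {R : Type} [CommRing R] (φ : R →+* ℂ) {n m : ℕ}
    (C : Fin (m + 3) → (Mat (n + 1) ℂ)ˣ)
    (H : ∀ x : FU 0 (m + 3) →* (Mat (n + 1) ℂ)ˣ,
      x (relatorU 0 (m + 3)) = 1 → (∀ j, IsConj (C j) (x (FreeGroup.of (Sum.inr j)))) →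
      UpT (cseqB x 0) → LoT (cseqB x (m + 2)) →
      (∀ k ≤ m + 1, ∃ X : Mat (n + 1) ℂ,
        (List.ofFn fun j : Fin k => cseqB x (j + 1)).prod = zZ X ∧ ∀ i, X i i ≠ 0) →
      P002G.Cyc (cseqB x (m + 1))
        (((List.ofFn fun j : Fin m => cseqB x (j + 1)).prod)⁻¹ *ᵥ P002G.e0 n ℂ) →
      ∀ f : MvPolynomial (GenU 0 (m + 3) × Fin (n + 1) × Fin (n + 1)) ℂ,
      (∀ y : FU 0 (m + 3) →* (Mat (n + 1) ℂ)ˣ, y (relatorU 0 (m + 3)) = 1 →
        (∀ j, IsConj (C j) (y (FreeGroup.of (Sum.inr j)))) →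
        (∀ k, y (FreeGroup.of k) ∈ GR (n + 1) φ) → evalG y f = 0) → evalG x f = 0)
    (hm : HasCyc (n + 1) (C ⟨m + 1, by omega⟩ : Mat (n + 1) ℂ))
    (x : FU 0 (m + 3) →* (Mat (n + 1) ℂ)ˣ)
    (hx : x ∈ YG ({relatorU 0 (m + 3)} : Set (FreeGroup ((Fin 0 × Bool) ⊕ Fin (m + 3)))) C)
    (hirr : ∀ M : Mat (n + 1) ℂ, (∀ w, Commute M (x w : Mat (n + 1) ℂ)) →
      ∃ c : ℂ, M = c • (1 : Mat (n + 1) ℂ))
    (f : MvPolynomial (((Fin 0 × Bool) ⊕ Fin (m + 3)) × Fin (n + 1) × Fin (n + 1)) ℂ)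
    (hf : ∀ y ∈ DGT ({relatorU 0 (m + 3)} : Set (FreeGroup ((Fin 0 × Bool) ⊕ Fin (m + 3)))) φ C,
      evalG y f = 0) : evalG x f = 0 := by
  obtain ⟨hx1, hx2, hx3⟩ := hx
  have hadj := adjoin_top_of_irr x hx3 hirr
  have hxrel : x (relatorU 0 (m + 3)) = 1 := hx1 _ rfl
  refine upgrade x hadj {y | y (relatorU 0 (m + 3)) = 1 ∧
    (∀ j, IsConj (C j) (y (FreeGroup.of (Sum.inr j)))) ∧
    ∀ k, y (FreeGroup.of k) ∈ GR (n + 1) φ} ?_ f ?_
  · intro f' hf'
    by_contra hne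
    have hL := finRange_split m 0 (Nat.zero_le _)
    rw [List.ofFn_zero, List.nil_append] at hL
    obtain ⟨x', g, h1, h2, h3, h4, h5⟩ := exists_chartForm (Nat.succ_pos n) 0 (Fin.last (m + 2)) _
      hL C x hxrel hx2 hadj f' hne
    obtain ⟨f'', hf''⟩ := exists_conjP g f'
    apply h1
    rw [← hf'']
    have hprod : ∀ k (hk : k ≤ m + 1), (List.ofFn fun j : Fin k => cseqB x' (j + 1)).prod =
        ((List.ofFn fun j : Fin k => (⟨j + 1, by omega⟩ : Fin (m + 3))).map (bt x')).prod := by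
      intro k hk
      rw [List.map_ofFn]
      congr 1
      refine congrArg List.ofFn (funext fun j => ?_)
      rw [cseqB_lt x' _ (by omega)]
      rfl
    refine H x' h2 h3 ?_ ?_ ?_ ?_ f'' ?_
    · rw [cseqB_lt x' 0 (by omega)]
      exact h5.up
    · rw [cseqB_lt x' (m + 2) (by omega)]
      exact h5.lo
    · intro k hk
      obtain ⟨X, hX, hXd⟩ := h5.cell _ _ (finRange_split m k hk)
      exact ⟨X, by rw [hprod k hk]; exact hX, hXd⟩
    · have hcyc : HasCyc (n + 1) (bt x' ⟨m + 1, by omega⟩) := by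
        obtain ⟨u, hu⟩ := isConj_iff.1 (h3 ⟨m + 1, by omega⟩)
        refine hasCyc_conj (g := (u : Mat (n + 1) ℂ)) ?_ u.isUnit hm
        rw [bt_eqn, ← hu, ← Units.val_mul, ← Units.val_mul]
        congr 1
        group
      have hl : List.finRange (m + 3) = 0 :: ((List.ofFn fun j : Fin m =>
          (⟨j + 1, by omega⟩ : Fin (m + 3))) ++ ⟨m + 1, by omega⟩ :: [Fin.last (m + 2)]) := by
        have h6 := finRange_split m m (by omega)
        have h7 : m + 1 - m = 1 := by omega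
        rw [h6]
        congr 2
        have h8 : (List.ofFn fun j : Fin (m + 1 - m) => (⟨m + 1 + j, by omega⟩ : Fin (m + 3))) =
            [⟨m + 1, by omega⟩] := by
          apply List.ext_getElem
          · simp
          · intro i h9 h10
            rw [List.getElem_ofFn]
            simp only [List.length_cons, List.length_nil, zero_add] at h10
            ext
            simp only [List.getElem_singleton]
            omega
        rw [h8]
        rfl
      have h6 := h5.cyc ⟨m + 1, by omega⟩ _ _ hl hcyc 0 rfl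
      rw [← hprod m (by omega)] at h6
      rw [P002G.cyc_iff, cseqB_lt x' (m + 1) (by omega), e0_eq_single,
        Matrix.isUnit_iff_isUnit_det, isUnit_iff_ne_zero]
      exact h6
    · intro y hy1 hy2 hy3
      rw [hf'']
      refine conj_vanish_gen {y | y (relatorU 0 (m + 3)) = 1 ∧
        (∀ j, IsConj (C j) (y (FreeGroup.of (Sum.inr j)))) ∧
        ∀ k, y (FreeGroup.of k) ∈ GR (n + 1) φ} ?_ f' hf' y ⟨hy1, hy2, hy3⟩ g
      rintro z ⟨hz1, hz2, hz3⟩ X
      refine ⟨?_, fun j => ?_, fun k => ?_⟩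
      · rw [conjH_apply, hz1, mul_one, mul_inv_cancel]
      · refine (hz2 j).trans ?_
        rw [isConj_iff]
        exact ⟨slU (Int.castRingHom ℂ) X, (conjH_apply _ _ _).symm⟩
      · rw [conjH_apply]
        exact (GR (n + 1) φ).mul_mem ((GR (n + 1) φ).mul_mem (slU_int_mem_GR φ X) (hz3 k))
          ((GR (n + 1) φ).inv_mem (slU_int_mem_GR φ X))
  · rintro y ⟨hy1, hy2, hy3⟩ hy4
    refine hf y ⟨⟨⟨?_, hy2, ss_of_adjoin y hy4⟩, hy3⟩, hy4⟩
    rintro w rfl
    exact hy1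

end Vale.Agent.P002R
end

section

/-!
# P002, genus 1: every irreducible representation is a limit of representations in chart form
-/

namespace Vale.Agent.P002R

open Matrix

variable {n m r : ℕ}

/-- The images of the generators. -/
def mt (x : FU 1 n →* (Mat r ℂ)ˣ) : Fin n ⊕ Bool → Mat r ℂ :=
  Sum.elim (fun j => (x (FreeGroup.of (Sum.inr j)) : Mat r ℂ))
    fun s => (x (FreeGroup.of (Sum.inl (0, s))) : Mat r ℂ)

theorem mt_inl (x : FU 1 n →* (Mat r ℂ)ˣ) (j : Fin n) :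
    mt x (Sum.inl j) = (x (FreeGroup.of (Sum.inr j)) : Mat r ℂ) := rfl

theorem mt_inr (x : FU 1 n →* (Mat r ℂ)ˣ) (s : Bool) :
    mt x (Sum.inr s) = (x (FreeGroup.of (Sum.inl (0, s))) : Mat r ℂ) := rfl

/-- The representation with given generators. -/
def mkR1 (q : Fin n ⊕ Bool → (Mat r ℂ)ˣ) : FU 1 n →* (Mat r ℂ)ˣ :=
  FreeGroup.lift (Sum.elim (fun k => q (Sum.inr k.2)) fun j => q (Sum.inl j))

theorem mkR1_inr (q : Fin n ⊕ Bool → (Mat r ℂ)ˣ) (j : Fin n) :
    mkR1 q (FreeGroup.of (Sum.inr j)) = q (Sum.inl j) := by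
  rw [mkR1, FreeGroup.lift_apply_of]
  rfl

theorem mkR1_inl (q : Fin n ⊕ Bool → (Mat r ℂ)ˣ) (i : Fin 1) (s : Bool) :
    mkR1 q (FreeGroup.of (Sum.inl (i, s))) = q (Sum.inr s) := by
  rw [mkR1, FreeGroup.lift_apply_of]
  rfl

theorem relU1_iff (x : FU 1 n →* (Mat r ℂ)ˣ) :
    x (relatorU 1 n) = 1 ↔ ((List.finRange n).map fun j => mt x (Sum.inl j)).prod *
      (mt x (Sum.inr false) * mt x (Sum.inr true) * (mt x (Sum.inr false))⁻¹ *
        (mt x (Sum.inr true))⁻¹) = 1 := by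
  have h1 : ((x (relatorU 1 n) : (Mat r ℂ)ˣ) : Mat r ℂ) =
      ((List.finRange n).map fun j => mt x (Sum.inl j)).prod *
      (mt x (Sum.inr false) * mt x (Sum.inr true) * (mt x (Sum.inr false))⁻¹ *
        (mt x (Sum.inr true))⁻¹) := by
    rw [relatorU_eqn, map_mul, Units.val_mul, map_list_prod, List.ofFn_eq_map, List.map_map,
      ← Units.coeHom_apply, map_list_prod, List.map_map]
    congr 1
    simp only [List.ofFn_succ (n := 0), List.ofFn_zero, List.prod_nil, List.prod_cons, mul_one,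
      map_mul, map_inv, Units.val_mul, Matrix.coe_units_inv]
    rfl
  rw [← h1, Units.val_eq_one]

/-- Evaluation at a tuple. -/
noncomputable def evT1 (f : MvPolynomial (GenU 1 n × Fin r × Fin r) ℂ)
    (c : Fin n ⊕ Bool → Mat r ℂ) : ℂ :=
  MvPolynomial.eval (fun p => (Sum.elim (fun k : Fin 1 × Bool => c (Sum.inr k.2))
    (fun j => c (Sum.inl j)) p.1) p.2.1 p.2.2) f

theorem evalG_eq_evT1 (x : FU 1 n →* (Mat r ℂ)ˣ)
    (f : MvPolynomial (GenU 1 n × Fin r × Fin r) ℂ) : evalG x f = evT1 f (mt x) := by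
  rw [evalG_eq_eval, evT1]
  have h1 : (fun p : GenU 1 n × Fin r × Fin r =>
      (x (FreeGroup.of p.1) : Mat r ℂ) p.2.1 p.2.2) =
      fun p => (Sum.elim (fun k : Fin 1 × Bool => mt x (Sum.inr k.2))
        (fun j => mt x (Sum.inl j)) p.1) p.2.1 p.2.2 := by
    funext p
    obtain ⟨⟨k, s⟩ | j, a, b⟩ := p
    · have hk : k = 0 := Subsingleton.elim _ _
      subst hk
      rfl
    · rfl
  rw [h1]

theorem evT1_continuous (f : MvPolynomial (GenU 1 n × Fin r × Fin r) ℂ) :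
    Continuous (evT1 f) := by
  have h1 : Continuous fun c : Fin n ⊕ Bool → Mat r ℂ => fun p : GenU 1 n × Fin r × Fin r =>
      (Sum.elim (fun k : Fin 1 × Bool => c (Sum.inr k.2)) (fun j => c (Sum.inl j)) p.1)
        p.2.1 p.2.2 := by
    refine continuous_pi fun p => ?_
    obtain ⟨k | j, a, b⟩ := p
    · exact (continuous_apply b).comp ((continuous_apply a).comp (continuous_apply (Sum.inr k.2)))
    · exact (continuous_apply b).comp ((continuous_apply a).comp (continuous_apply (Sum.inl j)))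
  exact (MvPolynomial.continuous_eval f).comp h1

section normed

open scoped Matrix.Norms.Operator

theorem continuousAt_allI_norm (J : Fin n → Mat r ℂ) {Y : Fin n ⊕ Bool → Mat r ℂ}
    (hY : ∀ j, IsUnit (Y j)) : ContinuousAt (fun Y : Fin n ⊕ Bool → Mat r ℂ => allI J Y) Y :=
  continuousAt_allI J hY

end normed

theorem continuousAt_allI' (J : Fin n → Mat r ℂ) {Y : Fin n ⊕ Bool → Mat r ℂ}
    (hY : ∀ j, IsUnit (Y j)) : ContinuousAt (fun Y : Fin n ⊕ Bool → Mat r ℂ => allI J Y) Y :=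
  continuousAt_allI_norm J hY

/-- generation by the tuple -/
theorem adjoin_iff1 (z : FU 1 n →* (Mat r ℂ)ˣ) :
    Algebra.adjoin ℂ (Set.range fun w => (z w : Mat r ℂ)) = ⊤ ↔
      Algebra.adjoin ℂ (Set.range (mt z)) = ⊤ := by
  constructor
  · intro h
    have h1 := adjoin_gen_eq_top z h
    rw [eq_top_iff, ← h1, Algebra.adjoin_le_iff]
    rintro _ ⟨⟨k, s⟩ | j, rfl⟩
    · have hk : k = 0 := Subsingleton.elim _ _
      subst hk
      exact Algebra.subset_adjoin ⟨Sum.inr s, rfl⟩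
    · exact Algebra.subset_adjoin ⟨Sum.inl j, rfl⟩
  · intro h
    rw [eq_top_iff, ← h, Algebra.adjoin_le_iff]
    rintro _ ⟨j | s, rfl⟩
    · exact Algebra.subset_adjoin ⟨FreeGroup.of (Sum.inr j), rfl⟩
    · exact Algebra.subset_adjoin ⟨FreeGroup.of (Sum.inl (0, s)), rfl⟩

/-- the indices `1, ..., k` -/
def idx (m k : ℕ) (hk : k ≤ m) : List (Fin (m + 1)) :=
  List.ofFn fun j : Fin k => (⟨j + 1, by omega⟩ : Fin (m + 1))

theorem idx_split (m k : ℕ) (hk : k ≤ m) :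
    ∃ l₂, idx m m le_rfl = idx m k hk ++ l₂ := by
  refine ⟨List.ofFn fun j : Fin (m - k) => (⟨k + 1 + j, by omega⟩ : Fin (m + 1)), ?_⟩
  apply List.ext_getElem
  · simp only [idx, List.length_ofFn, List.length_append]
    omega
  · intro i h1 h2
    simp only [idx] at h1 h2 ⊢
    rw [List.getElem_ofFn, List.getElem_append]
    simp only [List.length_ofFn, List.length_append] at h1 h2
    split_ifs with h
    · rw [List.getElem_ofFn]
    · rw [List.getElem_ofFn]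
      rw [List.length_ofFn] at h
      ext
      simp only [List.length_ofFn]
      omega

theorem finRange_idx (m : ℕ) : List.finRange (m + 1) = 0 :: idx m m le_rfl := by
  apply List.ext_getElem
  · simp [idx]
  · intro i h1 h2
    rw [List.getElem_finRange]
    rcases i with _ | i
    · rfl
    · rw [List.getElem_cons_succ]
      simp only [idx]
      rw [List.getElem_ofFn]
      ext
      rfl

/-- Representations in chart form. -/
structure ChartFormM (x : FU 1 (m + 1) →* (Mat r ℂ)ˣ) : Prop where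
  up : UpT (mt x (Sum.inl 0))
  lo : LoT (mt x (Sum.inr true) * (mt x (Sum.inr false))⁻¹ * (mt x (Sum.inr true))⁻¹)
  cell : ∀ (k : ℕ) (hk : k ≤ m), ∃ X : Mat r ℂ,
    ((idx m k hk).map fun j => mt x (Sum.inl j)).prod = zZ X ∧ ∀ i, X i i ≠ 0
  cell' : ∃ X : Mat r ℂ,
    ((idx m m le_rfl).map fun j => mt x (Sum.inl j)).prod * mt x (Sum.inr false) = zZ X ∧
      ∀ i, X i i ≠ 0
  cyc : ∀ i₀ : Fin r, (i₀ : ℕ) = 0 → (P002.kry (mt x (Sum.inr false))
    ((((idx m m le_rfl).map fun j => mt x (Sum.inl j)).prod)⁻¹ *ᵥ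
      (Pi.single i₀ 1 : Fin r → ℂ))).det ≠ 0

/-- the coordinates in the cell -/
theorem exists_cell {U L : Mat r ℂ} (hU : UpT U) (hU0 : ∀ i, U i i ≠ 0) (hL : LoT L)
    (hL0 : ∀ i, L i i ≠ 0) : ∃ X : Mat r ℂ, U * L = zZ X ∧ ∀ i, X i i ≠ 0 := by
  obtain ⟨D, hD⟩ : ∃ D : Mat r ℂ, D = diagonal fun i => U i i := ⟨_, rfl⟩
  obtain ⟨D', hD'⟩ : ∃ D' : Mat r ℂ, D' = diagonal fun i => (U i i)⁻¹ := ⟨_, rfl⟩
  have h1 : D' * D = 1 := by
    rw [hD, hD', Matrix.diagonal_mul_diagonal, ← Matrix.diagonal_one]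
    congr 1
    funext i
    exact inv_mul_cancel₀ (hU0 i)
  have hUD : UpT (U * D') := by
    intro i j hij
    rw [hD', Matrix.mul_diagonal, hU i j hij, zero_mul]
  have hDL : LoT (D * L) := by
    intro i j hij
    rw [hD, Matrix.diagonal_mul, hL i j hij, mul_zero]
  obtain ⟨X, h2, h3, h4⟩ := exists_coord (U * D') (D * L) hUD (fun i => by
    rw [hD', Matrix.mul_diagonal, mul_inv_cancel₀ (hU0 i)]) hDL
  refine ⟨X, ?_, fun i => ?_⟩
  · rw [zZ_eqn, h2, h3]
    calc U * L = U * (D' * D) * L := by rw [h1, Matrix.mul_one]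
      _ = _ := by simp only [Matrix.mul_assoc]
  · rw [h4, hD, Matrix.diagonal_mul]
    exact mul_ne_zero (hU0 i) (hL0 i)

end Vale.Agent.P002R
end

section

/-!
# P002, genus 1: all boundary classes are scalar
-/

namespace Vale.Agent.P002R

open Matrix

variable {r : ℕ}

/-- Powers of `b` are eigenvectors of `a` when `a b = l b a`. -/
theorem eig_pow {a b : Mat r ℂ} {l : ℂ} (hab : a * b = l • (b * a)) {α : ℂ} {v : Fin r → ℂ}
    (hv : a *ᵥ v = α • v) (k : ℕ) : a *ᵥ (b ^ k *ᵥ v) = (α * l ^ k) • (b ^ k *ᵥ v) := by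
  induction k with
  | zero => simp [hv]
  | succ k ih =>
    rw [pow_succ' b, ← mulVec_mulVec, mulVec_mulVec _ a b, hab, smul_mulVec, ← mulVec_mulVec, ih,
      mulVec_smul, smul_smul, pow_succ]
    congr 1
    ring

theorem commute_pow_of {a b : Mat r ℂ} {l : ℂ} (hab : a * b = l • (b * a)) (k : ℕ) :
    a * b ^ k = l ^ k • (b ^ k * a) := by
  induction k with
  | zero => simp
  | succ k ih =>
    rw [pow_succ, ← mul_assoc, ih, smul_mul_assoc, mul_assoc, hab, mul_smul_comm, smul_smul,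
      ← mul_assoc, pow_succ]

/-- The normal form of a Heisenberg pair. -/
theorem heis_form {n : ℕ} {a b : Mat (n + 1) ℂ} {l : ℂ} (hl : l ^ (n + 1) = 1)
    (hab : a * b = l • (b * a)) (ha : IsUnit a.det) (hb : IsUnit b.det)
    (hcomm : ∀ M : Mat (n + 1) ℂ, Commute M a → Commute M b →
      ∃ c : ℂ, M = c • (1 : Mat (n + 1) ℂ))
    (hst : ∀ W : Submodule ℂ (Fin (n + 1) → ℂ), (∀ v ∈ W, a *ᵥ v ∈ W) → (∀ v ∈ W, b *ᵥ v ∈ W) →
      W = ⊥ ∨ W = ⊤) :
    ∃ (g : Mat (n + 1) ℂ) (α β : ℂ), IsUnit g.det ∧ α ≠ 0 ∧ β ≠ 0 ∧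
      a * g = g * (α • Matrix.diagonal fun i : Fin (n + 1) => l ^ (i : ℕ)) ∧
      b * g = g * (β • (Equiv.toPEquiv (Equiv.addLeft (1 : Fin (n + 1))).symm).toMatrix) := by
  classical
  -- an eigenvector of `a`
  obtain ⟨α, v, hv0, hv⟩ : ∃ (α : ℂ) (v : Fin (n + 1) → ℂ), v ≠ 0 ∧ a *ᵥ v = α • v := by
    obtain ⟨α, hα⟩ := Module.End.exists_eigenvalue (Matrix.toLin' a)
    obtain ⟨v, hv⟩ := hα.exists_hasEigenvector
    exact ⟨α, v, hv.2, by simpa [Matrix.toLin'_apply] using hv.apply_eq_smul⟩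
  have hα0 : α ≠ 0 := by
    rintro rfl
    rw [zero_smul] at hv
    apply hv0
    have h1 : a⁻¹ *ᵥ (a *ᵥ v) = v := by
      rw [mulVec_mulVec, nonsing_inv_mul a ha, one_mulVec]
    rw [← h1, hv, mulVec_zero]
  have hl0 : l ≠ 0 := by
    rintro rfl
    simp at hl
  obtain ⟨d, hd⟩ : ∃ d, d = orderOf l := ⟨_, rfl⟩
  have hd0 : 0 < d := by
    rw [hd]
    exact orderOf_pos_iff.2 (isOfFinOrder_iff_pow_eq_one.2 ⟨n + 1, Nat.succ_pos n, hl⟩)
  have hld : l ^ d = 1 := by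
    rw [hd]
    exact pow_orderOf_eq_one l
  obtain ⟨B, hB⟩ : ∃ B : ℂ, b ^ d = B • (1 : Mat (n + 1) ℂ) := by
    refine hcomm _ ?_ ((Commute.refl b).pow_left d)
    have h1 := commute_pow_of hab d
    rw [hld, one_smul] at h1
    exact h1.symm
  have hB0 : B ≠ 0 := by
    rintro rfl
    rw [zero_smul] at hB
    have h1 : IsUnit (b ^ d).det := by
      rw [det_pow]
      exact hb.pow d
    rw [hB, det_zero] at h1
    exact not_isUnit_zero h1
  obtain ⟨β, hβ⟩ := IsAlgClosed.exists_pow_nat_eq B hd0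
  have hβ0 : β ≠ 0 := by
    rintro rfl
    rw [zero_pow hd0.ne'] at hβ
    exact hB0 hβ.symm
  have hbd : ∀ k : ℕ, b ^ (k + d) *ᵥ v = B • (b ^ k *ᵥ v) := by
    intro k
    rw [pow_add, hB, mul_smul_comm, mul_one, smul_mulVec]
  -- the span of the powers
  obtain ⟨W, hW⟩ : ∃ W : Submodule ℂ (Fin (n + 1) → ℂ),
      W = Submodule.span ℂ (Set.range fun k : Fin d => b ^ (k : ℕ) *ᵥ v) := ⟨_, rfl⟩
  have hWm : ∀ k : ℕ, k < d → b ^ k *ᵥ v ∈ W := fun k hk => by
    rw [hW]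
    exact Submodule.subset_span ⟨⟨k, hk⟩, rfl⟩
  have hWtop : W = ⊤ := by
    have h1 := hst W ?_ ?_
    · rcases h1 with h1 | h1
      · exfalso
        have h2 := hWm 0 hd0
        rw [pow_zero, one_mulVec, h1, Submodule.mem_bot] at h2
        exact hv0 h2
      · exact h1
    · intro u hu
      rw [hW] at hu
      induction hu using Submodule.span_induction with
      | mem x hx =>
        obtain ⟨k, rfl⟩ := hx
        change a *ᵥ (b ^ (k : ℕ) *ᵥ v) ∈ W
        rw [eig_pow hab hv]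
        exact W.smul_mem _ (hWm _ k.2)
      | zero => rw [mulVec_zero]; exact W.zero_mem
      | add x y _ _ hx hy => rw [mulVec_add]; exact W.add_mem hx hy
      | smul c x _ hx => rw [mulVec_smul]; exact W.smul_mem _ hx
    · intro u hu
      rw [hW] at hu
      induction hu using Submodule.span_induction with
      | mem x hx =>
        obtain ⟨k, rfl⟩ := hx
        change b *ᵥ (b ^ (k : ℕ) *ᵥ v) ∈ W
        rw [mulVec_mulVec, ← pow_succ']
        rcases Nat.lt_or_ge ((k : ℕ) + 1) d with h | h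
        · exact hWm _ h
        · have h2 : (k : ℕ) + 1 = 0 + d := by
            have := k.2
            omega
          rw [h2, hbd]
          exact W.smul_mem _ (hWm _ hd0)
      | zero => rw [mulVec_zero]; exact W.zero_mem
      | add x y _ _ hx hy => rw [mulVec_add]; exact W.add_mem hx hy
      | smul c x _ hx => rw [mulVec_smul]; exact W.smul_mem _ hx
  have hbk0 : ∀ k : ℕ, b ^ k *ᵥ v ≠ 0 := by
    intro k h
    apply hv0
    have hu : IsUnit (b ^ k).det := by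
      rw [det_pow]
      exact hb.pow k
    have h1 : (b ^ k)⁻¹ *ᵥ (b ^ k *ᵥ v) = v := by
      rw [mulVec_mulVec, nonsing_inv_mul _ hu, one_mulVec]
    rw [← h1, h, mulVec_zero]
  have hli : LinearIndependent ℂ fun k : Fin d => b ^ (k : ℕ) *ᵥ v := by
    refine Module.End.eigenvectors_linearIndependent' (Matrix.toLin' a)
      (fun k : Fin d => α * l ^ (k : ℕ)) ?_ _ fun k => ?_
    · intro i j hij
      have h1 : l ^ (i : ℕ) = l ^ (j : ℕ) := mul_left_cancel₀ hα0 hij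
      have h2 := pow_injOn_Iio_orderOf (x := l) (by rw [← hd]; exact i.2)
        (by rw [← hd]; exact j.2) h1
      exact Fin.ext h2
    · refine ⟨?_, hbk0 _⟩
      rw [Module.End.mem_eigenspace_iff, Matrix.toLin'_apply]
      exact eig_pow hab hv _
  have hdn : d = n + 1 := by
    have h1 := finrank_span_eq_card hli
    rw [← hW, hWtop, finrank_top, Fintype.card_fin, Module.finrank_fin_fun] at h1
    exact h1.symm
  subst hdn
  -- the basis
  obtain ⟨u, hu⟩ : ∃ u : ℕ → Fin (n + 1) → ℂ, ∀ k, u k = (β⁻¹) ^ k • (b ^ k *ᵥ v) := ⟨_, fun _ => rfl⟩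
  have hper : Function.Periodic u (n + 1) := by
    intro k
    rw [hu, hu, hbd, pow_add, smul_smul, ← hβ]
    congr 1
    rw [mul_assoc, ← mul_pow, inv_mul_cancel₀ hβ0, one_pow, mul_one]
  obtain ⟨g, hg⟩ : ∃ g : Mat (n + 1) ℂ, ∀ i j, g i j = u j i := ⟨Matrix.of fun i j => u j i, fun _ _ => rfl⟩
  refine ⟨g, α, β, ?_, hα0, hβ0, ?_, ?_⟩
  · rw [← Matrix.isUnit_iff_isUnit_det, ← Matrix.linearIndependent_cols_iff_isUnit]
    have h1 : g.col = fun j : Fin (n + 1) => (Units.mk0 β hβ0)⁻¹ ^ (j : ℕ) • (b ^ (j : ℕ) *ᵥ v) := by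
      funext j i
      rw [Matrix.col_apply, hg, hu]
      rfl
    rw [h1]
    exact hli.units_smul fun j => (Units.mk0 β hβ0)⁻¹ ^ (j : ℕ)
  · ext i j
    have h1 : (a * g) i j = (a *ᵥ u j) i := by
      rw [Matrix.mul_apply, Matrix.mulVec, dotProduct]
      exact Finset.sum_congr rfl fun k _ => by rw [hg]
    rw [h1, hu, mulVec_smul, eig_pow hab hv, Matrix.mul_smul, Matrix.smul_apply,
      Matrix.mul_diagonal, hg, hu]
    simp only [Pi.smul_apply, smul_eq_mul]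
    ring
  · ext i j
    have h1 : (b * g) i j = (b *ᵥ u j) i := by
      rw [Matrix.mul_apply, Matrix.mulVec, dotProduct]
      exact Finset.sum_congr rfl fun k _ => by rw [hg]
    have h2 : b *ᵥ u j = β • u (j + 1) := by
      rw [hu, hu, mulVec_smul, mulVec_mulVec, ← pow_succ', smul_smul, pow_succ (β⁻¹)]
      congr 1
      field_simp
    have h3 : u (((1 : Fin (n + 1)) + j : Fin (n + 1)) : ℕ) = u (j + 1) := by
      have h4 : (((1 : Fin (n + 1)) + j : Fin (n + 1)) : ℕ) = ((j : ℕ) + 1) % (n + 1) := by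
        rw [Fin.val_add, Fin.val_one', Nat.add_comm, Nat.add_mod_mod]
      rw [h4, hper.map_mod_nat]
    rw [h1, h2, Matrix.mul_smul, Matrix.smul_apply, PEquiv.mul_toMatrix_toPEquiv]
    simp only [Matrix.submatrix_apply, id, Equiv.symm_symm, Equiv.coe_addLeft, hg, h3,
      Pi.smul_apply, smul_eq_mul]

theorem exists_unit_root_of_mem {R : Type*} [CommRing R] {φ : R →+* ℂ} {E : Subgroup ℂˣ}
    (hc : CoefOK φ E r) (hr : 0 < r) (e : R) (z : ℂˣ) (hz : z ∈ E) (he : φ e = z) :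
    ∃ c : Rˣ, e = (c : R) ^ r := by
  obtain ⟨w, hw⟩ := IsAlgClosed.exists_pow_nat_eq (z : ℂ) hr
  have hw0 : w ≠ 0 := by
    rintro rfl
    rw [zero_pow hr.ne'] at hw
    exact z.ne_zero hw.symm
  have h1 : (Units.mk0 w hw0) ^ r = z := by
    ext1
    rw [Units.val_pow_eq_pow_val, Units.val_mk0, hw]
  obtain ⟨c, hcw⟩ := hc.root r hr le_rfl (Units.mk0 w hw0) (by rw [h1]; exact hz)
  obtain ⟨c', hcw'⟩ := hc.root r hr le_rfl (Units.mk0 w hw0)⁻¹
    (by rw [inv_pow, h1]; exact E.inv_mem hz)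
  have h2 : c * c' = 1 := by
    apply hc.inj
    rw [map_mul, hcw, hcw', map_one, ← Units.val_mul, mul_inv_cancel, Units.val_one]
  refine ⟨⟨c, c', h2, by rw [mul_comm, h2]⟩, ?_⟩
  apply hc.inj
  rw [map_pow, he]
  change _ = φ c ^ r
  rw [hcw, Units.val_mk0, hw]

theorem mem_GR_smul {R : Type*} [CommRing R] (φ : R →+* ℂ) (U : (Mat r ℂ)ˣ) (Y : Mat r R) {α : ℂ}
    (hα : α ≠ 0) (hU : (U : Mat r ℂ) = α • Y.map φ) (c : Rˣ) (hc : Y.det = (c : R) ^ r) :
    U ∈ GR r φ := by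
  have h1 : scalarU (Units.mk0 α hα) ∈ GR r φ := ⟨Units.mk0 α hα, 1, by simp⟩
  have h2 : U = scalarU (Units.mk0 α hα) * ((scalarU (Units.mk0 α hα))⁻¹ * U) := by
    rw [mul_inv_cancel_left]
  rw [h2]
  refine (GR r φ).mul_mem h1 (mem_GR_of φ _ Y ?_ c hc)
  have h3 : (scalarU (Units.mk0 α hα) : (Mat r ℂ)ˣ) * ((scalarU (Units.mk0 α hα))⁻¹ * U) = U := by
    rw [mul_inv_cancel_left]
  rw [← map_inv, Units.val_mul]
  change (algebraMap ℂ (Mat r ℂ)) ((Units.mk0 α hα)⁻¹ : ℂˣ) * (U : Mat r ℂ) = _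
  rw [hU, ← Algebra.smul_def, smul_smul, Units.val_inv_eq_inv_val, Units.val_mk0,
    inv_mul_cancel₀ hα, one_smul]

/-- The two standard matrices, up to scalars. -/
theorem heis_mem_GR {n : ℕ} {R : Type*} [CommRing R] {φ : R →+* ℂ} {E : Subgroup ℂˣ}
    (hc : CoefOK φ E (n + 1)) {L : ℂˣ} (hL : L ∈ E) {α : ℂ} (hα : α ≠ 0) (U : (Mat (n + 1) ℂ)ˣ)
    (hU : (U : Mat (n + 1) ℂ) = α • Matrix.diagonal fun i : Fin (n + 1) => (L : ℂ) ^ (i : ℕ)) :
    U ∈ GR (n + 1) φ := by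
  obtain ⟨t, ht⟩ := hc.root 1 one_pos (Nat.succ_le_succ (Nat.zero_le n)) L (by rwa [pow_one])
  obtain ⟨c, hcc⟩ := exists_unit_root_of_mem hc (Nat.succ_pos n)
    (Matrix.diagonal fun i : Fin (n + 1) => t ^ (i : ℕ)).det (∏ i : Fin (n + 1), L ^ (i : ℕ))
    (E.prod_mem fun i _ => E.pow_mem hL _) (by
      rw [det_diagonal, map_prod, Units.coe_prod]
      exact Finset.prod_congr rfl fun i _ => by rw [map_pow, ht, Units.val_pow_eq_pow_val])
  refine mem_GR_smul φ U _ hα ?_ c hcc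
  rw [hU, Matrix.diagonal_map (map_zero φ)]
  congr 2
  funext i
  rw [map_pow, ht]

theorem shift_mem_GR {n : ℕ} {R : Type*} [CommRing R] {φ : R →+* ℂ} {E : Subgroup ℂˣ}
    (hc : CoefOK φ E (n + 1)) (σ : Equiv.Perm (Fin (n + 1))) {β : ℂ} (hβ : β ≠ 0)
    (U : (Mat (n + 1) ℂ)ˣ)
    (hU : (U : Mat (n + 1) ℂ) = β • (Equiv.toPEquiv σ).toMatrix) : U ∈ GR (n + 1) φ := by
  have hdet : ((Equiv.toPEquiv σ).toMatrix : Mat (n + 1) R).det = (Equiv.Perm.sign σ : ℤ) :=
    Matrix.det_permutation σ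
  obtain ⟨z, hz, hz'⟩ : ∃ z ∈ E, φ ((Equiv.toPEquiv σ).toMatrix : Mat (n + 1) R).det = (z : ℂˣ) := by
    rw [hdet]
    rcases Int.units_eq_one_or (Equiv.Perm.sign σ) with h | h
    · refine ⟨1, E.one_mem, ?_⟩
      rw [h]
      simp
    · refine ⟨-1, hc.neg, ?_⟩
      rw [h]
      simp
  obtain ⟨c, hcc⟩ := exists_unit_root_of_mem hc (Nat.succ_pos n) _ z hz hz'
  refine mem_GR_smul φ U _ hβ ?_ c hcc
  rw [hU]
  congr 1
  ext i j
  rw [Matrix.map_apply, PEquiv.toMatrix_apply, PEquiv.toMatrix_apply]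
  split_ifs <;> simp

/-- Genus one, all boundary classes scalar. -/
theorem scalar_case {n r : ℕ} (hr : 0 < r) {R : Type} [CommRing R] (φ : R →+* ℂ)
    (E : Subgroup ℂˣ) (hc : CoefOK φ E r)
    (C : Fin n → (Mat r ℂ)ˣ) (hE : ∀ j, EigIn E (C j : Mat r ℂ))
    (hsc : ∀ j, ∃ μ : ℂ, (C j : Mat r ℂ) = μ • (1 : Mat r ℂ))
    (x : FU 1 n →* (Mat r ℂ)ˣ)
    (hx : x ∈ YG ({relatorU 1 n} : Set (FreeGroup ((Fin 1 × Bool) ⊕ Fin n))) C)
    (hirr : ∀ M : Mat r ℂ, (∀ w, Commute M (x w : Mat r ℂ)) → ∃ c : ℂ, M = c • (1 : Mat r ℂ))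
    (f : MvPolynomial (((Fin 1 × Bool) ⊕ Fin n) × Fin r × Fin r) ℂ)
    (hf : ∀ y ∈ DGT ({relatorU 1 n} : Set (FreeGroup ((Fin 1 × Bool) ⊕ Fin n))) φ C,
      evalG y f = 0) : evalG x f = 0 := by
  obtain ⟨hx1, hx2, hx3⟩ := hx
  have hadj := adjoin_top_of_irr x hx3 hirr
  have hxrel : x (relatorU 1 n) = 1 := hx1 _ rfl
  obtain ⟨n', rfl⟩ : ∃ n', r = n' + 1 := ⟨r - 1, by omega⟩
  obtain ⟨a, ha⟩ : ∃ a : Mat (n' + 1) ℂ, a = mt x (Sum.inr false) := ⟨_, rfl⟩
  obtain ⟨b, hb⟩ : ∃ b : Mat (n' + 1) ℂ, b = mt x (Sum.inr true) := ⟨_, rfl⟩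
  -- the boundary generators are scalar
  choose μ hμ using hsc
  have hμE : ∀ j, ∃ e ∈ E, (e : ℂ) = μ j := by
    intro j
    refine hE j (μ j) ?_
    rw [Polynomial.IsRoot.def, Matrix.eval_charpoly, hμ, Matrix.smul_one_eq_diagonal,
      Matrix.scalar_apply, sub_self, det_zero]
  choose e heE he using hμE
  have hcj : ∀ j, mt x (Sum.inl j) = algebraMap ℂ (Mat (n' + 1) ℂ) (e j : ℂ) := by
    intro j
    obtain ⟨u, hu⟩ := isConj_iff.1 (hx2 j)
    rw [mt_inl, ← hu, Units.val_mul, Units.val_mul, hμ, mul_smul_comm, mul_one, smul_mul_assoc,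
      ← Units.val_mul, mul_inv_cancel, Units.val_one, he, Algebra.algebraMap_eq_smul_one]
  obtain ⟨L, hL⟩ : ∃ L : ℂˣ, L = (∏ j, e j)⁻¹ := ⟨_, rfl⟩
  have hLE : L ∈ E := by
    rw [hL]
    exact E.inv_mem (E.prod_mem fun j _ => heE j)
  have haU : IsUnit a.det := by
    rw [ha, mt_inr]
    exact Matrix.isUnits_det_units _
  have hbU : IsUnit b.det := by
    rw [hb, mt_inr]
    exact Matrix.isUnits_det_units _
  have hab : a * b = (L : ℂ) • (b * a) := by
    have h1 := (relU1_iff x).1 hxrel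
    rw [← ha, ← hb] at h1
    have h2 : ((List.finRange n).map fun j => mt x (Sum.inl j)).prod =
        algebraMap ℂ (Mat (n' + 1) ℂ) ((∏ j, e j : ℂˣ) : ℂ) := by
      rw [Fin.prod_univ_def, ← Units.coeHom_apply, map_list_prod, map_list_prod, List.map_map,
        List.map_map]
      congr 1
      exact List.map_congr_left fun j _ => hcj j
    rw [h2, Algebra.algebraMap_eq_smul_one, smul_mul_assoc, one_mul] at h1
    have h3 : a * b * a⁻¹ * b⁻¹ = (L : ℂ) • (1 : Mat (n' + 1) ℂ) := by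
      rw [hL, ← h1, smul_smul, ← Units.val_mul, inv_mul_cancel, Units.val_one, one_smul]
    calc a * b = a * b * a⁻¹ * b⁻¹ * (b * a) := by
          rw [mul_assoc (a * b * a⁻¹), ← mul_assoc b⁻¹, nonsing_inv_mul b hbU, one_mul,
            mul_assoc, nonsing_inv_mul a haU, mul_one]
      _ = _ := by rw [h3, smul_mul_assoc, one_mul]
  have hLr : (L : ℂ) ^ (n' + 1) = 1 := by
    have h1 := congrArg Matrix.det hab
    rw [det_smul, det_mul, det_mul, Fintype.card_fin, mul_comm b.det] at h1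
    have h2 : a.det * b.det ≠ 0 := mul_ne_zero haU.ne_zero hbU.ne_zero
    exact (mul_right_cancel₀ h2 ((one_mul _).trans h1)).symm
  have hadj' := (adjoin_iff1 x).1 hadj
  obtain ⟨g, α, β, hg, hα, hβ, h1, h2⟩ := heis_form hLr hab haU hbU
    (fun M hMa hMb => by
      have h3 : ∀ N ∈ Algebra.adjoin ℂ (Set.range (mt x)), Commute M N := by
        intro N hN
        induction hN using Algebra.adjoin_induction with
        | mem y hy =>
          obtain ⟨j | s, rfl⟩ := hy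
          · rw [hcj]
            exact (Algebra.commutes _ _).symm
          · cases s
            · rwa [← ha]
            · rwa [← hb]
        | algebraMap c => exact (Algebra.commutes _ _).symm
        | add y z _ _ hy hz => exact hy.add_right hz
        | mul y z _ _ hy hz => exact hy.mul_right hz
      refine hirr M fun w => h3 _ ?_
      rw [hadj']
      exact Algebra.mem_top)
    (fun W hWa hWb => by
      refine eq_bot_or_top_of_adjoin (mt x) hadj' W ?_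
      rintro (j | s) v hv
      · rw [hcj, Algebra.algebraMap_eq_smul_one, smul_mulVec, one_mulVec]
        exact W.smul_mem _ hv
      · cases s
        · rw [← ha]
          exact hWa v hv
        · rw [← hb]
          exact hWb v hv)
  -- the integral representation
  obtain ⟨gu, hgu⟩ := (Matrix.isUnit_iff_isUnit_det g).2 hg
  have h3 : ∀ (M N : Mat (n' + 1) ℂ), M * g = g * N → ((gu⁻¹ : (Mat (n' + 1) ℂ)ˣ) : Mat (n' + 1) ℂ) *
      M * (gu : Mat (n' + 1) ℂ) = N := by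
    intro M N h
    rw [mul_assoc, hgu, h, ← hgu, ← mul_assoc, ← Units.val_mul, inv_mul_cancel, Units.val_one,
      one_mul]
  refine upgrade x hadj {y | y (relatorU 1 n) = 1 ∧
    (∀ j, IsConj (C j) (y (FreeGroup.of (Sum.inr j)))) ∧
    ∀ k, y (FreeGroup.of k) ∈ GR (n' + 1) φ} ?_ f ?_
  · intro f' hf'
    have h4 : x = conjH gu (conjH gu⁻¹ x) := by
      apply MonoidHom.ext
      intro w
      rw [conjH_apply, conjH_apply]
      simp only [mul_assoc, inv_inv, mul_inv_cancel_left, mul_inv_cancel, mul_one]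
    rw [h4]
    refine conj_vanish_gen {y | y (relatorU 1 n) = 1 ∧
      (∀ j, IsConj (C j) (y (FreeGroup.of (Sum.inr j)))) ∧
      ∀ k, y (FreeGroup.of k) ∈ GR (n' + 1) φ} ?_ f' hf' _ ⟨?_, fun j => ?_, fun k => ?_⟩ gu
    · rintro z ⟨hz1, hz2, hz3⟩ X
      refine ⟨?_, fun j => ?_, fun k => ?_⟩
      · rw [conjH_apply, hz1, mul_one, mul_inv_cancel]
      · refine (hz2 j).trans ?_
        rw [isConj_iff]
        exact ⟨slU (Int.castRingHom ℂ) X, (conjH_apply _ _ _).symm⟩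
      · rw [conjH_apply]
        exact (GR (n' + 1) φ).mul_mem ((GR (n' + 1) φ).mul_mem (slU_int_mem_GR φ X) (hz3 k))
          ((GR (n' + 1) φ).inv_mem (slU_int_mem_GR φ X))
    · rw [conjH_apply, hxrel, mul_one, mul_inv_cancel]
    · refine (hx2 j).trans ?_
      rw [isConj_iff]
      exact ⟨gu⁻¹, (conjH_apply _ _ _).symm⟩
    · have h5 : (conjH gu⁻¹ x (FreeGroup.of k) : Mat (n' + 1) ℂ) =
          ((gu⁻¹ : (Mat (n' + 1) ℂ)ˣ) : Mat (n' + 1) ℂ) * (x (FreeGroup.of k) : Mat (n' + 1) ℂ) *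
            (gu : Mat (n' + 1) ℂ) := by
        rw [conjH_apply, inv_inv, Units.val_mul, Units.val_mul]
      rcases k with ⟨k, s⟩ | j
      · have hk : k = 0 := Subsingleton.elim _ _
        subst hk
        cases s
        · refine heis_mem_GR hc hLE hα _ ?_
          rw [h5]
          exact h3 _ _ (by rw [← mt_inr x false, ← ha]; exact h1)
        · refine shift_mem_GR hc (Equiv.addLeft (1 : Fin (n' + 1))).symm hβ _ ?_
          rw [h5]
          exact h3 _ _ (by rw [← mt_inr x true, ← hb]; exact h2)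
      · refine ⟨e j, 1, ?_⟩
        ext1
        rw [h5, ← mt_inl, hcj, map_one, mul_one, ← Algebra.commutes, mul_assoc, ← Units.val_mul,
          inv_mul_cancel, Units.val_one, mul_one]
        rfl
  · rintro y ⟨hy1, hy2, hy3⟩ hy4
    refine hf y ⟨⟨⟨?_, hy2, ss_of_adjoin y hy4⟩, hy3⟩, hy4⟩
    rintro w rfl
    exact hy1

end Vale.Agent.P002R
end

section

/-!
# Irreducible representations of a punctured sphere: the number of pseudo-reflections
-/

namespace Vale.Agent.P002R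

open Matrix

theorem RO.conj {r : ℕ} {X Y : (Mat r ℂ)ˣ} (h : IsConj X Y) (hX : RO r (X : Mat r ℂ)) :
    RO r (Y : Mat r ℂ) := by
  obtain ⟨U, rfl⟩ := isConj_iff.mp h
  refine hX.of_surj (Matrix.mulVecLin (U : Mat r ℂ)) ?_ fun x => ?_
  · intro y
    refine ⟨((U⁻¹ : (Mat r ℂ)ˣ) : Mat r ℂ) *ᵥ y, ?_⟩
    rw [Matrix.mulVecLin_apply, mulVec_mulVec, Units.mul_inv, one_mulVec]
  · rw [Matrix.mulVecLin_apply, Matrix.mulVecLin_apply, Units.val_mul, Units.val_mul,
      mulVec_mulVec, mulVec_mulVec, Matrix.mul_assoc, Units.inv_mul, Matrix.mul_one]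

theorem conj_scalar' {r : ℕ} {X Y : (Mat r ℂ)ˣ} (h : IsConj X Y) {c : ℂ}
    (hX : (X : Mat r ℂ) = c • (1 : Mat r ℂ)) : (Y : Mat r ℂ) = c • (1 : Mat r ℂ) := by
  obtain ⟨U, rfl⟩ := isConj_iff.mp h
  rw [Units.val_mul, Units.val_mul, hX, Matrix.mul_smul, Matrix.smul_mul, Matrix.mul_one,
    Units.mul_inv]

/-- If all classes but one are scalar plus rank one, then at least `r` of them are not scalar. -/
theorem exists_refl_set {n r : ℕ} (hr : 2 ≤ r) (C : Fin n → (Mat r ℂ)ˣ) (j₀ : Fin n)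
    (hRO : ∀ j, j ≠ j₀ → RO r (C j : Mat r ℂ)) (x : FU 0 n →* (Mat r ℂ)ˣ)
    (hx1 : x (relatorU 0 n) = 1)
    (hx2 : ∀ j, IsConj (C j) (x (FreeGroup.of (Sum.inr j))))
    (hadj : Algebra.adjoin ℂ (Set.range fun w => (x w : Mat r ℂ)) = ⊤) :
    ∃ S : Finset (Fin n), r ≤ S.card ∧ j₀ ∉ S ∧
      ∀ j ∈ S, RO r (C j : Mat r ℂ) ∧ ∀ c : ℂ, (C j : Mat r ℂ) ≠ c • (1 : Mat r ℂ) := by
  classical
  obtain ⟨S, hS⟩ : ∃ S : Finset (Fin n), ∀ j, j ∈ S ↔ j ≠ j₀ ∧
      ∀ c : ℂ, (C j : Mat r ℂ) ≠ c • (1 : Mat r ℂ) :=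
    ⟨Finset.univ.filter fun j => j ≠ j₀ ∧ ∀ c : ℂ, (C j : Mat r ℂ) ≠ c • (1 : Mat r ℂ),
      fun j => by rw [Finset.mem_filter]; simp⟩
  refine ⟨S, ?_, fun h => ((hS j₀).1 h).1 rfl, fun j hj => ⟨hRO j ((hS j).1 hj).1, ((hS j).1 hj).2⟩⟩
  by_contra hlt
  push Not at hlt
  have h1 : ∀ j : S, ∃ z : ℂ, ((x (FreeGroup.of (Sum.inr (j : Fin n))) : Mat r ℂ) -
      z • (1 : Mat r ℂ)).rank ≤ 1 := fun j => (hRO j ((hS j).1 j.2).1).conj (hx2 j)
  choose z hz using h1
  obtain ⟨A, hA⟩ : ∃ A : S → Mat r ℂ, ∀ j, A j = (x (FreeGroup.of (Sum.inr (j : Fin n))) : Mat r ℂ) -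
      z j • (1 : Mat r ℂ) := ⟨_, fun _ => rfl⟩
  obtain ⟨w₀, hw₀, hw₁⟩ : ∃ w₀ : Fin r → ℂ, w₀ ≠ 0 ∧ ∀ j, A j *ᵥ w₀ = 0 := by
    have h2 : Module.finrank ℂ ((j : S) → LinearMap.range (A j).mulVecLin) <
        Module.finrank ℂ (Fin r → ℂ) := by
      rw [Module.finrank_pi_fintype, Module.finrank_fin_fun]
      refine lt_of_le_of_lt (Finset.sum_le_card_nsmul _ _ 1 fun j _ => ?_) ?_
      · rw [hA]
        exact hz j
      · rw [Finset.card_univ, Fintype.card_coe, smul_eq_mul, mul_one]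
        exact hlt
    have h3 := LinearMap.ker_ne_bot_of_finrank_lt
      (f := LinearMap.pi fun j : S => (A j).mulVecLin.rangeRestrict) h2
    obtain ⟨w₀, hw, hw0⟩ := (Submodule.ne_bot_iff _).1 h3
    refine ⟨w₀, hw0, fun j => ?_⟩
    have h4 := congrFun (LinearMap.mem_ker.1 hw) j
    exact congrArg Subtype.val h4
  obtain ⟨H, hH⟩ : ∃ H : Subgroup (FU 0 n), ∀ w, w ∈ H ↔
      ∃ c : ℂ, ((x w : (Mat r ℂ)ˣ) : Mat r ℂ) *ᵥ w₀ = c • w₀ := by
    refine ⟨{ carrier := {w | ∃ c : ℂ, ((x w : (Mat r ℂ)ˣ) : Mat r ℂ) *ᵥ w₀ = c • w₀},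
              mul_mem' := ?_, one_mem' := ?_, inv_mem' := ?_ }, fun _ => Iff.rfl⟩
    · rintro a b ⟨c, hc⟩ ⟨d, hd⟩
      refine ⟨d * c, ?_⟩
      rw [map_mul, Units.val_mul, ← Matrix.mulVec_mulVec, hd, Matrix.mulVec_smul, hc, smul_smul]
    · exact ⟨1, by rw [map_one, Units.val_one, Matrix.one_mulVec, one_smul]⟩
    · rintro a ⟨c, hc⟩
      have h5 : w₀ = c • (((x a)⁻¹ : (Mat r ℂ)ˣ) : Mat r ℂ) *ᵥ w₀ := by
        rw [← Matrix.mulVec_smul, ← hc, Matrix.mulVec_mulVec, Units.inv_mul, Matrix.one_mulVec]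
      have hc0 : c ≠ 0 := by
        rintro rfl
        rw [zero_smul] at h5
        exact hw₀ h5
      refine ⟨c⁻¹, ?_⟩
      rw [map_inv]
      conv_rhs => rw [h5]
      rw [smul_smul, inv_mul_cancel₀ hc0, one_smul]
  have hgen : ∀ j, j ≠ j₀ → (FreeGroup.of (Sum.inr j) : FU 0 n) ∈ H := by
    intro j hj
    rw [hH]
    by_cases hjS : j ∈ S
    · refine ⟨z ⟨j, hjS⟩, ?_⟩
      have h6 := hw₁ ⟨j, hjS⟩
      rw [hA, Matrix.sub_mulVec, Matrix.smul_mulVec, Matrix.one_mulVec, sub_eq_zero] at h6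
      exact h6
    · rw [hS] at hjS
      push Not at hjS
      obtain ⟨c, hc⟩ := hjS hj
      refine ⟨c, ?_⟩
      rw [conj_scalar' (hx2 j) hc, Matrix.smul_mulVec, Matrix.one_mulVec]
  have hgen₀ : (FreeGroup.of (Sum.inr j₀) : FU 0 n) ∈ H := by
    obtain ⟨s, t, hst⟩ := List.append_of_mem (List.mem_finRange j₀)
    have hnd := List.nodup_finRange n
    rw [hst, List.nodup_middle, List.nodup_cons] at hnd
    have h7 : x ((s.map fun j => (FreeGroup.of (Sum.inr j) : FU 0 n)).prod *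
        (FreeGroup.of (Sum.inr j₀) * (t.map fun j => (FreeGroup.of (Sum.inr j) : FU 0 n)).prod)) =
        1 := by
      rw [← hx1, relatorU_relL, relL, hst, List.map_append, List.prod_append, List.map_cons,
        List.prod_cons, comW]
      simp
    have hs : (s.map fun j => (FreeGroup.of (Sum.inr j) : FU 0 n)).prod ∈ H := by
      refine Subgroup.list_prod_mem _ fun w hw => ?_
      obtain ⟨j, hj, rfl⟩ := List.mem_map.1 hw
      refine hgen j ?_
      rintro rfl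
      exact hnd.1 (List.mem_append_left _ hj)
    have ht : (t.map fun j => (FreeGroup.of (Sum.inr j) : FU 0 n)).prod ∈ H := by
      refine Subgroup.list_prod_mem _ fun w hw => ?_
      obtain ⟨j, hj, rfl⟩ := List.mem_map.1 hw
      refine hgen j ?_
      rintro rfl
      exact hnd.1 (List.mem_append_right _ hj)
    obtain ⟨c, hc⟩ := (hH _).1 (H.mul_mem (H.inv_mem hs) (H.inv_mem ht))
    refine (hH _).2 ⟨c, ?_⟩
    have h8 : x (FreeGroup.of (Sum.inr j₀)) = x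
        ((s.map fun j => (FreeGroup.of (Sum.inr j) : FU 0 n)).prod⁻¹ *
          (t.map fun j => (FreeGroup.of (Sum.inr j) : FU 0 n)).prod⁻¹) := by
      rw [map_mul, map_mul] at h7
      rw [map_mul, map_inv, map_inv]
      exact eq_mul_inv_of_mul_eq (eq_inv_of_mul_eq_one_right h7)
    rw [h8]
    exact hc
  have hall : ∀ w : FU 0 n, w ∈ H := by
    intro w
    induction w using FreeGroup.induction_on with
    | C1 => exact H.one_mem
    | of k =>
      rcases k with k | j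
      · exact k.1.elim0
      · by_cases hj : j = j₀
        · rw [hj]; exact hgen₀
        · exact hgen j hj
    | inv_of k ih => exact H.inv_mem ih
    | mul a b ha hb => exact H.mul_mem ha hb
  rcases eq_bot_or_top_of_adjoin (fun w => (x w : Mat r ℂ)) hadj (Submodule.span ℂ {w₀})
    (fun w v hv => by
      obtain ⟨c, rfl⟩ := Submodule.mem_span_singleton.1 hv
      obtain ⟨d, hd⟩ := (hH w).1 (hall w)
      rw [Matrix.mulVec_smul, hd]
      exact Submodule.smul_mem _ _ (Submodule.smul_mem _ _ (Submodule.mem_span_singleton_self _)))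
    with h | h
  · exact hw₀ (Submodule.span_singleton_eq_bot.1 h)
  · have h9 := finrank_span_singleton (K := ℂ) hw₀
    rw [h, finrank_top, Module.finrank_fin_fun] at h9
    omega

end Vale.Agent.P002R
end

section

/-!
# Two regular classes in genus zero, all classes in genus one: definitions
-/

namespace Vale.Agent.P002R

open Matrix

/-- The main theorem in genus zero: irreducible representations of a sphere with `m + 3`
punctures, the classes of the first and of the last puncture have cyclic vectors. -/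
def G02Irr : Prop :=
  ∀ {m r : ℕ}, 0 < r → ∀ {R : Type} [CommRing R] (φ : R →+* ℂ) (E : Subgroup ℂˣ),
    CoefOK φ E r → (∀ (u : Rˣ) (D : R), D ≠ 0 → ∃ M : ℕ, 0 < M ∧ D ∣ (u : R) ^ M - 1) →
    ∀ C : Fin (m + 3) → (Mat r ℂ)ˣ, (∀ j, EigIn E (C j : Mat r ℂ)) →
    HasCyc r (C 0 : Mat r ℂ) → HasCyc r (C (Fin.last (m + 2)) : Mat r ℂ) →
    ∀ x ∈ YG ({relatorU 0 (m + 3)} : Set (FreeGroup ((Fin 0 × Bool) ⊕ Fin (m + 3)))) C,
    (∀ M : Mat r ℂ, (∀ w, Commute M (x w : Mat r ℂ)) → ∃ c : ℂ, M = c • (1 : Mat r ℂ)) →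
    ∀ f : MvPolynomial (((Fin 0 × Bool) ⊕ Fin (m + 3)) × Fin r × Fin r) ℂ,
    (∀ y ∈ DGT ({relatorU 0 (m + 3)} : Set (FreeGroup ((Fin 0 × Bool) ⊕ Fin (m + 3)))) φ C,
      evalG y f = 0) → evalG x f = 0

/-- Representations of a torus with `n` punctures in prescribed classes which are integral up to
scalars. -/
def DTor {n r : ℕ} {R : Type} [CommRing R] (φ : R →+* ℂ) (C : Fin n → (Mat r ℂ)ˣ) :
    Set (FU 1 n →* (Mat r ℂ)ˣ) :=
  {y | y (relatorU 1 n) = 1 ∧ (∀ j, IsConj (C j) (y (FreeGroup.of (Sum.inr j)))) ∧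
    ∀ k, y (FreeGroup.of k) ∈ GR r φ}

end Vale.Agent.P002R
end

section

/-!
# Irreducible representations of punctured spheres: the cases
-/

namespace Vale.Agent.P002R

open Matrix Vale.Agent.P002L

theorem CoefOK.le_mono {R : Type*} [CommRing R] {φ : R →+* ℂ} {E : Subgroup ℂˣ} {r r' : ℕ}
    (hc : CoefOK φ E r) (h : r' ≤ r) : CoefOK φ E r' :=
  ⟨hc.inj, hc.neg, fun k hk hk' => hc.root k hk (hk'.trans h), hc.unit⟩

theorem g02_of_g01 (h : G01Irr) : G02Irr := by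
  intro m r hr R _ φ E hc _ C hE h0 _ x hx hirr f hf
  exact h (m := m + 2) hr φ E hc C hE h0 x hx hirr f hf

/-- One regular class, at an arbitrary place. -/
theorem g01_any (h : G01Irr) {n r : ℕ} (hr : 0 < r) {R : Type} [CommRing R] (φ : R →+* ℂ)
    (E : Subgroup ℂˣ) (hc : CoefOK φ E r) (C : Fin n → (Mat r ℂ)ˣ)
    (hE : ∀ j, EigIn E (C j : Mat r ℂ)) (j₀ : Fin n) (hj₀ : HasCyc r (C j₀ : Mat r ℂ))
    (x : FreeGroup ((Fin 0 × Bool) ⊕ Fin n) →* (Mat r ℂ)ˣ)
    (hx : x ∈ YG ({relatorU 0 n} : Set (FreeGroup ((Fin 0 × Bool) ⊕ Fin n))) C)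
    (hirr : ∀ M : Mat r ℂ, (∀ w, Commute M (x w : Mat r ℂ)) → ∃ c : ℂ, M = c • (1 : Mat r ℂ))
    (f : MvPolynomial (((Fin 0 × Bool) ⊕ Fin n) × Fin r × Fin r) ℂ)
    (hf : ∀ y ∈ DGT ({relatorU 0 n} : Set (FreeGroup ((Fin 0 × Bool) ⊕ Fin n))) φ C,
      evalG y f = 0) : evalG x f = 0 := by
  obtain ⟨m, rfl⟩ : ∃ m, n = m + 1 := ⟨n - 1, by have := j₀.2; omega⟩
  have key : IrrDenseQ (fun j r' M => EigIn E M ∧ (j = j₀ → HasCyc r' M))
      ({relatorU 0 (m + 1)} : Set (FreeGroup ((Fin 0 × Bool) ⊕ Fin (m + 1)))) φ r := by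
    refine irrDenseQ_reorder (Equiv.swap 0 j₀) fun C hC x hx hirr f hf => ?_
    exact h hr φ E hc C (fun j => (hC j).1) ((hC 0).2 (Equiv.swap_apply_left _ _)) x hx hirr f hf
  exact key C (fun j => ⟨hE j, fun hj => by rw [hj]; exact hj₀⟩) x hx hirr f hf

/-- A permutation which moves the last places into a given set. -/
theorem exists_perm_last {m r : ℕ} (S : Finset (Fin (m + r))) (hS : S.card = r) :
    ∃ e : Equiv.Perm (Fin (m + r)), ∀ j : Fin r, e (Fin.natAdd m j) ∈ S := by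
  classical
  have h1 : Fintype.card {i : Fin (m + r) // m ≤ (i : ℕ)} = r := by
    have h2 : Fintype.card {i : Fin (m + r) // m ≤ (i : ℕ)} = Fintype.card (Fin r) := by
      refine Fintype.card_congr ⟨fun i => ⟨i.1 - m, by have := i.1.2; have := i.2; omega⟩,
        fun j => ⟨Fin.natAdd m j, by simp⟩, fun i => ?_, fun j => ?_⟩
      · have := i.2
        ext
        simp only [Fin.natAdd_mk]
        omega
      · ext
        simp
    rw [h2, Fintype.card_fin]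
  have h3 : Fintype.card {i : Fin (m + r) // m ≤ (i : ℕ)} = Fintype.card {i // i ∈ S} := by
    rw [h1, Fintype.card_coe, hS]
  refine ⟨(Fintype.equivOfCardEq h3).extendSubtype, fun j => ?_⟩
  exact (Fintype.equivOfCardEq h3).extendSubtype_mem _ (by simp)

/-- Enough classes of the form scalar plus rank one. -/
theorem g0R_any (h : G0R) {n r : ℕ} (hr : 0 < r) {R : Type} [CommRing R] (φ : R →+* ℂ)
    (E : Subgroup ℂˣ) (hc : CoefOK φ E r)
    (hUP : ∀ (u : Rˣ) (D : R), D ≠ 0 → ∃ M : ℕ, 0 < M ∧ D ∣ (u : R) ^ M - 1)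
    (C : Fin n → (Mat r ℂ)ˣ)
    (hE : ∀ j, EigIn E (C j : Mat r ℂ)) (j₀ : Fin n) (S : Finset (Fin n)) (hS : r ≤ S.card)
    (hj₀ : j₀ ∉ S) (hRO : ∀ j ∈ S, RO r (C j : Mat r ℂ) ∧ ∀ c : ℂ, (C j : Mat r ℂ) ≠ c • (1 : Mat r ℂ))
    (x : FreeGroup ((Fin 0 × Bool) ⊕ Fin n) →* (Mat r ℂ)ˣ)
    (hx : x ∈ YG ({relatorU 0 n} : Set (FreeGroup ((Fin 0 × Bool) ⊕ Fin n))) C)
    (hirr : ∀ M : Mat r ℂ, (∀ w, Commute M (x w : Mat r ℂ)) → ∃ c : ℂ, M = c • (1 : Mat r ℂ))
    (f : MvPolynomial (((Fin 0 × Bool) ⊕ Fin n) × Fin r × Fin r) ℂ)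
    (hf : ∀ y ∈ DGT ({relatorU 0 n} : Set (FreeGroup ((Fin 0 × Bool) ⊕ Fin n))) φ C,
      evalG y f = 0) : evalG x f = 0 := by
  obtain ⟨S', hS', hcard⟩ := Finset.exists_subset_card_eq hS
  have hn : r + 1 ≤ n := by
    have h1 : (insert j₀ S').card ≤ n := by
      have := Finset.card_le_univ (insert j₀ S')
      rwa [Fintype.card_fin] at this
    rw [Finset.card_insert_of_notMem fun h => hj₀ (hS' h), hcard] at h1
    exact h1
  obtain ⟨m, rfl⟩ : ∃ m, n = m + 1 + r := ⟨n - 1 - r, by omega⟩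
  obtain ⟨e, he⟩ := exists_perm_last S' hcard
  have key : IrrDenseQ (fun j r' M => EigIn E M ∧
      (j ∈ S' → RO r' M ∧ ∀ c : ℂ, M ≠ c • (1 : Mat r' ℂ)))
      ({relatorU 0 (m + 1 + r)} : Set (FreeGroup ((Fin 0 × Bool) ⊕ Fin (m + 1 + r)))) φ r := by
    refine irrDenseQ_reorder e fun C hC x hx hirr f hf => ?_
    exact h hr φ E hc hUP C (fun j => (hC j).1) (fun j => (hC _).2 (he j)) x hx hirr f hf
  exact key C (fun j => ⟨hE j, fun hj => hRO j (hS' hj)⟩) x hx hirr f hf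

/-- Punctured spheres: all cases. -/
theorem g0_cases (h01 : G01Irr) (hR : G0R) {n r : ℕ} (hn : 0 < n) (hr : 0 < r) {R : Type}
    [CommRing R] (φ : R →+* ℂ) (E : Subgroup ℂˣ) (hc : CoefOK φ E r)
    (hUP : ∀ (u : Rˣ) (D : R), D ≠ 0 → ∃ M : ℕ, 0 < M ∧ D ∣ (u : R) ^ M - 1)
    (C : Fin n → (Mat r ℂ)ˣ) (hE : ∀ j, EigIn E (C j : Mat r ℂ))
    (hcond : r ≤ 3 ∨ (∃ j, HasCyc r (C j : Mat r ℂ)) ∨ ∃ j₀, ∀ j, j ≠ j₀ → RO r (C j : Mat r ℂ))
    (x : FreeGroup ((Fin 0 × Bool) ⊕ Fin n) →* (Mat r ℂ)ˣ)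
    (hx : x ∈ YG ({relatorU 0 n} : Set (FreeGroup ((Fin 0 × Bool) ⊕ Fin n))) C)
    (hirr : ∀ M : Mat r ℂ, (∀ w, Commute M (x w : Mat r ℂ)) → ∃ c : ℂ, M = c • (1 : Mat r ℂ))
    (f : MvPolynomial (((Fin 0 × Bool) ⊕ Fin n) × Fin r × Fin r) ℂ)
    (hf : ∀ y ∈ DGT ({relatorU 0 n} : Set (FreeGroup ((Fin 0 × Bool) ⊕ Fin n))) φ C,
      evalG y f = 0) : evalG x f = 0 := by
  by_cases hcyc : ∃ j, HasCyc r (C j : Mat r ℂ)
  · obtain ⟨j, hj⟩ := hcyc
    exact g01_any h01 hr φ E hc C hE j hj x hx hirr f hf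
  have hcond' : ∃ j₀, ∀ j, j ≠ j₀ → RO r (C j : Mat r ℂ) := by
    rcases hcond with h | h | h
    · exact ⟨⟨0, hn⟩, fun j _ => ro_of_not_hasCyc h fun h' => hcyc ⟨j, h'⟩⟩
    · exact absurd h hcyc
    · exact h
  obtain ⟨j₀, hj₀⟩ := hcond'
  have hr2 : 2 ≤ r := by
    by_contra hlt
    have hr1 : r = 1 := by omega
    subst hr1
    refine hcyc ⟨⟨0, hn⟩, fun _ => 1, fun W hW _ => ?_⟩
    rw [Submodule.eq_top_iff']
    intro y
    have h1 : y = y 0 • (fun _ => 1 : Fin 1 → ℂ) := by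
      ext i
      rw [Subsingleton.elim i 0]
      simp
    rw [h1]
    exact W.smul_mem _ hW
  obtain ⟨hx1, hx2, hx3⟩ := id hx
  have hadj := adjoin_top_of_irr x hx3 hirr
  obtain ⟨S, hS, hjS, hSR⟩ := exists_refl_set hr2 C j₀ hj₀ x (hx1 _ rfl) hx2 hadj
  exact g0R_any hR hr φ E hc hUP C hE j₀ S hS hjS hSR x hx hirr f hf

end Vale.Agent.P002R
end

section

/-!
# P002, genus 1: the tuples of the chart
-/

namespace Vale.Agent.P002R

open Matrix

variable {r m : ℕ}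

theorem ctup_congr_kap {S : Type*} [CommRing S] {m : ℕ} {t t' : Fin r → S} {κ κ' : ℕ → S}
    {Y : ℕ → Mat r S} (hκ : ∀ l < m, κ l = κ' l) (j : ℕ) (hj : j ≤ m) :
    ctup m t t' κ Y j = ctup m t t' κ' Y j := by
  unfold ctup
  split_ifs with h1
  · rfl
  · rw [hκ (j - 1) (by omega)]

/-- The matrix `a'⁻¹`. -/
def Amat {S : Type*} [CommRing S] (m : ℕ) (t' : Fin r → S) (Y : ℕ → Mat r S) : Mat r S :=
  diagonal t' * Lc Y (m + 1)

theorem Amat_map {S T : Type*} [CommRing S] [CommRing T] (φ : S →+* T) (m : ℕ) (t' : Fin r → S)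
    (Y : ℕ → Mat r S) :
    (Amat m t' Y).map φ = Amat m (fun i => φ (t' i)) fun k => (Y k).map φ := by
  rw [Amat, Matrix.map_mul, Lc_map, Matrix.diagonal_map (map_zero φ), Amat]

theorem Amat_loT {S : Type*} [CommRing S] (m : ℕ) (t' : Fin r → S) (Y : ℕ → Mat r S) :
    LoT (Amat m t' Y) := (loT_diagonal t').mul (loT_Lc Y (m + 1))

theorem Amat_diag {S : Type*} [CommRing S] (m : ℕ) (t' : Fin r → S) (Y : ℕ → Mat r S)
    (i : Fin r) : Amat m t' Y i i = t' i * ∏ l ∈ Finset.range (m + 1), Y l i i := by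
  rw [Amat, (loT_diagonal t').mul_diag (loT_Lc Y (m + 1)), Matrix.diagonal_apply_eq, Lc_diag]

theorem Amat_mul_ctup (t t' : Fin r → ℂ) (κ : ℕ → ℂ) (Y : ℕ → Mat r ℂ)
    (hκ : κ (m + 1) * (Lc Y (m + 1)).det = 1) (ht : ∀ i, t' i * t i = 1) :
    Amat m t' Y * ctup (m + 1) t t' κ Y (m + 2) = 1 := by
  rw [Amat, ctup_last, mul_assoc, mul_smul_comm, ← mul_assoc (Lc Y (m + 1)), Matrix.mul_adjugate,
    smul_mul_assoc, smul_smul, hκ, one_smul, one_mul, Matrix.diagonal_mul_diagonal]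
  rw [← Matrix.diagonal_one]
  congr 1
  funext i
  exact ht i

/-- The matrix `b`. -/
noncomputable def Bmat (m : ℕ) (t' : Fin r → ℂ) (Y : ℕ → Mat r ℂ) (e y : Fin r → ℂ) : Mat r ℂ :=
  P002.kry (Amat m t' Y) y * (P002.kry (zZ (Y m)) e)⁻¹ * Lc Y m

theorem Bmat_mul (t t' : Fin r → ℂ) (κ : ℕ → ℂ) (Y : ℕ → Mat r ℂ) (e y : Fin r → ℂ)
    (hκ : κ m * (Lc Y m).det = 1)
    (hch : (zZ (Y m)).charpoly = ∏ i, (Polynomial.X - Polynomial.C
      (t' i * ∏ l ∈ Finset.range (m + 1), Y l i i)))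
    (hZ : IsUnit (P002.kry (zZ (Y m)) e)) :
    Bmat m t' Y e y * ctup (m + 1) t t' κ Y (m + 1) = Amat m t' Y * Bmat m t' Y e y := by
  obtain ⟨L, hL, hL'⟩ := ctup_mid_cjM (m + 1) t t' κ Y m (Nat.lt_succ_self m) hκ
  have hdet : IsUnit (P002.kry (zZ (Y m)) e).det := (Matrix.isUnit_iff_isUnit_det _).1 hZ
  have h1 : (P002.kry (Amat m t' Y) y * (P002.kry (zZ (Y m)) e)⁻¹) * zZ (Y m) =
      Amat m t' Y * (P002.kry (Amat m t' Y) y * (P002.kry (zZ (Y m)) e)⁻¹) := by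
    refine P002.krylov_comm (zZ (Y m)) (Amat m t' Y) e y ?_ _ ?_ hZ
    · rw [hch, charpoly_loT (Amat_loT m t' Y)]
      exact Finset.prod_congr rfl fun i _ => by rw [Amat_diag]
    · rw [mul_assoc, Matrix.nonsing_inv_mul _ hdet, mul_one]
  have h2 : Lc Y m * ctup (m + 1) t t' κ Y (m + 1) = zZ (Y m) * Lc Y m := by
    rw [hL', ← hL, mul_assoc, Units.inv_mul, mul_one]
  rw [Bmat, mul_assoc, h2, ← mul_assoc, h1, mul_assoc]

theorem isUnit_Bmat (t' : Fin r → ℂ) (κ : ℕ → ℂ) (Y : ℕ → Mat r ℂ) (e y : Fin r → ℂ)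
    (hκ : κ m * (Lc Y m).det = 1) (hA : IsUnit (P002.kry (Amat m t' Y) y))
    (hZ : IsUnit (P002.kry (zZ (Y m)) e)) : IsUnit (Bmat m t' Y e y) := by
  have hL : IsUnit (Lc Y m) := by
    rw [Matrix.isUnit_iff_isUnit_det, isUnit_iff_ne_zero]
    exact right_ne_zero_of_mul (by rw [hκ]; exact one_ne_zero)
  rw [Bmat]
  refine (hA.mul ?_).mul hL
  rw [Matrix.isUnit_iff_isUnit_det] at hZ ⊢
  exact Matrix.isUnit_nonsing_inv_det _ hZ

/-- Construction of representations in genus 1. -/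
theorem exists_hom1 (c : ℕ → Mat r ℂ) (A B : Mat r ℂ)
    (h : (List.ofFn fun j : Fin (m + 3) => c j).prod = 1) (hB : IsUnit B)
    (hBA : B * c (m + 1) = A * B) (hA : A * c (m + 2) = 1) :
    ∃ y : FU 1 (m + 1) →* (Mat r ℂ)ˣ, y (relatorU 1 (m + 1)) = 1 ∧
      (∀ j : Fin (m + 1), (y (FreeGroup.of (Sum.inr j)) : Mat r ℂ) = c j) ∧
      (y (FreeGroup.of (Sum.inl (0, false))) : Mat r ℂ) = c (m + 1) ∧
      (y (FreeGroup.of (Sum.inl (0, true))) : Mat r ℂ) = B := by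
  have hu : ∀ j : Fin (m + 3), ∃ u : (Mat r ℂ)ˣ, (u : Mat r ℂ) = c j :=
    fun j => isUnit_of_prod (m + 3) (fun j : Fin (m + 3) => c j) h j
  choose u hu using hu
  obtain ⟨b, hb⟩ := hB
  obtain ⟨a, ha⟩ : ∃ a : (Mat r ℂ)ˣ, (a : Mat r ℂ) = c (m + 1) := ⟨u ⟨m + 1, by omega⟩, hu _⟩
  obtain ⟨a', ha'⟩ : ∃ a' : (Mat r ℂ)ˣ, (a' : Mat r ℂ) = c (m + 2) := ⟨u ⟨m + 2, by omega⟩, hu _⟩
  have hA' : A = ((a'⁻¹ : (Mat r ℂ)ˣ) : Mat r ℂ) := by
    rw [← ha'] at hA
    exact Units.eq_inv_of_mul_eq_one_right hA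
  have hrel : b * a * b⁻¹ * a' = 1 := by
    apply Units.ext
    rw [Units.val_mul, Units.val_mul, Units.val_mul, hb, ha, hBA, hA', ← hb, mul_assoc _ (b : Mat r ℂ),
      Units.mul_inv, mul_one, Units.inv_mul, Units.val_one]
  have hrel' : b * a⁻¹ * b⁻¹ = a' := by
    have h2 : (b * a * b⁻¹)⁻¹ = a' := (eq_inv_of_mul_eq_one_right hrel).symm
    rw [← h2]
    group
  refine ⟨FreeGroup.lift (Sum.elim (fun k => if k.2 then b else a)
    fun j => u ⟨j, by omega⟩), ?_, fun j => ?_, ?_, ?_⟩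
  · rw [relatorU_eqn, map_mul, map_list_prod, map_list_prod, List.map_ofFn, List.map_ofFn]
    simp only [List.ofFn_succ, List.ofFn_zero, List.prod_cons, List.prod_nil, mul_one,
      Function.comp_apply, map_mul, map_inv, FreeGroup.lift_apply_of, Sum.elim_inl, Sum.elim_inr,
      Bool.false_eq_true, if_false, if_true]
    have h3 : (u ⟨0, by omega⟩ * (List.ofFn fun i : Fin m =>
        u ⟨((i.succ : Fin (m + 1)) : ℕ), by omega⟩).prod) * a * a' = 1 := by
      apply Units.ext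
      rw [List.ofFn_succ', List.concat_eq_append, List.prod_append, List.prod_singleton,
        List.ofFn_succ', List.concat_eq_append, List.prod_append, List.prod_singleton,
        List.ofFn_succ, List.prod_cons] at h
      rw [Units.val_one, ← h, Units.val_mul, Units.val_mul, Units.val_mul, ha, ha']
      have h4 : (((List.ofFn fun i : Fin m =>
          u ⟨((i.succ : Fin (m + 1)) : ℕ), by omega⟩).prod : (Mat r ℂ)ˣ) : Mat r ℂ) =
          (List.ofFn fun i : Fin m => c ((Fin.castSucc (Fin.castSucc i.succ) : Fin (m + 3)) : ℕ)).prod := by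
        rw [← Units.coeHom_apply, map_list_prod, List.map_ofFn]
        congr 2
        funext i
        exact hu _
      rw [h4, hu]
      rfl
    rw [← h3, ← hrel']
    simp only [Fin.val_zero]
    group
  · rw [FreeGroup.lift_apply_of, Sum.elim_inr]
    exact hu _
  · rw [FreeGroup.lift_apply_of, Sum.elim_inl]
    exact ha
  · rw [FreeGroup.lift_apply_of, Sum.elim_inl]
    exact hb

end Vale.Agent.P002R
end

section

/-!
# Roots of unity whose differences are units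
-/

namespace Vale.Agent.P002R

open Polynomial

/-- For a primitive root of unity `μ` whose order is a product of two different primes, `1 - μ` is
a unit. -/
theorem isIntegral_inv_one_sub {P Q : ℕ} (hP : P.Prime) (hQ : Q.Prime) (hPQ : P ≠ Q) (μ : ℂ)
    (hμ : IsPrimitiveRoot μ (P * Q)) : IsIntegral ℤ (1 - μ)⁻¹ := by
  have h0 : 0 < P * Q := Nat.mul_pos hP.pos hQ.pos
  have h1 : eval 1 (cyclotomic (P * Q) ℂ) = 1 := by
    refine eval_one_cyclotomic_not_prime_pow fun {p} hp k hk => ?_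
    have h2 : P ∣ p ^ k := hk ▸ Dvd.intro _ rfl
    have h3 : Q ∣ p ^ k := hk ▸ Dvd.intro_left _ rfl
    have h4 := (Nat.prime_dvd_prime_iff_eq hP hp).1 (hP.dvd_of_dvd_pow h2)
    have h5 := (Nat.prime_dvd_prime_iff_eq hQ hp).1 (hQ.dvd_of_dvd_pow h3)
    exact hPQ (h4.trans h5.symm)
  rw [cyclotomic_eq_prod_X_sub_primitiveRoots hμ, eval_prod] at h1
  have hmem : μ ∈ primitiveRoots (P * Q) ℂ := (mem_primitiveRoots h0).2 hμ
  rw [← Finset.mul_prod_erase _ _ hmem, eval_sub, eval_X, eval_C] at h1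
  rw [inv_eq_of_mul_eq_one_right h1]
  refine IsIntegral.prod _ fun ν hν => ?_
  rw [eval_sub, eval_X, eval_C]
  refine isIntegral_one.sub ?_
  exact ((mem_primitiveRoots h0).1 (Finset.mem_of_mem_erase hν)).isIntegral h0

theorem degree_le_of_mem {n : ℕ} (hn : 0 < n) (K : IntermediateField ℚ ℂ) [FiniteDimensional ℚ K]
    (μ : ℂ) (hμ : IsPrimitiveRoot μ n) (h : μ ∈ K) : n.totient ≤ Module.finrank ℚ K := by
  have h1 := minpoly.natDegree_le (A := ℚ) (⟨μ, h⟩ : K)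
  have h2 : minpoly ℚ (⟨μ, h⟩ : K) = minpoly ℚ μ := by
    rw [← minpoly.algebraMap_eq (algebraMap K ℂ).injective]
    rfl
  rwa [h2, ← cyclotomic_eq_minpoly_rat hμ hn, natDegree_cyclotomic] at h1

theorem sum_two_pow_lt {r : ℕ} (I : Finset (Fin r)) : ∑ i ∈ I, 2 ^ (i : ℕ) < 2 ^ r := by
  have h := Nat.geomSum_lt (m := 2) le_rfl (s := I.map Fin.valEmbedding) (n := r) (by
    intro k hk
    rw [Finset.mem_map] at hk
    obtain ⟨i, _, rfl⟩ := hk
    exact i.2)
  rwa [Finset.sum_map] at h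

theorem sum_two_pow_inj {r : ℕ} (I J : Finset (Fin r))
    (h : ∑ i ∈ I, 2 ^ (i : ℕ) = ∑ i ∈ J, 2 ^ (i : ℕ)) : I = J := by
  apply Finset.map_injective Fin.valEmbedding
  apply Finset.geomSum_injective (n := 2) le_rfl
  change ∑ i ∈ I.map Fin.valEmbedding, 2 ^ i = ∑ i ∈ J.map Fin.valEmbedding, 2 ^ i
  rw [Finset.sum_map, Finset.sum_map]
  exact h

/-- Exceptional units without multiplicative relations over a number field. -/
theorem exists_omega (r : ℕ) (K : IntermediateField ℚ ℂ) [FiniteDimensional ℚ K] :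
    ∃ ω : Fin r → ℂˣ, (∀ i, IsIntegral ℤ (ω i : ℂ) ∧ IsIntegral ℤ (ω i : ℂ)⁻¹) ∧
      (∀ i j, i ≠ j → (ω i : ℂ) ≠ ω j ∧ IsIntegral ℤ ((ω i : ℂ) - ω j)⁻¹) ∧
      ∀ (I J : Finset (Fin r)) (ε : ℂ), ε ∈ K → ∏ i ∈ I, (ω i : ℂ) = ε * ∏ j ∈ J, (ω j : ℂ) →
        I = J := by
  obtain ⟨N, hN⟩ : ∃ N, N = max (2 ^ r) (Module.finrank ℚ K + 2) := ⟨_, rfl⟩
  have hN1 : 2 ^ r ≤ N := hN ▸ le_max_left _ _
  have hN2 : Module.finrank ℚ K + 2 ≤ N := hN ▸ le_max_right _ _
  obtain ⟨P, hP1, hP⟩ := Nat.exists_infinite_primes (N + 1)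
  obtain ⟨Q, hQ1, hQ⟩ := Nat.exists_infinite_primes (P + 1)
  have hPQ : P ≠ Q := by omega
  have h0 : 0 < P * Q := Nat.mul_pos hP.pos hQ.pos
  obtain ⟨ζ, hζ⟩ : ∃ ζ : ℂ, IsPrimitiveRoot ζ (P * Q) := ⟨_, Complex.isPrimitiveRoot_exp _ h0.ne'⟩
  have hζ0 : ζ ≠ 0 := hζ.ne_zero h0.ne'
  -- small powers are primitive
  have hprim : ∀ d : ℕ, 0 < d → d < 2 ^ r → IsPrimitiveRoot (ζ ^ d) (P * Q) := by
    intro d hd hd'
    refine hζ.pow_of_coprime d ?_
    refine Nat.Coprime.mul_right ?_ ?_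
    · exact Nat.Coprime.symm ((Nat.Prime.coprime_iff_not_dvd hP).2 fun h =>
        absurd (Nat.le_of_dvd hd h) (by omega))
    · exact Nat.Coprime.symm ((Nat.Prime.coprime_iff_not_dvd hQ).2 fun h =>
        absurd (Nat.le_of_dvd hd h) (by omega))
  have hnotmem : ∀ d : ℕ, 0 < d → d < 2 ^ r → ζ ^ d ∉ K := by
    intro d hd hd' hmem
    have h1 := degree_le_of_mem h0 K _ (hprim d hd hd') hmem
    rw [Nat.totient_mul ((Nat.coprime_primes hP hQ).2 hPQ), Nat.totient_prime hP,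
      Nat.totient_prime hQ] at h1
    have h2 : P - 1 ≤ (P - 1) * (Q - 1) := Nat.le_mul_of_pos_right _ (by omega)
    omega
  refine ⟨fun i => Units.mk0 (ζ ^ 2 ^ (i : ℕ)) (pow_ne_zero _ hζ0), fun i => ?_, fun i j hij => ?_,
    fun I J ε hε h => ?_⟩
  · have h1 : IsIntegral ℤ ζ := hζ.isIntegral h0
    have h2 : IsIntegral ℤ ζ⁻¹ := hζ.inv.isIntegral h0
    rw [Units.val_mk0, ← inv_pow]
    exact ⟨h1.pow _, h2.pow _⟩
  · rw [Units.val_mk0, Units.val_mk0]
    have key : ∀ a b : ℕ, a < b → b < 2 ^ r → ζ ^ a ≠ ζ ^ b ∧ IsIntegral ℤ (ζ ^ a - ζ ^ b)⁻¹ := by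
      intro a b hab hb
      have h1 : IsPrimitiveRoot (ζ ^ (b - a)) (P * Q) := hprim _ (by omega) (by omega)
      have h2 : ζ ^ a - ζ ^ b = ζ ^ a * (1 - ζ ^ (b - a)) := by
        rw [mul_sub, mul_one, ← pow_add, Nat.add_sub_cancel' hab.le]
      have h3 : (1 : ℂ) - ζ ^ (b - a) ≠ 0 := by
        rw [sub_ne_zero]
        exact (h1.ne_one (by
          have := hP.two_le
          have := hQ.two_le
          nlinarith)).symm
      refine ⟨fun h => ?_, ?_⟩
      · rw [← sub_eq_zero, h2] at h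
        exact (mul_ne_zero (pow_ne_zero _ hζ0) h3) h
      · rw [h2, mul_inv, ← inv_pow]
        exact ((hζ.inv.isIntegral h0).pow _).mul (isIntegral_inv_one_sub hP hQ hPQ _ h1)
    have hlt : ∀ i : Fin r, 2 ^ (i : ℕ) < 2 ^ r := fun i => Nat.pow_lt_pow_right (by norm_num) i.2
    rcases lt_or_gt_of_ne hij with h | h
    · exact key _ _ (Nat.pow_lt_pow_right (by norm_num) h) (hlt j)
    · obtain ⟨h1, h2⟩ := key _ _ (Nat.pow_lt_pow_right (a := 2) (by norm_num) h) (hlt i)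
      refine ⟨h1.symm, ?_⟩
      rw [← neg_sub, inv_neg]
      exact h2.neg
  · simp only [Units.val_mk0, Finset.prod_pow_eq_pow_sum] at h
    apply sum_two_pow_inj
    have hI := sum_two_pow_lt I
    have hJ := sum_two_pow_lt J
    by_contra hne
    have hε0 : ε ≠ 0 := by
      rintro rfl
      rw [zero_mul] at h
      exact pow_ne_zero _ hζ0 h
    rcases lt_or_gt_of_ne hne with h1 | h1
    · refine hnotmem (∑ i ∈ J, 2 ^ (i : ℕ) - ∑ i ∈ I, 2 ^ (i : ℕ)) (by omega) (by omega) ?_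
      have h2 : ζ ^ (∑ i ∈ J, 2 ^ (i : ℕ) - ∑ i ∈ I, 2 ^ (i : ℕ)) = ε⁻¹ := by
        apply eq_inv_of_mul_eq_one_left
        apply mul_left_cancel₀ (pow_ne_zero (∑ i ∈ I, 2 ^ (i : ℕ)) hζ0)
        rw [← mul_assoc, ← pow_add, Nat.add_sub_cancel' h1.le, mul_one, h]
        ring
      rw [h2]
      exact K.inv_mem hε
    · refine hnotmem (∑ i ∈ I, 2 ^ (i : ℕ) - ∑ i ∈ J, 2 ^ (i : ℕ)) (by omega) (by omega) ?_
      have h2 : ζ ^ (∑ i ∈ I, 2 ^ (i : ℕ) - ∑ i ∈ J, 2 ^ (i : ℕ)) = ε := by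
        apply mul_left_cancel₀ (pow_ne_zero (∑ i ∈ J, 2 ^ (i : ℕ)) hζ0)
        rw [← pow_add, Nat.add_sub_cancel' h1.le, h]
        ring
      rw [h2]
      exact hε

end Vale.Agent.P002R
end

section

/-!
# P002, genus 1: twist flows along the first handle generator
-/

namespace Vale.Agent.P002R

open Matrix

variable {n r : ℕ}

/-- Exponential sums with distinct bases. -/
theorem expsum_eq_zero {M : Type*} (s : Finset M) (c x : M → ℂ)
    (hx : ∀ m ∈ s, ∀ m' ∈ s, x m = x m' → m = m')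
    (h : ∀ k : ℕ, ∑ m ∈ s, c m * x m ^ k = 0) : ∀ m ∈ s, c m = 0 := by
  classical
  intro m hm
  have hp : ∀ p : Polynomial ℂ, ∑ m ∈ s, c m * p.eval (x m) = 0 := by
    intro p
    induction p using Polynomial.induction_on' with
    | add p q hp hq =>
      simp only [Polynomial.eval_add, mul_add, Finset.sum_add_distrib, hp, hq, add_zero]
    | monomial k a =>
      have h1 : ∑ m ∈ s, c m * (Polynomial.monomial k a).eval (x m) =
          a * ∑ m ∈ s, c m * x m ^ k := by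
        rw [Finset.mul_sum]
        refine Finset.sum_congr rfl fun m _ => ?_
        rw [Polynomial.eval_monomial]
        ring
      rw [h1, h, mul_zero]
  have h1 := hp (∏ m' ∈ s.erase m, (Polynomial.X - Polynomial.C (x m')))
  rw [Finset.sum_eq_single m] at h1
  · rcases mul_eq_zero.1 h1 with h2 | h2
    · exact h2
    · exfalso
      rw [Polynomial.eval_prod, Finset.prod_eq_zero_iff] at h2
      obtain ⟨m', hm', h3⟩ := h2
      rw [Finset.mem_erase] at hm'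
      rw [Polynomial.eval_sub, Polynomial.eval_X, Polynomial.eval_C, sub_eq_zero] at h3
      exact hm'.1 (hx m hm m' hm'.2 h3).symm
  · intro m' hm' hne
    rw [Polynomial.eval_prod, Finset.prod_eq_zero (Finset.mem_erase.2 ⟨hne, hm'⟩) (by simp),
      mul_zero]
  · intro h2
    exact absurd hm h2

/-- A polynomial that vanishes on the powers of a multiplicatively independent point. -/
theorem mv_eq_zero (G : MvPolynomial (Fin r) ℂ) (ν : Fin r → ℂ)
    (hind : ∀ m m' : Fin r → ℕ, ∏ i, ν i ^ m i = ∏ i, ν i ^ m' i → m = m')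
    (h : ∀ k : ℕ, MvPolynomial.eval (fun i => ν i ^ k) G = 0) : G = 0 := by
  have h1 : ∀ m ∈ G.support, G.coeff m = 0 := by
    apply expsum_eq_zero G.support (fun m => G.coeff m) (fun m => ∏ i, ν i ^ m i)
    · intro m _ m' _ h
      exact DFunLike.ext' (hind m m' h)
    · intro k
      rw [← h k, MvPolynomial.eval_eq']
      refine Finset.sum_congr rfl fun m _ => ?_
      congr 1
      rw [← Finset.prod_pow]
      refine Finset.prod_congr rfl fun i _ => ?_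
      rw [← pow_mul, ← pow_mul, mul_comm]
  ext m
  by_cases hm : m ∈ G.support
  · rw [h1 m hm, MvPolynomial.coeff_zero]
  · rw [MvPolynomial.notMem_support_iff.1 hm, MvPolynomial.coeff_zero]

/-- the first handle generator -/
abbrev kA : GenU 1 n := Sum.inl (0, false)

/-- the second handle generator -/
abbrev kB : GenU 1 n := Sum.inl (0, true)

theorem kA_ne_kB : (kA : GenU 1 n) ≠ kB := by
  intro h
  simp at h

/-- Substitution of `b a` for `b`. -/
noncomputable def twF (f : MvPolynomial (GenU 1 n × Fin r × Fin r) ℂ) :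
    MvPolynomial (GenU 1 n × Fin r × Fin r) ℂ :=
  MvPolynomial.bind₁ (fun p => if p.1 = kB then
    ∑ l, MvPolynomial.X (kB, p.2.1, l) * MvPolynomial.X (kA, l, p.2.2)
    else MvPolynomial.X p) f

theorem evalG_twF (y : FU 1 n →* (Mat r ℂ)ˣ)
    (f : MvPolynomial (GenU 1 n × Fin r × Fin r) ℂ) :
    evalG y (twF f) = evalG (flow y kB (y (FreeGroup.of kA))) f := by
  rw [evalG_eqn, evalG_eqn, twF, MvPolynomial.aeval_bind₁]
  congr 2
  funext p
  obtain ⟨k, i, j⟩ := p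
  by_cases hk : k = kB
  · subst hk
    rw [if_pos rfl, flow_of, if_pos rfl, map_sum, Units.val_mul, Matrix.mul_apply]
    refine Finset.sum_congr rfl fun l _ => ?_
    rw [map_mul, MvPolynomial.aeval_X, MvPolynomial.aeval_X]
  · rw [if_neg hk, flow_of, if_neg hk, MvPolynomial.aeval_X]

/-- The zero set of the vanishing ideal of a twist stable set is stable under the powers of the
twist. -/
theorem twist_pow_closure {D : Set (FU 1 n →* (Mat r ℂ)ˣ)}
    (hD : ∀ y ∈ D, flow y kB (y (FreeGroup.of kA)) ∈ D) {z : FU 1 n →* (Mat r ℂ)ˣ}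
    (hz : ∀ f : MvPolynomial (GenU 1 n × Fin r × Fin r) ℂ, (∀ y ∈ D, evalG y f = 0) →
      evalG z f = 0) (k : ℕ) :
    ∀ f : MvPolynomial (GenU 1 n × Fin r × Fin r) ℂ, (∀ y ∈ D, evalG y f = 0) →
      evalG (flow z kB (z (FreeGroup.of kA) ^ k)) f = 0 := by
  induction k with
  | zero =>
    intro f hf
    rw [pow_zero]
    have h1 : flow z kB 1 = z := by
      ext1 l
      rw [flow_of, mul_one]
      split_ifs with h
      · rw [h]
      · rfl
    rw [h1]
    exact hz f hf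
  | succ k ih =>
    intro f hf
    have h1 := ih (twF f) (fun y hy => by
      rw [evalG_twF]
      exact hf _ (hD y hy))
    rw [evalG_twF] at h1
    have h2 : flow (flow z kB (z (FreeGroup.of kA) ^ k)) kB
        (flow z kB (z (FreeGroup.of kA) ^ k) (FreeGroup.of kA)) =
        flow z kB (z (FreeGroup.of kA) ^ (k + 1)) := by
      ext1 l
      rw [flow_of z kB (z (FreeGroup.of kA) ^ (k + 1)), flow_of (flow _ _ _), flow_of, flow_of,
        flow_of, if_neg kA_ne_kB, if_pos rfl]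
      split_ifs with h
      · rw [pow_succ, mul_assoc]
      · rfl
    rwa [h2] at h1

/-- FLOW STEP: the zero set of the vanishing ideal of a twist stable set is stable under
`b ↦ b P`, if `P` is diagonal in the eigenbasis of `a` and the eigenvalues of `a` are
multiplicatively independent. -/
theorem twist_flow {D : Set (FU 1 n →* (Mat r ℂ)ˣ)}
    (hD : ∀ y ∈ D, flow y kB (y (FreeGroup.of kA)) ∈ D) {z : FU 1 n →* (Mat r ℂ)ˣ}
    (hz : ∀ f : MvPolynomial (GenU 1 n × Fin r × Fin r) ℂ, (∀ y ∈ D, evalG y f = 0) →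
      evalG z f = 0)
    {A : Mat r ℂ} {ν : Fin r → ℂ} (hA : IsUnit A)
    (heig : mt z (Sum.inr false) * A = A * diagonal ν)
    (hind : ∀ m m' : Fin r → ℕ, ∏ i, ν i ^ m i = ∏ i, ν i ^ m' i → m = m')
    (P : (Mat r ℂ)ˣ) (w : Fin r → ℂ) (hP : (P : Mat r ℂ) * A = A * diagonal w) :
    ∀ f : MvPolynomial (GenU 1 n × Fin r × Fin r) ℂ, (∀ y ∈ D, evalG y f = 0) →
      evalG (flow z kB P) f = 0 := by
  intro f hf
  have hAd : IsUnit A.det := (Matrix.isUnit_iff_isUnit_det _).1 hA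
  obtain ⟨b, hb⟩ : ∃ b : Mat r ℂ, b = (z (FreeGroup.of kB) : Mat r ℂ) := ⟨_, rfl⟩
  -- the family
  obtain ⟨G, hG⟩ : ∃ G : MvPolynomial (Fin r) ℂ, G = MvPolynomial.bind₁
      (fun p : GenU 1 n × Fin r × Fin r => if p.1 = kB then
        ∑ l, MvPolynomial.C ((b * A) p.2.1 l) * MvPolynomial.X l * MvPolynomial.C (A⁻¹ l p.2.2)
        else MvPolynomial.C ((z (FreeGroup.of p.1) : Mat r ℂ) p.2.1 p.2.2)) f := ⟨_, rfl⟩
  have key : ∀ (Q : (Mat r ℂ)ˣ) (v : Fin r → ℂ), (Q : Mat r ℂ) * A = A * diagonal v →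
      evalG (flow z kB Q) f = MvPolynomial.eval v G := by
    intro Q v hQ
    have hQ' : (Q : Mat r ℂ) = A * diagonal v * A⁻¹ := by
      rw [← hQ, Matrix.mul_assoc, Matrix.mul_nonsing_inv _ hAd, Matrix.mul_one]
    rw [evalG_eqn, hG, ← MvPolynomial.coe_aeval_eq_eval, RingHom.coe_coe,
      MvPolynomial.aeval_bind₁]
    congr 2
    funext p
    obtain ⟨k, i, j⟩ := p
    by_cases hk : k = kB
    · subst hk
      rw [if_pos rfl, flow_of, if_pos rfl, map_sum, Units.val_mul, hQ', ← hb,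
        ← Matrix.mul_assoc, ← Matrix.mul_assoc, Matrix.mul_apply]
      refine Finset.sum_congr rfl fun l _ => ?_
      rw [map_mul, map_mul, MvPolynomial.aeval_X, MvPolynomial.aeval_C, MvPolynomial.aeval_C,
        Matrix.mul_diagonal]
      rfl
    · rw [if_neg hk, flow_of, if_neg hk, MvPolynomial.aeval_C]
      rfl
  have hG0 : G = 0 := by
    apply mv_eq_zero G ν hind
    intro k
    rw [← key (z (FreeGroup.of kA) ^ k) (fun i => ν i ^ k)]
    · exact twist_pow_closure hD hz k f hf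
    · rw [Units.val_pow_eq_pow_val]
      have h1 : (z (FreeGroup.of kA) : Mat r ℂ) * A = A * diagonal ν := heig
      have h2 : diagonal (fun i => ν i ^ k) = (diagonal ν) ^ k := by
        rw [Matrix.diagonal_pow]
        rfl
      rw [h2]
      clear h2
      induction k with
      | zero => rw [pow_zero, pow_zero, Matrix.one_mul, Matrix.mul_one]
      | succ k ih =>
        rw [pow_succ', pow_succ', Matrix.mul_assoc, ih, ← Matrix.mul_assoc, h1,
          Matrix.mul_assoc]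
  rw [key P w hP, hG0, map_zero]

/-! ### Stability of the integral points -/

theorem flow_kB_relator (y : FU 1 n →* (Mat r ℂ)ˣ) (P : (Mat r ℂ)ˣ)
    (hP : Commute (y (FreeGroup.of kA)) P) :
    flow y kB P (relatorU 1 n) = y (relatorU 1 n) := by
  rw [relatorU_eqn, map_mul, map_mul, map_list_prod, map_list_prod, map_list_prod, map_list_prod]
  congr 1
  · congr 1
    rw [List.map_ofFn, List.map_ofFn]
    congr 1
    funext j
    simp only [Function.comp_apply]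
    rw [flow_of, if_neg (by simp)]
  · simp only [List.ofFn_succ (n := 0), List.ofFn_zero, List.map_cons, List.map_nil,
      List.prod_nil, List.prod_cons, mul_one, map_mul, map_inv]
    rw [flow_of, flow_of, if_neg (by simp), if_pos (by simp)]
    have h1 : y (FreeGroup.of (Sum.inl (0, false))) * P =
        P * y (FreeGroup.of (Sum.inl (0, false))) := hP
    have h2 : P * (y (FreeGroup.of (Sum.inl (0, false))))⁻¹ =
        (y (FreeGroup.of (Sum.inl (0, false))))⁻¹ * P := by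
      rw [mul_inv_eq_iff_eq_mul, mul_assoc, ← h1, inv_mul_cancel_left]
    rw [_root_.mul_inv_rev]
    simp only [mul_assoc]
    rw [← mul_assoc P, h2, mul_assoc, ← mul_assoc P P⁻¹, mul_inv_cancel, one_mul]

theorem flow_kB_inr (y : FU 1 n →* (Mat r ℂ)ˣ) (P : (Mat r ℂ)ˣ) (j : Fin n) :
    flow y kB P (FreeGroup.of (Sum.inr j)) = y (FreeGroup.of (Sum.inr j)) := by
  rw [flow_of, if_neg (by simp)]

theorem flow_kB_kA (y : FU 1 n →* (Mat r ℂ)ˣ) (P : (Mat r ℂ)ˣ) :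
    flow y kB P (FreeGroup.of kA) = y (FreeGroup.of kA) := by
  rw [flow_of, if_neg kA_ne_kB]

theorem flow_kB_kB (y : FU 1 n →* (Mat r ℂ)ˣ) (P : (Mat r ℂ)ˣ) :
    flow y kB P (FreeGroup.of kB) = y (FreeGroup.of kB) * P := by
  rw [flow_of, if_pos rfl]

/-- The twist by `a` does not change the algebra. -/
theorem adjoin_twist (y : FU 1 n →* (Mat r ℂ)ˣ)
    (h : Algebra.adjoin ℂ (Set.range fun w => (y w : Mat r ℂ)) = ⊤) :
    Algebra.adjoin ℂ (Set.range fun w =>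
      (flow y kB (y (FreeGroup.of kA)) w : Mat r ℂ)) = ⊤ := by
  obtain ⟨y', hy'⟩ : ∃ y', y' = flow y kB (y (FreeGroup.of kA)) := ⟨_, rfl⟩
  rw [← hy']
  have hA : y' (FreeGroup.of kA) = y (FreeGroup.of kA) := by rw [hy', flow_kB_kA]
  have hB : y' (FreeGroup.of kB) = y (FreeGroup.of kB) * y (FreeGroup.of kA) := by
    rw [hy', flow_kB_kB]
  rw [eq_top_iff, ← h, Algebra.adjoin_le_iff]
  have h1 : y = y'.comp (FreeGroup.lift fun k : GenU 1 n => if k = kB then
      FreeGroup.of kB * (FreeGroup.of kA)⁻¹ else FreeGroup.of k) := by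
    ext1 k
    rw [MonoidHom.comp_apply, FreeGroup.lift_apply_of]
    split_ifs with hk
    · subst hk
      rw [map_mul, map_inv, hA, hB, mul_inv_cancel_right]
    · rw [hy', flow_of, if_neg hk]
  rintro _ ⟨w, rfl⟩
  beta_reduce
  rw [h1]
  exact Algebra.subset_adjoin ⟨_, rfl⟩

/-- integral points: relation, classes, values in a subgroup -/
theorem twist_mem_general (C : Fin n → (Mat r ℂ)ˣ) (G : Subgroup (Mat r ℂ)ˣ)
    (y : FU 1 n →* (Mat r ℂ)ˣ) (h1 : y (relatorU 1 n) = 1)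
    (h2 : ∀ j, IsConj (C j) (y (FreeGroup.of (Sum.inr j))))
    (h3 : ∀ k, y (FreeGroup.of k) ∈ G) :
    flow y kB (y (FreeGroup.of kA)) (relatorU 1 n) = 1 ∧
      (∀ j, IsConj (C j) (flow y kB (y (FreeGroup.of kA)) (FreeGroup.of (Sum.inr j)))) ∧
      ∀ k, flow y kB (y (FreeGroup.of kA)) (FreeGroup.of k) ∈ G := by
  refine ⟨?_, fun j => ?_, fun k => ?_⟩
  · rw [flow_kB_relator _ _ (Commute.refl _), h1]
  · rw [flow_kB_inr]
    exact h2 j
  · rw [flow_of]
    split_ifs with hk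
    · exact G.mul_mem (h3 _) (h3 _)
    · exact h3 _

theorem DGT_twist {R : Type*} [CommRing R] (φ : R →+* ℂ) (C : Fin n → (Mat r ℂ)ˣ)
    (y : FU 1 n →* (Mat r ℂ)ˣ) (hy : y ∈ DGT {relatorU 1 n} φ C) :
    flow y kB (y (FreeGroup.of kA)) ∈ DGT {relatorU 1 n} φ C := by
  obtain ⟨⟨⟨h1, h2, h3⟩, h4⟩, h5⟩ := hy
  obtain ⟨a1, a2, a3⟩ := twist_mem_general C (GR r φ) y (h1 _ rfl) h2 h4
  refine ⟨⟨⟨fun w hw => ?_, a2, SS_of_adjoin _ (adjoin_twist y h5)⟩, a3⟩, adjoin_twist y h5⟩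
  rw [Set.mem_singleton_iff.1 hw]
  exact a1

end Vale.Agent.P002R
end

section

/-!
# P002, genus 0, dual chart: the dual equations of a functional on the tangent space
-/

namespace Vale.Agent.P002R

open Matrix Module Vale.Agent.P002

section pre

variable {n N : ℕ}

/-- prefix products -/
def pre (c : Fin N → P002R.Mat n ℂ) (s : ℕ) : P002R.Mat n ℂ := (((List.finRange N).take s).map c).prod

/-- suffix products -/
def suf (c : Fin N → P002R.Mat n ℂ) (s : ℕ) : P002R.Mat n ℂ := (((List.finRange N).drop s).map c).prod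

theorem pre_zero (c : Fin N → P002R.Mat n ℂ) : pre c 0 = 1 := by simp [pre]

theorem suf_top (c : Fin N → P002R.Mat n ℂ) : suf c N = 1 := by
  rw [suf, List.drop_eq_nil_of_le (by simp), List.map_nil, List.prod_nil]

theorem take_succ_finRange {s : ℕ} (hs : s < N) :
    (List.finRange N).take (s + 1) = (List.finRange N).take s ++ [⟨s, hs⟩] := by
  rw [List.take_succ_eq_append_getElem (by simpa using hs)]
  simp

theorem drop_finRange {s : ℕ} (hs : s < N) :
    (List.finRange N).drop s = ⟨s, hs⟩ :: (List.finRange N).drop (s + 1) := by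
  rw [List.drop_eq_getElem_cons (by simpa using hs)]
  simp

theorem pre_succ (c : Fin N → P002R.Mat n ℂ) {s : ℕ} (hs : s < N) :
    pre c (s + 1) = pre c s * c ⟨s, hs⟩ := by
  rw [pre, take_succ_finRange hs, List.map_append, List.prod_append, List.map_singleton,
    List.prod_singleton, pre]

theorem suf_succ (c : Fin N → P002R.Mat n ℂ) {s : ℕ} (hs : s < N) :
    suf c s = c ⟨s, hs⟩ * suf c (s + 1) := by
  rw [suf, drop_finRange hs, List.map_cons, List.prod_cons, suf]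

theorem pre_mul_suf {c : Fin N → P002R.Mat n ℂ} (hrel : ((List.finRange N).map c).prod = 1) (s : ℕ) :
    pre c s * suf c s = 1 := by
  rw [pre, suf, ← List.prod_append, ← List.map_append, List.take_append_drop, hrel]

theorem suf_mul_pre {c : Fin N → P002R.Mat n ℂ} (hrel : ((List.finRange N).map c).prod = 1) (s : ℕ) :
    suf c s * pre c s = 1 := mul_eq_one_comm.1 (pre_mul_suf hrel s)

theorem pre_top {c : Fin N → P002R.Mat n ℂ} (hrel : ((List.finRange N).map c).prod = 1) :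
    pre c N = 1 := by
  have := pre_mul_suf hrel N
  rwa [suf_top, Matrix.mul_one] at this

/-- derivative of a prefix product in the direction of one conjugation -/
theorem DL_take {c : Fin N → P002R.Mat n ℂ} (hrel : ((List.finRange N).map c).prod = 1) (i : Fin N)
    (H : P002R.Mat n ℂ) (s : ℕ) (hs : s ≤ N) :
    DL c (Function.update 0 i H) ((List.finRange N).take s) =
      if i.val < s then pre c i * (H * c i - c i * H) * suf c (i + 1) * pre c s else 0 := by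
  induction s with
  | zero => simp [DL_nil]
  | succ s ih =>
    rw [take_succ_finRange (by omega), DL_append, ih (by omega), DL_cons, DL_nil, Matrix.mul_zero,
      add_zero, List.map_nil, List.prod_nil, Matrix.mul_one, List.map_singleton,
      List.prod_singleton, ← pre, pre_succ c (by omega : s < N)]
    rcases lt_trichotomy i.val s with h | h | h
    · have hne : (⟨s, by omega⟩ : Fin N) ≠ i := by
        intro h'
        rw [← h'] at h
        exact lt_irrefl _ h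
      rw [if_pos h, if_pos (by omega), Function.update_of_ne hne]
      simp only [Pi.zero_apply, Matrix.zero_mul, Matrix.mul_zero, sub_zero, add_zero,
        Matrix.mul_assoc]
    · have he : (⟨s, by omega⟩ : Fin N) = i := Fin.ext h.symm
      subst h
      rw [if_neg (lt_irrefl _), if_pos (by omega), he, Function.update_self, Matrix.zero_mul,
        zero_add]
      have h1 : suf c (i + 1) * (pre c i * c i) = 1 := by
        have := suf_mul_pre hrel (i + 1)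
        rwa [pre_succ c i.isLt] at this
      rw [Matrix.mul_assoc (pre c i * (H * c i - c i * H)), h1, Matrix.mul_one]
    · have hne : (⟨s, by omega⟩ : Fin N) ≠ i := by
        intro h'
        rw [← h'] at h
        exact lt_irrefl _ h
      rw [if_neg (by omega), if_neg (by omega), Function.update_of_ne hne]
      simp

variable {c : Fin N → P002R.Mat n ℂ}

/-- The dual sequence. -/
def dG (Λ : P002R.Mat n ℂ) (a y η : Fin n → ℂ) (ξ : Fin N → Fin n → ℂ) (α β : Fin N → ℂ) (s : ℕ) :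
    P002R.Mat n ℂ :=
  Λ - vecMulVec a y -
    ∑ l ∈ Finset.univ.filter (fun l : Fin N => l.val < s), vecMulVec (ξ l) (α l • y + β l • η)

theorem dG_succ (Λ : P002R.Mat n ℂ) (a y η : Fin n → ℂ) (ξ : Fin N → Fin n → ℂ) (α β : Fin N → ℂ)
    (i : Fin N) : dG Λ a y η ξ α β (i + 1) =
      dG Λ a y η ξ α β i - vecMulVec (ξ i) (α i • y + β i • η) := by
  have h : Finset.univ.filter (fun l : Fin N => l.val < i.val + 1) =
      insert i (Finset.univ.filter (fun l : Fin N => l.val < i.val)) := by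
    ext l
    simp only [Finset.mem_filter, Finset.mem_univ, true_and, Finset.mem_insert]
    constructor
    · intro h
      rcases Nat.lt_succ_iff_lt_or_eq.1 h with h | h
      · exact Or.inr h
      · exact Or.inl (Fin.ext h)
    · rintro (rfl | h)
      · exact Nat.lt_succ_self _
      · exact Nat.lt_succ_of_lt h
  rw [dG, dG, h, Finset.sum_insert (by simp)]
  abel

/-- The dual equations. -/
theorem dual_eqs (hrel : ((List.finRange N).map c).prod = 1) (ξ : Fin N → Fin n → ℂ)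
    (α β : Fin N → ℂ) (y : Fin n → ℂ) (j : ℕ) (hj : j ≤ N) (hα : ∀ i, α i ≠ 0 → i.val < j)
    (hβ : ∀ i, β i ≠ 0 → i.val < j)
    (hΦ : ∀ x : Fin N → P002R.Mat n ℂ, DL c x (List.finRange N) = 0 →
      ∑ i, α i * (y ⬝ᵥ (x i *ᵥ ξ i)) +
        y ⬝ᵥ (DL c x ((List.finRange N).take j) *ᵥ ∑ i, β i • ξ i) +
        ∑ i, β i * (y ⬝ᵥ (pre c j *ᵥ (x i *ᵥ ξ i))) = 0) :
    ∃ Λ : P002R.Mat n ℂ, Λ * pre c j = pre c j * Λ ∧
      (∀ i : Fin N, j ≤ i.val → Λ * c i = c i * Λ) ∧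
      (∀ i : Fin N, i.val < j →
        c i * dG Λ (pre c j *ᵥ ∑ i, β i • ξ i) y (y ᵥ* pre c j) ξ α β (i + 1) =
        dG Λ (pre c j *ᵥ ∑ i, β i • ξ i) y (y ᵥ* pre c j) ξ α β i * c i) ∧
      dG Λ (pre c j *ᵥ ∑ i, β i • ξ i) y (y ᵥ* pre c j) ξ α β j =
        Λ - vecMulVec (∑ i, β i • ξ i) (y ᵥ* pre c j) := by
  obtain ⟨b, hb⟩ : ∃ b, b = ∑ i, β i • ξ i := ⟨_, rfl⟩
  obtain ⟨P, hP⟩ : ∃ P, P = pre c j := ⟨_, rfl⟩
  rw [← hb, ← hP]
  simp only [← hb, ← hP] at hΦ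
  -- the functional
  obtain ⟨F, hF⟩ : ∃ F : (Fin N → P002R.Mat n ℂ) →ₗ[ℂ] ℂ, ∀ x, F x =
      ∑ i, α i * (y ⬝ᵥ (x i *ᵥ ξ i)) +
        y ⬝ᵥ (DL c x ((List.finRange N).take j) *ᵥ b) +
        ∑ i, β i * (y ⬝ᵥ (P *ᵥ (x i *ᵥ ξ i))) := by
    refine ⟨{ toFun := fun x => ∑ i, α i * (y ⬝ᵥ (x i *ᵥ ξ i)) +
        y ⬝ᵥ (DL c x ((List.finRange N).take j) *ᵥ b) +
        ∑ i, β i * (y ⬝ᵥ (P *ᵥ (x i *ᵥ ξ i)))
              map_add' := ?_
              map_smul' := ?_ }, fun x => rfl⟩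
    · intro x x'
      simp only [DL_add, Pi.add_apply, Matrix.add_mulVec, dotProduct_add, Matrix.mulVec_add,
        mul_add, Finset.sum_add_distrib]
      ring
    · intro a x
      simp only [DL_smul, Pi.smul_apply, Matrix.smul_mulVec, dotProduct_smul, Matrix.mulVec_smul,
        smul_eq_mul, RingHom.id_apply, mul_add, Finset.mul_sum]
      congr 1
      · congr 1
        exact Finset.sum_congr rfl fun i _ => by ring
      · exact Finset.sum_congr rfl fun i _ => by ring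
  obtain ⟨Λ, hΛ⟩ := exists_factor (DLlin c (List.finRange N)) F fun x hx => by
    rw [hF]; exact hΦ x hx
  have hΛ' : ∀ x, F x = trace (Λ * DL c x (List.finRange N)) := hΛ
  have hps := pre_mul_suf hrel
  have hsp := suf_mul_pre hrel
  have hfull : ∀ (i : Fin N) (H : P002R.Mat n ℂ), DL c (Function.update 0 i H) (List.finRange N) =
      pre c i * (H * c i - c i * H) * suf c (i + 1) := by
    intro i H
    have h1 := DL_take hrel i H N le_rfl
    rwa [if_pos i.isLt, pre_top hrel, Matrix.mul_one,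
      List.take_of_length_le (by simp)] at h1
  have hsum1 : ∀ (i : Fin N) (H : P002R.Mat n ℂ),
      ∑ l, α l * (y ⬝ᵥ ((Function.update (0 : Fin N → P002R.Mat n ℂ) i H) l *ᵥ ξ l)) =
        α i * (y ⬝ᵥ (H *ᵥ ξ i)) := by
    intro i H
    rw [Finset.sum_eq_single i]
    · rw [Function.update_self]
    · intro l _ hl
      rw [Function.update_of_ne hl, Pi.zero_apply, Matrix.zero_mulVec, dotProduct_zero, mul_zero]
    · intro h; exact absurd (Finset.mem_univ _) h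
  have hsum2 : ∀ (i : Fin N) (H : P002R.Mat n ℂ),
      ∑ l, β l * (y ⬝ᵥ (P *ᵥ ((Function.update (0 : Fin N → P002R.Mat n ℂ) i H) l *ᵥ ξ l))) =
        β i * (y ⬝ᵥ (P *ᵥ (H *ᵥ ξ i))) := by
    intro i H
    rw [Finset.sum_eq_single i]
    · rw [Function.update_self]
    · intro l _ hl
      rw [Function.update_of_ne hl, Pi.zero_apply, Matrix.zero_mulVec, Matrix.mulVec_zero,
        dotProduct_zero, mul_zero]
    · intro h; exact absurd (Finset.mem_univ _) h
  -- the equations at `i < j`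
  have hlt : ∀ i : Fin N, i.val < j →
      suf c i * (Λ - vecMulVec (P *ᵥ b) y) * pre c i -
        suf c (i + 1) * (Λ - vecMulVec (P *ᵥ b) y) * pre c (i + 1) =
      vecMulVec (ξ i) (α i • y + β i • (y ᵥ* P)) := by
    intro i hi
    have h1 : ∀ H, trace ((c i * (suf c (i + 1) * (Λ - vecMulVec (P *ᵥ b) y) * pre c i) -
        (suf c (i + 1) * (Λ - vecMulVec (P *ᵥ b) y) * pre c i) * c i) * H) =
        trace (vecMulVec (ξ i) (α i • y + β i • (y ᵥ* P)) * H) := by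
      intro H
      rw [← tr_comm, Matrix.sub_mul, trace_sub, ← hfull, ← hΛ', hF, hsum1, hsum2,
        DL_take hrel i H j hj, if_pos hi, ← hP, hfull, trace_vecMulVec_mul, trace_vecMulVec_mul,
        add_dotProduct, smul_dotProduct, smul_dotProduct, ← Matrix.dotProduct_mulVec,
        ← Matrix.mulVec_mulVec]
      simp only [smul_eq_mul]
      ring
    have h2 := eq_of_trace_eq h1
    rw [← h2, suf_succ c i.isLt, pre_succ c i.isLt]
    simp only [Matrix.mul_assoc]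
  have hge : ∀ i : Fin N, j ≤ i.val →
      suf c i * Λ * pre c i = suf c (i + 1) * Λ * pre c (i + 1) := by
    intro i hi
    have hαi : α i = 0 := by
      by_contra h
      exact absurd (hα i h) (by omega)
    have hβi : β i = 0 := by
      by_contra h
      exact absurd (hβ i h) (by omega)
    have h1 : ∀ H, trace ((c i * (suf c (i + 1) * Λ * pre c i) -
        (suf c (i + 1) * Λ * pre c i) * c i) * H) = trace ((0 : P002R.Mat n ℂ) * H) := by
      intro H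
      rw [← tr_comm, ← hfull, ← hΛ', hF, hsum1, hsum2, DL_take hrel i H j hj,
        if_neg (by omega), hαi, hβi, Matrix.zero_mulVec, dotProduct_zero, zero_mul, zero_mul,
        Matrix.zero_mul, trace_zero]
      ring
    have h2 := sub_eq_zero.1 (eq_of_trace_eq h1)
    rw [suf_succ c i.isLt, pre_succ c i.isLt]
    calc c i * suf c (i + 1) * Λ * pre c i = c i * (suf c (i + 1) * Λ * pre c i) := by
          simp only [Matrix.mul_assoc]
      _ = _ := by rw [h2]; simp only [Matrix.mul_assoc]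
  -- `Λ` commutes with the prefix products after `j`
  have hcomm : ∀ s, j ≤ s → s ≤ N → suf c s * Λ * pre c s = Λ := by
    intro s hjs hsN
    induction hsN using Nat.decreasingInduction with
    | of_succ k hk ih =>
      rw [hge ⟨k, hk⟩ hjs]
      exact ih (by omega)
    | self => rw [suf_top, pre_top hrel, Matrix.one_mul, Matrix.mul_one]
  have hcomm' : ∀ s, j ≤ s → s ≤ N → Λ * pre c s = pre c s * Λ := by
    intro s hjs hsN
    calc Λ * pre c s = pre c s * suf c s * Λ * pre c s := by rw [hps, Matrix.one_mul]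
      _ = pre c s * (suf c s * Λ * pre c s) := by simp only [Matrix.mul_assoc]
      _ = _ := by rw [hcomm s hjs hsN]
  have hG : ∀ s, s ≤ j → pre c s * dG Λ (P *ᵥ b) y (y ᵥ* P) ξ α β s =
      (Λ - vecMulVec (P *ᵥ b) y) * pre c s := by
    intro s
    induction s with
    | zero =>
      intro _
      rw [pre_zero, dG]
      simp
    | succ s ih =>
      intro hs
      have hsN : s < N := by omega
      have h1 := hlt ⟨s, hsN⟩ hs
      have h2 := dG_succ Λ (P *ᵥ b) y (y ᵥ* P) ξ α β ⟨s, hsN⟩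
      simp only at h1 h2
      have h3 : suf c s * (Λ - vecMulVec (P *ᵥ b) y) * pre c s =
          dG Λ (P *ᵥ b) y (y ᵥ* P) ξ α β s := by
        rw [Matrix.mul_assoc, ← ih (by omega), ← Matrix.mul_assoc, hsp, Matrix.one_mul]
      rw [h3] at h1
      have h4 : suf c (s + 1) * (Λ - vecMulVec (P *ᵥ b) y) * pre c (s + 1) =
          dG Λ (P *ᵥ b) y (y ᵥ* P) ξ α β (s + 1) := by
        rw [h2, ← h1]; abel
      rw [← h4, Matrix.mul_assoc, ← Matrix.mul_assoc (pre c (s + 1)), hps, Matrix.one_mul]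
  refine ⟨Λ, hP ▸ hcomm' j le_rfl hj, fun i hi => ?_, fun i hi => ?_, ?_⟩
  · have h1 := hcomm' (i + 1) (by omega) i.isLt
    have h2 := hcomm' i hi i.isLt.le
    rw [pre_succ c i.isLt] at h1
    calc Λ * c i = suf c i * (pre c i * Λ) * c i := by
          rw [← Matrix.mul_assoc, hsp, Matrix.one_mul]
      _ = suf c i * (Λ * (pre c i * c i)) := by rw [← h2]; simp only [Matrix.mul_assoc]
      _ = (suf c i * pre c i) * (c i * Λ) := by rw [h1]; simp only [Matrix.mul_assoc]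
      _ = _ := by rw [hsp, Matrix.one_mul]
  · have h1 := hG (i + 1) hi
    have h2 := hG i hi.le
    rw [pre_succ c i.isLt] at h1
    calc c i * dG Λ (P *ᵥ b) y (y ᵥ* P) ξ α β (i + 1)
        = (suf c i * pre c i) * (c i * dG Λ (P *ᵥ b) y (y ᵥ* P) ξ α β (i + 1)) := by
          rw [hsp, Matrix.one_mul]
      _ = suf c i * (pre c i * c i * dG Λ (P *ᵥ b) y (y ᵥ* P) ξ α β (i + 1)) := by
          simp only [Matrix.mul_assoc]
      _ = suf c i * ((Λ - vecMulVec (P *ᵥ b) y) * pre c i) * c i := by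
          rw [h1]; simp only [Matrix.mul_assoc]
      _ = (suf c i * pre c i) * dG Λ (P *ᵥ b) y (y ᵥ* P) ξ α β i * c i := by
          rw [← h2]; simp only [Matrix.mul_assoc]
      _ = _ := by rw [hsp, Matrix.one_mul]
  · have h1 := hG j le_rfl
    rw [← hP] at h1
    have hΛP : Λ * P = P * Λ := by rw [hP]; exact hcomm' j le_rfl hj
    have h2 : (Λ - vecMulVec (P *ᵥ b) y) * P = P * (Λ - vecMulVec b (y ᵥ* P)) := by
      rw [Matrix.sub_mul, Matrix.mul_sub, hΛP, Matrix.vecMulVec_mul,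
        Matrix.mul_vecMulVec]
    rw [h2] at h1
    have h3 : suf c j * P = 1 := hP ▸ hsp j
    calc dG Λ (P *ᵥ b) y (y ᵥ* P) ξ α β j = suf c j * (P * dG Λ (P *ᵥ b) y (y ᵥ* P) ξ α β j) := by
          rw [← Matrix.mul_assoc, h3, Matrix.one_mul]
      _ = _ := by rw [h1, ← Matrix.mul_assoc, h3, Matrix.one_mul]

end pre

end Vale.Agent.P002R
end

section

/-!
# P002, genus 0, dual chart: general position of the vectors of a generic tuple of reflections
-/

namespace Vale.Agent.P002R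

open Matrix Module Vale.Agent.P002

section key

variable {n N : ℕ}

/-- The vanishing of the functional at a generic point. -/
theorem generic_rel {K₀ : Subfield ℂ} {J Y : Fin N → P002R.Mat n ℂ} (hJK : ∀ j a b, J j a b ∈ K₀)
    (hY : ∀ j, IsUnit (Y j)) (hgen : GenPt K₀ J (List.finRange N) Y) (e : Fin N → Fin n → ℂ)
    (he : ∀ i a, e i a ∈ K₀) (j : ℕ) (α β : Fin N → ℂ) (y : Fin n → ℂ)
    (hv : ∑ i, α i • (Y i *ᵥ e i) + pre (cj J Y) j *ᵥ ∑ i, β i • (Y i *ᵥ e i) = 0)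
    (hα : ∀ i, α i ≠ 0 → y ⬝ᵥ (Y i *ᵥ e i) = 0)
    (hβ : ∀ i, β i ≠ 0 → y ⬝ᵥ (pre (cj J Y) j *ᵥ (Y i *ᵥ e i)) = 0)
    (x : Fin N → P002R.Mat n ℂ) (hx : DL (cj J Y) x (List.finRange N) = 0) :
    ∑ i, α i * (y ⬝ᵥ (x i *ᵥ (Y i *ᵥ e i))) +
        y ⬝ᵥ (DL (cj J Y) x ((List.finRange N).take j) *ᵥ ∑ i, β i • (Y i *ᵥ e i)) +
        ∑ i, β i * (y ⬝ᵥ (pre (cj J Y) j *ᵥ (x i *ᵥ (Y i *ᵥ e i)))) = 0 := by
  obtain ⟨δ, hδ0, hδ⟩ := hgen x hx
  obtain ⟨ξ, hξ⟩ : ∃ ξ : Fin N → Fin n → ℂ, ∀ i, ξ i = Y i *ᵥ e i := ⟨_, fun _ => rfl⟩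
  simp only [← hξ] at hv hα hβ ⊢
  have hξδ : ∀ i, (fun a => δ (ξ i a)) = x i *ᵥ ξ i := by
    intro i
    rw [hξ, map_der_mulVec, hδ i, Matrix.mulVec_mulVec]
    have h0 : (fun a => δ (e i a)) = 0 := funext fun a => hδ0 _ (he i a)
    rw [h0, Matrix.mulVec_zero, add_zero]
  have hPδ : (pre (cj J Y) j).map δ = DL (cj J Y) x ((List.finRange N).take j) := by
    rw [pre, map_der_list hJK hY δ hδ0 x hδ]
  have hsum : ∀ α : Fin N → ℂ, (fun a => δ ((∑ i, α i • ξ i) a)) =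
      ∑ i, δ (α i) • ξ i + ∑ i, α i • (x i *ᵥ ξ i) := by
    intro α
    funext a
    have h1 : ∀ i, δ (ξ i a) = (x i *ᵥ ξ i) a := fun i => congrFun (hξδ i) a
    rw [Finset.sum_apply, map_sum, Pi.add_apply, Finset.sum_apply, Finset.sum_apply,
      ← Finset.sum_add_distrib]
    refine Finset.sum_congr rfl fun i _ => ?_
    rw [Pi.smul_apply, Pi.smul_apply, Pi.smul_apply, smul_eq_mul, smul_eq_mul, smul_eq_mul,
      Derivation.leibniz, h1, smul_eq_mul, smul_eq_mul]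
    ring
  have h1 : (fun a => δ ((∑ i, α i • ξ i + pre (cj J Y) j *ᵥ ∑ i, β i • ξ i) a)) = 0 := by
    rw [hv]
    funext a
    simp
  have h2 : (fun a => δ ((∑ i, α i • ξ i + pre (cj J Y) j *ᵥ ∑ i, β i • ξ i) a)) =
      (fun a => δ ((∑ i, α i • ξ i) a)) +
        fun a => δ ((pre (cj J Y) j *ᵥ ∑ i, β i • ξ i) a) := by
    funext a
    rw [Pi.add_apply, Pi.add_apply, map_add]
  rw [h2, hsum, map_der_mulVec, hsum, hPδ] at h1
  have h3 := congrArg (fun v => y ⬝ᵥ v) h1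
  simp only [dotProduct_add, Matrix.mulVec_add, dotProduct_zero] at h3
  have h4 : y ⬝ᵥ ∑ i, δ (α i) • ξ i = 0 := by
    rw [dotProduct_sum]
    refine Finset.sum_eq_zero fun i _ => ?_
    rw [dotProduct_smul]
    by_cases h : α i = 0
    · rw [h, map_zero, zero_smul]
    · rw [hα i h, smul_zero]
  have h5 : y ⬝ᵥ (pre (cj J Y) j *ᵥ ∑ i, δ (β i) • ξ i) = 0 := by
    rw [Matrix.mulVec_sum, dotProduct_sum]
    refine Finset.sum_eq_zero fun i _ => ?_
    rw [Matrix.mulVec_smul, dotProduct_smul]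
    by_cases h : β i = 0
    · rw [h, map_zero, zero_smul]
    · rw [hβ i h, smul_zero]
  have h6 : y ⬝ᵥ ∑ i, α i • (x i *ᵥ ξ i) = ∑ i, α i * (y ⬝ᵥ (x i *ᵥ ξ i)) := by
    rw [dotProduct_sum]
    exact Finset.sum_congr rfl fun i _ => by rw [dotProduct_smul, smul_eq_mul]
  have h7 : y ⬝ᵥ (pre (cj J Y) j *ᵥ ∑ i, β i • (x i *ᵥ ξ i)) =
      ∑ i, β i * (y ⬝ᵥ (pre (cj J Y) j *ᵥ (x i *ᵥ ξ i))) := by
    rw [Matrix.mulVec_sum, dotProduct_sum]
    exact Finset.sum_congr rfl fun i _ => by rw [Matrix.mulVec_smul, dotProduct_smul, smul_eq_mul]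
  rw [h4, h5, zero_add, zero_add, h6, h7] at h3
  rw [← h3, ← add_assoc]

/-- The data of a generic tuple: reflections `c i` for `i < m`. -/
structure RP (m : ℕ) (c : Fin N → P002R.Mat n ℂ) (ξ w : Fin N → Fin n → ℂ) : Prop where
  rel : ((List.finRange N).map c).prod = 1
  irr : ∀ W : Submodule ℂ (Fin n → ℂ), (∀ j, ∀ v ∈ W, c j *ᵥ v ∈ W) → W = ⊥ ∨ W = ⊤
  refl : ∀ i, i.val < m → c i = 1 + vecMulVec (ξ i) (w i)
  xi_ne : ∀ i, i.val < m → ξ i ≠ 0
  w_ne : ∀ i, i.val < m → w i ≠ 0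
  unit : ∀ i, i.val < m → 1 + w i ⬝ᵥ ξ i ≠ 0
  pair : ∀ i l, i.val < m → l.val < m → i ≠ l → w i ⬝ᵥ ξ l ≠ 0
  key : ∀ j ≤ N, ∀ (α β : Fin N → ℂ) (y : Fin n → ℂ),
    ∑ i, α i • ξ i + pre c j *ᵥ ∑ i, β i • ξ i = 0 →
    (∀ i, α i ≠ 0 → i.val < j ∧ y ⬝ᵥ ξ i = 0) →
    (∀ i, β i ≠ 0 → i.val < j ∧ y ⬝ᵥ (pre c j *ᵥ ξ i) = 0) →
    ∃ Λ : P002R.Mat n ℂ, Λ * pre c j = pre c j * Λ ∧
      (∀ i : Fin N, j ≤ i.val → Λ * c i = c i * Λ) ∧
      (∀ i : Fin N, i.val < j →
        c i * dG Λ (pre c j *ᵥ ∑ i, β i • ξ i) y (y ᵥ* pre c j) ξ α β (i + 1) =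
        dG Λ (pre c j *ᵥ ∑ i, β i • ξ i) y (y ᵥ* pre c j) ξ α β i * c i)

theorem refl_eq {c G G' : P002R.Mat n ℂ} {ξ w ψ : Fin n → ℂ} (hc : c = 1 + vecMulVec ξ w)
    (hξ : ξ ≠ 0) (hw : w ≠ 0) (h1 : c * G' = G * c) (h2 : G' = G - vecMulVec ξ ψ) :
    ∃ γ : ℂ, G *ᵥ ξ = γ • ξ ∧ w ᵥ* G = γ • w + (1 + w ⬝ᵥ ξ) • ψ := by
  obtain ⟨p, hp⟩ : ∃ p, p = w ᵥ* G - (1 + w ⬝ᵥ ξ) • ψ := ⟨_, rfl⟩
  have h3 : vecMulVec ξ p = vecMulVec (G *ᵥ ξ) w := by
    have hq : vecMulVec ξ w * vecMulVec ξ ψ = (w ⬝ᵥ ξ) • vecMulVec ξ ψ := by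
      ext a b
      simp only [Matrix.mul_apply, vecMulVec_apply, Matrix.smul_apply, smul_eq_mul, dotProduct,
        Finset.sum_mul]
      exact Finset.sum_congr rfl fun i _ => by ring
    rw [hc, h2, Matrix.add_mul, Matrix.one_mul, Matrix.mul_sub, hq, Matrix.vecMulVec_mul,
      Matrix.mul_add, Matrix.mul_one, Matrix.mul_vecMulVec] at h1
    have h4 : vecMulVec ξ p = vecMulVec ξ (w ᵥ* G) - vecMulVec ξ ψ -
        (w ⬝ᵥ ξ) • vecMulVec ξ ψ := by
      rw [hp]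
      ext a b
      simp only [vecMulVec_apply, Pi.sub_apply, Pi.smul_apply, smul_eq_mul, Matrix.sub_apply,
        Matrix.smul_apply]
      ring
    rw [h4]
    rw [← sub_eq_zero] at h1 ⊢
    rw [← h1]
    abel
  obtain ⟨a, ha⟩ := Function.ne_iff.1 hξ
  obtain ⟨b, hb⟩ := Function.ne_iff.1 hw
  rw [Pi.zero_apply] at ha hb
  have h4 : ∀ i l, ξ i * p l = (G *ᵥ ξ) i * w l := fun i l => congrFun (congrFun h3 i) l
  refine ⟨p b / w b, ?_, ?_⟩
  · funext i
    rw [Pi.smul_apply, smul_eq_mul, div_mul_eq_mul_div, eq_div_iff hb, ← h4]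
    ring
  · have h5 : p = (p b / w b) • w := by
      funext l
      rw [Pi.smul_apply, smul_eq_mul]
      have h6 := h4 a l
      have h7 := h4 a b
      apply mul_left_cancel₀ ha
      rw [h6]
      field_simp
      linear_combination (-(w l)) * h7
    rw [← h5, hp]
    abel

theorem dG_eq (Λ : P002R.Mat n ℂ) {a : Fin n → ℂ} (y η : Fin n → ℂ) {ξ : Fin N → Fin n → ℂ}
    {α β : Fin N → ℂ} (hv : ∑ i, α i • ξ i + a = 0) (s : ℕ) (h1 : ∀ l, α l ≠ 0 → l.val < s)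
    (h2 : ∀ l : Fin N, l.val < s → β l = 0) : dG Λ a y η ξ α β s = Λ := by
  have h3 : ∑ l ∈ Finset.univ.filter (fun l : Fin N => l.val < s),
      vecMulVec (ξ l) (α l • y + β l • η) = vecMulVec (∑ i, α i • ξ i) y := by
    have h4 : ∑ l ∈ Finset.univ.filter (fun l : Fin N => l.val < s),
        vecMulVec (ξ l) (α l • y + β l • η) = ∑ l, vecMulVec (α l • ξ l) y := by
      rw [Finset.sum_filter]
      refine Finset.sum_congr rfl fun l _ => ?_
      by_cases h : l.val < s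
      · rw [if_pos h, h2 l h, zero_smul, add_zero]
        ext p q
        simp only [vecMulVec_apply, Pi.smul_apply, smul_eq_mul]
        ring
      · have : α l = 0 := by
          by_contra h'
          exact h (h1 l h')
        rw [if_neg h, this, zero_smul]
        ext p q
        simp [vecMulVec_apply]
    rw [h4]
    ext p q
    simp only [Matrix.sum_apply, vecMulVec_apply, Finset.sum_apply, Finset.sum_mul]
  have h4 : a = -∑ i, α i • ξ i := by rw [eq_neg_iff_add_eq_zero, add_comm]; exact hv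
  rw [dG, h3, h4]
  ext p q
  simp [vecMulVec_apply]

theorem dG_mulVec (Λ : P002R.Mat n ℂ) {a : Fin n → ℂ} {y : Fin n → ℂ} (η : Fin n → ℂ)
    {ξ : Fin N → Fin n → ℂ} {α : Fin N → ℂ} (s : ℕ) {v : Fin n → ℂ} (hv : y ⬝ᵥ v = 0) :
    dG Λ a y η ξ α 0 s *ᵥ v = Λ *ᵥ v := by
  have h1 : ∀ u : Fin n → ℂ, ∀ t : ℂ, vecMulVec u (t • y) *ᵥ v = 0 := by
    intro u t
    rw [Matrix.vecMulVec_mulVec, smul_dotProduct, hv, smul_zero]
    simp
  have h2 : vecMulVec a y *ᵥ v = 0 := by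
    have := h1 a 1
    rwa [one_smul] at this
  rw [dG, Matrix.sub_mulVec, Matrix.sub_mulVec, h2, Matrix.sum_mulVec]
  rw [Finset.sum_eq_zero]
  · simp
  · intro l _
    rw [Pi.zero_apply, zero_smul, add_zero]
    exact h1 _ _

variable {m : ℕ} {c : Fin N → P002R.Mat n ℂ} {ξ w : Fin N → Fin n → ℂ}

/-- Downward step. -/
theorem RP.beta_eq_zero (h : RP m c ξ w) (j : ℕ) (hj : j ≤ m) (hmN : m ≤ N) (k : Fin N)
    (hk : k.val < j) (α β : Fin N → ℂ) (y : Fin n → ℂ)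
    (hv : ∑ i, α i • ξ i + pre c j *ᵥ ∑ i, β i • ξ i = 0)
    (hα : ∀ i, α i ≠ 0 → i.val < k.val ∧ y ⬝ᵥ ξ i = 0)
    (hβ : ∀ i, β i ≠ 0 → (k.val ≤ i.val ∧ i.val < j) ∧ y ⬝ᵥ (pre c j *ᵥ ξ i) = 0)
    (hyk : y ⬝ᵥ ξ k ≠ 0) : β = 0 := by
  obtain ⟨Λ, hΛP, -, hΛ⟩ := h.key j (hj.trans hmN) α β y hv
    (fun i hi => ⟨(hα i hi).1.trans hk, (hα i hi).2⟩) (fun i hi => ⟨(hβ i hi).1.2, (hβ i hi).2⟩)
  have hαk : ∀ i : Fin N, k.val ≤ i.val → α i = 0 := by
    intro i hi
    by_contra h'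
    exact absurd (hα i h').1 (by omega)
  -- the equations for `i < j` when `β` vanishes before `i`
  have hE : ∀ i : Fin N, k.val ≤ i.val → i.val < j → (∀ l : Fin N, l.val < i.val → β l = 0) →
      ∃ γ : ℂ, Λ *ᵥ ξ i = γ • ξ i ∧
        w i ᵥ* Λ = γ • w i + (1 + w i ⬝ᵥ ξ i) • β i • (y ᵥ* pre c j) := by
    intro i hki hij hl
    have h1 := hΛ i hij
    have h2 := dG_succ Λ (pre c j *ᵥ ∑ i, β i • ξ i) y (y ᵥ* pre c j) ξ α β i
    rw [hαk i hki, zero_smul, zero_add] at h2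
    have h3 : dG Λ (pre c j *ᵥ ∑ i, β i • ξ i) y (y ᵥ* pre c j) ξ α β i = Λ :=
      dG_eq Λ y _ hv i (fun l hl' => lt_of_lt_of_le (hα l hl').1 hki) hl
    rw [h3] at h1 h2
    exact refl_eq (h.refl i (by omega)) (h.xi_ne i (by omega)) (h.w_ne i (by omega)) h1 h2
  obtain ⟨z, hz⟩ : ∃ z, pre c j *ᵥ z = ξ k := by
    refine ⟨suf c j *ᵥ ξ k, ?_⟩
    rw [Matrix.mulVec_mulVec, pre_mul_suf h.rel, Matrix.one_mulVec]
  have hηz : (y ᵥ* pre c j) ⬝ᵥ z ≠ 0 := by
    rwa [← Matrix.dotProduct_mulVec, hz]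
  have hβlt : ∀ i : Fin N, i.val < k.val → β i = 0 := by
    intro i hi
    by_contra h'
    exact absurd (hβ i h').1.1 (by omega)
  obtain ⟨γ, hγ1, hγ2⟩ := hE k le_rfl hk hβlt
  have hΛz : Λ *ᵥ z = γ • z := by
    have h1 : pre c j *ᵥ (Λ *ᵥ z) = pre c j *ᵥ (γ • z) := by
      rw [Matrix.mulVec_mulVec, ← hΛP, ← Matrix.mulVec_mulVec, hz, hγ1, Matrix.mulVec_smul, hz]
    have h2 : ∀ v : Fin n → ℂ, suf c j *ᵥ (pre c j *ᵥ v) = v := fun v => by
      rw [Matrix.mulVec_mulVec, suf_mul_pre h.rel, Matrix.one_mulVec]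
    rw [← h2 (Λ *ᵥ z), h1, h2]
  -- conclusion for one index
  have hC : ∀ i : Fin N, i.val < j → w i ᵥ* Λ = γ • w i +
      (1 + w i ⬝ᵥ ξ i) • β i • (y ᵥ* pre c j) → β i = 0 := by
    intro i hij hi
    have h1 : (w i ᵥ* Λ) ⬝ᵥ z = γ * (w i ⬝ᵥ z) := by
      rw [← Matrix.dotProduct_mulVec, hΛz, dotProduct_smul, smul_eq_mul]
    rw [hi, add_dotProduct, smul_dotProduct, smul_dotProduct, smul_dotProduct, smul_eq_mul,
      smul_eq_mul, smul_eq_mul] at h1
    have h2 : (1 + w i ⬝ᵥ ξ i) * (β i * ((y ᵥ* pre c j) ⬝ᵥ z)) = 0 := by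
      linear_combination h1
    rcases mul_eq_zero.1 h2 with h3 | h3
    · exact absurd h3 (h.unit i (by omega))
    · rcases mul_eq_zero.1 h3 with h4 | h4
      · exact h4
      · exact absurd h4 hηz
  have hβk : β k = 0 := hC k hk hγ2
  have hwk : w k ᵥ* Λ = γ • w k := by
    rw [hγ2, hβk, zero_smul, smul_zero, add_zero]
  have hmain : ∀ s : ℕ, ∀ i : Fin N, i.val = s → β i = 0 := by
    intro s
    induction s using Nat.strong_induction_on with
    | _ s ih =>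
      rintro i rfl
      by_contra hne
      obtain ⟨⟨hki, hij⟩, -⟩ := hβ i hne
      have hik : k ≠ i := by
        rintro rfl
        exact hne hβk
      obtain ⟨γ', h1, h2⟩ := hE i hki hij fun l hl => ih l hl l rfl
      have h3 : γ' = γ := by
        have h4 : (w k ᵥ* Λ) ⬝ᵥ ξ i = w k ⬝ᵥ (Λ *ᵥ ξ i) := (Matrix.dotProduct_mulVec _ _ _).symm
        rw [hwk, h1, smul_dotProduct, dotProduct_smul, smul_eq_mul, smul_eq_mul] at h4
        exact (mul_right_cancel₀ (h.pair k i (by omega) (by omega) hik) h4).symm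
      rw [h3] at h2
      exact hne (hC i hij h2)
  funext i
  exact hmain i i rfl

/-- The first vectors are independent. -/
theorem RP.indep (h : RP m c ξ w) (hmN : m < N) (s : ℕ) (hs : s < m) (α : Fin N → ℂ)
    (y : Fin n → ℂ) (hy : y ≠ 0) (hv : ∑ i, α i • ξ i = 0)
    (hα : ∀ i, α i ≠ 0 → i.val < s) (hys : ∀ i : Fin N, i.val < s → y ⬝ᵥ ξ i = 0) : α = 0 := by
  have hv' : ∑ i, α i • ξ i + pre c N *ᵥ ∑ i, (0 : Fin N → ℂ) i • ξ i = 0 := by
    simp [hv]
  obtain ⟨Λ, -, -, hΛ⟩ := h.key N le_rfl α 0 y hv' (fun i hi => ⟨i.isLt, hys i (hα i hi)⟩)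
    (fun i hi => absurd rfl hi)
  obtain ⟨a, ha⟩ : ∃ a, a = pre c N *ᵥ ∑ i, (0 : Fin N → ℂ) i • ξ i := ⟨_, rfl⟩
  have ha0 : a = 0 := by rw [ha]; simp
  rw [← ha] at hv' hΛ
  have hG : ∀ i : ℕ, s ≤ i → dG Λ a y (y ᵥ* pre c N) ξ α 0 i = Λ := fun i hi =>
    dG_eq Λ y _ hv' i (fun l hl' => lt_of_lt_of_le (hα l hl') hi) (fun _ _ => rfl)
  -- the matrices after `s` commute with `Λ`
  have hcomm : ∀ i : Fin N, s ≤ i.val → c i * Λ = Λ * c i := by
    intro i hi
    have h1 := hΛ i i.isLt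
    rwa [hG _ hi, hG _ (by omega)] at h1
  -- the equations
  have hE : ∀ i : Fin N, i.val < m → ∃ γ : ℂ,
      dG Λ a y (y ᵥ* pre c N) ξ α 0 i *ᵥ ξ i = γ • ξ i ∧
      w i ᵥ* dG Λ a y (y ᵥ* pre c N) ξ α 0 i = γ • w i + (1 + w i ⬝ᵥ ξ i) • α i • y := by
    intro i him
    have h1 := hΛ i i.isLt
    have h2 := dG_succ Λ a y (y ᵥ* pre c N) ξ α 0 i
    rw [Pi.zero_apply, zero_smul, add_zero] at h2
    exact refl_eq (h.refl i him) (h.xi_ne i him) (h.w_ne i him) h1 h2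
  obtain ⟨t, ht⟩ : ∃ t : Fin N, t.val = s := ⟨⟨s, by omega⟩, rfl⟩
  obtain ⟨γ, hγ1, hγ2⟩ := hE t (by omega)
  rw [ht, hG s le_rfl] at hγ1 hγ2
  have hαt : α t = 0 := by
    by_contra h'
    exact absurd (hα t h') (by omega)
  rw [hαt, zero_smul, smul_zero, add_zero] at hγ2
  have heig : ∀ i : Fin N, i.val < m → Λ *ᵥ ξ i = γ • ξ i := by
    intro i him
    by_cases hit : i = t
    · rw [hit]; exact hγ1
    obtain ⟨γ', h1, -⟩ := hE i him
    have h2 : Λ *ᵥ ξ i = γ' • ξ i := by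
      by_cases his : i.val < s
      · rwa [dG_mulVec Λ _ _ (hys i his)] at h1
      · rwa [hG i (by omega)] at h1
    have h3 : (w t ᵥ* Λ) ⬝ᵥ ξ i = w t ⬝ᵥ (Λ *ᵥ ξ i) := (Matrix.dotProduct_mulVec _ _ _).symm
    rw [hγ2, h2, smul_dotProduct, dotProduct_smul, smul_eq_mul, smul_eq_mul] at h3
    rw [h2, mul_right_cancel₀ (h.pair t i (by omega) him (Ne.symm hit)) h3]
  -- `Λ` is scalar
  have hscal : ∀ v, Λ *ᵥ v = γ • v := by
    obtain ⟨W, hW⟩ : ∃ W : Submodule ℂ (Fin n → ℂ), ∀ v, v ∈ W ↔ Λ *ᵥ v = γ • v := by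
      refine ⟨LinearMap.ker (Matrix.mulVecLin Λ - γ • LinearMap.id), fun v => ?_⟩
      rw [LinearMap.mem_ker, LinearMap.sub_apply, LinearMap.smul_apply, LinearMap.id_apply,
        Matrix.mulVecLin_apply, sub_eq_zero]
    have h1 := h.irr W fun i v hv => by
      rw [hW] at hv ⊢
      by_cases him : i.val < m
      · rw [h.refl i him, Matrix.add_mulVec, Matrix.one_mulVec, Matrix.vecMulVec_mulVec,
          Matrix.mulVec_add, hv, smul_add]
        congr 1
        rw [op_smul_eq_smul, Matrix.mulVec_smul, heig i him, smul_comm]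
      · rw [Matrix.mulVec_mulVec, ← hcomm i (by omega), ← Matrix.mulVec_mulVec, hv,
          Matrix.mulVec_smul]
    rcases h1 with h1 | h1
    · exfalso
      have h2 : ξ t ∈ W := (hW _).2 hγ1
      rw [h1, Submodule.mem_bot] at h2
      exact h.xi_ne t (by omega) h2
    · intro v
      exact (hW v).1 (h1 ▸ Submodule.mem_top)
  have hscal' : ∀ v : Fin n → ℂ, v ᵥ* Λ = γ • v := by
    intro v
    have h1 : Λ = γ • (1 : P002R.Mat n ℂ) := by
      ext p q
      have := congrFun (hscal (Pi.single q 1)) p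
      rw [Matrix.mulVec_single_one] at this
      rw [Matrix.smul_apply, Matrix.one_apply, smul_eq_mul]
      have h2 : Λ p q = γ * (Pi.single q 1 : Fin n → ℂ) p := this
      rw [h2]
      by_cases hpq : p = q
      · subst hpq; simp
      · rw [Pi.single_eq_of_ne hpq, if_neg hpq]
    rw [h1, Matrix.vecMul_smul, Matrix.vecMul_one]
  have hmain : ∀ p : ℕ, ∀ i : Fin N, i.val = p → α i = 0 := by
    intro p
    induction p using Nat.strong_induction_on with
    | _ p ih =>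
      rintro i rfl
      by_contra hne
      have his := hα i hne
      obtain ⟨γ', h1, h2⟩ := hE i (by omega)
      have h3 : dG Λ a y (y ᵥ* pre c N) ξ α 0 i = Λ := by
        rw [dG, ha0, Finset.sum_eq_zero]
        · ext; simp
        · intro l hl
          rw [Finset.mem_filter] at hl
          rw [ih l hl.2 l rfl, Pi.zero_apply, zero_smul, zero_smul, add_zero]
          ext; simp [vecMulVec_apply]
      rw [h3, hscal'] at h2
      rw [h3, hscal] at h1
      have h4 : γ = γ' := smul_left_injective ℂ (h.xi_ne i (by omega)) h1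
      rw [h4] at h2
      have h5 : (1 + w i ⬝ᵥ ξ i) • α i • y = 0 := by
        have := h2
        rwa [left_eq_add] at this
      rw [smul_smul] at h5
      rcases smul_eq_zero.1 h5 with h6 | h6
      · rcases mul_eq_zero.1 h6 with h7 | h7
        · exact h.unit i (by omega) h7
        · exact hne h7
      · exact hy h6
  funext i
  exact hmain i i rfl

end key

end Vale.Agent.P002R
end
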