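import Mathlib
import Vale.Agent.P002.Bdl.B13
import Vale.Agent.P002.Bdl.B19
import Vale.Agent.P002.Bdl.B20
import Vale.Agent.P002.Bdl.B7
import Vale.Agent.P002.Bdl.B17
import Vale.Agent.P002.Bdl.B18
import Vale.Agent.P002.Bdl.B8
import Vale.Agent.P002.Bdl.B11
import Vale.Agent.P002.Bdl.B3

set_option linter.all false

section

/-!
# P002: rational charts of a conjugacy class with prescribed diagonal
-/

namespace Vale.Agent.P002R

open Matrix

section comp

variable {σ σ' : Type*} {x₀ : σ → ℂ} {y₀ : σ' → ℂ}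

/-- Composition of functions which are regular at a point. -/
theorem exists_ratComp (s : σ' → ratAt x₀) (hs : ∀ i, rev x₀ x₀ (s i) = y₀ i) (g : ratAt y₀) :
    ∃ h : ratAt x₀, ∀ x, rev x₀ x h = rev y₀ (fun i => rev x₀ x (s i)) g := by
  obtain ⟨g, d, P, h1, h2⟩ := g
  obtain ⟨D, hD⟩ : ∃ D : ratAt x₀, D = MvPolynomial.aeval s d := ⟨_, rfl⟩
  obtain ⟨Q, hQ⟩ : ∃ Q : ratAt x₀, Q = MvPolynomial.aeval s P := ⟨_, rfl⟩
  have hr : ∀ (p : MvPolynomial σ' ℂ) (x : σ → ℂ),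
      rev x₀ x (MvPolynomial.aeval s p) = MvPolynomial.eval (fun i => rev x₀ x (s i)) p := by
    intro p x
    rw [← AlgHom.comp_apply, MvPolynomial.comp_aeval, ← MvPolynomial.coe_aeval_eq_eval]
    rfl
  have hDr : ∀ x, rev x₀ x D = MvPolynomial.eval (fun i => rev x₀ x (s i)) d := fun x => by
    rw [hD, hr]
  have hQr : ∀ x, rev x₀ x Q = MvPolynomial.eval (fun i => rev x₀ x (s i)) P := fun x => by
    rw [hQ, hr]
  have hD0 : rev x₀ x₀ D ≠ 0 := by
    rw [hDr]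
    have h3 : (fun i => rev x₀ x₀ (s i)) = y₀ := funext hs
    rw [h3]
    exact h1
  obtain ⟨Di, hDi⟩ := exists_rinv D hD0
  obtain ⟨dD, hdD, hdD'⟩ := ratAt_ne D hD0
  obtain ⟨h, hh⟩ : ∃ h : ratAt x₀, h = Q * Di := ⟨_, rfl⟩
  have hhr : ∀ x, MvPolynomial.eval x dD ≠ 0 →
      rev x₀ x h = g fun i => rev x₀ x (s i) := by
    intro x hx
    have h4 := hdD' x hx
    rw [hh, map_mul, hDi, hQr]
    rw [hDr] at h4 ⊢
    rw [← h2 _ h4, mul_assoc, mul_inv_cancel₀ h4, mul_one]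
  obtain ⟨h', d', P', h5, h6⟩ := h
  refine ⟨⟨fun x => g fun i => rev x₀ x (s i), d' * dD, P' * dD, ?_, fun x hx => ?_⟩, fun x => rfl⟩
  · rw [map_mul]
    exact mul_ne_zero h5 hdD
  · rw [map_mul] at hx
    have h7 := h6 x (left_ne_zero_of_mul hx)
    have h8 := hhr x (right_ne_zero_of_mul hx)
    rw [rev_apply] at h8
    simp only at h8
    simp only [map_mul]
    rw [← h7, ← h8]
    ring

end comp

/-- Rational charts through `X₀` of the set of the elements of the cell in the conjugacy class of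
`J`: a member of a rational family with prescribed diagonal (the variables in `Fin r`) and
parameters in `τ`, with a dense set of parameters for which the members with unit diagonal are
integral. -/
def DualD {r : ℕ} {R : Type*} [CommRing R] (φ : R →+* ℂ) (J X₀ : Mat r ℂ) : Prop :=
  ∃ (τ : Type) (t₀ : τ → ℂ) (A : Set (τ → ℂ)),
    (∀ P : MvPolynomial τ ℂ, (∀ t ∈ A, MvPolynomial.eval t P = 0) → MvPolynomial.eval t₀ P = 0) ∧
    ∃ (Y : Mat r (ratAt (Sum.elim t₀ fun i : Fin r => X₀ i i)))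
      (κ : ratAt (Sum.elim t₀ fun i : Fin r => X₀ i i)),
      rev _ (Sum.elim t₀ fun i : Fin r => X₀ i i) κ ≠ 0 ∧
      (∀ i j, rev _ (Sum.elim t₀ fun i : Fin r => X₀ i i) (Y i j) = X₀ i j) ∧
      ∀ t ∈ A, ∀ q : Fin r → Rˣ, ∏ i, φ (q i) = J.det →
        rev _ (Sum.elim t fun i : Fin r => φ (q i)) κ ≠ 0 →
        ∃ X : Mat r R, (∀ i, X i i = q i) ∧ CjM J (zZ (X.map φ)) ∧
          ∀ i j, rev _ (Sum.elim t fun i : Fin r => φ (q i)) (Y i j) = φ (X i j)

end Vale.Agent.P002R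
end

section

/-!
# P002, genus 0, two regular classes: density in the space of parameters of the chart
-/

namespace Vale.Agent.P002R

open Matrix

/-- Density of a product of two sets. -/
theorem dense_sum {σ τ : Type*} {x₀ : σ → ℂ} {t₀ : τ → ℂ} (B : Set (σ → ℂ)) (A : Set (τ → ℂ))
    (hB : ∀ P : MvPolynomial σ ℂ, (∀ x ∈ B, MvPolynomial.eval x P = 0) →
      MvPolynomial.eval x₀ P = 0)
    (hA : ∀ P : MvPolynomial τ ℂ, (∀ t ∈ A, MvPolynomial.eval t P = 0) →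
      MvPolynomial.eval t₀ P = 0) (P : MvPolynomial (σ ⊕ τ) ℂ)
    (hP : ∀ x ∈ B, ∀ t ∈ A, MvPolynomial.eval (Sum.elim x t) P = 0) :
    MvPolynomial.eval (Sum.elim x₀ t₀) P = 0 := by
  have h1 : ∀ t : τ → ℂ, ∃ Q : MvPolynomial σ ℂ, ∀ x, MvPolynomial.eval x Q =
      MvPolynomial.eval (Sum.elim x t) P := by
    intro t
    refine ⟨MvPolynomial.aeval (Sum.elim MvPolynomial.X fun i => MvPolynomial.C (t i)) P,
      fun x => ?_⟩
    rw [← MvPolynomial.coe_aeval_eq_eval, ← MvPolynomial.coe_aeval_eq_eval]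
    change (MvPolynomial.aeval x) ((MvPolynomial.aeval _) P) = (MvPolynomial.aeval _) P
    rw [← AlgHom.comp_apply, MvPolynomial.comp_aeval]
    congr 2
    funext p
    rcases p with p | p
    · simp
    · simp
  have h2 : ∀ x : σ → ℂ, ∃ Q : MvPolynomial τ ℂ, ∀ t, MvPolynomial.eval t Q =
      MvPolynomial.eval (Sum.elim x t) P := by
    intro x
    refine ⟨MvPolynomial.aeval (Sum.elim (fun i => MvPolynomial.C (x i)) MvPolynomial.X) P,
      fun t => ?_⟩
    rw [← MvPolynomial.coe_aeval_eq_eval, ← MvPolynomial.coe_aeval_eq_eval]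
    change (MvPolynomial.aeval t) ((MvPolynomial.aeval _) P) = (MvPolynomial.aeval _) P
    rw [← AlgHom.comp_apply, MvPolynomial.comp_aeval]
    congr 2
    funext p
    rcases p with p | p
    · simp
    · simp
  obtain ⟨Q, hQ⟩ := h2 x₀
  rw [← hQ]
  refine hA Q fun t ht => ?_
  rw [hQ]
  obtain ⟨Q', hQ'⟩ := h1 t
  rw [← hQ']
  refine hB Q' fun x hx => ?_
  rw [hQ']
  exact hP x hx t ht

theorem core_density2 {R : Type*} [CommRing R] (φ : R →+* ℂ) {r m : ℕ}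
    (J : Fin m → Mat r ℂ) (hT : ∀ k, TotD φ (J k)) (Jl : Mat r ℂ) (θ : Fin r → Rˣ)
    (F : MvPolynomial (Fin (m + 1) × Fin r × Fin r) ℂ)
    (hF : ∀ Y : Fin (m + 1) → Mat r R, (∀ k i, IsUnit (Y k i i)) →
      (∀ k : Fin m, CjM (J k) (zZ ((Y k.castSucc).map φ))) →
      CjM Jl (zZ ((Y (Fin.last m)).map φ)) → (∀ i, ∏ l, Y l i i = θ i) →
      MvPolynomial.aeval (fun p => φ (Y p.1 p.2.1 p.2.2)) F = (0 : ℂ))
    (Y : Fin (m + 1) → Mat r ℂ) (hY0 : ∀ k i, Y k i i ≠ 0)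
    (hY1 : ∀ k : Fin m, CjM (J k) (zZ (Y k.castSucc)))
    (hY2 : CjM Jl (zZ (Y (Fin.last m)))) (hD : DualD φ Jl (Y (Fin.last m)))
    (hY4 : ∀ i, ∏ l, Y l i i = φ (θ i)) :
    MvPolynomial.aeval (fun p => Y p.1 p.2.1 p.2.2) F = (0 : ℂ) := by
  obtain ⟨τ, t₀, A, hA, Yt, κ, hκ, hYt, hint⟩ := hD
  obtain ⟨p₁, hp₁⟩ : ∃ p₁ : Fin m × (Fin r × Fin r) → ℂ,
    p₁ = fun p => Y p.1.castSucc p.2.1 p.2.2 := ⟨_, rfl⟩
  obtain ⟨p₀, hp₀⟩ : ∃ p₀ : (Fin m × (Fin r × Fin r)) ⊕ τ → ℂ, p₀ = Sum.elim p₁ t₀ := ⟨_, rfl⟩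
  obtain ⟨YS, hYS⟩ : ∃ YS : Fin m → Mat r (ratAt p₀),
    YS = fun k => Matrix.of fun i j => rX p₀ (Sum.inl (k, (i, j))) := ⟨_, rfl⟩
  have hYSr : ∀ x k i j, rev p₀ x (YS k i j) = x (Sum.inl (k, (i, j))) := by
    intro x k i j
    rw [hYS]
    exact rev_rX p₀ x (Sum.inl (k, (i, j)))
  have hden : ∀ i, rev p₀ p₀ (∏ k, YS k i i) ≠ 0 := by
    intro i
    rw [map_prod, Finset.prod_ne_zero_iff]
    intro k _
    rw [hYSr, hp₀, hp₁]
    exact hY0 _ i
  choose inv hinv using fun i => exists_rinv (∏ k, YS k i i) (hden i)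
  obtain ⟨q, hq⟩ : ∃ q : Fin r → ratAt p₀, q = fun i => algebraMap ℂ _ (φ (θ i)) * inv i :=
    ⟨_, rfl⟩
  have hqr : ∀ x i, rev p₀ x (q i) = φ (θ i) * (∏ k, x (Sum.inl (k, (i, i))))⁻¹ := by
    intro x i
    rw [hq]
    simp only
    rw [map_mul, hinv, map_prod, AlgHom.commutes]
    simp only [hYSr]
    rfl
  have hq0 : ∀ i, rev p₀ p₀ (q i) = Y (Fin.last m) i i := by
    intro i
    rw [hqr, ← hY4 i, Fin.prod_univ_castSucc, hp₀, hp₁]
    simp only [Sum.elim_inl]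
    rw [mul_comm (∏ l : Fin m, Y l.castSucc i i), mul_assoc, mul_inv_cancel₀, mul_one]
    rw [Finset.prod_ne_zero_iff]
    exact fun k _ => hY0 _ i
  obtain ⟨s, hs⟩ : ∃ s : τ ⊕ Fin r → ratAt p₀, s = Sum.elim (fun a => rX p₀ (Sum.inr a)) q :=
    ⟨_, rfl⟩
  have hsr : ∀ x, (fun i => rev p₀ x (s i)) =
      Sum.elim (fun a => x (Sum.inr a)) fun i => rev p₀ x (q i) := by
    intro x
    funext i
    rw [hs]
    rcases i with a | i
    · rfl
    · rfl
  have hs0' : (fun i => rev p₀ p₀ (s i)) =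
      Sum.elim t₀ fun i => Y (Fin.last m) i i := by
    rw [hsr]
    funext i
    rcases i with a | i
    · exact congrFun hp₀ (Sum.inr a)
    · simp only [Sum.elim_inr]
      exact hq0 i
  have hs0 : ∀ i, rev p₀ p₀ (s i) = (Sum.elim t₀ fun i => Y (Fin.last m) i i :
      τ ⊕ Fin r → ℂ) i := fun i => congrFun hs0' i
  choose Yt' hYt' using fun i j => exists_ratComp s hs0 (Yt i j)
  obtain ⟨κ', hκ'⟩ := exists_ratComp s hs0 κ
  -- the function
  obtain ⟨g, hg⟩ : ∃ g : ratAt p₀, g = MvPolynomial.aeval (fun p => (Fin.snoc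
    (α := fun _ => Mat r (ratAt p₀)) YS (Matrix.of Yt') : Fin (m + 1) → _) p.1 p.2.1 p.2.2) F :=
    ⟨_, rfl⟩
  have hgr : ∀ x, rev p₀ x g = MvPolynomial.aeval (fun p => (Fin.snoc
      (α := fun _ => Mat r ℂ) (fun k => Matrix.of fun i j => x (Sum.inl (k, (i, j))))
      (Matrix.of fun i j => rev p₀ x (Yt' i j)) :
        Fin (m + 1) → Mat r ℂ) p.1 p.2.1 p.2.2) F := by
    intro x
    rw [hg, ← AlgHom.comp_apply, MvPolynomial.comp_aeval]
    congr 2
    funext p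
    obtain ⟨k, i, j⟩ := p
    refine Fin.lastCases ?_ (fun k => ?_) k
    · simp only [Fin.snoc_last]
      rfl
    · simp only [Fin.snoc_castSucc]
      exact hYSr x k i j
  -- the dense set
  obtain ⟨B, hBdef⟩ : ∃ B : Set (Fin m × (Fin r × Fin r) → ℂ), B =
    {x | ∃ Yi : Fin m → Mat r R, (∀ k i, IsUnit (Yi k i i)) ∧
      (∀ k, CjM (J k) (zZ ((Yi k).map φ))) ∧ x = fun p => φ (Yi p.1 p.2.1 p.2.2)} := ⟨_, rfl⟩
  have hB : ∀ P : MvPolynomial (Fin m × (Fin r × Fin r)) ℂ,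
      (∀ x ∈ B, MvPolynomial.eval x P = 0) → MvPolynomial.eval p₁ P = 0 := by
    intro P hP
    have h1 := dense_pi
      (fun k => {v | ∃ X : Mat r R, (∀ i, IsUnit (X i i)) ∧ CjM (J k) (zZ (X.map φ)) ∧
        v = fun p => φ (X p.1 p.2)})
      (fun k => {v | ∃ X : Mat r ℂ, (∀ i, X i i ≠ 0) ∧ CjM (J k) (zZ X) ∧
        v = fun p => X p.1 p.2})
      (fun k F hF v hv => by
        obtain ⟨X, hX1, hX2, rfl⟩ := hv
        exact hT k F (fun X' h1 h2 => hF _ ⟨X', h1, h2, rfl⟩) X hX1 hX2) P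
      (fun v hv => by
        choose Yi h1 h2 h3 using hv
        apply hP
        rw [hBdef]
        refine ⟨Yi, h1, h2, ?_⟩
        funext p
        rw [h3 p.1])
      (fun k p => Y k.castSucc p.1 p.2)
      (fun k => ⟨Y k.castSucc, hY0 _, hY1 k, rfl⟩)
    rw [hp₁]
    exact h1
  have hdense : ∀ P : MvPolynomial ((Fin m × (Fin r × Fin r)) ⊕ τ) ℂ,
      (∀ x ∈ {x | ∃ y ∈ B, ∃ t ∈ A, x = Sum.elim y t}, MvPolynomial.eval x P = 0) →
      MvPolynomial.eval p₀ P = 0 := by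
    intro P hP
    rw [hp₀]
    exact dense_sum B A hB hA P fun x hx t ht => hP _ ⟨x, hx, t, ht, rfl⟩
  have hfin := ratAt_dense' _ hdense g κ' (by rw [hκ', hs0']; exact hκ) (fun x hx hκx => by
    obtain ⟨y, hy, t, ht, rfl⟩ := hx
    rw [hBdef] at hy
    obtain ⟨Yi, h1, h2, rfl⟩ := hy
    rw [hκ', hsr] at hκx
    rw [hgr]
    have hu : ∀ i, IsUnit (∏ k, Yi k i i) := fun i => by
      rw [IsUnit.prod_univ_iff]
      exact fun l => h1 l i
    choose w hw using hu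
    obtain ⟨qi, hqi⟩ : ∃ qi : Fin r → Rˣ, qi = fun i => θ i * (w i)⁻¹ := ⟨_, rfl⟩
    have hwi : ∀ i, φ (w i) * φ ((w i)⁻¹ : Rˣ) = 1 := fun i => by
      rw [← map_mul, Units.mul_inv, map_one]
    have hqx : ∀ i, rev p₀ (Sum.elim (fun p => φ (Yi p.1 p.2.1 p.2.2)) t) (q i) = φ (qi i) := by
      intro i
      rw [hqr, hqi]
      simp only [Sum.elim_inl]
      have h3 : (∏ k, φ (Yi k i i)) = φ (w i) := by rw [hw, map_prod]
      rw [h3, Units.val_mul, map_mul]
      congr 1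
      exact inv_eq_of_mul_eq_one_right (hwi i)
    have hqx' : (fun i => rev p₀ (Sum.elim (fun p => φ (Yi p.1 p.2.1 p.2.2)) t) (q i)) =
        fun i => φ (qi i : R) := funext hqx
    have hdet : ∏ i, φ (qi i : R) = Jl.det := by
      have h3 : (∏ i, φ (w i)) = ∏ k, (J k).det := by
        have h4 : ∀ i, φ (w i) = ∏ k, φ (Yi k i i) := fun i => by rw [hw, map_prod]
        simp only [h4]
        rw [Finset.prod_comm]
        refine Finset.prod_congr rfl fun k _ => ?_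
        rw [← (h2 k).det, det_zZ]
        rfl
      have h4 : (∏ i, φ (θ i)) = (∏ k, (J k).det) * Jl.det := by
        simp only [← hY4]
        rw [Finset.prod_comm, Fin.prod_univ_castSucc]
        congr 1
        · refine Finset.prod_congr rfl fun k _ => ?_
          rw [← (hY1 k).det, det_zZ]
        · rw [← hY2.det, det_zZ]
      have h5 : (∏ i, φ (w i)) * ∏ i, φ (qi i : R) = ∏ i, φ (θ i) := by
        rw [← Finset.prod_mul_distrib]
        refine Finset.prod_congr rfl fun i _ => ?_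
        rw [hqi]
        simp only
        rw [Units.val_mul, map_mul, mul_left_comm, hwi, mul_one]
      have h6 : (∏ i, φ (w i)) ≠ 0 := by
        rw [Finset.prod_ne_zero_iff]
        exact fun i _ => ((w i).isUnit.map φ).ne_zero
      rw [h4, ← h3] at h5
      exact mul_left_cancel₀ h6 h5
    rw [hqx'] at hκx
    obtain ⟨X, hX1, hX2, hX3⟩ := hint t ht qi hdet hκx
    have hYx : ∀ i j, rev p₀ (Sum.elim (fun p => φ (Yi p.1 p.2.1 p.2.2)) t) (Yt' i j) =
        φ (X i j) := by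
      intro i j
      rw [hYt', hsr, hqx']
      exact hX3 i j
    have h7 := hF (Fin.snoc (α := fun _ => Mat r R) Yi X) (fun k i => by
        refine Fin.lastCases ?_ (fun k => ?_) k
        · rw [Fin.snoc_last, hX1]
          exact (qi i).isUnit
        · rw [Fin.snoc_castSucc]
          exact h1 k i) (fun k => by
        rw [Fin.snoc_castSucc]
        exact h2 k) (by rw [Fin.snoc_last]; exact hX2) (fun i => by
        rw [Fin.prod_univ_castSucc]
        simp only [Fin.snoc_last, Fin.snoc_castSucc]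
        rw [hX1, ← hw i, hqi]
        simp only
        rw [← Units.val_mul, mul_left_comm, mul_inv_cancel, mul_one])
    rw [← h7]
    congr 2
    funext p
    obtain ⟨k, i, j⟩ := p
    refine Fin.lastCases ?_ (fun k => ?_) k
    · simp only [Fin.snoc_last]
      exact hYx i j
    · simp only [Fin.snoc_castSucc]
      rfl)
  rw [hgr] at hfin
  rw [← hfin]
  congr 2
  funext p
  obtain ⟨k, i, j⟩ := p
  refine Fin.lastCases ?_ (fun k => ?_) k
  · simp only [Fin.snoc_last]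
    change Y (Fin.last m) i j = rev p₀ p₀ (Yt' i j)
    rw [hYt', hs0']
    exact (hYt i j).symm
  · simp only [Fin.snoc_castSucc]
    have h8 := congrFun hp₀ (Sum.inl (k, (i, j)))
    have h9 := congrFun hp₁ (k, (i, j))
    exact (h8.trans h9).symm

end Vale.Agent.P002R
end

section

/-!
# P002: duality, every dual tuple in generic position is in the chart
-/

namespace Vale.Agent.P002R

open Matrix

variable {n e : ℕ}

theorem exists_params_aux (ζ : ℂ) (x : Matrix (Fin n) (Fin e) ℂ)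
    (Υ : Matrix (Fin (n + e)) (Fin n) ℂ) (X : ℕ → Mat n ℂ)
    (hX0 : X 0 = dX 1 (Matrix.of fun i j => Υ (Fin.castAdd e i) j))
    (hXd : ∀ l ≤ e, ∀ i, X l i i ≠ 0)
    (hκ : ∀ l : Fin e, 1 + Υ (Fin.natAdd n l) ⬝ᵥ (fun a => x a l) ≠ 0)
    (hX : ∀ l : Fin e, zZ (X (l + 1)) = zZ (X l) *
      (1 + vecMulVec (fun a => x a l) (Υ (Fin.natAdd n l))))
    (hv : ∀ l : Fin e, ∀ i, (lL (X (l + 1)) *ᵥ fun a => x a l) i ≠ 0) :
    ∃ I : DIn n ℂ, I.z = ζ ∧ I.Ok ∧ I.Xi e = oneX x ∧ I.Up e = Υ ∧ (∀ i, I.W i i ≠ 0) ∧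
      (∀ k i, I.v k i ≠ 0) ∧ (∀ k i, I.p k i ≠ 0) ∧ (∀ k, e ≤ k → I.v k = 1) ∧
      (∀ k, e ≤ k → I.p k = 1) ∧ (∀ k, e ≤ k → I.ka k = 1) ∧
      (∀ k i, I.vi k i = (I.v k i)⁻¹) ∧ ∀ k, I.dv k = ((Lc I.Y (k + 1)).det)⁻¹ := by
  have hstep := fun l : Fin e => dual_step (X l) (X (l + 1)) (fun a => x a l)
    (Υ (Fin.natAdd n l)) (hXd l l.2.le) (hXd (l + 1) l.2) (hκ l) (hX l) (hv l)
  choose v y h1 h2 h3 h4 h5 h6 h7 using hstep
  obtain ⟨vv, hvv⟩ : ∃ vv : ℕ → Fin n → ℂ, vv = fun k => if h : k < e then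
    v ⟨e - 1 - k, by omega⟩ else 1 := ⟨_, rfl⟩
  obtain ⟨pp, hpp⟩ : ∃ pp : ℕ → Fin n → ℂ, pp = fun k => if h : k < e then
    (fun i => 1 + v ⟨e - 1 - k, by omega⟩ i * y ⟨e - 1 - k, by omega⟩ i) else 1 := ⟨_, rfl⟩
  obtain ⟨kk, hkk⟩ : ∃ kk : ℕ → ℂ, kk = fun k => if h : k < e then
    1 + Υ (Fin.natAdd n ⟨e - 1 - k, by omega⟩) ⬝ᵥ (fun a => x a ⟨e - 1 - k, by omega⟩) else 1 :=
    ⟨_, rfl⟩
  obtain ⟨I0, hI0⟩ : ∃ I0 : DIn n ℂ, I0 = ⟨ζ, X e, vv, fun k i => (vv k i)⁻¹, pp, fun _ => 0, kk⟩ :=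
    ⟨_, rfl⟩
  obtain ⟨I, hI⟩ : ∃ I : DIn n ℂ, I = ⟨ζ, X e, vv, fun k i => (vv k i)⁻¹, pp,
    fun k => ((Lc I0.Y (k + 1)).det)⁻¹, kk⟩ := ⟨_, rfl⟩
  have hIz : I.z = ζ := by rw [hI]
  have hIW : I.W = X e := by rw [hI]
  have hIv : I.v = vv := by rw [hI]
  have hIvi : I.vi = fun k i => (vv k i)⁻¹ := by rw [hI]
  have hIp : I.p = pp := by rw [hI]
  have hIka : I.ka = kk := by rw [hI]
  have hYY : I.Y = I0.Y := by
    funext k
    cases k with
    | zero => rw [DIn.Y_zero, DIn.Y_zero, hI, hI0]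
    | succ k =>
      rw [DIn.Y_succ, DIn.Y_succ, hI, hI0]
      rfl
  have hIdv : I.dv = fun k => ((Lc I.Y (k + 1)).det)⁻¹ := by rw [hYY, hI]
  have hvv0 : ∀ k i, vv k i ≠ 0 := by
    intro k i
    rw [hvv]
    simp only
    split_ifs
    · exact h1 _ i
    · exact one_ne_zero
  have hpp0 : ∀ k i, pp k i ≠ 0 := by
    intro k i
    rw [hpp]
    simp only
    split_ifs
    · exact h6 _ i
    · exact one_ne_zero
  have hyI : ∀ k (hk : k < e), I.y k = y ⟨e - 1 - k, by omega⟩ := by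
    intro k hk
    funext i
    rw [DIn.y, hIp, hIvi, hpp, hvv]
    simp only [dif_pos hk]
    have := h1 ⟨e - 1 - k, by omega⟩ i
    field_simp
    ring
  have hyI' : ∀ k, e ≤ k → I.y k = 0 := by
    intro k hk
    funext i
    rw [DIn.y, hIp, hpp]
    simp only [dif_neg (not_lt.2 hk)]
    rw [Pi.one_apply, sub_self, zero_mul, Pi.zero_apply]
  have hvI : ∀ k (hk : k < e), I.v k = v ⟨e - 1 - k, by omega⟩ := by
    intro k hk
    rw [hIv, hvv]
    simp only [dif_pos hk]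
  have hYI : ∀ k (hk : k < e), I.Y (k + 1) = dX 1 (vecMulVec (v ⟨e - 1 - k, by omega⟩)
      (y ⟨e - 1 - k, by omega⟩)) := by
    intro k hk
    rw [DIn.Y_succ, hyI k hk, hvI k hk]
  have hchain : ∀ k ≤ e, Lc I.Y (k + 1) = lL (X (e - k)) ∧ Uc I.Y (k + 1) = uU (X (e - k)) := by
    intro k
    induction k with
    | zero =>
      intro _
      rw [Lc_succ, Uc_succ, Lc_zero, Uc_zero, Matrix.mul_one, Matrix.one_mul, DIn.Y_zero, hIW]
      exact ⟨rfl, rfl⟩
    | succ k ih =>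
      intro hk
      obtain ⟨ih1, ih2⟩ := ih (by omega)
      have h8 : e - (k + 1) = e - 1 - k := by omega
      have h9 : e - k = e - 1 - k + 1 := by omega
      rw [Lc_succ, Uc_succ, ih1, ih2, hYI k (by omega), h8, h9]
      exact ⟨h2 ⟨e - 1 - k, by omega⟩, h3 ⟨e - 1 - k, by omega⟩⟩
  have hYd : ∀ k i, I.Y (k + 1) i i = pp k i := by
    intro k i
    rw [DIn.Y_succ, dX_diag, vecMulVec_apply, one_mul, DIn.y, hIp, hIvi, hIv]
    have := hvv0 k i
    simp only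
    field_simp
    ring
  have hdet : ∀ k, (Lc I.Y (k + 1)).det ≠ 0 := by
    intro k
    rw [det_Lc, Finset.prod_ne_zero_iff]
    intro i _
    rw [Finset.prod_ne_zero_iff]
    intro l _
    cases l with
    | zero => rw [DIn.Y_zero, hIW]; exact hXd e le_rfl i
    | succ l => rw [hYd]; exact hpp0 l i
  have hOk : I.Ok := by
    refine ⟨fun k i => ?_, fun k => ?_, fun k => ?_⟩
    · rw [hIv, hIvi]
      exact mul_inv_cancel₀ (hvv0 k i)
    · rw [hIdv]
      exact inv_mul_cancel₀ (hdet k)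
    · rw [hIka, hIp, hkk, hpp]
      simp only
      split_ifs with hk
      · exact h7 _
      · simp
  have hxi : ∀ k (hk : k < e), I.xi k = fun a => x a ⟨e - 1 - k, by omega⟩ := by
    intro k hk
    have h8 : e - k = e - 1 - k + 1 := by omega
    have h9 := DIn.Lc_xi hOk k
    rw [DIn.v', hvI k hk, hYI k hk, h4, ← h8, ← (hchain k hk.le).1] at h9
    have h10 : IsUnit (Lc I.Y (k + 1)).det := isUnit_iff_ne_zero.2 (hdet k)
    have h11 := congrArg (fun u => (Lc I.Y (k + 1))⁻¹ *ᵥ u) h9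
    rw [Matrix.mulVec_mulVec, Matrix.mulVec_mulVec, Matrix.nonsing_inv_mul _ h10,
      Matrix.one_mulVec, Matrix.one_mulVec] at h11
    exact h11
  have hw : ∀ k (hk : k < e), I.w k = Υ (Fin.natAdd n ⟨e - 1 - k, by omega⟩) := by
    intro k hk
    have h8 : e - k = e - 1 - k + 1 := by omega
    rw [DIn.w, hyI k hk, (hchain k hk.le).1, h8]
    have h9 : I.ka k = 1 + Υ (Fin.natAdd n ⟨e - 1 - k, by omega⟩) ⬝ᵥ
        (fun a => x a ⟨e - 1 - k, by omega⟩) := by
      rw [hIka, hkk]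
      simp only [dif_pos hk]
    rw [h9]
    exact h5 ⟨e - 1 - k, by omega⟩
  refine ⟨I, hIz, hOk, ?_, ?_, ?_, ?_, ?_, ?_, ?_, ?_, ?_, ?_⟩
  · rw [DIn.Xi]
    congr 1
    ext i j
    rw [Matrix.of_apply, hxi (e - 1 - j) (by have := j.2; omega)]
    simp only
    congr 1
    ext
    simp only
    have := j.2
    omega
  · funext i
    refine Fin.addCases (fun i => ?_) (fun j => ?_) i
    · rw [DIn.Up_left, (hchain e le_rfl).1, (hchain e le_rfl).2, Nat.sub_self, hX0, lL_dX, uU_dX]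
      obtain ⟨A, hA⟩ : ∃ A : Mat n ℂ, A = Matrix.of fun i j => Υ (Fin.castAdd e i) j := ⟨_, rfl⟩
      rw [← hA, one_smul]
      have h8 : (dU A).adjugate = 1 - upS A := by
        have h9 : (dU A).det = 1 := by
          have h10 := congrArg Matrix.det (dU_mul A)
          rw [Matrix.det_mul, det_one_sub_upS, mul_one, Matrix.det_one] at h10
          exact h10
        have h11 : (dU A).adjugate * dU A = 1 := by rw [Matrix.adjugate_mul, h9, one_smul]
        calc (dU A).adjugate = (dU A).adjugate * (dU A * (1 - upS A)) := by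
              rw [dU_mul, Matrix.mul_one]
          _ = _ := by rw [← Matrix.mul_assoc, h11, Matrix.one_mul]
      have h12 : 1 + lL A - (1 - upS A) = A := by
        have := upS_add_lL A
        calc 1 + lL A - (1 - upS A) = upS A + lL A := by abel
          _ = A := this
      rw [h8, h12, hA]
      rfl
    · rw [DIn.Up_right, hw (e - 1 - j) (by have := j.2; omega)]
      congr 2
      ext
      simp only
      have := j.2
      omega
  · rw [hIW]
    exact hXd e le_rfl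
  · rw [hIv]
    exact hvv0
  · rw [hIp]
    exact hpp0
  · intro k hk
    rw [hIv, hvv]
    simp only [dif_neg (not_lt.2 hk)]
  · intro k hk
    rw [hIp, hpp]
    simp only [dif_neg (not_lt.2 hk)]
  · intro k hk
    rw [hIka, hkk]
    simp only [dif_neg (not_lt.2 hk)]
  · intro k i
    rw [hIvi, hIv]
  · intro k
    rw [hIdv]

/-- Every dual tuple in generic position with first vectors the standard basis is in the chart. -/
theorem exists_params (ζ : ℂ) (x : Matrix (Fin n) (Fin e) ℂ)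
    (Υ : Matrix (Fin (n + e)) (Fin n) ℂ)
    (hκ : ∀ i, 1 + Υ i ⬝ᵥ (fun a => oneX x a i) ≠ 0)
    (hcell : ∀ l : Fin e, ∃ X : Mat n ℂ, (∀ i, X i i ≠ 0) ∧
      zZ X = ((List.ofFn (dR (oneX x) Υ)).take (n + l + 1)).prod ∧
      ∀ i, (lL X *ᵥ fun a => x a l) i ≠ 0) :
    ∃ I : DIn n ℂ, I.z = ζ ∧ I.Ok ∧ I.Xi e = oneX x ∧ I.Up e = Υ ∧ (∀ i, I.W i i ≠ 0) ∧
      (∀ k i, I.v k i ≠ 0) ∧ (∀ k i, I.p k i ≠ 0) ∧ (∀ k, e ≤ k → I.v k = 1) ∧
      (∀ k, e ≤ k → I.p k = 1) ∧ (∀ k, e ≤ k → I.ka k = 1) ∧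
      (∀ k i, I.vi k i = (I.v k i)⁻¹) ∧ ∀ k, I.dv k = ((Lc I.Y (k + 1)).det)⁻¹ := by
  choose X h1 h2 h3 using hcell
  obtain ⟨A, hA⟩ : ∃ A : Mat n ℂ, A = Matrix.of fun i j => Υ (Fin.castAdd e i) j := ⟨_, rfl⟩
  obtain ⟨XX, hXX⟩ : ∃ XX : ℕ → Mat n ℂ, XX = fun l => if h : 1 ≤ l ∧ l ≤ e then
    X ⟨l - 1, by omega⟩ else dX 1 A := ⟨_, rfl⟩
  have hXX0 : XX 0 = dX 1 A := by
    rw [hXX]
    simp only
    rw [dif_neg (by omega)]
  have hXXs : ∀ l : Fin e, XX (l + 1) = X l := by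
    intro l
    rw [hXX]
    simp only
    rw [dif_pos ⟨by omega, l.2⟩]
    congr 1
  have hP : ∀ l ≤ e, zZ (XX l) = ((List.ofFn (dR (oneX x) Υ)).take (n + l)).prod := by
    intro l hl
    rcases Nat.eq_zero_or_pos l with h4 | h4
    · rw [h4, hXX0, add_zero, take_first, hA]
    · obtain ⟨l', rfl⟩ : ∃ l', l = l' + 1 := ⟨l - 1, by omega⟩
      have h5 := hXXs ⟨l', hl⟩
      simp only at h5
      rw [h5, h2]
      rfl
  refine exists_params_aux ζ x Υ XX (by rw [hXX0, hA]) ?_ ?_ ?_ ?_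
  · intro l hl i
    rcases Nat.eq_zero_or_pos l with h4 | h4
    · rw [h4, hXX0, dX_diag, one_mul, hA]
      have h5 := hκ (Fin.castAdd e i)
      have h6 : Υ (Fin.castAdd e i) ⬝ᵥ (fun a => oneX x a (Fin.castAdd e i)) =
          Υ (Fin.castAdd e i) i := by
        simp only [oneX_left, dotProduct]
        rw [Finset.sum_eq_single i]
        · rw [Matrix.one_apply_eq, mul_one]
        · intro b _ hb
          rw [Matrix.one_apply_ne hb, mul_zero]
        · intro h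
          exact absurd (Finset.mem_univ i) h
      rw [h6] at h5
      exact h5
    · obtain ⟨l', rfl⟩ : ∃ l', l = l' + 1 := ⟨l - 1, by omega⟩
      have h5 := hXXs ⟨l', hl⟩
      simp only at h5
      rw [h5]
      exact h1 _ i
  · intro l
    have h5 := hκ (Fin.natAdd n l)
    simp only [oneX_right] at h5
    exact h5
  · intro l
    rw [hP (l + 1) l.2, hP l l.2.le]
    have h6 := take_succ_prod (dR (oneX x) Υ) (Fin.natAdd n l)
    simp only [Fin.val_natAdd] at h6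
    rw [← add_assoc, h6]
    congr 1
    rw [dR]
    simp only [oneX_right]
  · intro l i
    rw [hXXs]
    exact h3 l i

end Vale.Agent.P002R
end

section

/-!
# P002: duality, rational charts
-/

namespace Vale.Agent.P002R

open Matrix

variable {n e : ℕ}

/-- The index of the parameters. -/
abbrev DTau (n : ℕ) : Type := (Fin n × Fin n) ⊕ ((ℕ × Fin n) ⊕ (ℕ × Fin n))

/-- The complex parameters at a point. -/
noncomputable def DPt (e : ℕ) (ζ : ℂ) (i₀ : Fin n) (x : DTau n ⊕ Fin (n + e) → ℂ)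
    (dv : ℕ → ℂ) : DIn n ℂ where
  z := ζ
  W := Matrix.of fun i j => x (Sum.inl (Sum.inl (i, j)))
  v := fun k i => if k < e then x (Sum.inl (Sum.inr (Sum.inl (k, i)))) else 1
  vi := fun k i => (if k < e then x (Sum.inl (Sum.inr (Sum.inl (k, i)))) else 1)⁻¹
  p := pG e ζ (fun i => x (Sum.inr i)) i₀ (fun i => x (Sum.inl (Sum.inl (i, i))))
    fun k i => x (Sum.inl (Sum.inr (Sum.inr (k, i))))
  dv := dv
  ka := kaG e ζ fun i => x (Sum.inr i)

theorem DIn.Y_congr {S : Type*} [CommRing S] {I I' : DIn n S} (h1 : I.W = I'.W) (h2 : I.v = I'.v)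
    (h3 : I.vi = I'.vi) (h4 : I.p = I'.p) : I.Y = I'.Y := by
  funext k
  cases k with
  | zero => exact h1
  | succ k =>
    rw [DIn.Y_succ, DIn.Y_succ, h2]
    have : I.y k = I'.y k := by
      funext i
      rw [DIn.y, DIn.y, h3, h4]
    rw [this]

theorem DIn.ext' {S : Type*} {I I' : DIn n S} (h0 : I.z = I'.z) (h1 : I.W = I'.W)
    (h2 : I.v = I'.v) (h3 : I.vi = I'.vi) (h4 : I.p = I'.p) (h5 : I.dv = I'.dv)
    (h6 : I.ka = I'.ka) : I = I' := by
  cases I
  cases I'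
  simp only at h0 h1 h2 h3 h4 h5 h6
  rw [h0, h1, h2, h3, h4, h5, h6]

/-- The family over the ring of rational functions. -/
theorem exists_family_dual (e : ℕ) (ζ : ℂ) (hζ : ζ ≠ 0) (i₀ : Fin n)
    (x₀ : DTau n ⊕ Fin (n + e) → ℂ) (hW : ∀ i, x₀ (Sum.inl (Sum.inl (i, i))) ≠ 0)
    (hv : ∀ k i, x₀ (Sum.inl (Sum.inr (Sum.inl (k, i)))) ≠ 0)
    (hb : ∀ k i, x₀ (Sum.inl (Sum.inr (Sum.inr (k, i)))) ≠ 0)
    (hq : ∀ i, x₀ (Sum.inr i) ≠ 0)
    (hdet : ∀ k, (Lc (DPt e ζ i₀ x₀ 0).Y (k + 1)).det ≠ 0) :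
    ∃ I : DIn n (ratAt x₀), ∀ x, I.map (rev x₀ x).toRingHom =
      DPt e ζ i₀ x fun k => ((Lc (DPt e ζ i₀ x 0).Y (k + 1)).det)⁻¹ := by
  have hmul : ∀ f g : (DTau n ⊕ Fin (n + e) → ℂ) → ℂ, f ∈ ratAt x₀ → g ∈ ratAt x₀ →
      (fun x => f x * g x) ∈ ratAt x₀ := fun f g hf hg => (ratAt x₀).mul_mem hf hg
  have hconst : ∀ c : ℂ, (fun _ => c) ∈ ratAt x₀ := fun c => (ratAt x₀).algebraMap_mem c
  have hinv : ∀ f : (DTau n ⊕ Fin (n + e) → ℂ) → ℂ, f ∈ ratAt x₀ → f x₀ ≠ 0 →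
      (fun x => (f x)⁻¹) ∈ ratAt x₀ := by
    intro f hf h0
    obtain ⟨h, hh⟩ := exists_rinv (⟨f, hf⟩ : ratAt x₀) h0
    have h1 : (fun x => (f x)⁻¹) = h.1 := by
      funext x
      exact (hh x).symm
    rw [h1]
    exact h.2
  have hcoord : ∀ i, (fun x : DTau n ⊕ Fin (n + e) → ℂ => x i) ∈ ratAt x₀ := fun i => (rX x₀ i).2
  have hprod : ∀ {ι : Type} (s : Finset ι) (f : ι → (DTau n ⊕ Fin (n + e) → ℂ) → ℂ),
      (∀ i, f i ∈ ratAt x₀) → (fun x => ∏ i ∈ s, f i x) ∈ ratAt x₀ := by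
    intro ι s f hf
    have h1 : (fun x => ∏ i ∈ s, f i x) = ∏ i ∈ s, f i := by
      funext x
      rw [Finset.prod_apply]
    rw [h1]
    exact Subalgebra.prod_mem _ fun i _ => hf i
  have hqe : ∀ k, (fun x : DTau n ⊕ Fin (n + e) → ℂ => qeG e ζ (fun i => x (Sum.inr i)) k) ∈
      ratAt x₀ ∧ qeG e ζ (fun i => x₀ (Sum.inr i)) k ≠ 0 := by
    intro k
    unfold qeG
    split_ifs with h
    · exact ⟨hmul _ _ (hconst _) (hcoord _), mul_ne_zero (inv_ne_zero hζ) (hq _)⟩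
    · exact ⟨hconst 1, one_ne_zero⟩
  have hka : ∀ k, (fun x : DTau n ⊕ Fin (n + e) → ℂ => kaG e ζ (fun i => x (Sum.inr i)) k) ∈
      ratAt x₀ ∧ kaG e ζ (fun i => x₀ (Sum.inr i)) k ≠ 0 := by
    intro k
    unfold kaG
    split_ifs with h
    · exact hqe _
    · exact ⟨hconst 1, one_ne_zero⟩
  have hp0 : ∀ k i, (fun x : DTau n ⊕ Fin (n + e) → ℂ => pG0 e ζ (fun i => x (Sum.inr i)) i₀
      (fun k i => x (Sum.inl (Sum.inr (Sum.inr (k, i))))) k i) ∈ ratAt x₀ ∧
      pG0 e ζ (fun i => x₀ (Sum.inr i)) i₀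
      (fun k i => x₀ (Sum.inl (Sum.inr (Sum.inr (k, i))))) k i ≠ 0 := by
    intro k i
    unfold pG0
    split_ifs with h
    · refine ⟨hmul _ _ (hinv _ (hka k).1 (hka k).2) (hprod _ _ fun j => hinv _ (hcoord _) (hb _ _)),
        mul_ne_zero (inv_ne_zero (hka k).2) ?_⟩
      rw [Finset.prod_ne_zero_iff]
      exact fun j _ => inv_ne_zero (hb _ _)
    · exact ⟨hcoord _, hb _ _⟩
  have hp : ∀ k i, (fun x : DTau n ⊕ Fin (n + e) → ℂ => pG e ζ (fun i => x (Sum.inr i)) i₀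
      (fun i => x (Sum.inl (Sum.inl (i, i))))
      (fun k i => x (Sum.inl (Sum.inr (Sum.inr (k, i))))) k i) ∈ ratAt x₀ := by
    intro k i
    unfold pG
    split_ifs with h h'
    · exact (hp0 k i).1
    · exact hmul _ _ (hmul _ _ (hmul _ _ (hconst _) (hcoord _)) (hinv _ (hcoord _) (hW i)))
        (hprod _ _ fun l => hinv _ (hp0 l i).1 (hp0 l i).2)
    · exact hconst 1
  have hvm : ∀ k i, (fun x : DTau n ⊕ Fin (n + e) → ℂ =>
      if k < e then x (Sum.inl (Sum.inr (Sum.inl (k, i)))) else 1) ∈ ratAt x₀ ∧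
      (if k < e then x₀ (Sum.inl (Sum.inr (Sum.inl (k, i)))) else 1) ≠ 0 := by
    intro k i
    split_ifs with h
    · exact ⟨hcoord _, hv k i⟩
    · exact ⟨hconst 1, one_ne_zero⟩
  obtain ⟨I0, hI0⟩ : ∃ I0 : DIn n (ratAt x₀), I0 = ⟨⟨_, hconst ζ⟩,
    Matrix.of fun i j => ⟨_, hcoord (Sum.inl (Sum.inl (i, j)))⟩, fun k i => ⟨_, (hvm k i).1⟩,
    fun k i => ⟨_, hinv _ (hvm k i).1 (hvm k i).2⟩, fun k i => ⟨_, hp k i⟩, fun _ => 0,
    fun k => ⟨_, (hka k).1⟩⟩ := ⟨_, rfl⟩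
  have hI0r : ∀ x, I0.map (rev x₀ x).toRingHom = DPt e ζ i₀ x 0 := by
    intro x
    rw [hI0]
    refine DIn.ext' rfl ?_ rfl rfl rfl ?_ rfl
    · ext i j
      rfl
    · funext k
      exact map_zero (rev x₀ x).toRingHom
  have hg : ∀ k x, rev x₀ x (Lc I0.Y (k + 1)).det = (Lc (DPt e ζ i₀ x 0).Y (k + 1)).det := by
    intro k x
    rw [← hI0r x, DIn.Lc_map']
    exact RingHom.map_det (rev x₀ x).toRingHom _
  have hdv := fun k => exists_rinv (Lc I0.Y (k + 1)).det (by rw [hg]; exact hdet k)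
  choose dv hdv using hdv
  refine ⟨⟨I0.z, I0.W, I0.v, I0.vi, I0.p, dv, I0.ka⟩, fun x => ?_⟩
  have h1 := hI0r x
  have a0 := congrArg DIn.z h1
  have a1 := congrArg DIn.W h1
  have a2 := congrArg DIn.v h1
  have a3 := congrArg DIn.vi h1
  have a4 := congrArg DIn.p h1
  have a6 := congrArg DIn.ka h1
  refine DIn.ext' a0 a1 a2 a3 a4 ?_ a6
  funext k
  have h3 := hdv k x
  rw [hg] at h3
  exact h3

end Vale.Agent.P002R
end

section

/-!
# P002: duality, rational charts with integral points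
-/

namespace Vale.Agent.P002R

open Matrix

variable {n e : ℕ}

theorem DIn.Y_diag' {S : Type*} [CommRing S] {I : DIn n S} (h : ∀ k i, I.v k i * I.vi k i = 1)
    (k : ℕ) (i : Fin n) : I.Y (k + 1) i i = I.p k i := by
  rw [DIn.Y_succ, dX_diag, vecMulVec_apply, DIn.y, one_mul]
  have h1 := h k i
  calc 1 + I.v k i * ((I.p k i - 1) * I.vi k i) = 1 + (I.p k i - 1) * (I.v k i * I.vi k i) := by
        ring
    _ = _ := by rw [h1]; ring

theorem exists_left_inv {a b : ℕ} (M : Matrix (Fin a) (Fin b) ℂ) (h : ∀ v, M *ᵥ v = 0 → v = 0) :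
    ∃ L : Matrix (Fin b) (Fin a) ℂ, L * M = 1 := by
  obtain ⟨g, hg⟩ := M.mulVecLin.exists_leftInverse_of_injective (by
    rw [LinearMap.ker_eq_bot']
    intro v hv
    exact h v hv)
  refine ⟨LinearMap.toMatrix' g, ?_⟩
  have h1 : LinearMap.toMatrix' g * M = LinearMap.toMatrix' (g.comp M.mulVecLin) := by
    rw [LinearMap.toMatrix'_comp]
    congr 1
    exact (LinearMap.toMatrix'_toLin' M).symm
  rw [h1, hg, LinearMap.toMatrix'_id]

section units

variable {R : Type*} [CommRing R] (φ : R →+* ℂ)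

/-- The homomorphism on units. -/
def uHom : Rˣ →* ℂ := (φ : R →* ℂ).comp (Units.coeHom R)

theorem uHom_apply (u : Rˣ) : uHom φ u = φ u := rfl

theorem uHom_inv (u : Rˣ) : uHom φ u⁻¹ = (uHom φ u)⁻¹ := by
  have h1 : uHom φ u⁻¹ * uHom φ u = 1 := by
    rw [← map_mul, inv_mul_cancel, map_one]
  exact eq_inv_of_mul_eq_one_left h1

theorem dense_units (hinf : (Set.range fun u : Rˣ => φ u).Infinite) {τ : Type*} (t₀ : τ → ℂ)
    (P : MvPolynomial τ ℂ) (hP : ∀ u : τ → Rˣ, MvPolynomial.eval (fun i => φ (u i)) P = 0) :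
    MvPolynomial.eval t₀ P = 0 := by
  have h1 : P = 0 := by
    refine MvPolynomial.funext_set (fun _ => Set.range fun u : Rˣ => φ u) (fun _ => hinf)
      fun x hx => ?_
    have h2 : ∀ i, ∃ u : Rˣ, φ u = x i := fun i => hx i (Set.mem_univ i)
    choose u hu using h2
    rw [map_zero, ← hP u]
    congr 2
    funext i
    exact (hu i).symm
  rw [h1, map_zero]

end units

theorem dualD_oneX {R : Type*} [CommRing R] (φ : R →+* ℂ) (hinj : Function.Injective φ)
    (hn : 0 < n) (he : 0 < e) (hinf : (Set.range fun u : Rˣ => φ u).Infinite)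
    (J : Mat (n + e) ℂ) (ζ : Rˣ) (W0 : Mat n ℂ) (Y0 : Matrix (Fin e) (Fin n) ℂ)
    (h : DualCls (φ ζ) J W0 Y0) (hT : TotD φ W0) (x : Matrix (Fin n) (Fin e) ℂ)
    (Υ : Matrix (Fin (n + e)) (Fin n) ℂ) (hΥ : ∀ v, Υ *ᵥ v = 0 → v = 0)
    (hκ : ∀ i, 1 + Υ i ⬝ᵥ (fun a => oneX x a i) ≠ 0)
    (hcell : ∀ l : Fin e, ∃ X : Mat n ℂ, (∀ i, X i i ≠ 0) ∧
      zZ X = ((List.ofFn (dR (oneX x) Υ)).take (n + l + 1)).prod ∧
      ∀ i, (lL X *ᵥ fun a => x a l) i ≠ 0)
    (hW : P002G.Cj W0 (1 + oneX x * (dU (Υ * oneX x) * Υ))) :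
    DualD φ J (dX (φ ζ) (Υ * oneX x)) := by
  obtain ⟨I₀, hz, hOk, hXi, hUp, hW0, hv0, hp0, hv1, hp1, hka1, hvi, hdv⟩ :=
    exists_params (φ ζ) x Υ hκ hcell
  have hζ : φ ζ ≠ 0 := h.zeta
  obtain ⟨i₀, -⟩ : ∃ i₀ : Fin n, i₀ = ⟨0, hn⟩ := ⟨_, rfl⟩
  obtain ⟨X₀, hX₀⟩ : ∃ X₀, X₀ = dX (φ ζ) (Υ * oneX x) := ⟨_, rfl⟩
  rw [← hX₀]
  have hX₀' : X₀ = I₀.out e := by rw [hX₀, DIn.out, hz, hXi, hUp]
  have hWt : 1 + oneX x * (dU (Υ * oneX x) * Υ) = zZ I₀.W := by
    rw [← hXi, ← hUp]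
    exact DIn.total_prod hOk e
  obtain ⟨t₀, ht₀⟩ : ∃ t₀ : DTau n → ℂ, t₀ = Sum.elim (fun p => I₀.W p.1 p.2)
    (Sum.elim (fun p => I₀.v p.1 p.2) fun p => I₀.p p.1 p.2) := ⟨_, rfl⟩
  -- nonvanishing
  have hkane : ∀ k, I₀.ka k ≠ 0 := fun k => left_ne_zero_of_mul (by
    rw [hOk.ka k]; exact one_ne_zero)
  have hleft : ∀ i, X₀ (Fin.castAdd e i) (Fin.castAdd e i) =
      φ ζ * (I₀.W i i * ∏ k ∈ Finset.range e, I₀.p k i) := fun i => by
    rw [hX₀', DIn.out_left hOk, hz]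
  have hright : ∀ j : Fin e, X₀ (Fin.natAdd n j) (Fin.natAdd n j) = φ ζ * I₀.ka (e - 1 - j) :=
    fun j => by rw [hX₀', DIn.out_right hOk, hz]
  have hX₀ne : ∀ i, X₀ i i ≠ 0 := by
    intro i
    refine Fin.addCases (fun i => ?_) (fun j => ?_) i
    · rw [hleft]
      refine mul_ne_zero hζ (mul_ne_zero (hW0 i) ?_)
      rw [Finset.prod_ne_zero_iff]
      exact fun k _ => hp0 k i
    · rw [hright]
      exact mul_ne_zero hζ (hkane _)
  -- the point
  have hka₀ : ∀ k, kaG e (φ ζ) (fun i => X₀ i i) k = I₀.ka k := by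
    intro k
    rw [kaG]
    split_ifs with hk
    · rw [qeG, dif_pos (by omega), hright ⟨e - 1 - k, by omega⟩]
      simp only
      rw [← mul_assoc, inv_mul_cancel₀ hζ, one_mul]
      congr 1
      omega
    · exact (hka1 k (not_lt.1 hk)).symm
  have hp₀ : ∀ k i, pG0 e (φ ζ) (fun i => X₀ i i) i₀ I₀.p k i = I₀.p k i := by
    intro k i
    rw [pG0]
    split_ifs with hi
    · rw [hka₀, hi]
      have h1 := hOk.ka k
      rw [← Finset.mul_prod_erase _ _ (Finset.mem_univ i₀)] at h1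
      rw [Finset.prod_inv_distrib]
      have h2 := hkane k
      have h3 : ∏ j ∈ Finset.univ.erase i₀, I₀.p k j ≠ 0 := by
        rw [Finset.prod_ne_zero_iff]
        exact fun j _ => hp0 k j
      field_simp
      rw [← h1]
      ring
    · rfl
  have hpG : ∀ k i, pG e (φ ζ) (fun i => X₀ i i) i₀ (fun i => I₀.W i i) I₀.p k i = I₀.p k i := by
    intro k i
    rw [pG]
    split_ifs with hk hk'
    · exact hp₀ k i
    · simp only [hp₀]
      subst hk'
      rw [hleft, Finset.prod_range_succ, Nat.add_sub_cancel, Finset.prod_inv_distrib]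
      have h1 := hW0 i
      have h3 : ∏ l ∈ Finset.range k, I₀.p l i ≠ 0 := by
        rw [Finset.prod_ne_zero_iff]
        exact fun j _ => hp0 j i
      field_simp
    · rw [hp1 k (by omega)]
      rfl
  have hDPt : ∀ dv : ℕ → ℂ, DPt e (φ ζ) i₀ (Sum.elim t₀ fun i => X₀ i i) dv =
      ⟨I₀.z, I₀.W, I₀.v, I₀.vi, I₀.p, dv, I₀.ka⟩ := by
    intro dv
    refine DIn.ext' ?_ ?_ ?_ ?_ ?_ rfl ?_
    · exact hz.symm
    · ext i j
      rw [DPt, ht₀]
      rfl
    · funext k i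
      rw [DPt, ht₀]
      simp only [Sum.elim_inl, Sum.elim_inr]
      split_ifs with hk
      · rfl
      · rw [hv1 k (not_lt.1 hk)]; rfl
    · funext k i
      rw [DPt, ht₀]
      simp only [Sum.elim_inl, Sum.elim_inr]
      rw [hvi]
      split_ifs with hk
      · rfl
      · rw [hv1 k (not_lt.1 hk)]; rfl
    · funext k i
      rw [DPt, ht₀]
      simp only [Sum.elim_inl, Sum.elim_inr]
      exact hpG k i
    · funext k
      rw [DPt]
      simp only [Sum.elim_inr]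
      exact hka₀ k
  have hYc : ∀ dv : ℕ → ℂ, (⟨I₀.z, I₀.W, I₀.v, I₀.vi, I₀.p, dv, I₀.ka⟩ : DIn n ℂ).Y = I₀.Y :=
    fun dv => DIn.Y_congr rfl rfl rfl rfl
  obtain ⟨IS, hIS⟩ := exists_family_dual e (φ ζ) hζ i₀ (Sum.elim t₀ fun i => X₀ i i)
    (fun i => by rw [ht₀]; exact hW0 i) (fun k i => by rw [ht₀]; exact hv0 k i)
    (fun k i => by rw [ht₀]; exact hp0 k i) (fun i => hX₀ne i) (fun k => by
      rw [hDPt, hYc]
      exact right_ne_zero_of_mul (by rw [hOk.dv k]; exact one_ne_zero))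
  have hIS₀ : IS.map (rev (Sum.elim t₀ fun i => X₀ i i) (Sum.elim t₀ fun i => X₀ i i)).toRingHom =
      I₀ := by
    rw [hIS]
    simp only [hDPt, hYc]
    refine DIn.ext' rfl rfl rfl rfl rfl ?_ rfl
    funext k
    exact (hdv k).symm
  obtain ⟨Λ, hΛ⟩ := exists_left_inv Υ hΥ
  have hout : ∀ x' i j, rev (Sum.elim t₀ fun i => X₀ i i) x' (IS.out e i j) =
      ((IS.map (rev (Sum.elim t₀ fun i => X₀ i i) x').toRingHom).out e) i j := by
    intro x' i j
    rw [DIn.out_map]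
    rfl
  obtain ⟨κ, hκd⟩ : ∃ κ, κ = (Λ.map (algebraMap ℂ (ratAt (Sum.elim t₀ fun i => X₀ i i))) *
    IS.Up e).det := ⟨_, rfl⟩
  have hκr : ∀ x', rev (Sum.elim t₀ fun i => X₀ i i) x' κ =
      (Λ * (IS.map (rev (Sum.elim t₀ fun i => X₀ i i) x').toRingHom).Up e).det := by
    intro x'
    rw [hκd, DIn.Up_map]
    have h1 := RingHom.map_det (rev (Sum.elim t₀ fun i => X₀ i i) x').toRingHom
      (Λ.map (algebraMap ℂ (ratAt (Sum.elim t₀ fun i => X₀ i i))) * IS.Up e)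
    refine h1.trans ?_
    congr 1
    rw [RingHom.mapMatrix_apply, Matrix.map_mul]
    congr 1
  refine ⟨DTau n, t₀, {t | ∃ (WR : Mat n R) (vR bR : ℕ → Fin n → Rˣ), (∀ i, IsUnit (WR i i)) ∧
    CjM W0 (zZ (WR.map φ)) ∧ t = Sum.elim (fun p => φ (WR p.1 p.2))
      (Sum.elim (fun p => φ (vR p.1 p.2)) fun p => φ (bR p.1 p.2))}, ?_, IS.out e, κ, ?_, ?_, ?_⟩
  · -- density
    intro P hP
    rw [ht₀]
    refine dense_sum {w | ∃ WR : Mat n R, (∀ i, IsUnit (WR i i)) ∧ CjM W0 (zZ (WR.map φ)) ∧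
      w = fun p => φ (WR p.1 p.2)} {s | ∃ vR bR : ℕ → Fin n → Rˣ, s = Sum.elim
      (fun p => φ (vR p.1 p.2)) fun p => φ (bR p.1 p.2)} ?_ ?_ P ?_
    · intro F hF
      refine hT F (fun X h1 h2 => hF _ ⟨X, h1, h2, rfl⟩) I₀.W hW0 ?_
      rw [← hWt]
      exact P002G.cjC_of_cj hW
    · intro F hF
      refine dense_sum {w | ∃ vR : ℕ → Fin n → Rˣ, w = fun p => φ (vR p.1 p.2)}
        {w | ∃ vR : ℕ → Fin n → Rˣ, w = fun p => φ (vR p.1 p.2)} ?_ ?_ F ?_
      · exact fun F hF => dense_units φ hinf _ F fun u => hF _ ⟨fun k i => u (k, i), rfl⟩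
      · exact fun F hF => dense_units φ hinf _ F fun u => hF _ ⟨fun k i => u (k, i), rfl⟩
      · rintro _ ⟨vR, rfl⟩ _ ⟨bR, rfl⟩
        exact hF _ ⟨vR, bR, rfl⟩
    · rintro _ ⟨WR, h1, h2, rfl⟩ _ ⟨vR, bR, rfl⟩
      exact hP _ ⟨WR, vR, bR, h1, h2, rfl⟩
  · rw [hκr, hIS₀, hUp, hΛ, Matrix.det_one]
    exact one_ne_zero
  · intro i j
    rw [hout, hIS₀, ← hX₀']
  · rintro _ ⟨WR, vR, bR, hWR, hWRc, rfl⟩ q hq hκne
    choose WdU hWdU using hWR
    obtain ⟨IR0, hIR0⟩ : ∃ IR0 : DIn n R, IR0 = ⟨ζ, WR,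
      fun k i => ((if k < e then vR k i else 1 : Rˣ) : R),
      fun k i => (((if k < e then vR k i else 1 : Rˣ)⁻¹ : Rˣ) : R),
      fun k i => (pG e ζ q i₀ WdU bR k i : Rˣ), fun _ => 0, fun k => (kaG e ζ q k : Rˣ)⟩ :=
      ⟨_, rfl⟩
    have hdetU : ∀ k, IsUnit (Lc IR0.Y (k + 1)).det := by
      intro k
      rw [det_Lc, IsUnit.prod_univ_iff]
      intro i
      rw [IsUnit.prod_iff]
      intro l _
      cases l with
      | zero => rw [DIn.Y_zero, hIR0]; simp only; rw [← hWdU]; exact (WdU i).isUnit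
      | succ l =>
        rw [DIn.Y_diag' (I := IR0) (fun k i => by rw [hIR0]; exact Units.mul_inv _), hIR0]
        exact Units.isUnit _
    choose dU' hdU' using hdetU
    obtain ⟨IR, hIR⟩ : ∃ IR : DIn n R, IR = ⟨IR0.z, IR0.W, IR0.v, IR0.vi, IR0.p,
      fun k => ((dU' k)⁻¹ : Rˣ), IR0.ka⟩ := ⟨_, rfl⟩
    have hYR : IR.Y = IR0.Y := by
      rw [hIR]
      exact DIn.Y_congr rfl rfl rfl rfl
    have hqR : ∏ i, q i = ζ ^ (n + e) * ∏ i, WdU i := by
      apply Units.ext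
      apply hinj
      rw [Units.coe_prod, map_prod, hq, h.det_J, Units.val_mul, Units.val_pow_eq_pow_val,
        map_mul, map_pow, Units.coe_prod, map_prod]
      congr 1
      have h1 := hWRc.det
      rw [det_zZ] at h1
      rw [← h1]
      exact Finset.prod_congr rfl fun i _ => by rw [hWdU]; rfl
    have hOkR : IR.Ok := by
      refine ⟨fun k i => ?_, fun k => ?_, fun k => ?_⟩
      · rw [hIR, hIR0]
        exact Units.mul_inv _
      · rw [hYR, ← hdU' k, hIR]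
        exact Units.inv_mul _
      · have h1 := kaG_mul_prod e ζ q i₀ WdU bR hqR k
        have h2 := congrArg (fun u : Rˣ => (u : R)) h1
        simp only [Units.val_mul, Units.coe_prod, Units.val_one] at h2
        rw [hIR, hIR0]
        exact h2
    have hmap : IR.map φ = IS.map (rev (Sum.elim t₀ fun i => X₀ i i) (Sum.elim (Sum.elim
        (fun p : Fin n × Fin n => φ (WR p.1 p.2)) (Sum.elim (fun p : ℕ × Fin n => φ (vR p.1 p.2))
          fun p : ℕ × Fin n => φ (bR p.1 p.2)))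
        fun i => φ (q i))).toRingHom := by
      rw [hIS]
      have hf : ∀ dv dv' : ℕ → ℂ, dv = dv' → DIn.mk (φ ζ) (WR.map φ)
          (fun k i => φ ((if k < e then vR k i else 1 : Rˣ) : R))
          (fun k i => φ (((if k < e then vR k i else 1 : Rˣ)⁻¹ : Rˣ) : R))
          (fun k i => φ (pG e ζ q i₀ WdU bR k i : Rˣ)) dv (fun k => φ (kaG e ζ q k : Rˣ)) =
          DPt e (φ ζ) i₀ (Sum.elim (Sum.elim
        (fun p : Fin n × Fin n => φ (WR p.1 p.2)) (Sum.elim (fun p : ℕ × Fin n => φ (vR p.1 p.2))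
          fun p : ℕ × Fin n => φ (bR p.1 p.2))) fun i => φ (q i)) dv' := by
        rintro dv _ rfl
        refine DIn.ext' rfl ?_ ?_ ?_ ?_ rfl ?_
        · ext i j
          rfl
        · funext k i
          rw [DPt]
          simp only [Sum.elim_inl, Sum.elim_inr]
          split_ifs
          · rfl
          · rw [Units.val_one, map_one]
        · funext k i
          rw [DPt]
          simp only [Sum.elim_inl, Sum.elim_inr]
          rw [← uHom_apply, uHom_inv, uHom_apply]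
          congr 1
          split_ifs
          · rfl
          · rw [Units.val_one, map_one]
        · funext k i
          rw [DPt]
          simp only [Sum.elim_inl, Sum.elim_inr]
          rw [← uHom_apply, pG_map (uHom φ) (uHom_inv φ)]
          simp only [uHom_apply, hWdU]
        · funext k
          rw [DPt]
          simp only [Sum.elim_inr]
          rw [← uHom_apply, kaG_map (uHom φ) (uHom_inv φ)]
          rfl
      have h1 := hf (fun k => φ ((dU' k)⁻¹ : Rˣ)) (fun k => ((Lc (DPt e (φ ζ) i₀ (Sum.elim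
        (Sum.elim (fun p : Fin n × Fin n => φ (WR p.1 p.2)) (Sum.elim
        (fun p : ℕ × Fin n => φ (vR p.1 p.2)) fun p : ℕ × Fin n => φ (bR p.1 p.2)))
          fun i => φ (q i)) 0).Y (k + 1)).det)⁻¹) (by
        funext k
        have h2 : DPt e (φ ζ) i₀ (Sum.elim (Sum.elim
            (fun p : Fin n × Fin n => φ (WR p.1 p.2)) (Sum.elim
            (fun p : ℕ × Fin n => φ (vR p.1 p.2)) fun p : ℕ × Fin n => φ (bR p.1 p.2)))
            fun i => φ (q i)) 0 = IR0.map φ := by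
          rw [← hf (fun _ => 0) 0 rfl, hIR0]
          refine DIn.ext' rfl rfl rfl rfl rfl ?_ rfl
          funext k
          exact (map_zero φ).symm
        rw [h2, DIn.Lc_map']
        have h3 : ((Lc IR0.Y (k + 1)).map φ).det = φ (dU' k) := by
          rw [hdU']
          exact (RingHom.map_det φ _).symm
        rw [h3, ← uHom_apply, ← uHom_apply, uHom_inv])
      rw [← h1, hIR, hIR0]
      rfl
    refine ⟨IR.out e, fun i => ?_, ?_, fun i j => ?_⟩
    · refine Fin.addCases (fun i => ?_) (fun j => ?_) i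
      · rw [DIn.out_left hOkR]
        have h1 := prod_pG_left e he ζ q i₀ WdU bR i
        have h2 := congrArg (fun u : Rˣ => (u : R)) h1
        simp only [Units.val_mul, Units.coe_prod] at h2
        rw [hIR, hIR0]
        simp only
        rw [← hWdU]
        exact h2
      · rw [DIn.out_right hOkR]
        have h1 : ζ * kaG e ζ q (e - 1 - j) = q (Fin.natAdd n j) := by
          have hj := j.2
          rw [kaG, if_pos (by omega), qeG, dif_pos (by omega), mul_inv_cancel_left]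
          congr 2
          ext
          simp only
          omega
        have h2 := congrArg (fun u : Rˣ => (u : R)) h1
        simp only [Units.val_mul] at h2
        rw [hIR, hIR0]
        exact h2
    · rw [← DIn.out_map]
      have h1 : (IR.map φ).out e = dX (φ ζ) ((IR.map φ).Up e * oneX (Matrix.of fun i (j : Fin e) =>
          (IR.map φ).xi (e - 1 - j) i)) := by
        rw [DIn.out, hIR, hIR0]
        rfl
      have h2 := DIn.total_prod (DIn.ok_map φ hOkR) e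
      rw [h1]
      refine h.cj_oneX _ _ (fun v hv => ?_) ?_
      · rw [hκr, ← hmap] at hκne
        have h3 : (Λ * (IR.map φ).Up e) *ᵥ v = 0 := by
          rw [← Matrix.mulVec_mulVec, hv, Matrix.mulVec_zero]
        have h4 := Matrix.eq_zero_of_mulVec_eq_zero hκne h3
        exact h4
      · rw [DIn.Xi] at h2
        rw [h2]
        have h3 : (IR.map φ).W = WR.map φ := by rw [hIR, hIR0]; rfl
        rw [h3]
        exact P002G.cj_of_cjC hWRc
    · rw [hout, ← hmap, DIn.out_map]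
      rfl

end Vale.Agent.P002R
end

section

/-!
# P002, genus 0, one regular class: elements of a class near a given one
-/

namespace Vale.Agent.P002L

open Matrix Vale.Agent.P002R

section

variable {S : Type*} [CommRing S] {r : ℕ}

/-- The product of the first `j` factors. -/
def Qp (c : Mat r S) (ξ : ℕ → S) (j : ℕ) : Mat r S :=
  ((List.range j).map fun i => c - ξ i • (1 : Mat r S)).prod

theorem Qp_zero (c : Mat r S) (ξ : ℕ → S) : Qp c ξ 0 = 1 := rfl

theorem Qp_succ (c : Mat r S) (ξ : ℕ → S) (j : ℕ) :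
    Qp c ξ (j + 1) = Qp c ξ j * (c - ξ j • (1 : Mat r S)) := by
  unfold Qp
  rw [List.range_succ, List.map_append, List.prod_append, List.map_singleton, List.prod_singleton]

theorem Qp_comm (c : Mat r S) (ξ : ℕ → S) (j : ℕ) (a : S) :
    Commute (Qp c ξ j) (c - a • (1 : Mat r S)) := by
  induction j with
  | zero => exact Commute.one_left _
  | succ j ih =>
    rw [Qp_succ]
    refine ih.mul_left ?_
    refine Commute.sub_left (Commute.sub_right (Commute.refl c) ?_) (Commute.sub_right ?_ ?_)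
    · exact (Commute.one_right c).smul_right a
    · exact (Commute.one_left c).smul_left (ξ j)
    · exact ((Commute.one_left (1 : Mat r S)).smul_left (ξ j)).smul_right a

theorem Qp_map {T : Type*} [CommRing T] (f : S →+* T) (c : Mat r S) (ξ : ℕ → S) (j : ℕ) :
    (Qp c ξ j).map f = Qp (c.map f) (fun i => f (ξ i)) j := by
  induction j with
  | zero =>
    rw [Qp_zero, Qp_zero]
    exact Matrix.map_one f (map_zero f) (map_one f)
  | succ j ih =>
    rw [Qp_succ, Qp_succ, Matrix.map_mul, ih]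
    congr 1
    ext a b
    simp only [Matrix.map_apply, Matrix.sub_apply, Matrix.smul_apply, Matrix.one_apply, map_sub,
      smul_eq_mul, map_mul]
    split_ifs <;> simp

theorem Qp_conj {c u M : Mat r S} (ξ : ℕ → S) (h : c * u = u * M) (j : ℕ) :
    Qp c ξ j * u = u * Qp M ξ j := by
  induction j with
  | zero => rw [Qp_zero, Qp_zero, Matrix.one_mul, Matrix.mul_one]
  | succ j ih =>
    have h1 : (c - ξ j • (1 : Mat r S)) * u = u * (M - ξ j • (1 : Mat r S)) := by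
      rw [Matrix.sub_mul, Matrix.mul_sub, h, smul_mul_assoc, mul_smul_comm, Matrix.one_mul,
        Matrix.mul_one]
    rw [Qp_succ, Qp_succ, Matrix.mul_assoc, h1, ← Matrix.mul_assoc, ih, Matrix.mul_assoc]

/-- The columns with label less than `j` are killed. -/
theorem Qp_col {κ : Fin r → ℕ} {ξ : ℕ → S} {M : Mat r S} (hM : Kup κ ξ M) (j : ℕ) (a i : Fin r)
    (h : κ i < j) : Qp M ξ j a i = 0 := by
  induction j generalizing i with
  | zero => omega
  | succ j ih =>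
    rw [Qp_succ, Matrix.mul_apply]
    refine Finset.sum_eq_zero fun b _ => ?_
    by_cases hb : b = i
    · subst hb
      rcases Nat.lt_succ_iff_lt_or_eq.1 h with h' | h'
      · rw [ih b h', zero_mul]
      · rw [Matrix.sub_apply, Matrix.smul_apply, Matrix.one_apply_eq, hM.1, smul_eq_mul, mul_one,
          h', sub_self, mul_zero]
    · rw [Matrix.sub_apply, Matrix.smul_apply, Matrix.one_apply_ne hb, smul_zero, sub_zero]
      by_cases hκ : κ b < κ i
      · rw [ih b (by omega), zero_mul]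
      · rw [hM.2 b i hb hκ, mul_zero]

end

theorem rank_add_ker {r : ℕ} (B : Mat r ℂ) :
    B.rank + Module.finrank ℂ (LinearMap.ker B.mulVecLin) = r := by
  have h1 := LinearMap.finrank_range_add_finrank_ker B.mulVecLin
  rw [Module.finrank_fintype_fun_eq_card, Fintype.card_fin] at h1
  exact h1

/-- A minor which detects the rank. -/
theorem exists_minor {r : ℕ} (B : Mat r ℂ) :
    ∃ (X : Matrix (Fin B.rank) (Fin r) ℂ) (Y : Matrix (Fin r) (Fin B.rank) ℂ), X * B * Y = 1 := by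
  obtain ⟨b⟩ : Nonempty (Module.Basis (Fin B.rank) ℂ (LinearMap.range B.mulVecLin)) :=
    ⟨Module.finBasisOfFinrankEq ℂ _ rfl⟩
  have h1 : ∀ k, ∃ y : Fin r → ℂ, B *ᵥ y = (b k : Fin r → ℂ) := fun k => (b k).2
  choose y hy using h1
  obtain ⟨Y, hY⟩ : ∃ Y : Matrix (Fin r) (Fin B.rank) ℂ, ∀ i k, Y i k = y k i :=
    ⟨Matrix.of fun i k => y k i, fun _ _ => rfl⟩
  have h2 : ∀ v, (B * Y) *ᵥ v = ((∑ k, v k • b k : LinearMap.range B.mulVecLin) : Fin r → ℂ) := by
    intro v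
    rw [← Matrix.mulVec_mulVec]
    have h3 : Y *ᵥ v = ∑ k, v k • y k := by
      ext i
      rw [Matrix.mulVec, dotProduct, Finset.sum_apply]
      refine Finset.sum_congr rfl fun k _ => ?_
      rw [Pi.smul_apply, hY, smul_eq_mul, mul_comm]
    rw [h3, Matrix.mulVec_sum, Submodule.coe_sum]
    refine Finset.sum_congr rfl fun k _ => ?_
    rw [Matrix.mulVec_smul, hy, Submodule.coe_smul]
  obtain ⟨X, hX⟩ := exists_left_inv (B * Y) fun v hv => by
    rw [h2] at hv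
    have h4 : ∑ k, v k • b k = 0 := Subtype.ext hv
    have h5 := Fintype.linearIndependent_iff.1 b.linearIndependent v h4
    exact funext h5
  exact ⟨X, Y, by rw [Matrix.mul_assoc, hX]⟩

theorem rank_of_minor {r n : ℕ} (B : Mat r ℂ) (X : Matrix (Fin n) (Fin r) ℂ)
    (Y : Matrix (Fin r) (Fin n) ℂ) (h : (X * B * Y).det ≠ 0) : n ≤ B.rank := by
  have h1 : (X * B * Y).rank = n := by
    have h2 : IsUnit (X * B * Y) := by
      rw [Matrix.isUnit_iff_isUnit_det]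
      exact isUnit_iff_ne_zero.2 h
    rw [Matrix.rank_of_isUnit _ h2, Fintype.card_fin]
  rw [← h1]
  exact (Matrix.rank_mul_le_left _ _).trans (Matrix.rank_mul_le_right _ _)

/-- The kernels are large. -/
theorem card_le_ker {r : ℕ} {κ : Fin r → ℕ} {ξ : ℕ → ℂ} {c u M : Mat r ℂ} (hu : UU u)
    (hM : Kup κ ξ M) (h : c * u = u * M) (j : ℕ) :
    (Finset.univ.filter fun i => κ i < j).card ≤
      Module.finrank ℂ (LinearMap.ker (Qp c ξ j).mulVecLin) := by
  classical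
  have hlin : LinearIndependent ℂ (fun i : Fin r => (fun a => u a i : Fin r → ℂ)) := by
    have h1 : IsUnit u := by
      rw [Matrix.isUnit_iff_isUnit_det, hu.det]
      exact isUnit_one
    exact Matrix.linearIndependent_cols_of_isUnit h1
  have hlin' : LinearIndependent ℂ (fun i : {i // κ i < j} => (fun a => u a i : Fin r → ℂ)) :=
    hlin.comp (fun i : {i // κ i < j} => (i : Fin r)) Subtype.val_injective
  rw [← Fintype.card_subtype, ← finrank_span_eq_card hlin']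
  refine Submodule.finrank_mono ?_
  rw [Submodule.span_le]
  rintro w ⟨⟨i, hi⟩, rfl⟩
  change (Qp c ξ j) *ᵥ (fun a => u a i) = 0
  ext a
  have h2 : (Qp c ξ j *ᵥ fun a => u a i) a = (Qp c ξ j * u) a i := rfl
  rw [h2, Qp_conj ξ h, Matrix.mul_apply]
  exact Finset.sum_eq_zero fun b _ => by rw [Qp_col hM j b i hi, mul_zero]

theorem Qp_eq_zero {r : ℕ} {κ : Fin r → ℕ} {ξ : ℕ → ℂ} {c u M : Mat r ℂ} (hu : UU u)
    (hM : Kup κ ξ M) (h : c * u = u * M) (j : ℕ) (hj : ∀ i, κ i < j) : Qp c ξ j = 0 := by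
  have h1 : Qp M ξ j = 0 := by
    ext a i
    exact Qp_col hM j a i (hj i)
  have h2 := Qp_conj ξ h j
  rw [h1, Matrix.mul_zero] at h2
  have h3 : IsUnit u := by
    rw [Matrix.isUnit_iff_isUnit_det, hu.det]
    exact isUnit_one
  obtain ⟨v, rfl⟩ := h3
  have h4 := congrArg (fun N => N * ((v⁻¹ : (Mat r ℂ)ˣ) : Mat r ℂ)) h2
  simpa only [Matrix.mul_assoc, Units.mul_inv, Matrix.mul_one, Matrix.zero_mul] using h4

/-- The eigenvalues are a list of units. -/
theorem exists_eig {R : Type} [CommRing R] (φ : R →+* ℂ) {r : ℕ} (c : Mat r ℂ)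
    (hc : EigU φ c) : ∃ l : ℕ → Rˣ, Qp c (fun j => φ (l j)) r = 0 := by
  obtain ⟨L, hL⟩ : ∃ L : List ℂ, (L : Multiset ℂ) = c.charpoly.roots :=
    ⟨c.charpoly.roots.toList, Multiset.coe_toList _⟩
  have hlen : L.length = r := by
    have h1 : Multiset.card c.charpoly.roots = r := by
      rw [IsAlgClosed.card_roots_eq_natDegree, Matrix.charpoly_natDegree_eq_dim, Fintype.card_fin]
    rw [← hL, Multiset.coe_card] at h1
    exact h1
  have hroot : ∀ z ∈ L, ∃ e : Rˣ, φ (e : R) = z := by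
    intro z hz
    refine hc z ?_
    have h1 : z ∈ c.charpoly.roots := by
      rw [← hL]
      exact hz
    exact Polynomial.isRoot_of_mem_roots h1
  have h2 : ∀ j : ℕ, ∃ e : Rˣ, ∀ h : j < L.length, φ (e : R) = L[j] := by
    intro j
    by_cases h : j < L.length
    · obtain ⟨e, he⟩ := hroot _ (List.getElem_mem h)
      exact ⟨e, fun _ => he⟩
    · exact ⟨1, fun h' => absurd h' h⟩
  choose l hl using h2
  refine ⟨l, ?_⟩
  have h3 : (List.range r).map (fun i => c - φ (l i) • (1 : Mat r ℂ)) =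
      L.map fun a => c - a • (1 : Mat r ℂ) := by
    refine List.ext_getElem (by rw [List.length_map, List.length_range, List.length_map, hlen])
      fun i h4 h5 => ?_
    rw [List.getElem_map, List.getElem_map, List.getElem_range, hl i (by
      rw [List.length_map] at h5
      exact h5)]
  have h4 : c.charpoly = (L.map fun a => Polynomial.X - Polynomial.C a).prod := by
    have h5 := (IsAlgClosed.splits c.charpoly).eq_prod_roots_of_monic (Matrix.charpoly_monic c)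
    rw [h5, ← hL, Multiset.map_coe, Multiset.prod_coe]
  have h5 : Polynomial.aeval c c.charpoly = 0 := Matrix.aeval_self_charpoly c
  rw [h4, map_list_prod, List.map_map] at h5
  unfold Qp
  rw [h3, ← h5]
  congr 1
  refine List.map_congr_left fun a _ => ?_
  rw [Function.comp_apply, map_sub, Polynomial.aeval_X, Polynomial.aeval_C,
    Algebra.algebraMap_eq_smul_one]

theorem charpoly_of_isConj' {r : ℕ} (a b : (Mat r ℂ)ˣ) (h : IsConj a b) :
    (a : Mat r ℂ).charpoly = (b : Mat r ℂ).charpoly :=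
  ((cjM_of_isConj h).charpoly).symm

/-- T5. -/
theorem exists_type {R : Type} [CommRing R] (φ : R →+* ℂ) {r : ℕ} (C c : (Mat r ℂ)ˣ)
    (hC : EigU φ (C : Mat r ℂ)) (hc : IsConj C c) :
    ∃ (κ : Fin r → ℕ) (l : ℕ → Rˣ) (u M : Mat r ℂ) (h : MvPolynomial (Fin r × Fin r) ℂ),
      UU u ∧ Kup κ (fun j => φ (l j)) M ∧ (c : Mat r ℂ) * u = u * M ∧
      MvPolynomial.eval (fun p => (c : Mat r ℂ) p.1 p.2) h ≠ 0 ∧
      ∀ (c' : (Mat r ℂ)ˣ) (u' M' : Mat r ℂ), UU u' → Kup κ (fun j => φ (l j)) M' →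
        (c' : Mat r ℂ) * u' = u' * M' →
        MvPolynomial.eval (fun p => (c' : Mat r ℂ) p.1 p.2) h ≠ 0 → IsConj C c' := by
  have hcE : EigU φ (c : Mat r ℂ) := by
    intro z hz
    refine hC z ?_
    rw [charpoly_of_isConj' C c hc]
    exact hz
  obtain ⟨l, hl⟩ := exists_eig φ (c : Mat r ℂ) hcE
  obtain ⟨ξ, hξ⟩ : ∃ ξ : ℕ → ℂ, ξ = fun j => φ (l j) := ⟨_, rfl⟩
  rw [← hξ] at hl
  obtain ⟨E, hE⟩ : ∃ E : ℕ → Submodule ℂ (Fin r → ℂ), ∀ j, E j =
    LinearMap.ker (Qp (c : Mat r ℂ) ξ j).mulVecLin := ⟨_, fun _ => rfl⟩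
  have hEm : ∀ j v, v ∈ E j ↔ Qp (c : Mat r ℂ) ξ j *ᵥ v = 0 := fun j v => by
    rw [hE]
    rfl
  obtain ⟨κ, u, M, hu, hM, hcu, hκ, hfin⟩ := exists_position (c : Mat r ℂ) r ξ E
    (by
      rw [hE, Qp_zero, Matrix.mulVecLin_one]
      exact LinearMap.ker_id)
    (by
      rw [hE, hl, Matrix.mulVecLin_zero]
      exact LinearMap.ker_zero)
    (by
      refine monotone_nat_of_le_succ fun j v hv => ?_
      rw [hEm] at hv ⊢
      rw [Qp_succ, (Qp_comm _ _ _ _).eq, ← Matrix.mulVec_mulVec, hv, Matrix.mulVec_zero])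
    (by
      intro j v hv
      rw [hEm] at hv ⊢
      have h1 : (c : Mat r ℂ) *ᵥ v - ξ j • v = ((c : Mat r ℂ) - ξ j • (1 : Mat r ℂ)) *ᵥ v := by
        rw [Matrix.sub_mulVec, Matrix.smul_mulVec, Matrix.one_mulVec]
      rw [h1, Matrix.mulVec_mulVec, ← Qp_succ, hv])
  have hminor := fun j => exists_minor (Qp (c : Mat r ℂ) ξ j)
  choose X Y hXY using hminor
  obtain ⟨P, hP⟩ : ∃ P : ℕ → MvPolynomial (Fin r × Fin r) ℂ, ∀ (j : ℕ) (d : Mat r ℂ),
      MvPolynomial.eval (fun p => d p.1 p.2) (P j) = (X j * Qp d ξ j * Y j).det := by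
    refine ⟨fun j => ((X j).map (MvPolynomial.C : ℂ → MvPolynomial (Fin r × Fin r) ℂ) *
      Qp (Matrix.of fun a b => (MvPolynomial.X (a, b) : MvPolynomial (Fin r × Fin r) ℂ))
      (fun i => MvPolynomial.C (ξ i)) j *
      (Y j).map (MvPolynomial.C : ℂ → MvPolynomial (Fin r × Fin r) ℂ)).det, fun j d => ?_⟩
    rw [RingHom.map_det]
    congr 1
    change (_ * _ * _ : Matrix _ _ _).map _ = _
    rw [Matrix.map_mul, Matrix.map_mul, Qp_map]
    have h1 : ∀ {a b : ℕ} (N : Matrix (Fin a) (Fin b) ℂ),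
        (N.map (MvPolynomial.C : ℂ → MvPolynomial (Fin r × Fin r) ℂ)).map
          (MvPolynomial.eval fun p => d p.1 p.2) = N := by
      intro a b N
      ext i k
      exact MvPolynomial.eval_C _
    rw [h1, h1]
    congr 2
    have h2 : (Matrix.of fun a b => (MvPolynomial.X (a, b) : MvPolynomial (Fin r × Fin r) ℂ)).map
        (MvPolynomial.eval fun p => d p.1 p.2) = d := by
      ext i k
      exact MvPolynomial.eval_X _
    rw [h2]
    congr 1
    funext i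
    exact MvPolynomial.eval_C _
  refine ⟨κ, l, u, M, ∏ j ∈ Finset.range (r + 1), P j, hu, hξ ▸ hM, hcu, ?_, ?_⟩
  · rw [map_prod, Finset.prod_ne_zero_iff]
    intro j _
    rw [hP, hXY, Matrix.det_one]
    exact one_ne_zero
  · intro c' u' M' hu' hM' hcu' hne
    rw [map_prod, Finset.prod_ne_zero_iff] at hne
    rw [← hξ] at hM'
    refine hc.trans ?_
    have hrank : ∀ j ≤ r, (Qp (c : Mat r ℂ) ξ j).rank = (Qp (c' : Mat r ℂ) ξ j).rank := by
      intro j hj
      have h1 := hne j (Finset.mem_range.2 (by omega))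
      rw [hP] at h1
      have h2 := rank_of_minor _ _ _ h1
      have h3 := card_le_ker hu' hM' hcu' j
      rw [← hfin j hj, hE] at h3
      have h4 := rank_add_ker (Qp (c : Mat r ℂ) ξ j)
      have h5 := rank_add_ker (Qp (c' : Mat r ℂ) ξ j)
      omega
    refine conj_of_rank c c' ξ r hl (Qp_eq_zero hu' hM' hcu' r hκ) hrank

end Vale.Agent.P002L
end

section

/-!
# P002, genus 0, one regular class: the lifting theorem
-/

namespace Vale.Agent.P002L

open Matrix Vale.Agent.P002R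

variable {R A : Type} [CommRing R] [CommRing A] {φ : R →+* ℂ} {ι : R →+* A} {ψ : A →+* ℂ} {r : ℕ}

theorem chain (hL : Lifting φ ι ψ) : ∀ (m : ℕ) (κ : Fin m → Fin r → ℕ) (l : Fin m → ℕ → Rˣ)
    (c u M : Fin m → Mat r ℂ), (∀ i, UU (u i)) → (∀ i, Kup (κ i) (fun j => φ (l i j)) (M i)) →
    (∀ i, c i * u i = u i * M i) →
    ∃ (w' : Equiv.Perm (Fin r)) (v₀' : Mat r ℂ), UU v₀' ∧
      ∃ (J : Type) (_ : Fintype J) (s t : J → Fin r) (y : J → ℂˣ) (ε : Fin r → Rˣ),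
      ∀ z : J → Aˣ, (∀ j, ψ (z j) = y j) → ∃ c' : Fin m → Mat r A,
        (∀ i, ∃ u' M' : Mat r A, UU u' ∧ Kup (κ i) (fun j => ι (l i j)) M' ∧
          c' i * u' = u' * M' ∧ (c' i).map ψ = c i) ∧
        ∃ b v' : Mat r A, UpT b ∧
          (∀ i, b i i = ι (ε i) * ((∏ j, z j ^ eb (s j) (t j) i : Aˣ) : A)) ∧
          UU v' ∧ v'.map ψ = v₀' ∧ (List.ofFn c').prod = b * pm w' * v' := by
  intro m
  induction m with
  | zero =>
    intro κ l c u M _ _ _
    refine ⟨1, 1, uu_one, PEmpty, inferInstance, PEmpty.elim, PEmpty.elim, PEmpty.elim, 1,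
      fun z _ => ⟨fun i => i.elim0, fun i => i.elim0, 1, 1, upT_one, fun i => ?_, uu_one, ?_, ?_⟩⟩
    · rw [one_apply_eq, Finset.univ_eq_empty, Finset.prod_empty, Pi.one_apply]
      simp
    · exact Matrix.map_one _ (map_zero ψ) (map_one ψ)
    · rw [List.ofFn_zero, List.prod_nil, pm_one, one_mul, one_mul]
  | succ m ih =>
    intro κ l c u M hu hM hc
    obtain ⟨w₁, v₁, hv₁, J, hJ, s, t, y, ε, h⟩ := ih (fun i => κ i.castSucc)
      (fun i => l i.castSucc) (fun i => c i.castSucc) (fun i => u i.castSucc)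
      (fun i => M i.castSucc) (fun i => hu _) (fun i => hM _) (fun i => hc _)
    obtain ⟨w₂, v₂, hv₂, J', hJ', s', t', y', ε', h'⟩ := class_step hL (κ (Fin.last m))
      (l (Fin.last m)) w₁ v₁ hv₁ _ _ _ (hu _) (hM _) (hc _)
    refine ⟨w₂, v₂, hv₂, J ⊕ J', inferInstance, Sum.elim s s', Sum.elim t t', Sum.elim y y',
      fun i => ε i * ε' i, fun z hz => ?_⟩
    obtain ⟨c', hc', b, v, hb, hbd, hv, hv0, he⟩ := h (fun j => z (Sum.inl j)) fun j =>
      hz (Sum.inl j)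
    obtain ⟨g, ⟨ug, Mg, hug, hMg, hge, hg0⟩, b', v', hb', hbd', hv', hv0', he'⟩ := h' v hv hv0
      (fun j => z (Sum.inr j)) fun j => hz (Sum.inr j)
    refine ⟨Fin.snoc c' g, fun i => ?_, b * b', v', hb.mul hb', fun i => ?_, hv', hv0', ?_⟩
    · refine Fin.lastCases ?_ (fun i => ?_) i
      · rw [Fin.snoc_last]
        exact ⟨ug, Mg, hug, hMg, hge, hg0⟩
      · rw [Fin.snoc_castSucc]
        exact hc' i
    · rw [hb.mul_diag hb', hbd, hbd', Fintype.prod_sum_type]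
      simp only [Sum.elim_inl, Sum.elim_inr, Units.val_mul, map_mul]
      ring
    · rw [List.ofFn_succ', List.concat_eq_append, List.prod_append, List.prod_singleton,
        Fin.snoc_last]
      have h1 : (List.ofFn fun i : Fin m => (Fin.snoc c' g : Fin (m + 1) → Mat r A) i.castSucc) =
          List.ofFn c' := by
        congr 1
        funext i
        rw [Fin.snoc_castSucc]
      rw [h1, he, mul_assoc b, mul_assoc b, he']
      simp only [mul_assoc]

theorem perm_eq_one_of_upT {w : Equiv.Perm (Fin r)} (h : UpT (pm w : Mat r ℂ)) : w = 1 := by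
  have h1 : ∀ j, w j ≤ j := by
    intro j
    by_contra hj
    have h2 := h (w j) j (not_le.1 hj)
    rw [pm_apply, if_pos rfl] at h2
    exact one_ne_zero h2
  have h2 : ∀ n : ℕ, ∀ j : Fin r, (j : ℕ) = n → w j = j := by
    intro n
    induction n using Nat.strong_induction_on with
    | _ n ih =>
      intro j hj
      by_contra hne
      have h3 : w j < j := lt_of_le_of_ne (h1 j) hne
      have h4 := ih (w j) (by rw [← hj]; exact h3) (w j) rfl
      exact hne (w.injective h4)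
  ext j
  rw [h2 j j rfl, Equiv.Perm.one_apply]

/-- **The lifting theorem.** -/
theorem lift_main (hL : Lifting φ ι ψ) {m : ℕ} (κ : Fin m → Fin r → ℕ) (l : Fin m → ℕ → Rˣ)
    (c u M : Fin m → Mat r ℂ) (hu : ∀ i, UU (u i)) (hM : ∀ i, Kup (κ i) (fun j => φ (l i j)) (M i))
    (hc : ∀ i, c i * u i = u i * M i) (τ : Fin r → Rˣ) (hP : UpT (List.ofFn c).prod)
    (hτ : ∀ i, (List.ofFn c).prod i i = φ (τ i)) :
    ∃ c' u' M' : Fin m → Mat r A, (∀ i, UU (u' i)) ∧
      (∀ i, Kup (κ i) (fun j => ι (l i j)) (M' i)) ∧ (∀ i, c' i * u' i = u' i * M' i) ∧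
      (∀ i, (c' i).map ψ = c i) ∧ UpT (List.ofFn c').prod ∧
      ∀ i, (List.ofFn c').prod i i = ι (τ i) := by
  obtain ⟨w, v₀, hv₀, J, hJ, s, t, y, ε, h⟩ := chain hL m κ l c u M hu hM hc
  have hmap : ∀ c' : Fin m → Mat r A, (∀ i, (c' i).map ψ = c i) →
      (List.ofFn c').prod.map ψ = (List.ofFn c).prod := by
    intro c' hc'
    have h1 := map_list_prod (RingHom.mapMatrix (m := Fin r) ψ) (List.ofFn c')
    rw [List.map_ofFn] at h1
    have h2 : (⇑(RingHom.mapMatrix (m := Fin r) ψ) ∘ c') = c := by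
      funext i
      exact hc' i
    rw [h2] at h1
    exact h1
  -- the complex point
  choose z₀ hz₀ using fun j => hL.unit (y j)
  obtain ⟨c₁, hc₁, b₁, v₁, hb₁, hbd₁, hv₁, hv₁0, he₁⟩ := h z₀ hz₀
  have hm₁ := hmap c₁ fun i => by
    obtain ⟨_, _, _, _, _, h1⟩ := hc₁ i
    exact h1
  rw [he₁, Matrix.map_mul, Matrix.map_mul, pm_map, hv₁0] at hm₁
  have hbU : IsUnit (b₁.map ψ).det := by
    rw [(upT_map hb₁ ψ).det, isUnit_iff_ne_zero, Finset.prod_ne_zero_iff]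
    intro i _
    rw [map_apply, hbd₁, map_mul, hL.comp]
    have h2 : IsUnit (φ (ε i)) := (Units.map (φ : R →* ℂ) (ε i)).isUnit
    have h3 : IsUnit (ψ ((∏ j, z₀ j ^ eb (s j) (t j) i : Aˣ) : A)) :=
      (Units.map (ψ : A →* ℂ) (∏ j, z₀ j ^ eb (s j) (t j) i)).isUnit
    exact mul_ne_zero h2.ne_zero h3.ne_zero
  have hw : w = 1 := by
    refine perm_eq_one_of_upT ?_
    have h1 : (pm w : Mat r ℂ) = (b₁.map ψ)⁻¹ * (List.ofFn c).prod * v₀⁻¹ := by
      rw [← hm₁]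
      have h2 : (b₁.map ψ)⁻¹ * (b₁.map ψ * pm w * v₀) * v₀⁻¹ =
          ((b₁.map ψ)⁻¹ * b₁.map ψ) * pm w * (v₀ * v₀⁻¹) := by
        simp only [mul_assoc]
      rw [h2, nonsing_inv_mul _ hbU, hv₀.mul_inv, one_mul, mul_one]
    rw [h1]
    exact ((upT_inv (upT_map hb₁ ψ) hbU).mul hP).mul hv₀.inv.1
  subst hw
  -- the equations for the torus variables
  have hy : ∀ i, ∏ j, y j ^ eb (s j) (t j) i =
      Units.map (ψ : A →* ℂ) (Units.map (ι : R →* A) (τ i / ε i)) := by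
    intro i
    ext1
    have h1 := hτ i
    rw [← hm₁, pm_one, mul_one, (upT_map hb₁ ψ).mul_diag hv₀.1, hv₀.2, mul_one, map_apply, hbd₁,
      map_mul, hL.comp] at h1
    have h2 : ψ ((∏ j, z₀ j ^ eb (s j) (t j) i : Aˣ) : A) =
        ((∏ j, y j ^ eb (s j) (t j) i : ℂˣ) : ℂ) := by
      have h3 : Units.map (ψ : A →* ℂ) (∏ j, z₀ j ^ eb (s j) (t j) i) =
          ∏ j, y j ^ eb (s j) (t j) i := by
        rw [map_prod]
        refine Finset.prod_congr rfl fun j _ => ?_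
        rw [map_zpow]
        congr 1
        ext1
        exact hz₀ j
      rw [← h3]
      rfl
    rw [h2] at h1
    have h4 : IsUnit (φ (ε i)) := (Units.map (φ : R →* ℂ) (ε i)).isUnit
    have h5 : ((Units.map (ψ : A →* ℂ) (Units.map (ι : R →* A) (τ i / ε i)) : ℂˣ) : ℂ) =
        φ (τ i) * (φ (ε i))⁻¹ := by
      rw [map_div, map_div, div_eq_mul_inv, Units.val_mul, Units.val_inv_eq_inv_val]
      congr 1
      · exact hL.comp _
      · congr 1
        exact hL.comp _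
    rw [h5, ← h1]
    field_simp [h4.ne_zero]
  -- reindex the edges
  obtain ⟨e, -⟩ : ∃ e : J ≃ Fin (Fintype.card J), True := ⟨Fintype.equivFin J, trivial⟩
  obtain ⟨z, hz1, hz2⟩ := graph_lift (Units.map (ι : R →* A)) (Units.map (ψ : A →* ℂ))
    (fun c => by
      obtain ⟨a, ha⟩ := hL.unit c
      exact ⟨a, Units.ext ha⟩)
    (fun a b hab => by
      ext1
      apply hL.inj
      have h1 := congrArg (Units.val) hab
      rw [← hL.comp, ← hL.comp]
      exact h1)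
    (fun j => s (e.symm j)) (fun j => t (e.symm j)) (fun i => τ i / ε i) (fun j => y (e.symm j))
    (fun v => by
      rw [← hy v]
      exact Equiv.prod_comp e.symm fun j => y j ^ eb (s j) (t j) v)
  obtain ⟨c', hc', b, v, hb, hbd, hv, hv0, he⟩ := h (fun j => z (e j)) fun j => by
    have h1 := hz1 (e j)
    rw [Equiv.symm_apply_apply] at h1
    exact congrArg Units.val h1
  choose u' M' hu' hM' hcu' hc0' using hc'
  rw [pm_one, mul_one] at he
  refine ⟨c', u', M', hu', hM', hcu', hc0', ?_, fun i => ?_⟩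
  · rw [he]
    exact hb.mul hv.1
  · rw [he, hb.mul_diag hv.1, hv.2, mul_one, hbd]
    have h1 : ∏ j, z (e j) ^ eb (s j) (t j) i = Units.map (ι : R →* A) (τ i / ε i) := by
      rw [← hz2 i, ← Equiv.prod_comp e]
      refine Finset.prod_congr rfl fun j _ => ?_
      rw [Equiv.symm_apply_apply]
    rw [h1]
    have h2 : Units.map (ι : R →* A) (ε i) * Units.map (ι : R →* A) (τ i / ε i) =
        Units.map (ι : R →* A) (τ i) := by
      rw [← map_mul, mul_div_cancel]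
    exact congrArg Units.val h2

end Vale.Agent.P002L
end

section

/-!
# P002, genus 0, two regular classes: density in the chart
-/

namespace Vale.Agent.P002R

open Matrix

/-- Density of the integral points in the chart. The integral points are triangular at both ends,
with the diagonals of the given point. -/
theorem chart_density2 {R : Type*} [CommRing R] (φ : R →+* ℂ) (hinj : Function.Injective φ)
    {r m : ℕ} (C : Fin (m + 3) → (Mat r ℂ)ˣ) (hE : ∀ j, EigU φ (C j : Mat r ℂ))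
    (hT : ∀ j : Fin (m + 3), 1 ≤ (j : ℕ) → (j : ℕ) ≤ m → TotD φ (C j : Mat r ℂ))
    (h0 : ∃ v, P002G.Cyc (C 0 : Mat r ℂ) v)
    (hl : ∃ v, P002G.Cyc (C (Fin.last (m + 2)) : Mat r ℂ) v)
    (x : FU 0 (m + 3) →* (Mat r ℂ)ˣ) (hx1 : x (relatorU 0 (m + 3)) = 1)
    (hxC : ∀ j, IsConj (C j) (x (FreeGroup.of (Sum.inr j))))
    (hup : UpT (cseq x 0)) (hlo : LoT (cseq x (m + 2)))
    (hcell : ∀ k ≤ m + 1, ∃ X : Mat r ℂ,
      (List.ofFn fun j : Fin k => cseq x ((j : ℕ) + 1)).prod = zZ X ∧ ∀ i, X i i ≠ 0)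
    (hD : ∀ X X' : Mat r ℂ, (List.ofFn fun j : Fin m => cseq x ((j : ℕ) + 1)).prod = zZ X' →
      (∀ i, X' i i ≠ 0) → (∀ i, X i i ≠ 0) → zZ X * lL X' = lL X' * cseq x (m + 1) →
      DualD φ (C ⟨m + 1, by omega⟩ : Mat r ℂ) X)
    (f : MvPolynomial (GenU 0 (m + 3) × Fin r × Fin r) ℂ)
    (hf : ∀ (y : FU 0 (m + 3) →* (Mat r ℂ)ˣ) (cR : ℕ → Mat r R), y (relatorU 0 (m + 3)) = 1 →
      (∀ j, IsConj (C j) (y (FreeGroup.of (Sum.inr j)))) →
      (∀ j : Fin (m + 3), (y (FreeGroup.of (Sum.inr j)) : Mat r ℂ) = (cR j).map φ) →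
      (∀ j : Fin (m + 3), IsUnit (cR j).det) → UpT (cR 0) → LoT (cR (m + 2)) →
      (∀ i, φ (cR 0 i i) = cseq x 0 i i) → (∀ i, φ (cR (m + 2) i i) = cseq x (m + 2) i i) →
      evalG y f = 0) :
    evalG x f = 0 := by
  -- the tuple in the chart
  have hXex : ∀ k, ∃ X : Mat r ℂ, k ≤ m + 1 →
      (List.ofFn fun j : Fin k => cseq x ((j : ℕ) + 1)).prod = zZ X ∧ ∀ i, X i i ≠ 0 := by
    intro k
    by_cases hk : k ≤ m + 1
    · obtain ⟨X, hX⟩ := hcell k hk
      exact ⟨X, fun _ => hX⟩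
    · exact ⟨0, fun h => absurd h hk⟩
  choose X hX using hXex
  obtain ⟨Y, κ, t, hκ, ht, hctup, hLc, hY0⟩ := exists_ctup (m + 1) (cseq x) X
    (fun k hk => (hX k hk).1) (fun k hk => (hX k hk).2) hup hlo (cseq_prod x hx1)
  obtain ⟨t', ht'⟩ : ∃ t' : Fin r → ℂ, t' = fun i => cseq x 0 i i := ⟨_, rfl⟩
  rw [← ht'] at hctup
  have hcx : ∀ j (hj : j < m + 3), CjM (C ⟨j, hj⟩ : Mat r ℂ) (cseq x j) := by
    intro j hj
    have h1 : cseq x j = _ := cseq_of x ⟨j, hj⟩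
    rw [h1]
    exact cjM_of_isConj (hxC ⟨j, hj⟩)
  -- eigenvalues
  have hξ0 : ∀ i, ∃ u : Rˣ, φ (u : R) = cseq x 0 i i := by
    intro i
    apply hE 0
    have h1 : (C 0 : Mat r ℂ).charpoly = (cseq x 0).charpoly :=
      ((hcx 0 (by omega)).charpoly).symm
    rw [h1, charpoly_upT hup, Polynomial.IsRoot.def, Polynomial.eval_prod]
    exact Finset.prod_eq_zero (Finset.mem_univ i) (by simp)
  choose ξ hξ using hξ0
  have hξ0' : ∀ i, ∃ u : Rˣ, φ (u : R) = cseq x (m + 2) i i := by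
    intro i
    apply hE (Fin.last (m + 2))
    have h1 : (C (Fin.last (m + 2)) : Mat r ℂ).charpoly = (cseq x (m + 2)).charpoly :=
      ((hcx (m + 2) (by omega)).charpoly).symm
    rw [h1, charpoly_loT hlo, Polynomial.IsRoot.def, Polynomial.eval_prod]
    exact Finset.prod_eq_zero (Finset.mem_univ i) (by simp)
  choose ξ' hξ' using hξ0'
  have hδ0 : ∀ l, ∃ u : Rˣ, ∀ hl : l < m + 1, φ (u : R) =
      (C ⟨l + 1, by omega⟩ : Mat r ℂ).det := by
    intro l
    by_cases hl : l < m + 1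
    · obtain ⟨u, hu⟩ := (hE ⟨l + 1, by omega⟩).det
      exact ⟨u, fun _ => hu⟩
    · exact ⟨1, fun h => absurd h hl⟩
  choose δ hδ using hδ0
  -- the elements of the cell
  have hYC : ∀ k (hk : k < m + 1), CjM (C ⟨k + 1, by omega⟩ : Mat r ℂ) (zZ (Y k)) := by
    intro k hk
    obtain ⟨L, -, hL⟩ := ctup_mid_cjM (m + 1) t t' κ Y k hk (hκ k hk.le)
    refine (hcx (k + 1) (by omega)).trans ⟨L, ?_⟩
    rw [hctup (k + 1) (by omega)]
    exact hL
  have hκ' : ∀ k ≤ m + 1, κ k = φ (kap' δ k) := by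
    intro k hk
    have h1 := kap'_mul δ φ Y k fun l hlk => by
      rw [(hYC l (by omega)).det, hδ l (by omega)]
    have h2 := hκ k hk
    have h3 : (Lc Y k).det ≠ 0 := right_ne_zero_of_mul (by rw [h2]; exact one_ne_zero)
    exact mul_right_cancel₀ h3 (h2.trans h1.symm)
  have htt : t = fun i => φ ((ξ i)⁻¹ : Rˣ) := by
    funext i
    have h1 := ht i
    have h2 : φ (ξ i) * φ ((ξ i)⁻¹ : Rˣ) = 1 := by rw [← map_mul, Units.mul_inv, map_one]
    rw [hξ] at h2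
    exact mul_left_cancel₀ (left_ne_zero_of_mul (by rw [h1]; exact one_ne_zero)) (h1.trans h2.symm)
  have htt' : t' = fun i => φ (ξ i) := by
    rw [ht']
    funext i
    rw [hξ]
  have hlast : ∀ i, (∏ l ∈ Finset.range (m + 1), Y l i i) * φ (ξ i) * φ (ξ' i) = 1 := by
    intro i
    have h1 := (ctup_last_loT (m + 1) t t' κ Y (hκ (m + 1) le_rfl)).2 i
    rw [← hctup (m + 1 + 1) (by omega), Lc_diag] at h1
    have h2 := ht i
    rw [hξ, hξ', mul_comm (∏ l ∈ Finset.range (m + 1), Y l i i), mul_assoc,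
      mul_comm (∏ l ∈ Finset.range (m + 1), Y l i i), h1, h2]
  -- the dual chart
  have hDY : DualD φ (C ⟨m + 1, by omega⟩ : Mat r ℂ) (Y m) := by
    refine hD (Y m) (X m) (hX m (Nat.le_succ m)).1 (hX m (Nat.le_succ m)).2
      (hY0 m (Nat.lt_succ_self m)) ?_
    obtain ⟨L, hL1, hL2⟩ := ctup_mid_cjM (m + 1) t t' κ Y m (Nat.lt_succ_self m)
      (hκ m (Nat.le_succ m))
    rw [← hctup (m + 1) (by omega)] at hL2
    rw [← hLc m (Nat.le_succ m), ← hL1, hL2, mul_assoc, Units.inv_mul, mul_one]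
  -- the polynomial
  obtain ⟨v, hv⟩ := (hcx 0 (by omega)).cyc h0
  obtain ⟨v', hv'⟩ := (hcx (m + 2) (by omega)).cyc hl
  obtain ⟨F, hF⟩ := exists_chart_poly (m := m) t t' κ v v' f
  have hext : ∀ j, ctup (m + 1) t t' κ (extY fun k : Fin (m + 1) => Y k) j =
      ctup (m + 1) t t' κ Y j := fun j =>
    ctup_congr (fun l hl => extY_of _ l hl) (fun _ _ => rfl) j
  have hmain := core_density2 φ (fun k : Fin m => (C ⟨k + 1, by omega⟩ : Mat r ℂ))
    (fun k => hT _ (Nat.succ_le_succ (Nat.zero_le _)) (Nat.succ_le_of_lt k.2))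
    (C ⟨m + 1, by omega⟩ : Mat r ℂ) (fun i => (ξ i * ξ' i)⁻¹) F
    (fun Y' hY1 hY2 hY3 hY5 => by
      obtain ⟨Z, hZ⟩ : ∃ Z : ℕ → Mat r R, Z = extY Y' := ⟨_, rfl⟩
      have hZk : ∀ k (hk : k < m + 1), Z k = Y' ⟨k, hk⟩ := fun k hk => by
        rw [hZ, extY_of _ k hk]
      have hZm : Z m = Y' (Fin.last m) := hZk m (Nat.lt_succ_self m)
      obtain ⟨hκZ, y, cR, hy1, hy2, hy2', hyu, hyl, hyu', hyl', hy3⟩ := chart_integral2 φ hinj C hE
        h0 hl δ ξ ξ' (fun l hl => hδ l hl)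
        (by
          have h1 : (C 0 : Mat r ℂ).charpoly = (cseq x 0).charpoly :=
            ((hcx 0 (by omega)).charpoly).symm
          rw [h1, charpoly_upT hup]
          exact Finset.prod_congr rfl fun i _ => by rw [hξ])
        (by
          have h1 : (C (Fin.last (m + 2)) : Mat r ℂ).charpoly = (cseq x (m + 2)).charpoly :=
            ((hcx (m + 2) (by omega)).charpoly).symm
          rw [h1, charpoly_loT hlo]
          exact Finset.prod_congr rfl fun i _ => by rw [hξ'])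
        Z (fun k hk => by
          rcases Nat.lt_succ_iff_lt_or_eq.1 hk with h | rfl
          · rw [hZk k (by omega)]
            exact hY2 ⟨k, h⟩
          · rw [hZm]
            exact hY3)
        (fun i => by
          have h1 : (∏ l ∈ Finset.range (m + 1), φ (Z l i i)) = φ ((ξ i * ξ' i)⁻¹ : Rˣ) := by
            rw [← hY5 i, map_prod, ← Fin.prod_univ_eq_prod_range (fun l => φ (Z l i i))]
            exact Finset.prod_congr rfl fun l _ => by rw [hZk l l.2]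
          rw [h1, mul_assoc, ← map_mul, ← map_mul, ← Units.val_mul, ← Units.val_mul,
            inv_mul_cancel, Units.val_one, map_one])
      have hcc : ∀ j, ctup (m + 1) (fun i => φ ((ξ i)⁻¹ : Rˣ)) (fun i => φ (ξ i))
          (fun k => φ (kap' δ k)) (fun k => (Z k).map φ) j =
          ctup (m + 1) t t' κ (extY fun k => (Y' k).map φ) j := by
        intro j
        rw [htt, htt', ← extY_map, ← hZ]
        exact ctup_congr (fun _ _ => rfl) (fun l hl => (hκ' l hl).symm) j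
      have hFY := hF fun k => (Y' k).map φ
      simp only [Matrix.map_apply] at hFY
      rw [hFY]
      by_cases hk1 : (P002.kry (ctup (m + 1) t t' κ (extY fun k => (Y' k).map φ) 0) v).det = 0
      · rw [hk1, mul_zero, zero_mul]
      by_cases hk2 : (P002.kry (ctup (m + 1) t t' κ (extY fun k => (Y' k).map φ) (m + 2)) v').det = 0
      · rw [hk2, mul_zero]
      obtain ⟨hy4, hy5⟩ := hy3
        ⟨v, by
          rw [hcc, P002G.cyc_iff, Matrix.isUnit_iff_isUnit_det, isUnit_iff_ne_zero]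
          exact hk1⟩
        ⟨v', by
          rw [hcc, P002G.cyc_iff, Matrix.isUnit_iff_isUnit_det, isUnit_iff_ne_zero]
          exact hk2⟩
      have hy6 := hf y cR hy1 hy4 hy2' hy5 hyu hyl (fun i => by rw [hyu', hξ])
        (fun i => by rw [hyl', hξ'])
      rw [evalG_eq_evalT y _ hy2] at hy6
      have hcc' : (fun j => ctup (m + 1) (fun i => φ ((ξ i)⁻¹ : Rˣ)) (fun i => φ (ξ i))
          (fun k => φ (kap' δ k)) (fun k => (Z k).map φ) j) =
          fun j => ctup (m + 1) t t' κ (extY fun k => (Y' k).map φ) j := funext hcc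
      have hy7 : evalT (ctup (m + 1) t t' κ (extY fun k => (Y' k).map φ)) f = 0 := by
        rw [← hy6]
        exact congrArg (fun c => evalT c f) hcc'.symm
      rw [hy7, zero_mul, zero_mul])
    (fun k : Fin (m + 1) => Y k) (fun k i => hY0 k k.2 i) (fun k => hYC k (by omega))
    (hYC m (Nat.lt_succ_self m)) hDY
    (fun i => by
      have h1 := hlast i
      have h2 : φ ((ξ i * ξ' i)⁻¹ : Rˣ) * (φ (ξ i) * φ (ξ' i)) = 1 := by
        rw [← map_mul, ← map_mul, ← Units.val_mul, ← Units.val_mul, inv_mul_cancel, Units.val_one,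
          map_one]
      rw [Fin.prod_univ_eq_prod_range (fun l => Y l i i)]
      rw [mul_assoc] at h1
      exact mul_right_cancel₀ (right_ne_zero_of_mul (by rw [h2]; exact one_ne_zero))
        (h1.trans h2.symm))
  have hmain' := (hF fun k : Fin (m + 1) => Y k).symm.trans hmain
  rw [hext, hext] at hmain'
  have hkv : (P002.kry (ctup (m + 1) t t' κ Y 0) v).det ≠ 0 := by
    rw [← hctup 0 (by omega), ← isUnit_iff_ne_zero, ← Matrix.isUnit_iff_isUnit_det,
      ← P002G.cyc_iff]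
    exact hv
  have hkv' : (P002.kry (ctup (m + 1) t t' κ Y (m + 2)) v').det ≠ 0 := by
    rw [← hctup (m + 1 + 1) le_rfl, ← isUnit_iff_ne_zero, ← Matrix.isUnit_iff_isUnit_det,
      ← P002G.cyc_iff]
    exact hv'
  have hev : evalT (N := m + 3) (ctup (m + 1) t t' κ (extY fun k : Fin (m + 1) => Y k)) f = 0 := by
    rcases mul_eq_zero.1 hmain' with h | h
    · exact (mul_eq_zero.1 h).resolve_right hkv
    · exact absurd h hkv'
  rw [evalG_eq_evalT x _ fun j => ?_]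
  · exact hev
  · rw [hext, ← hctup j (by omega), cseq_of]

end Vale.Agent.P002R
end

section

/-!
# P002, genus 0, two regular classes: from the chart to all irreducible representations
-/

namespace Vale.Agent.P002R

open Matrix

/-- No coordinate subspace is stable. -/
def NoStab {r : ℕ} (Z : Mat r ℂ) : Prop :=
  ∀ I : Finset (Fin r), I.Nonempty → I ≠ Finset.univ → ∃ i, i ∉ I ∧ ∃ j ∈ I, Z i j ≠ 0

/-- Points of the class with prescribed diagonal are near those in the dual chart. -/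
def DualNear {R : Type*} [CommRing R] (φ : R →+* ℂ) {r : ℕ} (J : Mat r ℂ) : Prop :=
  ∀ X : Mat r ℂ, (∀ i, X i i ≠ 0) → CjM J (zZ X) → NoStab (zZ X) → ∀ N ∈ nhds X,
    ∃ X' ∈ N, (∀ i, X' i i = X i i) ∧ CjM J (zZ X') ∧ DualD φ J X'

/-- Density of the integral points in the chart, genus zero. -/
def ChartDensity3 : Prop :=
  ∀ {R : Type} [CommRing R] (φ : R →+* ℂ), Function.Injective φ → ∀ {r m : ℕ}
    (C : Fin (m + 3) → (Mat r ℂ)ˣ), (∀ j, EigU φ (C j : Mat r ℂ)) →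
    (∀ j : Fin (m + 3), 1 ≤ (j : ℕ) → (j : ℕ) ≤ m → TotD φ (C j : Mat r ℂ)) →
    (∃ v, P002G.Cyc (C 0 : Mat r ℂ) v) →
    (∃ v, P002G.Cyc (C (Fin.last (m + 2)) : Mat r ℂ) v) →
    (∀ μ : ℂ, (C ⟨m + 1, by omega⟩ : Mat r ℂ) ≠ μ • (1 : Mat r ℂ)) →
    DualNear φ (C ⟨m + 1, by omega⟩ : Mat r ℂ) →
    ∀ x : FU 0 (m + 3) →* (Mat r ℂ)ˣ, x (relatorU 0 (m + 3)) = 1 →
    (∀ j, IsConj (C j) (x (FreeGroup.of (Sum.inr j)))) →
    UpT (cseq x 0) → LoT (cseq x (m + 2)) →
    (∀ k ≤ m + 1, ∃ X : Mat r ℂ,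
      (List.ofFn fun j : Fin k => cseq x ((j : ℕ) + 1)).prod = zZ X ∧ ∀ i, X i i ≠ 0) →
    (∀ W : Submodule ℂ (Fin r → ℂ),
      (∀ j, ∀ w ∈ W, (x (FreeGroup.of (Sum.inr j)) : Mat r ℂ) *ᵥ w ∈ W) → W = ⊥ ∨ W = ⊤) →
    ∀ f : MvPolynomial (GenU 0 (m + 3) × Fin r × Fin r) ℂ,
    (∀ (y : FU 0 (m + 3) →* (Mat r ℂ)ˣ) (cR : ℕ → Mat r R), y (relatorU 0 (m + 3)) = 1 →
      (∀ j, IsConj (C j) (y (FreeGroup.of (Sum.inr j)))) →
      (∀ j : Fin (m + 3), (y (FreeGroup.of (Sum.inr j)) : Mat r ℂ) = (cR j).map φ) →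
      (∀ j : Fin (m + 3), IsUnit (cR j).det) → UpT (cR 0) → LoT (cR (m + 2)) →
      (∀ i, φ (cR 0 i i) = cseq x 0 i i) → (∀ i, φ (cR (m + 2) i i) = cseq x (m + 2) i i) →
      evalG y f = 0) → evalG x f = 0

theorem irr_of_chartDens2 {R : Type} [CommRing R] (φ : R →+* ℂ) {n m : ℕ}
    (C : Fin (m + 3) → (Mat (n + 1) ℂ)ˣ)
    (H : ∀ x : FU 0 (m + 3) →* (Mat (n + 1) ℂ)ˣ,
      x (relatorU 0 (m + 3)) = 1 → (∀ j, IsConj (C j) (x (FreeGroup.of (Sum.inr j)))) →
      UpT (cseqB x 0) → LoT (cseqB x (m + 2)) →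
      (∀ k ≤ m + 1, ∃ X : Mat (n + 1) ℂ,
        (List.ofFn fun j : Fin k => cseqB x (j + 1)).prod = zZ X ∧ ∀ i, X i i ≠ 0) →
      (∀ W : Submodule ℂ (Fin (n + 1) → ℂ),
        (∀ j, ∀ w ∈ W, (x (FreeGroup.of (Sum.inr j)) : Mat (n + 1) ℂ) *ᵥ w ∈ W) →
          W = ⊥ ∨ W = ⊤) →
      ∀ f : MvPolynomial (GenU 0 (m + 3) × Fin (n + 1) × Fin (n + 1)) ℂ,
      (∀ y : FU 0 (m + 3) →* (Mat (n + 1) ℂ)ˣ, y (relatorU 0 (m + 3)) = 1 →
        (∀ j, IsConj (C j) (y (FreeGroup.of (Sum.inr j)))) →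
        (∀ k, y (FreeGroup.of k) ∈ GR (n + 1) φ) → evalG y f = 0) → evalG x f = 0)
    (x : FU 0 (m + 3) →* (Mat (n + 1) ℂ)ˣ)
    (hx : x ∈ YG ({relatorU 0 (m + 3)} : Set (FreeGroup ((Fin 0 × Bool) ⊕ Fin (m + 3)))) C)
    (hirr : ∀ M : Mat (n + 1) ℂ, (∀ w, Commute M (x w : Mat (n + 1) ℂ)) →
      ∃ c : ℂ, M = c • (1 : Mat (n + 1) ℂ))
    (f : MvPolynomial (((Fin 0 × Bool) ⊕ Fin (m + 3)) × Fin (n + 1) × Fin (n + 1)) ℂ)
    (hf : ∀ y ∈ DGT ({relatorU 0 (m + 3)} : Set (FreeGroup ((Fin 0 × Bool) ⊕ Fin (m + 3)))) φ C,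
      evalG y f = 0) : evalG x f = 0 := by
  obtain ⟨hx1, hx2, hx3⟩ := hx
  have hadj := adjoin_top_of_irr x hx3 hirr
  have hxrel : x (relatorU 0 (m + 3)) = 1 := hx1 _ rfl
  refine upgrade x hadj {y | y (relatorU 0 (m + 3)) = 1 ∧
    (∀ j, IsConj (C j) (y (FreeGroup.of (Sum.inr j)))) ∧
    ∀ k, y (FreeGroup.of k) ∈ GR (n + 1) φ} ?_ f ?_
  · intro f' hf'
    by_contra hne
    have hL := finRange_split m 0 (Nat.zero_le _)
    rw [List.ofFn_zero, List.nil_append] at hL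
    obtain ⟨x', g, h1, h2, h3, h4, h5⟩ := exists_chartForm (Nat.succ_pos n) 0 (Fin.last (m + 2)) _
      hL C x hxrel hx2 hadj f' hne
    obtain ⟨f'', hf''⟩ := exists_conjP g f'
    apply h1
    rw [← hf'']
    have hprod : ∀ k (hk : k ≤ m + 1), (List.ofFn fun j : Fin k => cseqB x' (j + 1)).prod =
        ((List.ofFn fun j : Fin k => (⟨j + 1, by omega⟩ : Fin (m + 3))).map (bt x')).prod := by
      intro k hk
      rw [List.map_ofFn]
      congr 1
      refine congrArg List.ofFn (funext fun j => ?_)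
      rw [cseqB_lt x' _ (by omega)]
      rfl
    refine H x' h2 h3 ?_ ?_ ?_ ?_ f'' ?_
    · rw [cseqB_lt x' 0 (by omega)]
      exact h5.up
    · rw [cseqB_lt x' (m + 2) (by omega)]
      exact h5.lo
    · intro k hk
      obtain ⟨X, hX, hXd⟩ := h5.cell _ _ (finRange_split m k hk)
      exact ⟨X, by rw [hprod k hk]; exact hX, hXd⟩
    · intro W hW
      have h6 := adjoin_gen_eq_top x' h4
      refine eq_bot_or_top_of_adjoin _ h6 W ?_
      rintro (k | j)
      · exact k.1.elim0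
      · exact hW j
    · intro y hy1 hy2 hy3
      rw [hf'']
      refine conj_vanish_gen {y | y (relatorU 0 (m + 3)) = 1 ∧
        (∀ j, IsConj (C j) (y (FreeGroup.of (Sum.inr j)))) ∧
        ∀ k, y (FreeGroup.of k) ∈ GR (n + 1) φ} ?_ f' hf' y ⟨hy1, hy2, hy3⟩ g
      rintro z ⟨hz1, hz2, hz3⟩ X
      refine ⟨?_, fun j => ?_, fun k => ?_⟩
      · rw [conjH_apply, hz1, mul_one, mul_inv_cancel]
      · refine (hz2 j).trans ?_
        rw [isConj_iff]
        exact ⟨slU (Int.castRingHom ℂ) X, (conjH_apply _ _ _).symm⟩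
      · rw [conjH_apply]
        exact (GR (n + 1) φ).mul_mem ((GR (n + 1) φ).mul_mem (slU_int_mem_GR φ X) (hz3 k))
          ((GR (n + 1) φ).inv_mem (slU_int_mem_GR φ X))
  · rintro y ⟨hy1, hy2, hy3⟩ hy4
    refine hf y ⟨⟨⟨?_, hy2, ss_of_adjoin y hy4⟩, hy3⟩, hy4⟩
    rintro w rfl
    exact hy1

theorem commute_all {K : Type} {r : ℕ} (x : FreeGroup K →* (Mat r ℂ)ˣ) (M : Mat r ℂ)
    (h : ∀ k, Commute M (x (FreeGroup.of k) : Mat r ℂ)) (w : FreeGroup K) :
    Commute M (x w : Mat r ℂ) := by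
  induction w using FreeGroup.induction_on with
  | C1 => rw [map_one, Units.val_one]; exact Commute.one_right M
  | of k => exact h k
  | inv_of k hk => rw [map_inv]; exact hk.units_inv_right
  | mul u v hu hv => rw [map_mul, Units.val_mul]; exact hu.mul_right hv

/-- The nonscalar middle class is at the last but one position. -/
theorem g02_pos (hCD : ChartDensity3) {m r : ℕ} (hr : 0 < r) {R : Type} [CommRing R]
    (φ : R →+* ℂ) (E : Subgroup ℂˣ) (hc : CoefOK φ E r)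
    (hDN : ∀ J : (Mat r ℂ)ˣ, EigIn E (J : Mat r ℂ) →
      (∀ μ : ℂ, (J : Mat r ℂ) ≠ μ • (1 : Mat r ℂ)) → DualNear φ (J : Mat r ℂ))
    (C : Fin (m + 3) → (Mat r ℂ)ˣ) (hE : ∀ j, EigIn E (C j : Mat r ℂ))
    (h0 : HasCyc r (C 0 : Mat r ℂ)) (hl : HasCyc r (C (Fin.last (m + 2)) : Mat r ℂ))
    (hns : ∀ μ : ℂ, (C ⟨m + 1, by omega⟩ : Mat r ℂ) ≠ μ • (1 : Mat r ℂ))
    (x : FU 0 (m + 3) →* (Mat r ℂ)ˣ)
    (hx : x ∈ YG ({relatorU 0 (m + 3)} : Set (FreeGroup ((Fin 0 × Bool) ⊕ Fin (m + 3)))) C)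
    (hirr : ∀ M : Mat r ℂ, (∀ w, Commute M (x w : Mat r ℂ)) → ∃ c : ℂ, M = c • (1 : Mat r ℂ))
    (f : MvPolynomial (((Fin 0 × Bool) ⊕ Fin (m + 3)) × Fin r × Fin r) ℂ)
    (hf : ∀ y ∈ DGT ({relatorU 0 (m + 3)} : Set (FreeGroup ((Fin 0 × Bool) ⊕ Fin (m + 3)))) φ C,
      evalG y f = 0) : evalG x f = 0 := by
  obtain ⟨n, rfl⟩ : ∃ n, r = n + 1 := ⟨r - 1, by omega⟩
  refine irr_of_chartDens2 φ C (fun x hx1 hx2 hup hlo hcell hirr f hf => ?_) x hx hirr f hf
  refine hCD φ hc.inj C (fun j => ?_) (fun j _ _ => totD_of_eigIn hc hr (C j) (hE j)) h0 hl hns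
    (hDN _ (hE _) hns) x hx1 hx2 hup hlo hcell hirr f fun y cR hy1 hy2 hy3 hy4 _ _ _ _ => ?_
  · intro z hz
    obtain ⟨e, he, rfl⟩ := hE j z hz
    exact hc.exists_unit hr he
  · refine hf y hy1 hy2 ?_
    rintro (k | j)
    · exact k.1.elim0
    · obtain ⟨e, he, hed⟩ := (hE j).det
      obtain ⟨c, hcc⟩ := exists_unit_root_of_mem hc hr (cR j).det e he (by
        rw [hed, RingHom.map_det]
        change ((cR j).map φ).det = _
        rw [← hy3]
        obtain ⟨u, hu⟩ := isConj_iff.1 (hy2 j)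
        rw [← hu, Units.val_mul, Units.val_mul, det_mul, det_mul, mul_right_comm, ← det_mul,
          ← Units.val_mul, mul_inv_cancel, Units.val_one, det_one, one_mul])
      exact mem_GR_of φ _ (cR j) (hy3 j) c hcc

theorem scalar_mem_GR {r : ℕ} {R : Type*} [CommRing R] (φ : R →+* ℂ) (U : (Mat r ℂ)ˣ) (μ : ℂ)
    (hU : (U : Mat r ℂ) = μ • (1 : Mat r ℂ)) : U ∈ GR r φ := by
  by_cases hμ : μ = 0
  · have h1 : U = 1 := by
      have h2 : (1 : Mat r ℂ) = 0 := by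
        rw [← Units.val_one, ← mul_inv_cancel U, Units.val_mul, hU, hμ, zero_smul, zero_mul]
      ext1
      rw [← mul_one (U : Mat r ℂ), h2, mul_zero, Units.val_one, h2]
    rw [h1]
    exact (GR r φ).one_mem
  · refine ⟨Units.mk0 μ hμ, 1, ?_⟩
    ext1
    rw [hU, map_one, mul_one, ← Algebra.algebraMap_eq_smul_one]
    rfl

/-- All middle classes are scalar. -/
theorem g02_scalar {m r : ℕ} {R : Type} [CommRing R] (φ : R →+* ℂ)
    (C : Fin (m + 3) → (Mat r ℂ)ˣ)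
    (hsc : ∀ j : Fin (m + 3), j ≠ 0 → j ≠ Fin.last (m + 2) →
      ∃ μ : ℂ, (C j : Mat r ℂ) = μ • (1 : Mat r ℂ))
    (x : FU 0 (m + 3) →* (Mat r ℂ)ˣ)
    (hx : x ∈ YG ({relatorU 0 (m + 3)} : Set (FreeGroup ((Fin 0 × Bool) ⊕ Fin (m + 3)))) C)
    (hirr : ∀ M : Mat r ℂ, (∀ w, Commute M (x w : Mat r ℂ)) → ∃ c : ℂ, M = c • (1 : Mat r ℂ)) :
    x ∈ DGT ({relatorU 0 (m + 3)} : Set (FreeGroup ((Fin 0 × Bool) ⊕ Fin (m + 3)))) φ C := by
  have hadj := adjoin_top_of_irr x hx.2.2 hirr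
  have hxrel : x (relatorU 0 (m + 3)) = 1 := hx.1 _ rfl
  have hmid : ∀ j : Fin (m + 3), j ≠ 0 → j ≠ Fin.last (m + 2) →
      ∃ μ : ℂ, (x (FreeGroup.of (Sum.inr j)) : Mat r ℂ) = μ • (1 : Mat r ℂ) := by
    intro j hj hj'
    obtain ⟨u, hu⟩ := isConj_iff.1 (hx.2.1 j)
    obtain ⟨μ, hμ⟩ := hsc j hj hj'
    refine ⟨μ, ?_⟩
    rw [← hu, Units.val_mul, Units.val_mul, hμ, mul_smul_comm, mul_one, smul_mul_assoc,
      ← Units.val_mul, mul_inv_cancel, Units.val_one]
  obtain ⟨L, hL, hLm⟩ : ∃ L : List (Fin (m + 3)), List.finRange (m + 3) =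
      0 :: (L ++ [Fin.last (m + 2)]) ∧ ∀ j ∈ L, j ≠ 0 ∧ j ≠ Fin.last (m + 2) := by
    refine ⟨_, finRange_split m 0 (Nat.zero_le _), fun j hj => ?_⟩
    have hnd := List.nodup_finRange (m + 3)
    rw [finRange_split m 0 (Nat.zero_le _), List.ofFn_zero, List.nil_append, List.nodup_cons] at hnd
    refine ⟨?_, ?_⟩
    · rintro rfl
      exact hnd.1 (List.mem_append_left _ hj)
    · rintro rfl
      have h1 := List.disjoint_of_nodup_append hnd.2
      exact h1 hj (List.mem_singleton_self _)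
  have hprod : ∀ l : List (Fin (m + 3)), (∀ j ∈ l, j ≠ 0 ∧ j ≠ Fin.last (m + 2)) →
      ∃ s : ℂ, (l.map (bt x)).prod = s • (1 : Mat r ℂ) := by
    intro l
    induction l with
    | nil => intro _; exact ⟨1, by rw [List.map_nil, List.prod_nil, one_smul]⟩
    | cons a l ih =>
      intro h
      obtain ⟨s, hs⟩ := ih fun j hj => h j (List.mem_cons_of_mem _ hj)
      obtain ⟨μ, hμ⟩ := hmid a (h a List.mem_cons_self).1 (h a List.mem_cons_self).2
      refine ⟨μ * s, ?_⟩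
      rw [List.map_cons, List.prod_cons, hs, bt_eqn, hμ, smul_mul_smul_comm, mul_one]
  obtain ⟨s, hs⟩ := hprod L hLm
  have h1 := (relU_iff x).1 hxrel
  rw [hL, List.map_cons, List.prod_cons, List.map_append, List.prod_append, hs, List.map_singleton,
    List.prod_singleton, smul_mul_assoc, one_mul, bt_eqn, bt_eqn] at h1
  obtain ⟨c0, hc0⟩ : ∃ c0 : Mat r ℂ, c0 = (x (FreeGroup.of (Sum.inr 0)) : Mat r ℂ) := ⟨_, rfl⟩
  obtain ⟨cl, hcl⟩ : ∃ cl : Mat r ℂ,
      cl = (x (FreeGroup.of (Sum.inr (Fin.last (m + 2)))) : Mat r ℂ) := ⟨_, rfl⟩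
  rw [← hc0, ← hcl] at h1
  have h2 : s • cl * c0 = 1 := mul_eq_one_comm.1 h1
  have h3 : Commute c0 cl := by
    by_cases hs0 : s = 0
    · rw [hs0, zero_smul, mul_zero] at h1
      rw [Commute, SemiconjBy, ← mul_one (c0 * cl), ← mul_one (cl * c0), ← h1, mul_zero, mul_zero]
    · rw [mul_smul_comm] at h1
      rw [smul_mul_assoc, ← h1] at h2
      exact (smul_right_injective (Mat r ℂ) hs0 h2).symm
  have hsc' : ∀ (M : Mat r ℂ) {N : Mat r ℂ}, (∃ μ : ℂ, N = μ • (1 : Mat r ℂ)) → Commute M N := by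
    rintro M N ⟨μ, rfl⟩
    exact (Commute.one_right M).smul_right μ
  have h4 : ∃ μ : ℂ, c0 = μ • (1 : Mat r ℂ) := by
    refine hirr c0 fun w => commute_all x c0 ?_ w
    rintro (k | j)
    · exact k.1.elim0
    · by_cases hj : j = 0
      · rw [hj, ← hc0]
      · by_cases hj' : j = Fin.last (m + 2)
        · rw [hj', ← hcl]
          exact h3
        · exact hsc' _ (hmid j hj hj')
  have h5 : ∃ μ : ℂ, cl = μ • (1 : Mat r ℂ) := by
    refine hirr cl fun w => commute_all x cl ?_ w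
    rintro (k | j)
    · exact k.1.elim0
    · by_cases hj : j = 0
      · rw [hj, ← hc0]
        exact h3.symm
      · by_cases hj' : j = Fin.last (m + 2)
        · rw [hj', ← hcl]
        · exact hsc' _ (hmid j hj hj')
  refine ⟨⟨hx, ?_⟩, hadj⟩
  rintro (k | j)
  · exact k.1.elim0
  · have h6 : ∃ μ : ℂ, (x (FreeGroup.of (Sum.inr j)) : Mat r ℂ) = μ • (1 : Mat r ℂ) := by
      by_cases hj : j = 0
      · rw [hj, ← hc0]
        exact h4
      · by_cases hj' : j = Fin.last (m + 2)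
        · rw [hj', ← hcl]
          exact h5
        · exact hmid j hj hj'
    obtain ⟨μ, hμ⟩ := h6
    exact scalar_mem_GR φ _ μ hμ

/-- Reordering for one tuple of classes. -/
theorem reorder_one {g n r : ℕ} {R : Type*} [CommRing R] {φ : R →+* ℂ} (C : Fin n → (Mat r ℂ)ˣ)
    (e : Equiv.Perm (Fin n))
    (h : ∀ x ∈ YG ({relatorU g n} : Set (FreeGroup ((Fin g × Bool) ⊕ Fin n))) (fun j => C (e j)),
      (∀ M : Mat r ℂ, (∀ w, Commute M (x w : Mat r ℂ)) → ∃ c : ℂ, M = c • (1 : Mat r ℂ)) →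
      ∀ f : MvPolynomial (((Fin g × Bool) ⊕ Fin n) × Fin r × Fin r) ℂ,
      (∀ y ∈ DGT ({relatorU g n} : Set (FreeGroup ((Fin g × Bool) ⊕ Fin n))) φ (fun j => C (e j)),
        evalG y f = 0) → evalG x f = 0)
    (x : FU g n →* (Mat r ℂ)ˣ)
    (hx : x ∈ YG ({relatorU g n} : Set (FreeGroup ((Fin g × Bool) ⊕ Fin n))) C)
    (hirr : ∀ M : Mat r ℂ, (∀ w, Commute M (x w : Mat r ℂ)) → ∃ c : ℂ, M = c • (1 : Mat r ℂ))
    (f : MvPolynomial (((Fin g × Bool) ⊕ Fin n) × Fin r × Fin r) ℂ)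
    (hf : ∀ y ∈ DGT ({relatorU g n} : Set (FreeGroup ((Fin g × Bool) ⊕ Fin n))) φ C,
      evalG y f = 0) : evalG x f = 0 := by
  obtain ⟨Q, hQ⟩ : ∃ Q : Fin n → ∀ r' : ℕ, Mat r' ℂ → Prop, ∀ j (M : Mat r ℂ),
      Q j r M ↔ M = (C j : Mat r ℂ) :=
    ⟨fun j r' M => ∀ h : r' = r, h ▸ M = (C j : Mat r ℂ), fun j M =>
      ⟨fun h => h rfl, fun h _ => h⟩⟩
  refine irrDenseQ_reorder (Q := Q) (φ := φ) (r := r) e (fun C' hC' x hx hirr f hf => ?_) C
    (fun j => (hQ j _).2 rfl) x hx hirr f hf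
  have h1 : C' = fun j => C (e j) := by
    funext j
    ext1
    exact (hQ (e j) _).1 (hC' j)
  subst h1
  exact h x hx hirr f hf

/-- The main theorem in genus zero, two regular classes. -/
theorem g02Irr_of (hCD : ChartDensity3)
    (hDN : ∀ {r : ℕ} {R : Type} [CommRing R] (φ : R →+* ℂ) (E : Subgroup ℂˣ), CoefOK φ E r →
      0 < r → ∀ J : (Mat r ℂ)ˣ, EigIn E (J : Mat r ℂ) →
      (∀ μ : ℂ, (J : Mat r ℂ) ≠ μ • (1 : Mat r ℂ)) → DualNear φ (J : Mat r ℂ))
    {m r : ℕ} (hr : 0 < r) {R : Type} [CommRing R] (φ : R →+* ℂ) (E : Subgroup ℂˣ)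
    (hc : CoefOK φ E r) (C : Fin (m + 3) → (Mat r ℂ)ˣ) (hE : ∀ j, EigIn E (C j : Mat r ℂ))
    (h0 : HasCyc r (C 0 : Mat r ℂ)) (hl : HasCyc r (C (Fin.last (m + 2)) : Mat r ℂ))
    (x : FU 0 (m + 3) →* (Mat r ℂ)ˣ)
    (hx : x ∈ YG ({relatorU 0 (m + 3)} : Set (FreeGroup ((Fin 0 × Bool) ⊕ Fin (m + 3)))) C)
    (hirr : ∀ M : Mat r ℂ, (∀ w, Commute M (x w : Mat r ℂ)) → ∃ c : ℂ, M = c • (1 : Mat r ℂ))
    (f : MvPolynomial (((Fin 0 × Bool) ⊕ Fin (m + 3)) × Fin r × Fin r) ℂ)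
    (hf : ∀ y ∈ DGT ({relatorU 0 (m + 3)} : Set (FreeGroup ((Fin 0 × Bool) ⊕ Fin (m + 3)))) φ C,
      evalG y f = 0) : evalG x f = 0 := by
  by_cases hsc : ∀ j : Fin (m + 3), j ≠ 0 → j ≠ Fin.last (m + 2) →
      ∃ μ : ℂ, (C j : Mat r ℂ) = μ • (1 : Mat r ℂ)
  · exact hf x (g02_scalar φ C hsc x hx hirr)
  · push Not at hsc
    obtain ⟨j, hj0, hjl, hj⟩ := hsc
    refine reorder_one C (Equiv.swap (⟨m + 1, by omega⟩ : Fin (m + 3)) j)
      (fun x hx hirr f hf => ?_) x hx hirr f hf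
    have e0 : Equiv.swap (⟨m + 1, by omega⟩ : Fin (m + 3)) j 0 = 0 := by
      refine Equiv.swap_apply_of_ne_of_ne ?_ hj0.symm
      intro h
      have := congrArg Fin.val h
      simp at this
    have e1 : Equiv.swap (⟨m + 1, by omega⟩ : Fin (m + 3)) j (Fin.last (m + 2)) =
        Fin.last (m + 2) := by
      refine Equiv.swap_apply_of_ne_of_ne ?_ hjl.symm
      intro h
      have := congrArg Fin.val h
      simp at this
    refine g02_pos hCD hr φ E hc (hDN φ E hc hr) _ (fun j => hE _) ?_ ?_ ?_ x hx hirr f hf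
    · rw [e0]
      exact h0
    · rw [e1]
      exact hl
    · rw [Equiv.swap_apply_left]
      exact hj

end Vale.Agent.P002R
end

section

/-!
# P002, genus 0, one regular class: all irreducible representations
-/

namespace Vale.Agent.P002L

open Matrix Vale.Agent.P002R

/-- T5: the type of a matrix. -/
def ExType : Prop :=
  ∀ {R : Type} [CommRing R] (φ : R →+* ℂ) {r : ℕ} (C c : (Mat r ℂ)ˣ),
    EigU φ (C : Mat r ℂ) → IsConj C c →
    ∃ (κ : Fin r → ℕ) (l : ℕ → Rˣ) (u M : Mat r ℂ) (h : MvPolynomial (Fin r × Fin r) ℂ),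
      UU u ∧ Kup κ (fun j => φ (l j)) M ∧ (c : Mat r ℂ) * u = u * M ∧
      MvPolynomial.eval (fun p => (c : Mat r ℂ) p.1 p.2) h ≠ 0 ∧
      ∀ (c' : (Mat r ℂ)ˣ) (u' M' : Mat r ℂ), UU u' → Kup κ (fun j => φ (l j)) M' →
        (c' : Mat r ℂ) * u' = u' * M' →
        MvPolynomial.eval (fun p => (c' : Mat r ℂ) p.1 p.2) h ≠ 0 → IsConj C c'

/-- T7: lifting of tuples. -/
def LiftMain : Prop :=
  ∀ {R A : Type} [CommRing R] [CommRing A] {φ : R →+* ℂ} {ι : R →+* A} {ψ : A →+* ℂ},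
    Lifting φ ι ψ → ∀ {r m : ℕ} (κ : Fin m → Fin r → ℕ) (l : Fin m → ℕ → Rˣ)
    (c u M : Fin m → Mat r ℂ), (∀ i, UU (u i)) → (∀ i, Kup (κ i) (fun j => φ (l i j)) (M i)) →
    (∀ i, c i * u i = u i * M i) → ∀ τ : Fin r → Rˣ, UpT (List.ofFn c).prod →
    (∀ i, (List.ofFn c).prod i i = φ (τ i)) →
    ∃ c' u' M' : Fin m → Mat r A, (∀ i, UU (u' i)) ∧
      (∀ i, Kup (κ i) (fun j => ι (l i j)) (M' i)) ∧ (∀ i, c' i * u' i = u' i * M' i) ∧
      (∀ i, (c' i).map ψ = c i) ∧ UpT (List.ofFn c').prod ∧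
      ∀ i, (List.ofFn c').prod i i = ι (τ i)

theorem prod_map_ofFn {S T : Type*} [CommRing S] [CommRing T] (θ : S →+* T) {r m : ℕ}
    (c : Fin m → Mat r S) :
    (List.ofFn fun j => (c j).map θ).prod = ((List.ofFn c).prod).map θ := by
  have h := map_list_prod (θ.mapMatrix (m := Fin r)) (List.ofFn c)
  rw [List.map_ofFn] at h
  exact h.symm

theorem kry_map {S T : Type*} [CommRing S] [CommRing T] (θ : S →+* T) {r : ℕ} (Z : Mat r S)
    (v : Fin r → S) : P002.kry (Z.map θ) (fun i => θ (v i)) = (P002.kry Z v).map θ := by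
  ext i j
  simp only [P002.kry, Matrix.of_apply, Matrix.map_apply]
  have h2 : (Z.map θ) ^ (j : ℕ) = (Z ^ (j : ℕ)).map θ := by
    have := map_pow θ.mapMatrix Z (j : ℕ)
    exact this.symm
  rw [h2, RingHom.map_mulVec]
  rfl

/-- A polynomial which detects cyclic vectors. -/
theorem exists_cycP {m r : ℕ} (v : Fin r → ℂ) : ∃ q : MvPolynomial (GenU 0 (m + 1) × Fin r × Fin r) ℂ,
    ∀ c : Fin (m + 1) → Mat r ℂ, evT q c = (P002.kry (c 0) v).det := by
  refine ⟨(P002.kry (Matrix.of fun i j => (MvPolynomial.X (Sum.inr 0, i, j) :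
    MvPolynomial (GenU 0 (m + 1) × Fin r × Fin r) ℂ)) fun i => MvPolynomial.C (v i)).det,
    fun c => ?_⟩
  rw [evT, RingHom.map_det]
  congr 1
  have h := kry_map (MvPolynomial.eval fun p : GenU 0 (m + 1) × Fin r × Fin r =>
    (Sum.elim (fun _ => (0 : Mat r ℂ)) c p.1) p.2.1 p.2.2) (Matrix.of fun i j =>
    (MvPolynomial.X (Sum.inr 0, i, j) : MvPolynomial (GenU 0 (m + 1) × Fin r × Fin r) ℂ))
    fun i => MvPolynomial.C (v i)
  rw [RingHom.mapMatrix_apply, ← h]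
  congr 1
  · ext i j
    rw [Matrix.map_apply, Matrix.of_apply, MvPolynomial.eval_X]
    rfl
  · funext i
    rw [MvPolynomial.eval_C]

/-- A polynomial in the entries of one member of the tuple. -/
theorem evT_rename {m r : ℕ} (i : Fin (m + 1)) (h : MvPolynomial (Fin r × Fin r) ℂ)
    (c : Fin (m + 1) → Mat r ℂ) :
    evT (MvPolynomial.rename (fun p => ((Sum.inr i, p) : GenU 0 (m + 1) × Fin r × Fin r)) h) c =
      MvPolynomial.eval (fun p => c i p.1 p.2) h := by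
  rw [evT, MvPolynomial.eval_rename]
  rfl

/-- Inverse of an upper triangular matrix with unit diagonal. -/
theorem upT_left_inv {r : ℕ} {A B : Mat r ℂ} (h : A * B = 1) (hB : UpT B) (hd : ∀ i, B i i ≠ 0) :
    UpT A ∧ ∀ i, A i i = (B i i)⁻¹ := by
  have h1 : A = B⁻¹ := (Matrix.inv_eq_left_inv h).symm
  rw [h1]
  exact ⟨hB.inv hd, inv_diag hB hd⟩

/-- The main step: density in the chart. -/
theorem core (hET : ExType) (hLM : LiftMain) {m r : ℕ} (hr : 0 < r) {R : Type} [CommRing R]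
    (φ : R →+* ℂ) (E : Subgroup ℂˣ) (hc : CoefOK φ E r) (C : Fin (m + 1) → (Mat r ℂ)ˣ)
    (hE : ∀ j, EigIn E (C j : Mat r ℂ)) (h0 : HasCyc r (C 0 : Mat r ℂ))
    (x : FU 0 (m + 1) →* (Mat r ℂ)ˣ) (hx1 : x (relatorU 0 (m + 1)) = 1)
    (hx2 : ∀ j, IsConj (C j) (x (FreeGroup.of (Sum.inr j)))) (hup : UpT (bt x 0))
    (f : MvPolynomial (GenU 0 (m + 1) × Fin r × Fin r) ℂ)
    (hf : ∀ y : FU 0 (m + 1) →* (Mat r ℂ)ˣ, y (relatorU 0 (m + 1)) = 1 →
      (∀ j, IsConj (C j) (y (FreeGroup.of (Sum.inr j)))) →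
      (∀ k, y (FreeGroup.of k) ∈ GR r φ) → evalG y f = 0) : evalG x f = 0 := by
  have hrel : bt x 0 * (List.ofFn fun j : Fin m => bt x j.succ).prod = 1 := by
    have h1 := (relU_iff x).1 hx1
    rwa [← List.ofFn_eq_map, List.ofFn_succ, List.prod_cons] at h1
  obtain ⟨P, hP⟩ : ∃ P, P = (List.ofFn fun j : Fin m => bt x j.succ).prod := ⟨_, rfl⟩
  rw [← hP] at hrel
  have hrel' : P * bt x 0 = 1 := mul_eq_one_comm.1 hrel
  have hcp0 : (bt x 0).charpoly = (C 0 : Mat r ℂ).charpoly := charpoly_of_isConj (hx2 0)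
  have heig : ∀ i, ∃ e ∈ E, (e : ℂ) = bt x 0 i i := by
    intro i
    apply hE 0
    rw [← hcp0, charpoly_upT hup, Polynomial.IsRoot, Polynomial.eval_prod]
    refine Finset.prod_eq_zero (Finset.mem_univ i) ?_
    rw [Polynomial.eval_sub, Polynomial.eval_X, Polynomial.eval_C, sub_self]
  choose e heE he using heig
  have hd0 : ∀ i, bt x 0 i i ≠ 0 := fun i => by rw [← he]; exact (e i).ne_zero
  obtain ⟨hPup, hPd⟩ := upT_left_inv hrel' hup hd0
  have hτ : ∀ i, ∃ t : Rˣ, φ t = ((e i)⁻¹ : ℂˣ) := fun i => hc.exists_unit hr (E.inv_mem (heE i))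
  choose τ hτ using hτ
  have hPτ : ∀ i, P i i = φ (τ i) := fun i => by
    rw [hPd, hτ, ← he, Units.val_inv_eq_inv_val]
  have hty := fun i : Fin m => hET φ (C i.succ) (x (FreeGroup.of (Sum.inr i.succ)))
    (fun z hz => by
      obtain ⟨e, he, rfl⟩ := hE i.succ z hz
      exact hc.exists_unit hr he) (hx2 i.succ)
  choose κ l u M h hu hM hcu hh hcl using hty
  obtain ⟨uf, huf⟩ := hc.exists_free
  obtain ⟨A, hA, ι, ψ, hL⟩ := exists_lifting φ hc.inj uf huf
  obtain ⟨c', u', M', hu', hM', hcu', hcψ, hup', hd'⟩ := hLM hL κ l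
    (fun i => bt x i.succ) u M hu hM hcu τ (by rw [← hP]; exact hPup)
    (fun i => by rw [← hP]; exact hPτ i)
  obtain ⟨PA, hPA⟩ : ∃ PA, PA = (List.ofFn c').prod := ⟨_, rfl⟩
  rw [← hPA] at hup' hd'
  obtain ⟨δ, hδ⟩ : ∃ δ : Rˣ, δ = ∏ i, τ i := ⟨_, rfl⟩
  have hdetPA : PA.det = ι δ := by
    rw [hup'.det, hδ, Units.coe_prod, map_prod]
    exact Finset.prod_congr rfl fun i _ => hd' i
  obtain ⟨c0, hc0⟩ : ∃ c0 : Mat r A, c0 = ι ((δ⁻¹ : Rˣ) : R) • PA.adjugate := ⟨_, rfl⟩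
  have hc0P : c0 * PA = 1 := by
    rw [hc0, smul_mul_assoc, Matrix.adjugate_mul, smul_smul, hdetPA, ← map_mul, Units.inv_mul,
      map_one, one_smul]
  obtain ⟨cA, hcA⟩ : ∃ cA : Fin (m + 1) → Mat r A, cA = Fin.cons c0 c' := ⟨_, rfl⟩
  have hcA0 : cA 0 = c0 := by rw [hcA, Fin.cons_zero]
  have hcAs : ∀ i : Fin m, cA i.succ = c' i := fun i => by rw [hcA, Fin.cons_succ]
  have hprodA : (List.ofFn cA).prod = 1 := by
    rw [List.ofFn_succ, List.prod_cons, hcA0, ← hc0P, hPA]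
    congr 3
    funext i
    exact hcAs i
  -- the cyclic vector
  have hcyc : HasCyc r (bt x 0) := by
    obtain ⟨v, hv⟩ := h0
    exact cyc_of_isConj (hx2 0) hv
  obtain ⟨v, hv⟩ := hcyc
  have hv' : P002G.Cyc (bt x 0) v := hv
  rw [P002G.cyc_iff, Matrix.isUnit_iff_isUnit_det, isUnit_iff_ne_zero] at hv'
  obtain ⟨q, hq⟩ := exists_cycP (m := m) v
  obtain ⟨F, hF⟩ : ∃ F : MvPolynomial (GenU 0 (m + 1) × Fin r × Fin r) ℂ, F = f * (q *
    ∏ i : Fin m, MvPolynomial.rename (fun p => ((Sum.inr i.succ, p) :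
      GenU 0 (m + 1) × Fin r × Fin r)) (h i)) := ⟨_, rfl⟩
  have hFev : ∀ c : Fin (m + 1) → Mat r ℂ, evT F c = evT f c * ((P002.kry (c 0) v).det *
      ∏ i : Fin m, MvPolynomial.eval (fun p => c i.succ p.1 p.2) (h i)) := by
    intro c
    have h1 : ∀ a b : MvPolynomial (GenU 0 (m + 1) × Fin r × Fin r) ℂ,
        evT (a * b) c = evT a c * evT b c := fun a b => map_mul _ a b
    rw [hF, h1, h1, hq]
    congr 2
    have h2 : evT (∏ i : Fin m, MvPolynomial.rename (fun p => ((Sum.inr i.succ, p) :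
      GenU 0 (m + 1) × Fin r × Fin r)) (h i)) c = ∏ i : Fin m, evT (MvPolynomial.rename
        (fun p => ((Sum.inr i.succ, p) : GenU 0 (m + 1) × Fin r × Fin r)) (h i)) c :=
      map_prod _ _ _
    rw [h2]
    exact Finset.prod_congr rfl fun i _ => evT_rename i.succ (h i) c
  have hevA : ∀ (θ : A →+* ℂ), MvPolynomial.eval (fun s : GenU 0 (m + 1) × Fin r × Fin r =>
      θ ((Sum.elim (fun _ => (0 : Mat r A)) cA s.1) s.2.1 s.2.2)) F =
      evT F fun j => (cA j).map θ := by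
    intro θ
    rw [evT]
    refine congrArg (fun w => MvPolynomial.eval w F) (funext fun s => ?_)
    obtain ⟨k | j, a, b⟩ := s
    · exact k.1.elim0
    · rfl
  have hkey : evT F (fun j => (cA j).map ψ) = 0 := by
    rw [← hevA ψ]
    refine hL.dens F (fun s : GenU 0 (m + 1) × Fin r × Fin r =>
      (Sum.elim (fun _ => (0 : Mat r A)) cA s.1) s.2.1 s.2.2) fun η hη => ?_
    have h1 := hevA (φ.comp η)
    refine h1.trans ?_
    obtain ⟨cC, hcC⟩ : ∃ cC : Fin (m + 1) → Mat r ℂ, cC = fun j => (cA j).map (φ.comp η) :=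
      ⟨_, rfl⟩
    obtain ⟨cR, hcR⟩ : ∃ cR : Fin (m + 1) → Mat r R, cR = fun j => (cA j).map η := ⟨_, rfl⟩
    have hcCR : ∀ j, cC j = (cR j).map φ := by
      intro j
      rw [hcC, hcR]
      rfl
    have hprodC : (List.ofFn cC).prod = 1 := by
      rw [hcC, prod_map_ofFn, hprodA]
      exact Matrix.map_one _ (map_zero _) (map_one _)
    rw [← hcC, hFev]
    by_contra hne
    have hne1 := left_ne_zero_of_mul hne
    have hne2 := left_ne_zero_of_mul (right_ne_zero_of_mul hne)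
    have hne3 := Finset.prod_ne_zero_iff.1 (right_ne_zero_of_mul (right_ne_zero_of_mul hne))
    obtain ⟨y, hy1, hy2⟩ := exists_hom (m + 1) cC hprodC
    apply hne1
    have hbty : bt y = cC := funext hy2
    rw [← hbty, ← evalG_eq_evT]
    -- the first member
    obtain ⟨PC, hPC⟩ : ∃ PC : Mat r ℂ, PC = PA.map (φ.comp η) := ⟨_, rfl⟩
    have hPCd : ∀ i, PC i i = φ (τ i) := by
      intro i
      rw [hPC, Matrix.map_apply, hd', RingHom.comp_apply, hη]
    have hPCup : UpT PC := by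
      intro i j hij
      rw [hPC, Matrix.map_apply, hup' i j hij, map_zero]
    have hCP : cC 0 * PC = 1 := by
      have h2 : (c0 * PA).map (φ.comp η) = (1 : Mat r A).map (φ.comp η) := by rw [hc0P]
      rw [Matrix.map_mul, Matrix.map_one _ (map_zero _) (map_one _)] at h2
      rw [hPC, hcC]
      simp only
      rw [hcA0]
      exact h2
    obtain ⟨hC0up, hC0d⟩ := upT_left_inv hCP hPCup (fun i => by
      rw [hPCd, hτ]
      exact Units.ne_zero _)
    have hconj : ∀ j, IsConj (C j) (y (FreeGroup.of (Sum.inr j))) := by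
      intro j
      refine Fin.cases ?_ (fun i => ?_) j
      · obtain ⟨w, hw⟩ := h0
        refine isConj_of_cyc (v := w) (w := v) _ _ ?_ hw ?_
        · rw [hy2 0, ← hcp0, charpoly_upT hup, charpoly_upT hC0up]
          refine Finset.prod_congr rfl fun i _ => ?_
          rw [hC0d, hPCd, hτ, Units.val_inv_eq_inv_val, inv_inv, he]
        · rw [P002G.cyc_iff, Matrix.isUnit_iff_isUnit_det, isUnit_iff_ne_zero, hy2 0]
          exact hne2
      · refine hcl i _ ((u' i).map (φ.comp η)) ((M' i).map (φ.comp η)) ((hu' i).map _) ?_ ?_ ?_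
        · have h3 := (hM' i).map (φ.comp η)
          have h4 : (fun j => (φ.comp η) (ι ((l i j : Rˣ) : R))) = fun j => φ ((l i j : Rˣ) : R) :=
            funext fun j => by rw [RingHom.comp_apply, hη]
          rw [h4] at h3
          exact h3
        · rw [hy2, hcC]
          simp only
          rw [hcAs, ← Matrix.map_mul, hcu' i, Matrix.map_mul]
        · have h3 := hne3 i (Finset.mem_univ i)
          rw [← hbty] at h3
          exact h3
    refine hf y hy1 hconj ?_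
    rintro (k | j)
    · exact k.1.elim0
    · obtain ⟨e, he, hed⟩ := (hE j).det
      obtain ⟨c, hcc⟩ := exists_unit_root_of_mem hc hr (cR j).det e he (by
        rw [hed, RingHom.map_det]
        change ((cR j).map φ).det = _
        rw [← hcCR, ← hy2, (cjM_of_isConj (hconj j)).det])
      exact mem_GR_of φ _ (cR j) ((hy2 j).trans (hcCR j)) c hcc
  have hψ : (fun j => (cA j).map ψ) = bt x := by
    funext j
    refine Fin.cases ?_ (fun i => ?_) j
    · rw [hcA0]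
      have h2 : (c0 * PA).map ψ = (1 : Mat r A).map ψ := by rw [hc0P]
      rw [Matrix.map_mul, Matrix.map_one _ (map_zero _) (map_one _)] at h2
      have h3 : PA.map ψ = P := by
        rw [hPA, ← prod_map_ofFn, hP]
        congr 2
        funext i
        exact hcψ i
      rw [h3] at h2
      rw [← mul_one (c0.map ψ), ← hrel', ← mul_assoc, h2, one_mul]
    · rw [hcAs]
      exact hcψ i
  rw [hψ, hFev] at hkey
  rw [evalG_eq_evT]
  refine (mul_eq_zero.1 hkey).resolve_right (mul_ne_zero hv' ?_)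
  exact Finset.prod_ne_zero_iff.2 fun i _ => hh i

/-- Genus zero, one regular class. -/
theorem g01Irr_of (hET : ExType) (hLM : LiftMain) : G01Irr := by
  intro m r hr R _ φ E hc C hE h0 x hx hirr f hf
  obtain ⟨hx1, hx2, hx3⟩ := hx
  have hadj := adjoin_top_of_irr x hx3 hirr
  have hxrel : x (relatorU 0 (m + 1)) = 1 := hx1 _ rfl
  refine upgrade x hadj {y | y (relatorU 0 (m + 1)) = 1 ∧
    (∀ j, IsConj (C j) (y (FreeGroup.of (Sum.inr j)))) ∧
    ∀ k, y (FreeGroup.of k) ∈ GR r φ} ?_ f ?_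
  · intro f' hf'
    obtain ⟨J, hJ, hJup⟩ := exists_upT (x (FreeGroup.of (Sum.inr 0)))
    obtain ⟨P, hP⟩ := isConj_iff.1 hJ
    obtain ⟨f'', hf''⟩ := exists_conjP P⁻¹ f'
    have hback : conjH P⁻¹ (conjH P x) = x := by
      refine MonoidHom.ext fun w => ?_
      rw [conjH_apply, conjH_apply, inv_inv]
      group
    rw [← hback, ← hf'']
    refine core hET hLM hr φ E hc C hE h0 (conjH P x) ?_ (fun j => ?_) ?_ f'' ?_
    · rw [conjH_apply, hxrel, mul_one, mul_inv_cancel]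
    · refine (hx2 j).trans ?_
      rw [isConj_iff]
      exact ⟨P, (conjH_apply _ _ _).symm⟩
    · rw [bt_eqn, conjH_apply, hP]
      exact hJup
    · intro y hy1 hy2 hy3
      rw [hf'']
      refine conj_vanish_gen {y | y (relatorU 0 (m + 1)) = 1 ∧
        (∀ j, IsConj (C j) (y (FreeGroup.of (Sum.inr j)))) ∧
        ∀ k, y (FreeGroup.of k) ∈ GR r φ} ?_ f' hf' y ⟨hy1, hy2, hy3⟩ P⁻¹
      rintro z ⟨hz1, hz2, hz3⟩ X
      refine ⟨?_, fun j => ?_, fun k => ?_⟩
      · rw [conjH_apply, hz1, mul_one, mul_inv_cancel]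
      · refine (hz2 j).trans ?_
        rw [isConj_iff]
        exact ⟨slU (Int.castRingHom ℂ) X, (conjH_apply _ _ _).symm⟩
      · rw [conjH_apply]
        exact (GR r φ).mul_mem ((GR r φ).mul_mem (slU_int_mem_GR φ X) (hz3 k))
          ((GR r φ).inv_mem (slU_int_mem_GR φ X))
  · rintro y ⟨hy1, hy2, hy3⟩ hy4
    refine hf y ⟨⟨⟨?_, hy2, ss_of_adjoin y hy4⟩, hy3⟩, hy4⟩
    rintro w rfl
    exact hy1

end Vale.Agent.P002L
end

section

/-!
# P002, genus 0, one regular class: the main theorem for irreducible representations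
-/

namespace Vale.Agent.P002L

/-- The main theorem in genus zero, one regular class. -/
theorem g01Irr : G01Irr := by
  refine g01Irr_of ?_ ?_
  · intro R _ φ r C c hC hc
    exact exists_type φ C c hC hc
  · intro R A _ _ φ ι ψ hL r m κ l c u M hu hM hc τ hP hτ
    exact lift_main hL κ l c u M hu hM hc τ hP hτ

end Vale.Agent.P002L
end

section

/-!
# P002, genus 0, two regular classes: density in the space of parameters, all cases
-/

namespace Vale.Agent.P002R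

open Matrix

/-- Moving a tuple of the chart to general position. -/
def A4Core : Prop :=
  ∀ {r m : ℕ} (Y : Fin (m + 1) → Mat r ℂ), (∀ k i, Y k i i ≠ 0) → ∀ k₁ : Fin m,
    (∀ μ : ℂ, zZ (Y k₁.castSucc) ≠ μ • (1 : Mat r ℂ)) →
    (∀ μ : ℂ, zZ (Y (Fin.last m)) ≠ μ • (1 : Mat r ℂ)) → ∀ N ∈ nhds Y,
    ∃ Y' ∈ N, (∀ k i, Y' k i i ≠ 0) ∧ (∀ k, CjM (zZ (Y k)) (zZ (Y' k))) ∧
      (∀ i, ∏ l, Y' l i i = ∏ l, Y l i i) ∧ NoStab (zZ (Y' (Fin.last m)))

theorem CjM.nonscalar {r : ℕ} {A B : Mat r ℂ} (h : CjM A B)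
    (hA : ∀ μ : ℂ, A ≠ μ • (1 : Mat r ℂ)) (μ : ℂ) : B ≠ μ • (1 : Mat r ℂ) := by
  intro hB
  obtain ⟨g, hg⟩ := h.symm
  apply hA μ
  rw [hg, hB, mul_smul_comm, mul_one, smul_mul_assoc, Units.mul_inv]

theorem continuous_evalY {κ : Type*} {r : ℕ} (F : MvPolynomial (κ × Fin r × Fin r) ℂ) :
    Continuous fun Y : κ → Mat r ℂ =>
      (MvPolynomial.aeval (fun p : κ × Fin r × Fin r => Y p.1 p.2.1 p.2.2) F : ℂ) := by
  have h1 : (fun Y : κ → Mat r ℂ =>
      (MvPolynomial.aeval (fun p : κ × Fin r × Fin r => Y p.1 p.2.1 p.2.2) F : ℂ)) =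
      fun Y => MvPolynomial.eval (fun p : κ × Fin r × Fin r => Y p.1 p.2.1 p.2.2) F := by
    funext Y
    rw [← MvPolynomial.coe_aeval_eq_eval]
    rfl
  rw [h1]
  refine (MvPolynomial.continuous_eval F).comp ?_
  exact continuous_pi fun p => ((continuous_apply p.2.2).comp
    ((continuous_apply p.2.1).comp (continuous_apply p.1)))

theorem core_density3 (hA4 : A4Core) {R : Type*} [CommRing R] (φ : R →+* ℂ) {r m : ℕ}
    (J : Fin m → Mat r ℂ) (hT : ∀ k, TotD φ (J k)) (Jl : Mat r ℂ)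
    (hns : ∀ μ : ℂ, Jl ≠ μ • (1 : Mat r ℂ)) (hDN : DualNear φ Jl) (θ : Fin r → Rˣ)
    (F : MvPolynomial (Fin (m + 1) × Fin r × Fin r) ℂ)
    (hF : ∀ Y : Fin (m + 1) → Mat r R, (∀ k i, IsUnit (Y k i i)) →
      (∀ k : Fin m, CjM (J k) (zZ ((Y k.castSucc).map φ))) →
      CjM Jl (zZ ((Y (Fin.last m)).map φ)) → (∀ i, ∏ l, Y l i i = θ i) →
      MvPolynomial.aeval (fun p => φ (Y p.1 p.2.1 p.2.2)) F = (0 : ℂ))
    (Y : Fin (m + 1) → Mat r ℂ) (hY0 : ∀ k i, Y k i i ≠ 0)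
    (hY1 : ∀ k : Fin m, CjM (J k) (zZ (Y k.castSucc)))
    (hY2 : CjM Jl (zZ (Y (Fin.last m))))
    (hcase : (∃ k : Fin m, ∀ μ : ℂ, J k ≠ μ • (1 : Mat r ℂ)) ∨ NoStab (zZ (Y (Fin.last m))))
    (hY4 : ∀ i, ∏ l, Y l i i = φ (θ i)) :
    MvPolynomial.aeval (fun p => Y p.1 p.2.1 p.2.2) F = (0 : ℂ) := by
  by_contra hne
  obtain ⟨Y', hN', h0', hC', hp', hS'⟩ : ∃ Y' : Fin (m + 1) → Mat r ℂ,
      (MvPolynomial.aeval (fun p => Y' p.1 p.2.1 p.2.2) F : ℂ) ≠ 0 ∧ (∀ k i, Y' k i i ≠ 0) ∧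
      (∀ k, CjM (zZ (Y k)) (zZ (Y' k))) ∧ (∀ i, ∏ l, Y' l i i = ∏ l, Y l i i) ∧
      NoStab (zZ (Y' (Fin.last m))) := by
    rcases hcase with ⟨k, hk⟩ | h
    · obtain ⟨Y', h1, h2⟩ := hA4 Y hY0 k ((hY1 k).nonscalar hk) (hY2.nonscalar hns)
        {Y' | (MvPolynomial.aeval (fun p => Y' p.1 p.2.1 p.2.2) F : ℂ) ≠ 0}
        ((continuous_evalY F).continuousAt.eventually_ne hne)
      exact ⟨Y', h1, h2⟩
    · exact ⟨Y, hne, hY0, fun k => ⟨1, by simp⟩, fun _ => rfl, h⟩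
  -- the dual chart
  have hcont : Continuous fun X : Mat r ℂ => Function.update Y' (Fin.last m) X :=
    continuous_const.update (Fin.last m) continuous_id
  have hN2 : {X : Mat r ℂ | (MvPolynomial.aeval (fun p => (Function.update Y' (Fin.last m) X)
      p.1 p.2.1 p.2.2) F : ℂ) ≠ 0} ∈ nhds (Y' (Fin.last m)) := by
    refine ((continuous_evalY F).comp hcont).continuousAt.eventually_ne ?_
    simp only [Function.comp_apply, Function.update_eq_self]
    exact hN'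
  obtain ⟨X, hX, hXd, hXc, hXD⟩ := hDN (Y' (Fin.last m)) (h0' _) (hY2.trans (hC' _)) hS' _ hN2
  apply hX
  have hlast : Function.update Y' (Fin.last m) X (Fin.last m) = X := Function.update_self _ _ _
  have hcast : ∀ k : Fin m, Function.update Y' (Fin.last m) X k.castSucc = Y' k.castSucc :=
    fun k => Function.update_of_ne (Fin.castSucc_lt_last k).ne _ _
  have hdiag : ∀ k i, Function.update Y' (Fin.last m) X k i i = Y' k i i := by
    intro k i
    refine Fin.lastCases ?_ (fun k => ?_) k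
    · rw [hlast, hXd]
    · rw [hcast]
  refine core_density2 φ J hT Jl θ F hF _ (fun k i => ?_) (fun k => ?_) ?_ ?_ fun i => ?_
  · rw [hdiag]
    exact h0' k i
  · rw [hcast]
    exact (hY1 k).trans (hC' _)
  · rw [hlast]
    exact hXc
  · rw [hlast]
    exact hXD
  · simp only [hdiag]
    rw [hp', hY4]

end Vale.Agent.P002R
end

section

/-!
# P002, genus 0, two regular classes: the case where the other classes are scalar
-/

namespace Vale.Agent.P002R

open Matrix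

variable {r : ℕ}

/-- The coordinate subspace. -/
def wI (I : Finset (Fin r)) : Submodule ℂ (Fin r → ℂ) where
  carrier := {w | ∀ i, i ∉ I → w i = 0}
  add_mem' := fun {a b} ha hb i hi => by rw [Pi.add_apply, ha i hi, hb i hi, add_zero]
  zero_mem' := fun i _ => rfl
  smul_mem' := fun c w hw i hi => by rw [Pi.smul_apply, hw i hi, smul_zero]

theorem mem_wI {I : Finset (Fin r)} {w : Fin r → ℂ} : w ∈ wI I ↔ ∀ i, i ∉ I → w i = 0 := Iff.rfl

theorem wI_stable {I : Finset (Fin r)} {M : Mat r ℂ} (h : ∀ i, i ∉ I → ∀ j ∈ I, M i j = 0) :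
    ∀ w ∈ wI I, M *ᵥ w ∈ wI I := by
  intro w hw i hi
  rw [Matrix.mulVec, dotProduct]
  refine Finset.sum_eq_zero fun j _ => ?_
  by_cases hj : j ∈ I
  · rw [h i hi j hj, zero_mul]
  · rw [hw j hj, mul_zero]

theorem wI_ne {I : Finset (Fin r)} (h1 : I.Nonempty) (h2 : I ≠ Finset.univ) :
    wI I ≠ ⊥ ∧ wI I ≠ ⊤ := by
  constructor
  · obtain ⟨i, hi⟩ := h1
    intro h
    have h3 : (Pi.single i 1 : Fin r → ℂ) ∈ wI I := by
      intro j hj
      rw [Pi.single_apply, if_neg]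
      rintro rfl
      exact hj hi
    rw [h, Submodule.mem_bot] at h3
    have h4 := congrFun h3 i
    rw [Pi.single_eq_same] at h4
    exact one_ne_zero h4
  · intro h
    apply h2
    rw [Finset.eq_univ_iff_forall]
    intro i
    by_contra hi
    have h3 : (Pi.single i 1 : Fin r → ℂ) ∈ wI I := by rw [h]; exact Submodule.mem_top
    have h4 := h3 i hi
    rw [Pi.single_eq_same] at h4
    exact one_ne_zero h4

theorem stable_inv {M : Mat r ℂ} (hM : IsUnit M.det) (W : Submodule ℂ (Fin r → ℂ))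
    (h : ∀ w ∈ W, M *ᵥ w ∈ W) : ∀ w ∈ W, M⁻¹ *ᵥ w ∈ W := by
  have h' : ∀ w ∈ W, Matrix.mulVecLin M w ∈ W := h
  have hinj : Function.Injective ((Matrix.mulVecLin M).restrict h') := by
    intro a b hab
    have h1 := congrArg Subtype.val hab
    have h2 : M *ᵥ (a : Fin r → ℂ) = M *ᵥ (b : Fin r → ℂ) := h1
    have h3 := congrArg (fun v => M⁻¹ *ᵥ v) h2
    simp only [Matrix.mulVec_mulVec, Matrix.nonsing_inv_mul _ hM, Matrix.one_mulVec] at h3
    exact Subtype.ext h3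
  have hsurj := LinearMap.injective_iff_surjective.1 hinj
  intro w hw
  obtain ⟨a, ha⟩ := hsurj ⟨w, hw⟩
  have h1 : M *ᵥ (a : Fin r → ℂ) = w := congrArg Subtype.val ha
  rw [← h1, Matrix.mulVec_mulVec, Matrix.nonsing_inv_mul _ hM, Matrix.one_mulVec]
  exact a.2

/-- The case of three classes, up to scalars. -/
theorem noStab_of_irr {A B U L : Mat r ℂ} (hA : UpT A) (hB : LoT B) (hU : UpT U)
    (hU0 : ∀ i, U i i ≠ 0) (hL : LoT L) (hL0 : ∀ i, L i i ≠ 0) (s : ℂ)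
    (hrel : A * (s • (U * L)) * B = 1)
    (hirr : ∀ W : Submodule ℂ (Fin r → ℂ), (∀ w ∈ W, A *ᵥ w ∈ W) → (∀ w ∈ W, (U * L) *ᵥ w ∈ W) →
      (∀ w ∈ W, B *ᵥ w ∈ W) → W = ⊥ ∨ W = ⊤) : NoStab (U * L) := by
  intro I hI1 hI2
  by_contra hcon
  push Not at hcon
  obtain ⟨hIU, hIL⟩ := stab_UL hU hU0 hL hL0 I hcon
  have hUd : IsUnit U.det := by
    rw [hU.det, isUnit_iff_ne_zero, Finset.prod_ne_zero_iff]
    exact fun i _ => hU0 i
  have hLd : IsUnit L.det := by
    rw [hL.det, isUnit_iff_ne_zero, Finset.prod_ne_zero_iff]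
    exact fun i _ => hL0 i
  obtain ⟨P, hP⟩ : ∃ P, P = A * U := ⟨_, rfl⟩
  obtain ⟨Q, hQ⟩ : ∃ Q, Q = L * B := ⟨_, rfl⟩
  have hPt : UpT P := hP ▸ hA.mul hU
  have hQt : LoT Q := hQ ▸ hL.mul hB
  have hPQ : P * (s • Q) = 1 := by
    rw [hP, hQ, Matrix.mul_smul, Matrix.mul_assoc, ← Matrix.mul_assoc U, ← hrel,
      Matrix.mul_smul, Matrix.smul_mul, Matrix.mul_assoc A]
  have hPd : IsUnit P.det := by
    have h1 := congrArg Matrix.det hPQ
    rw [det_mul, det_one] at h1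
    exact IsUnit.of_mul_eq_one _ h1
  have hP0 : ∀ i, P i i ≠ 0 := by
    rw [hPt.det, isUnit_iff_ne_zero, Finset.prod_ne_zero_iff] at hPd
    exact fun i => hPd i (Finset.mem_univ i)
  have hs : s ≠ 0 := by
    rintro rfl
    obtain ⟨i, hi⟩ := hI1
    have h1 := congrFun (congrFun hPQ i) i
    rw [zero_smul, Matrix.mul_zero, Matrix.one_apply_eq, Matrix.zero_apply] at h1
    exact zero_ne_one h1
  have hsQ : s • Q = P⁻¹ := by
    have h1 := congrArg (fun M => P⁻¹ * M) hPQ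
    simp only [← Matrix.mul_assoc, Matrix.nonsing_inv_mul _ hPd, Matrix.one_mul,
      Matrix.mul_one] at h1
    exact h1
  have hQd : ∀ i j, i ≠ j → Q i j = 0 := by
    intro i j hij
    rcases lt_or_gt_of_ne hij with h | h
    · exact hQt i j h
    · have h1 := hPt.inv hP0 i j h
      rw [← hsQ, Matrix.smul_apply, smul_eq_mul] at h1
      exact (mul_eq_zero.1 h1).resolve_left hs
  have hPl : LoT P := by
    have h1 : LoT (s • Q) := fun i j h => by
      rw [Matrix.smul_apply, hQt i j h, smul_zero]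
    have h2 : ∀ i, (s • Q) i i ≠ 0 := fun i => by
      rw [hsQ, inv_diag hPt hP0]
      exact inv_ne_zero (hP0 i)
    have h3 : P = (s • Q)⁻¹ := by
      rw [hsQ, Matrix.nonsing_inv_nonsing_inv _ hPd]
    rw [h3]
    exact h1.inv h2
  have hIP : ∀ i, i ∉ I → ∀ j ∈ I, P i j = 0 := by
    intro i hi j hj
    have hij : i ≠ j := fun h => hi (h ▸ hj)
    rcases lt_or_gt_of_ne hij with h | h
    · exact hPl i j h
    · exact hPt i j h
  have hIQ : ∀ i, i ∉ I → ∀ j ∈ I, Q i j = 0 := by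
    intro i hi j hj
    exact hQd i j fun h => hi (h ▸ hj)
  have hWA : ∀ w ∈ wI I, A *ᵥ w ∈ wI I := by
    intro w hw
    have h1 : A = P * U⁻¹ := by
      rw [hP, Matrix.mul_assoc, Matrix.mul_nonsing_inv _ hUd, Matrix.mul_one]
    rw [h1, ← Matrix.mulVec_mulVec]
    exact wI_stable hIP _ (stable_inv hUd _ (wI_stable hIU) w hw)
  have hWB : ∀ w ∈ wI I, B *ᵥ w ∈ wI I := by
    intro w hw
    have h1 : B = L⁻¹ * Q := by
      rw [hQ, ← Matrix.mul_assoc, Matrix.nonsing_inv_mul _ hLd, Matrix.one_mul]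
    rw [h1, ← Matrix.mulVec_mulVec]
    exact stable_inv hLd _ (wI_stable hIL) _ (wI_stable hIQ w hw)
  rcases hirr (wI I) hWA (wI_stable hcon) hWB with h | h
  · exact (wI_ne hI1 hI2).1 h
  · exact (wI_ne hI1 hI2).2 h

end Vale.Agent.P002R
end

section

/-!
# P002, genus 0, two regular classes: density in the chart, all cases
-/

namespace Vale.Agent.P002R

open Matrix

theorem lL_of_scalar {r : ℕ} {X : Mat r ℂ} {s : ℂ} (h : zZ X = s • (1 : Mat r ℂ)) :
    lL X = s • (1 : Mat r ℂ) := by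
  have hU : IsUnit (uU X).det := by rw [det_uU]; exact isUnit_one
  have h1 : lL X = s • (uU X)⁻¹ := by
    have h2 : (uU X)⁻¹ * zZ X = lL X := by
      rw [zZ_eqn, ← Matrix.mul_assoc, Matrix.nonsing_inv_mul _ hU, Matrix.one_mul]
    rw [← h2, h, mul_smul_comm, Matrix.mul_one]
  have hUd : ∀ i, uU X i i ≠ 0 := fun i => by rw [uU_diag]; exact one_ne_zero
  have h3 : UpT (uU X)⁻¹ := (upT_uU X).inv hUd
  ext i j
  rcases lt_trichotomy i j with hij | rfl | hij
  · rw [loT_lL X i j hij, Matrix.smul_apply, Matrix.one_apply_ne hij.ne, smul_zero]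
  · rw [h1, Matrix.smul_apply, Matrix.smul_apply, Matrix.one_apply_eq, inv_diag (upT_uU X) hUd,
      uU_diag, inv_one]
  · rw [h1, Matrix.smul_apply, h3 i j hij, Matrix.smul_apply, Matrix.one_apply_ne hij.ne']

/-- The product of the sequence. -/
theorem prod_split {r : ℕ} (m : ℕ) (c : ℕ → Mat r ℂ) :
    (List.ofFn fun j : Fin (m + 3) => c j).prod =
      c 0 * (List.ofFn fun j : Fin m => c ((j : ℕ) + 1)).prod * c (m + 1) * c (m + 2) := by
  rw [List.ofFn_succ, List.prod_cons, List.ofFn_succ', List.prod_concat, List.ofFn_succ',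
    List.prod_concat]
  simp only [Fin.val_succ, Fin.val_castSucc, Fin.val_last, Fin.val_zero, Matrix.mul_assoc]

theorem prod_scalar {r : ℕ} (m : ℕ) (c : ℕ → Mat r ℂ)
    (h : ∀ j < m, ∃ μ : ℂ, c (j + 1) = μ • (1 : Mat r ℂ)) :
    ∃ s : ℂ, (List.ofFn fun j : Fin m => c ((j : ℕ) + 1)).prod = s • (1 : Mat r ℂ) := by
  induction m with
  | zero => exact ⟨1, by rw [List.ofFn_zero, List.prod_nil, one_smul]⟩
  | succ m ih =>
    obtain ⟨s, hs⟩ := ih fun j hj => h j (by omega)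
    obtain ⟨μ, hμ⟩ := h m (by omega)
    refine ⟨s * μ, ?_⟩
    rw [List.ofFn_succ', List.prod_concat]
    simp only [Fin.val_castSucc, Fin.val_last]
    rw [hs, hμ, smul_mul_smul_comm, Matrix.mul_one]

/-- Density of the integral points in the chart. The integral points are triangular at both ends,
with the diagonals of the given point. -/
theorem chart_density3 (hA4 : A4Core) {R : Type*} [CommRing R] (φ : R →+* ℂ)
    (hinj : Function.Injective φ)
    {r m : ℕ} (C : Fin (m + 3) → (Mat r ℂ)ˣ) (hE : ∀ j, EigU φ (C j : Mat r ℂ))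
    (hT : ∀ j : Fin (m + 3), 1 ≤ (j : ℕ) → (j : ℕ) ≤ m → TotD φ (C j : Mat r ℂ))
    (h0 : ∃ v, P002G.Cyc (C 0 : Mat r ℂ) v)
    (hl : ∃ v, P002G.Cyc (C (Fin.last (m + 2)) : Mat r ℂ) v)
    (hns : ∀ μ : ℂ, (C ⟨m + 1, by omega⟩ : Mat r ℂ) ≠ μ • (1 : Mat r ℂ))
    (hDN : DualNear φ (C ⟨m + 1, by omega⟩ : Mat r ℂ))
    (x : FU 0 (m + 3) →* (Mat r ℂ)ˣ) (hx1 : x (relatorU 0 (m + 3)) = 1)
    (hxC : ∀ j, IsConj (C j) (x (FreeGroup.of (Sum.inr j))))
    (hup : UpT (cseq x 0)) (hlo : LoT (cseq x (m + 2)))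
    (hcell : ∀ k ≤ m + 1, ∃ X : Mat r ℂ,
      (List.ofFn fun j : Fin k => cseq x ((j : ℕ) + 1)).prod = zZ X ∧ ∀ i, X i i ≠ 0)
    (hirr : ∀ W : Submodule ℂ (Fin r → ℂ),
      (∀ j, ∀ w ∈ W, (x (FreeGroup.of (Sum.inr j)) : Mat r ℂ) *ᵥ w ∈ W) → W = ⊥ ∨ W = ⊤)
    (f : MvPolynomial (GenU 0 (m + 3) × Fin r × Fin r) ℂ)
    (hf : ∀ (y : FU 0 (m + 3) →* (Mat r ℂ)ˣ) (cR : ℕ → Mat r R), y (relatorU 0 (m + 3)) = 1 →
      (∀ j, IsConj (C j) (y (FreeGroup.of (Sum.inr j)))) →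
      (∀ j : Fin (m + 3), (y (FreeGroup.of (Sum.inr j)) : Mat r ℂ) = (cR j).map φ) →
      (∀ j : Fin (m + 3), IsUnit (cR j).det) → UpT (cR 0) → LoT (cR (m + 2)) →
      (∀ i, φ (cR 0 i i) = cseq x 0 i i) → (∀ i, φ (cR (m + 2) i i) = cseq x (m + 2) i i) →
      evalG y f = 0) :
    evalG x f = 0 := by
  -- the tuple in the chart
  have hXex : ∀ k, ∃ X : Mat r ℂ, k ≤ m + 1 →
      (List.ofFn fun j : Fin k => cseq x ((j : ℕ) + 1)).prod = zZ X ∧ ∀ i, X i i ≠ 0 := by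
    intro k
    by_cases hk : k ≤ m + 1
    · obtain ⟨X, hX⟩ := hcell k hk
      exact ⟨X, fun _ => hX⟩
    · exact ⟨0, fun h => absurd h hk⟩
  choose X hX using hXex
  obtain ⟨Y, κ, t, hκ, ht, hctup, hLc, hY0⟩ := exists_ctup (m + 1) (cseq x) X
    (fun k hk => (hX k hk).1) (fun k hk => (hX k hk).2) hup hlo (cseq_prod x hx1)
  obtain ⟨t', ht'⟩ : ∃ t' : Fin r → ℂ, t' = fun i => cseq x 0 i i := ⟨_, rfl⟩
  rw [← ht'] at hctup
  have hcx : ∀ j (hj : j < m + 3), CjM (C ⟨j, hj⟩ : Mat r ℂ) (cseq x j) := by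
    intro j hj
    have h1 : cseq x j = _ := cseq_of x ⟨j, hj⟩
    rw [h1]
    exact cjM_of_isConj (hxC ⟨j, hj⟩)
  -- eigenvalues
  have hξ0 : ∀ i, ∃ u : Rˣ, φ (u : R) = cseq x 0 i i := by
    intro i
    apply hE 0
    have h1 : (C 0 : Mat r ℂ).charpoly = (cseq x 0).charpoly :=
      ((hcx 0 (by omega)).charpoly).symm
    rw [h1, charpoly_upT hup, Polynomial.IsRoot.def, Polynomial.eval_prod]
    exact Finset.prod_eq_zero (Finset.mem_univ i) (by simp)
  choose ξ hξ using hξ0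
  have hξ0' : ∀ i, ∃ u : Rˣ, φ (u : R) = cseq x (m + 2) i i := by
    intro i
    apply hE (Fin.last (m + 2))
    have h1 : (C (Fin.last (m + 2)) : Mat r ℂ).charpoly = (cseq x (m + 2)).charpoly :=
      ((hcx (m + 2) (by omega)).charpoly).symm
    rw [h1, charpoly_loT hlo, Polynomial.IsRoot.def, Polynomial.eval_prod]
    exact Finset.prod_eq_zero (Finset.mem_univ i) (by simp)
  choose ξ' hξ' using hξ0'
  have hδ0 : ∀ l, ∃ u : Rˣ, ∀ hl : l < m + 1, φ (u : R) =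
      (C ⟨l + 1, by omega⟩ : Mat r ℂ).det := by
    intro l
    by_cases hl : l < m + 1
    · obtain ⟨u, hu⟩ := (hE ⟨l + 1, by omega⟩).det
      exact ⟨u, fun _ => hu⟩
    · exact ⟨1, fun h => absurd h hl⟩
  choose δ hδ using hδ0
  -- the elements of the cell
  have hYC : ∀ k (hk : k < m + 1), CjM (C ⟨k + 1, by omega⟩ : Mat r ℂ) (zZ (Y k)) := by
    intro k hk
    obtain ⟨L, -, hL⟩ := ctup_mid_cjM (m + 1) t t' κ Y k hk (hκ k hk.le)
    refine (hcx (k + 1) (by omega)).trans ⟨L, ?_⟩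
    rw [hctup (k + 1) (by omega)]
    exact hL
  have hκ' : ∀ k ≤ m + 1, κ k = φ (kap' δ k) := by
    intro k hk
    have h1 := kap'_mul δ φ Y k fun l hlk => by
      rw [(hYC l (by omega)).det, hδ l (by omega)]
    have h2 := hκ k hk
    have h3 : (Lc Y k).det ≠ 0 := right_ne_zero_of_mul (by rw [h2]; exact one_ne_zero)
    exact mul_right_cancel₀ h3 (h2.trans h1.symm)
  have htt : t = fun i => φ ((ξ i)⁻¹ : Rˣ) := by
    funext i
    have h1 := ht i
    have h2 : φ (ξ i) * φ ((ξ i)⁻¹ : Rˣ) = 1 := by rw [← map_mul, Units.mul_inv, map_one]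
    rw [hξ] at h2
    exact mul_left_cancel₀ (left_ne_zero_of_mul (by rw [h1]; exact one_ne_zero)) (h1.trans h2.symm)
  have htt' : t' = fun i => φ (ξ i) := by
    rw [ht']
    funext i
    rw [hξ]
  have hlast : ∀ i, (∏ l ∈ Finset.range (m + 1), Y l i i) * φ (ξ i) * φ (ξ' i) = 1 := by
    intro i
    have h1 := (ctup_last_loT (m + 1) t t' κ Y (hκ (m + 1) le_rfl)).2 i
    rw [← hctup (m + 1 + 1) (by omega), Lc_diag] at h1
    have h2 := ht i
    rw [hξ, hξ', mul_comm (∏ l ∈ Finset.range (m + 1), Y l i i), mul_assoc,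
      mul_comm (∏ l ∈ Finset.range (m + 1), Y l i i), h1, h2]
  -- the two cases
  have hcase : (∃ k : Fin m, ∀ μ : ℂ, (C ⟨k + 1, by omega⟩ : Mat r ℂ) ≠ μ • (1 : Mat r ℂ)) ∨
      NoStab (zZ (Y m)) := by
    by_cases hc : ∃ k : Fin m, ∀ μ : ℂ, (C ⟨k + 1, by omega⟩ : Mat r ℂ) ≠ μ • (1 : Mat r ℂ)
    · exact Or.inl hc
    right
    push Not at hc
    have hsc : ∀ j < m, ∃ μ : ℂ, cseq x (j + 1) = μ • (1 : Mat r ℂ) := by
      intro j hj
      obtain ⟨μ, hμ⟩ := hc ⟨j, hj⟩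
      obtain ⟨g, hg⟩ := hcx (j + 1) (by omega)
      refine ⟨μ, ?_⟩
      rw [hg, hμ, mul_smul_comm, Matrix.mul_one, smul_mul_assoc, Units.mul_inv]
    obtain ⟨s, hs⟩ := prod_scalar m (cseq x) hsc
    have hXm := (hX m (Nat.le_succ m)).1
    have hL := lL_of_scalar (hXm.symm.trans hs)
    obtain ⟨L, hL1, hL2⟩ := ctup_mid_cjM (m + 1) t t' κ Y m (Nat.lt_succ_self m)
      (hκ m (Nat.le_succ m))
    rw [← hctup (m + 1) (by omega)] at hL2
    have hLs : (L : Mat r ℂ) = s • (1 : Mat r ℂ) := by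
      rw [hL1, hLc m (Nat.le_succ m), hL]
    have hZ : zZ (Y m) = cseq x (m + 1) := by
      rw [hL2, hLs, smul_mul_assoc, Matrix.one_mul, smul_mul_assoc, ← mul_smul_comm]
      have h1 : s • ((L⁻¹ : (Mat r ℂ)ˣ) : Mat r ℂ) = 1 := by
        have h2 : (L : Mat r ℂ) * ((L⁻¹ : (Mat r ℂ)ˣ) : Mat r ℂ) = 1 := Units.mul_inv L
        rw [hLs, smul_mul_assoc, Matrix.one_mul] at h2
        exact h2
      rw [h1, Matrix.mul_one]
    have hrel := cseq_prod x hx1
    rw [prod_split, hs] at hrel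
    rw [zZ_eqn]
    refine noStab_of_irr hup hlo (upT_uU _) (fun i => by rw [uU_diag]; exact one_ne_zero)
      (loT_lL _) (fun i => by rw [lL_diag]; exact hY0 m (Nat.lt_succ_self m) i) s ?_ ?_
    · rw [← zZ_eqn, hZ, ← hrel]
      simp only [smul_mul_assoc, mul_smul_comm, Matrix.mul_one]
    · intro W hW1 hW2 hW3
      rw [← zZ_eqn, hZ] at hW2
      refine hirr W fun j w hw => ?_
      rw [← cseq_of]
      rcases Nat.lt_trichotomy (j : ℕ) (m + 1) with h | h | h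
      · rcases Nat.eq_zero_or_pos (j : ℕ) with h' | h'
        · rw [h']
          exact hW1 w hw
        · obtain ⟨μ, hμ⟩ := hsc ((j : ℕ) - 1) (by omega)
          rw [Nat.sub_add_cancel h'] at hμ
          rw [hμ, smul_mulVec, one_mulVec]
          exact W.smul_mem _ hw
      · rw [h]
        exact hW2 w hw
      · have h' : (j : ℕ) = m + 2 := by
          have := j.2
          omega
        rw [h']
        exact hW3 w hw
  -- the polynomial
  obtain ⟨v, hv⟩ := (hcx 0 (by omega)).cyc h0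
  obtain ⟨v', hv'⟩ := (hcx (m + 2) (by omega)).cyc hl
  obtain ⟨F, hF⟩ := exists_chart_poly (m := m) t t' κ v v' f
  have hext : ∀ j, ctup (m + 1) t t' κ (extY fun k : Fin (m + 1) => Y k) j =
      ctup (m + 1) t t' κ Y j := fun j =>
    ctup_congr (fun l hl => extY_of _ l hl) (fun _ _ => rfl) j
  have hmain := core_density3 hA4 φ (fun k : Fin m => (C ⟨k + 1, by omega⟩ : Mat r ℂ))
    (fun k => hT _ (Nat.succ_le_succ (Nat.zero_le _)) (Nat.succ_le_of_lt k.2))
    (C ⟨m + 1, by omega⟩ : Mat r ℂ) hns hDN (fun i => (ξ i * ξ' i)⁻¹) F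
    (fun Y' hY1 hY2 hY3 hY5 => by
      obtain ⟨Z, hZ⟩ : ∃ Z : ℕ → Mat r R, Z = extY Y' := ⟨_, rfl⟩
      have hZk : ∀ k (hk : k < m + 1), Z k = Y' ⟨k, hk⟩ := fun k hk => by
        rw [hZ, extY_of _ k hk]
      have hZm : Z m = Y' (Fin.last m) := hZk m (Nat.lt_succ_self m)
      obtain ⟨hκZ, y, cR, hy1, hy2, hy2', hyu, hyl, hyu', hyl', hy3⟩ := chart_integral2 φ hinj C hE
        h0 hl δ ξ ξ' (fun l hl => hδ l hl)
        (by
          have h1 : (C 0 : Mat r ℂ).charpoly = (cseq x 0).charpoly :=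
            ((hcx 0 (by omega)).charpoly).symm
          rw [h1, charpoly_upT hup]
          exact Finset.prod_congr rfl fun i _ => by rw [hξ])
        (by
          have h1 : (C (Fin.last (m + 2)) : Mat r ℂ).charpoly = (cseq x (m + 2)).charpoly :=
            ((hcx (m + 2) (by omega)).charpoly).symm
          rw [h1, charpoly_loT hlo]
          exact Finset.prod_congr rfl fun i _ => by rw [hξ'])
        Z (fun k hk => by
          rcases Nat.lt_succ_iff_lt_or_eq.1 hk with h | rfl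
          · rw [hZk k (by omega)]
            exact hY2 ⟨k, h⟩
          · rw [hZm]
            exact hY3)
        (fun i => by
          have h1 : (∏ l ∈ Finset.range (m + 1), φ (Z l i i)) = φ ((ξ i * ξ' i)⁻¹ : Rˣ) := by
            rw [← hY5 i, map_prod, ← Fin.prod_univ_eq_prod_range (fun l => φ (Z l i i))]
            exact Finset.prod_congr rfl fun l _ => by rw [hZk l l.2]
          rw [h1, mul_assoc, ← map_mul, ← map_mul, ← Units.val_mul, ← Units.val_mul,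
            inv_mul_cancel, Units.val_one, map_one])
      have hcc : ∀ j, ctup (m + 1) (fun i => φ ((ξ i)⁻¹ : Rˣ)) (fun i => φ (ξ i))
          (fun k => φ (kap' δ k)) (fun k => (Z k).map φ) j =
          ctup (m + 1) t t' κ (extY fun k => (Y' k).map φ) j := by
        intro j
        rw [htt, htt', ← extY_map, ← hZ]
        exact ctup_congr (fun _ _ => rfl) (fun l hl => (hκ' l hl).symm) j
      have hFY := hF fun k => (Y' k).map φ
      simp only [Matrix.map_apply] at hFY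
      rw [hFY]
      by_cases hk1 : (P002.kry (ctup (m + 1) t t' κ (extY fun k => (Y' k).map φ) 0) v).det = 0
      · rw [hk1, mul_zero, zero_mul]
      by_cases hk2 : (P002.kry (ctup (m + 1) t t' κ (extY fun k => (Y' k).map φ) (m + 2)) v').det = 0
      · rw [hk2, mul_zero]
      obtain ⟨hy4, hy5⟩ := hy3
        ⟨v, by
          rw [hcc, P002G.cyc_iff, Matrix.isUnit_iff_isUnit_det, isUnit_iff_ne_zero]
          exact hk1⟩
        ⟨v', by
          rw [hcc, P002G.cyc_iff, Matrix.isUnit_iff_isUnit_det, isUnit_iff_ne_zero]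
          exact hk2⟩
      have hy6 := hf y cR hy1 hy4 hy2' hy5 hyu hyl (fun i => by rw [hyu', hξ])
        (fun i => by rw [hyl', hξ'])
      rw [evalG_eq_evalT y _ hy2] at hy6
      have hcc' : (fun j => ctup (m + 1) (fun i => φ ((ξ i)⁻¹ : Rˣ)) (fun i => φ (ξ i))
          (fun k => φ (kap' δ k)) (fun k => (Z k).map φ) j) =
          fun j => ctup (m + 1) t t' κ (extY fun k => (Y' k).map φ) j := funext hcc
      have hy7 : evalT (ctup (m + 1) t t' κ (extY fun k => (Y' k).map φ)) f = 0 := by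
        rw [← hy6]
        exact congrArg (fun c => evalT c f) hcc'.symm
      rw [hy7, zero_mul, zero_mul])
    (fun k : Fin (m + 1) => Y k) (fun k i => hY0 k k.2 i) (fun k => hYC k (by omega))
    (hYC m (Nat.lt_succ_self m)) hcase
    (fun i => by
      have h1 := hlast i
      have h2 : φ ((ξ i * ξ' i)⁻¹ : Rˣ) * (φ (ξ i) * φ (ξ' i)) = 1 := by
        rw [← map_mul, ← map_mul, ← Units.val_mul, ← Units.val_mul, inv_mul_cancel, Units.val_one,
          map_one]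
      rw [Fin.prod_univ_eq_prod_range (fun l => Y l i i)]
      rw [mul_assoc] at h1
      exact mul_right_cancel₀ (right_ne_zero_of_mul (by rw [h2]; exact one_ne_zero))
        (h1.trans h2.symm))
  have hmain' := (hF fun k : Fin (m + 1) => Y k).symm.trans hmain
  rw [hext, hext] at hmain'
  have hkv : (P002.kry (ctup (m + 1) t t' κ Y 0) v).det ≠ 0 := by
    rw [← hctup 0 (by omega), ← isUnit_iff_ne_zero, ← Matrix.isUnit_iff_isUnit_det,
      ← P002G.cyc_iff]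
    exact hv
  have hkv' : (P002.kry (ctup (m + 1) t t' κ Y (m + 2)) v').det ≠ 0 := by
    rw [← hctup (m + 1 + 1) le_rfl, ← isUnit_iff_ne_zero, ← Matrix.isUnit_iff_isUnit_det,
      ← P002G.cyc_iff]
    exact hv'
  have hev : evalT (N := m + 3) (ctup (m + 1) t t' κ (extY fun k : Fin (m + 1) => Y k)) f = 0 := by
    rcases mul_eq_zero.1 hmain' with h | h
    · exact (mul_eq_zero.1 h).resolve_right hkv
    · exact absurd h hkv'
  rw [evalG_eq_evalT x _ fun j => ?_]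
  · exact hev
  · rw [hext, ← hctup j (by omega), cseq_of]

theorem chartDensity3_of (hA4 : A4Core) : ChartDensity3 := by
  intro R _ φ hinj r m C hE hT h0 hl hns hDN x hx1 hxC hup hlo hcell hirr f hf
  exact chart_density3 hA4 φ hinj C hE hT h0 hl hns hDN x hx1 hxC hup hlo hcell hirr f hf

end Vale.Agent.P002R
end

section

/-!
# P002: perturbation of an element of the cell which preserves a pair of complementary coordinate
subspaces
-/

namespace Vale.Agent.P002R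

open Matrix

variable {r : ℕ}

/-- The matrix commutes with no projector on a coordinate subspace. -/
def Conn (Z : Mat r ℂ) : Prop :=
  ∀ I : Finset (Fin r), I.Nonempty → I ≠ Finset.univ → ∃ i ∈ I, ∃ j, j ∉ I ∧ (Z i j ≠ 0 ∨ Z j i ≠ 0)

/-- Block diagonal matrices. -/
def BlkD (I : Finset (Fin r)) (Z : Mat r ℂ) : Prop :=
  (∀ i, i ∉ I → ∀ j ∈ I, Z i j = 0) ∧ ∀ i ∈ I, ∀ j, j ∉ I → Z i j = 0

/-- The off-diagonal block. -/
def OffD (I : Finset (Fin r)) (Z : Mat r ℂ) : Prop := ∀ i j, ¬ (i ∈ I ∧ j ∉ I) → Z i j = 0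

theorem BlkD.mulOff {I : Finset (Fin r)} {A B : Mat r ℂ} (hA : BlkD I A) (hB : OffD I B) :
    OffD I (A * B) := by
  intro i j h
  rw [Matrix.mul_apply]
  refine Finset.sum_eq_zero fun k _ => ?_
  by_cases hk : k ∈ I ∧ j ∉ I
  · have hi : i ∉ I := fun hi => h ⟨hi, hk.2⟩
    rw [hA.1 i hi k hk.1, zero_mul]
  · rw [hB k j hk, mul_zero]

theorem OffD.mulBlk {I : Finset (Fin r)} {A B : Mat r ℂ} (hB : OffD I B) (hA : BlkD I A) :
    OffD I (B * A) := by
  intro i j h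
  rw [Matrix.mul_apply]
  refine Finset.sum_eq_zero fun k _ => ?_
  by_cases hk : i ∈ I ∧ k ∉ I
  · have hj : j ∈ I := by
      by_contra hj
      exact h ⟨hk.1, hj⟩
    rw [hA.1 k hk.2 j hj, mul_zero]
  · rw [hB i k hk, zero_mul]

theorem OffD.mulOff {I : Finset (Fin r)} {A B : Mat r ℂ} (hA : OffD I A) (hB : OffD I B) :
    A * B = 0 := by
  ext i j
  rw [Matrix.mul_apply, Matrix.zero_apply]
  refine Finset.sum_eq_zero fun k _ => ?_
  by_cases hk : k ∈ I
  · rw [hA i k fun h => h.2 hk, zero_mul]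
  · rw [hB k j fun h => hk h.1, mul_zero]

theorem OffD.sub {I : Finset (Fin r)} {A B : Mat r ℂ} (hA : OffD I A) (hB : OffD I B) :
    OffD I (A - B) := fun i j h => by
  rw [Matrix.sub_apply, hA i j h, hB i j h, sub_zero]

theorem offD_single {I : Finset (Fin r)} {i j : Fin r} (hi : i ∈ I) (hj : j ∉ I) :
    OffD I (Matrix.single i j (1 : ℂ)) := by
  intro a b h
  rw [Matrix.single_apply, if_neg]
  rintro ⟨rfl, rfl⟩
  exact h ⟨hi, hj⟩

theorem BlkD.inv {I : Finset (Fin r)} {A : Mat r ℂ} (hA : BlkD I A) (hd : IsUnit A.det) :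
    BlkD I A⁻¹ := by
  have h1 : ∀ (I : Finset (Fin r)), (∀ i, i ∉ I → ∀ j ∈ I, A i j = 0) →
      ∀ i, i ∉ I → ∀ j ∈ I, A⁻¹ i j = 0 := by
    intro I hI i hi j hj
    have h2 : (Pi.single j 1 : Fin r → ℂ) ∈ wI I := by
      intro k hk
      rw [Pi.single_apply, if_neg]
      rintro rfl
      exact hk hj
    have h3 := stable_inv hd _ (wI_stable hI) _ h2 i hi
    rwa [Matrix.mulVec_single_one] at h3
  refine ⟨h1 I hA.1, fun i hi j hj => ?_⟩
  refine h1 Iᶜ (fun i hi j hj => ?_) i ?_ j ?_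
  · rw [Finset.mem_compl] at hj
    rw [Finset.mem_compl, not_not] at hi
    exact hA.2 i hi j hj
  · rw [Finset.mem_compl, not_not]
    exact hi
  · rw [Finset.mem_compl]
    exact hj

theorem exists_perturb {X : Mat r ℂ} (hX : ∀ i, X i i ≠ 0) (I : Finset (Fin r))
    (hc : BlkD I (zZ X)) (x : Mat r ℂ) (hx : OffD I x) :
    ∃ E : Mat r ℂ, (∀ i, E i i = 0) ∧
      ∀ s : ℂ, zZ (X + s • E) = zZ X + s • (x * zZ X - zZ X * x) := by
  obtain ⟨U, hU⟩ : ∃ U, U = uU X := ⟨_, rfl⟩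
  obtain ⟨L, hL⟩ : ∃ L, L = lL X := ⟨_, rfl⟩
  have hZ : zZ X = U * L := by rw [hU, hL]; rfl
  have hUt : UpT U := hU ▸ upT_uU X
  have hLt : LoT L := hL ▸ loT_lL X
  have hU1 : ∀ i, U i i = 1 := fun i => by rw [hU, uU_diag]
  have hL1 : ∀ i, L i i = X i i := fun i => by rw [hL, lL_diag]
  have hU0 : ∀ i, U i i ≠ 0 := fun i => by rw [hU1]; exact one_ne_zero
  have hL0 : ∀ i, L i i ≠ 0 := fun i => by rw [hL1]; exact hX i
  have hUd : IsUnit U.det := by
    rw [hUt.det, isUnit_iff_ne_zero, Finset.prod_ne_zero_iff]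
    exact fun i _ => hU0 i
  have hLd : IsUnit L.det := by
    rw [hLt.det, isUnit_iff_ne_zero, Finset.prod_ne_zero_iff]
    exact fun i _ => hL0 i
  have hblk : BlkD I U ∧ BlkD I L := by
    obtain ⟨h1, h2⟩ := stab_UL hUt hU0 hLt hL0 I (hZ ▸ hc.1)
    obtain ⟨h3, h4⟩ := stab_UL hUt hU0 hLt hL0 Iᶜ (fun i hi j hj => by
      rw [Finset.mem_compl] at hj
      rw [Finset.mem_compl, not_not] at hi
      rw [← hZ]
      exact hc.2 i hi j hj)
    refine ⟨⟨h1, fun i hi j hj => h3 i ?_ j ?_⟩, ⟨h2, fun i hi j hj => h4 i ?_ j ?_⟩⟩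
    · rw [Finset.mem_compl, not_not]; exact hi
    · rw [Finset.mem_compl]; exact hj
    · rw [Finset.mem_compl, not_not]; exact hi
    · rw [Finset.mem_compl]; exact hj
  obtain ⟨hUb, hLb⟩ := hblk
  obtain ⟨n, hn⟩ : ∃ n, n = U⁻¹ * x * U - L * x * L⁻¹ := ⟨_, rfl⟩
  have hnO : OffD I n := by
    rw [hn]
    exact (((hUb.inv hUd).mulOff hx).mulBlk hUb).sub ((hLb.mulOff hx).mulBlk (hLb.inv hLd))
  obtain ⟨nU, hnU⟩ : ∃ nU, nU = upS n := ⟨_, rfl⟩
  obtain ⟨nL, hnL⟩ : ∃ nL, nL = lL n := ⟨_, rfl⟩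
  have hsum : nU + nL = n := by rw [hnU, hnL, upS_add_lL]
  have hnUO : OffD I nU := fun i j h => by
    rw [hnU, upS_apply, hnO i j h, ite_self]
  have hnLO : OffD I nL := fun i j h => by
    rw [hnL, lL_apply, hnO i j h, ite_self]
  have hnUL : nU * nL = 0 := hnUO.mulOff hnLO
  have hnL0 : ∀ i, nL i i = 0 := fun i => hnLO i i fun h => h.2 h.1
  have hnUt : UpT nU := fun i j h => by rw [hnU, upS_apply, if_neg h.not_gt]
  have hnU0 : ∀ i, nU i i = 0 := fun i => hnUO i i fun h => h.2 h.1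
  have hnLt : LoT nL := hnL ▸ loT_lL n
  obtain ⟨E, hE⟩ : ∃ E, E = U * nU + nL * L := ⟨_, rfl⟩
  have hUU : UpT (U * nU) := hUt.mul hnUt
  have hLL : LoT (nL * L) := hnLt.mul hLt
  have hUU0 : ∀ i, (U * nU) i i = 0 := fun i => by rw [hUt.mul_diag hnUt, hnU0, mul_zero]
  have hLL0 : ∀ i, (nL * L) i i = 0 := fun i => by rw [hnLt.mul_diag hLt, hnL0, zero_mul]
  refine ⟨E, fun i => by rw [hE, Matrix.add_apply, hUU0, hLL0, add_zero], fun s => ?_⟩
  have huU : uU (X + s • E) = U * (1 + s • nU) := by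
    rw [Matrix.mul_add, Matrix.mul_one, Matrix.mul_smul]
    ext i j
    rw [uU_apply, Matrix.add_apply, Matrix.smul_apply, Matrix.add_apply, Matrix.smul_apply, hE,
      Matrix.add_apply]
    by_cases h1 : i = j
    · rw [if_pos h1, ← h1, hUU0, smul_zero, add_zero, hU1]
    · rw [if_neg h1]
      by_cases h2 : i < j
      · rw [if_pos h2, hLL i j h2, add_zero, hU, uU_apply, if_neg h1, if_pos h2]
      · rw [if_neg h2, hUU i j (lt_of_le_of_ne (not_lt.1 h2) (Ne.symm h1)), smul_zero, add_zero,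
          hU, uU_apply, if_neg h1, if_neg h2]
  have hlL : lL (X + s • E) = (1 + s • nL) * L := by
    rw [Matrix.add_mul, Matrix.one_mul, Matrix.smul_mul]
    ext i j
    rw [lL_apply, Matrix.add_apply, Matrix.smul_apply, Matrix.add_apply, Matrix.smul_apply, hE,
      Matrix.add_apply]
    by_cases h1 : i = j
    · rw [if_pos (le_of_eq h1.symm), ← h1, hUU0, zero_add, hL1]
    · by_cases h2 : i < j
      · rw [if_neg h2.not_ge, hLL i j h2, smul_zero, add_zero, hL, lL_apply, if_neg h2.not_ge]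
      · have h3 : j < i := lt_of_le_of_ne (not_lt.1 h2) (Ne.symm h1)
        rw [if_pos h3.le, hUU i j h3, zero_add, hL, lL_apply, if_pos h3.le]
  have h1 : zZ (X + s • E) = U * (1 + s • n) * L := by
    rw [zZ, huU, hlL]
    have h2 : (1 + s • nU) * (1 + s • nL) = 1 + s • n := by
      rw [Matrix.add_mul, Matrix.one_mul, Matrix.mul_add, Matrix.mul_one, Matrix.smul_mul,
        Matrix.mul_smul, hnUL, smul_zero, smul_zero, add_zero, ← hsum, smul_add]
      abel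
    rw [← h2]
    simp only [Matrix.mul_assoc]
  rw [h1, hZ, Matrix.mul_add, Matrix.add_mul, Matrix.mul_one, Matrix.mul_smul, Matrix.smul_mul]
  congr 2
  rw [hn, Matrix.mul_sub, Matrix.sub_mul]
  congr 1
  · rw [← Matrix.mul_assoc, ← Matrix.mul_assoc, Matrix.mul_nonsing_inv _ hUd, Matrix.one_mul,
      Matrix.mul_assoc]
  · simp only [Matrix.mul_assoc]
    rw [Matrix.nonsing_inv_mul _ hLd, Matrix.mul_one]

end Vale.Agent.P002R
end

section

/-!
# P002: elements of the cell which commute with no coordinate projector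
-/

namespace Vale.Agent.P002R

open Matrix

variable {r : ℕ}

theorem CjM.ns {A B : Mat r ℂ} (h : CjM A B) (hA : ∀ μ : ℂ, A ≠ μ • (1 : Mat r ℂ)) :
    ∀ μ : ℂ, B ≠ μ • (1 : Mat r ℂ) := by
  obtain ⟨g, hg⟩ := h.symm
  intro μ hμ
  apply hA μ
  rw [hg, hμ, Matrix.mul_smul, Matrix.smul_mul, Matrix.mul_one, Units.mul_inv]

theorem exists_single_comm {Z : Mat r ℂ} (hZ : ∀ μ : ℂ, Z ≠ μ • (1 : Mat r ℂ))
    (I : Finset (Fin r)) (hI1 : I.Nonempty) (hI2 : I ≠ Finset.univ) (hc : BlkD I Z) :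
    ∃ x, OffD I x ∧ x * Z - Z * x ≠ 0 := by
  by_contra hcon
  push Not at hcon
  have h1 : ∀ i ∈ I, ∀ j, j ∉ I → Matrix.single i j (1 : ℂ) * Z = Z * Matrix.single i j 1 :=
    fun i hi j hj => sub_eq_zero.1 (hcon _ (offD_single hi hj))
  have h2 : ∀ i ∈ I, ∀ j, j ∉ I → (∀ a, a ≠ i → Z a i = 0) ∧ (∀ b, b ≠ j → Z j b = 0) ∧
      Z i i = Z j j := by
    intro i hi j hj
    have h3 := h1 i hi j hj
    refine ⟨fun a ha => ?_, fun b hb => ?_, ?_⟩
    · have h4 := congrFun (congrFun h3 a) j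
      rw [Matrix.single_mul_apply_of_ne _ _ _ _ _ ha, Matrix.mul_single_apply_same, mul_one] at h4
      exact h4.symm
    · have h4 := congrFun (congrFun h3 i) b
      rw [Matrix.single_mul_apply_same, one_mul, Matrix.mul_single_apply_of_ne _ _ _ _ _ hb] at h4
      exact h4
    · have h4 := congrFun (congrFun h3 i) j
      rw [Matrix.single_mul_apply_same, one_mul, Matrix.mul_single_apply_same, mul_one] at h4
      exact h4.symm
  obtain ⟨i₀, hi₀⟩ := hI1
  obtain ⟨j₀, hj₀⟩ : ∃ j, j ∉ I := by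
    by_contra h
    push Not at h
    exact hI2 (Finset.eq_univ_iff_forall.2 h)
  apply hZ (Z i₀ i₀)
  have hdd : ∀ i, Z i i = Z i₀ i₀ := by
    intro i
    by_cases hi : i ∈ I
    · rw [(h2 i hi j₀ hj₀).2.2, (h2 i₀ hi₀ j₀ hj₀).2.2]
    · exact (h2 i₀ hi₀ i hi).2.2.symm
  ext a b
  rw [Matrix.smul_apply, Matrix.one_apply]
  split_ifs with hab
  · rw [← hab, hdd, smul_eq_mul, mul_one]
  · rw [smul_zero]
    by_cases ha : a ∈ I
    · by_cases hb : b ∈ I
      · exact (h2 b hb j₀ hj₀).1 a hab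
      · exact hc.2 a ha b hb
    · by_cases hb : b ∈ I
      · exact hc.1 a ha b hb
      · exact (h2 i₀ hi₀ a ha).2.1 b (Ne.symm hab)

theorem exists_conn : ∀ (k : ℕ) (X : Mat r ℂ), (∀ i, X i i ≠ 0) →
    (∀ μ : ℂ, zZ X ≠ μ • (1 : Mat r ℂ)) →
    (Finset.univ.filter fun p : Fin r × Fin r => zZ X p.1 p.2 = 0).card ≤ k →
    ∀ N ∈ nhds X, ∃ X' ∈ N, (∀ i, X' i i = X i i) ∧ CjM (zZ X) (zZ X') ∧ Conn (zZ X') := by
  intro k
  induction k with
  | zero =>
    intro X hX hns hk N hN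
    refine ⟨X, mem_of_mem_nhds hN, fun _ => rfl, ⟨1, by simp⟩, ?_⟩
    intro I hI1 hI2
    obtain ⟨i, hi⟩ := hI1
    obtain ⟨j, hj⟩ : ∃ j, j ∉ I := by
      by_contra h
      push Not at h
      exact hI2 (Finset.eq_univ_iff_forall.2 h)
    refine ⟨i, hi, j, hj, Or.inl fun h => ?_⟩
    have h1 : ((i, j) : Fin r × Fin r) ∈
        Finset.univ.filter fun p : Fin r × Fin r => zZ X p.1 p.2 = 0 :=
      Finset.mem_filter.2 ⟨Finset.mem_univ _, h⟩
    rw [Nat.le_zero, Finset.card_eq_zero] at hk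
    rw [hk] at h1
    exact absurd h1 (Finset.notMem_empty _)
  | succ k ih =>
    intro X hX hns hk N hN
    by_cases hcn : Conn (zZ X)
    · exact ⟨X, mem_of_mem_nhds hN, fun _ => rfl, ⟨1, by simp⟩, hcn⟩
    rw [Conn] at hcn
    push Not at hcn
    obtain ⟨I, hI1, hI2, hI⟩ := hcn
    have hblk : BlkD I (zZ X) :=
      ⟨fun i hi j hj => (hI j hj i hi).2, fun i hi j hj => (hI i hi j hj).1⟩
    obtain ⟨x, hx, hx0⟩ := exists_single_comm hns I hI1 hI2 hblk
    obtain ⟨E, hE0, hE⟩ := exists_perturb hX I hblk x hx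
    have hcont : Continuous fun s : ℂ => X + s • E :=
      continuous_const.add (continuous_id.smul continuous_const)
    have hmem : {s : ℂ | X + s • E ∈ interior N} ∈ nhds (0 : ℂ) := by
      apply hcont.continuousAt.preimage_mem_nhds
      rw [zero_smul, add_zero]
      exact interior_mem_nhds.2 hN
    have hmem' : {s : ℂ | X + s • E ∈ interior N} ∩ {(0 : ℂ)}ᶜ ∈ nhdsWithin (0 : ℂ) {(0 : ℂ)}ᶜ :=
      Filter.inter_mem (mem_nhdsWithin_of_mem_nhds hmem) self_mem_nhdsWithin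
    obtain ⟨s, hs1, hs2⟩ := Filter.nonempty_of_mem hmem'
    have hs0 : s ≠ 0 := hs2
    have hdiag : ∀ i, (X + s • E) i i = X i i := fun i => by
      rw [Matrix.add_apply, Matrix.smul_apply, hE0, smul_zero, add_zero]
    obtain ⟨Z, hZ⟩ : ∃ Z, Z = zZ X := ⟨_, rfl⟩
    have hE' : zZ (X + s • E) = Z + s • (x * Z - Z * x) := by rw [hE, hZ]
    rw [← hZ] at hx0 hblk
    have hxO : OffD I (x * Z - Z * x) := (hx.mulBlk hblk).sub (hblk.mulOff hx)
    have hxx : x * x = 0 := hx.mulOff hx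
    have hxZx : x * Z * x = 0 := (hx.mulBlk hblk).mulOff hx
    have hcj : CjM (zZ X) (zZ (X + s • E)) := by
      have h1 : (1 + s • x) * (1 - s • x) = 1 := by
        rw [Matrix.mul_sub, Matrix.mul_one, Matrix.add_mul, Matrix.one_mul, Matrix.mul_smul,
          Matrix.smul_mul, hxx, smul_zero, smul_zero, add_zero, add_sub_cancel_right]
      have h2 : (1 - s • x) * (1 + s • x) = 1 := by
        rw [Matrix.mul_add, Matrix.mul_one, Matrix.sub_mul, Matrix.one_mul, Matrix.mul_smul,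
          Matrix.smul_mul, hxx, smul_zero, smul_zero, sub_zero, sub_add_cancel]
      refine ⟨⟨1 + s • x, 1 - s • x, h1, h2⟩, ?_⟩
      rw [hE', ← hZ]
      change _ = (1 + s • x) * Z * (1 - s • x)
      rw [Matrix.mul_sub, Matrix.mul_one, Matrix.add_mul, Matrix.one_mul, Matrix.add_mul,
        Matrix.mul_smul, Matrix.smul_mul, Matrix.smul_mul, Matrix.mul_smul, hxZx, smul_zero,
        smul_zero, add_zero, smul_sub]
      abel
    obtain ⟨X', hX'1, hX'2, hX'3, hX'4⟩ := ih (X + s • E) (fun i => by rw [hdiag]; exact hX i)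
      (hcj.ns hns) (by
        have hlt : (Finset.univ.filter fun p : Fin r × Fin r => zZ (X + s • E) p.1 p.2 = 0) ⊂
            Finset.univ.filter fun p : Fin r × Fin r => zZ X p.1 p.2 = 0 := by
          rw [Finset.ssubset_iff_of_subset]
          · obtain ⟨a, b, hab⟩ : ∃ a b, (x * Z - Z * x) a b ≠ 0 := by
              by_contra h
              push Not at h
              exact hx0 (Matrix.ext h)
            have hIab : a ∈ I ∧ b ∉ I := by
              by_contra h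
              exact hab (hxO a b h)
            refine ⟨(a, b), Finset.mem_filter.2 ⟨Finset.mem_univ _, ?_⟩, fun h => ?_⟩
            · rw [← hZ]
              exact hblk.2 a hIab.1 b hIab.2
            · have h1 := (Finset.mem_filter.1 h).2
              simp only at h1
              rw [hE', Matrix.add_apply, hblk.2 a hIab.1 b hIab.2, zero_add, Matrix.smul_apply,
                smul_eq_mul] at h1
              rcases mul_eq_zero.1 h1 with h2 | h2
              · exact hs0 h2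
              · exact hab h2
          · intro p hp
            rw [Finset.mem_filter] at hp ⊢
            refine ⟨Finset.mem_univ _, ?_⟩
            rw [← hZ]
            by_cases h : p.1 ∈ I ∧ p.2 ∉ I
            · exact hblk.2 _ h.1 _ h.2
            · have h1 := hp.2
              rwa [hE', Matrix.add_apply, Matrix.smul_apply, hxO _ _ h, smul_zero, add_zero] at h1
        exact Nat.le_of_lt_succ (lt_of_lt_of_le (Finset.card_lt_card hlt) hk))
      (interior N) (isOpen_interior.mem_nhds hs1)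
    exact ⟨X', interior_subset hX'1, fun i => by rw [hX'2, hdiag], hcj.trans hX'3, hX'4⟩

end Vale.Agent.P002R
end

section

/-!
# P002, genus 0: moving the diagonal of the cell coordinates inside a conjugacy class
-/

namespace Vale.Agent.P002R

open Matrix Module Vale.Agent.P002

variable {r : ℕ}

/-- strictly upper + strictly lower = 0 -/
theorem upS_lL_zero {A B : P002R.Mat r ℂ} (hA : ∀ i j, j ≤ i → A i j = 0)
    (hB : ∀ i j, i < j → B i j = 0) (h : A + B = 0) : A = 0 ∧ B = 0 := by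
  have h1 : ∀ i j, A i j + B i j = 0 := fun i j => congrFun (congrFun h i) j
  constructor
  · ext i j
    rcases lt_or_ge i j with hij | hij
    · have := h1 i j
      rwa [hB i j hij, add_zero] at this
    · exact hA i j hij
  · ext i j
    rcases lt_or_ge i j with hij | hij
    · exact hB i j hij
    · have := h1 i j
      rwa [hA i j hij, zero_add] at this

theorem uU_eq_add (X : P002R.Mat r ℂ) : uU X = 1 + upS X := by
  ext i j
  rw [uU_apply, Matrix.add_apply, upS_apply, Matrix.one_apply]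
  by_cases h : i = j
  · rw [if_pos h, if_pos h, h, if_neg (lt_irrefl j), add_zero]
  · rw [if_neg h, if_neg h, zero_add]

theorem isUnit_uU' (X : P002R.Mat r ℂ) : IsUnit (uU X) := by
  rw [Matrix.isUnit_iff_isUnit_det, (upT_uU X).det]
  simp [uU_diag]

theorem isUnit_lL' {X : P002R.Mat r ℂ} (hX : ∀ i, X i i ≠ 0) : IsUnit (lL X) := by
  rw [Matrix.isUnit_iff_isUnit_det, (loT_lL X).det, isUnit_iff_ne_zero, Finset.prod_ne_zero_iff]
  intro i _
  rw [lL_diag]
  exact hX i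

theorem det_zZ' (X : P002R.Mat r ℂ) : (zZ X).det = ∏ i, X i i := by
  rw [zZ_eqn, Matrix.det_mul, (upT_uU X).det, (loT_lL X).det]
  simp [uU_diag, lL_diag]

section normed

open scoped Matrix.Norms.Operator

/-- the strict derivative of the cell coordinates -/
theorem deriv_zZ (X : P002R.Mat r ℂ) : ∃ D : P002R.Mat r ℂ →L[ℂ] P002R.Mat r ℂ,
    HasStrictFDerivAt (fun X : P002R.Mat r ℂ => zZ X) D X ∧
      ∀ H, D H = upS H * lL X + uU X * lL H := by
  obtain ⟨S, hS⟩ : ∃ S : P002R.Mat r ℂ →L[ℂ] P002R.Mat r ℂ, ∀ H, S H = upS H := by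
    refine ⟨LinearMap.toContinuousLinearMap
      { toFun := upS
        map_add' := fun A B => ?_
        map_smul' := fun a A => ?_ }, fun H => rfl⟩
    · ext i j
      simp only [upS_apply, Matrix.add_apply]
      split_ifs <;> simp
    · ext i j
      simp only [upS_apply, Matrix.smul_apply, RingHom.id_apply]
      split_ifs <;> simp
  obtain ⟨T, hT⟩ : ∃ T : P002R.Mat r ℂ →L[ℂ] P002R.Mat r ℂ, ∀ H, T H = lL H := by
    refine ⟨LinearMap.toContinuousLinearMap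
      { toFun := lL
        map_add' := fun A B => ?_
        map_smul' := fun a A => ?_ }, fun H => rfl⟩
    · ext i j
      simp only [lL_apply, Matrix.add_apply]
      split_ifs <;> simp
    · ext i j
      simp only [lL_apply, Matrix.smul_apply, RingHom.id_apply]
      split_ifs <;> simp
  have h1 : HasStrictFDerivAt (fun X : P002R.Mat r ℂ => uU X) S X := by
    have h2 : (fun X : P002R.Mat r ℂ => uU X) = fun X => 1 + S X := by
      funext X; rw [hS, uU_eq_add]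
    rw [h2]
    exact S.hasStrictFDerivAt.const_add 1
  have h2 : HasStrictFDerivAt (fun X : P002R.Mat r ℂ => lL X) T X := by
    have h3 : (fun X : P002R.Mat r ℂ => lL X) = fun X => T X := by
      funext X; rw [hT]
    rw [h3]
    exact T.hasStrictFDerivAt
  obtain ⟨D, hD, e⟩ := exists_deriv_mul h1 h2
  refine ⟨D, ?_, fun H => (e H).trans (congrArg₂ (· + ·) (congrArg (· * lL X) (hS H))
    (congrArg (uU X * ·) (hT H)))⟩
  have h3 : (fun X : P002R.Mat r ℂ => zZ X) = fun X => uU X * lL X := by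
    funext X; rw [zZ_eqn]
  rw [h3]
  exact hD

/-- the coordinates are open -/
theorem zZ_open_norm {X : P002R.Mat r ℂ} (hX : ∀ i, X i i ≠ 0) {N : Set (P002R.Mat r ℂ)}
    (hN : N ∈ nhds X) : zZ '' N ∈ nhds (zZ X) := by
  obtain ⟨D, hD, e⟩ := deriv_zZ X
  have hsurj : D.range = ⊤ := by
    have hinj : Function.Injective (D.toLinearMap) := by
      rw [injective_iff_map_eq_zero]
      intro H hH
      have h1 : upS H * lL X + uU X * lL H = 0 := by rw [← e]; exact hH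
      have hU := isUnit_uU' X
      have hL := isUnit_lL' hX
      have hUd := (Matrix.isUnit_iff_isUnit_det _).1 hU
      have hLd := (Matrix.isUnit_iff_isUnit_det _).1 hL
      have h2 : (uU X)⁻¹ * upS H + lL H * (lL X)⁻¹ = 0 := by
        calc (uU X)⁻¹ * upS H + lL H * (lL X)⁻¹
            = (uU X)⁻¹ * (upS H * lL X + uU X * lL H) * (lL X)⁻¹ := by
              rw [Matrix.mul_add, Matrix.add_mul, ← Matrix.mul_assoc, ← Matrix.mul_assoc,
                Matrix.nonsing_inv_mul _ hUd, Matrix.one_mul,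
                Matrix.mul_assoc ((uU X)⁻¹ * upS H), Matrix.mul_nonsing_inv _ hLd,
                Matrix.mul_one]
          _ = 0 := by rw [h1, Matrix.mul_zero, Matrix.zero_mul]
      have hUi : UpT (uU X)⁻¹ := (upT_uU X).inv fun i => by rw [uU_diag]; exact one_ne_zero
      have hLi : LoT (lL X)⁻¹ := (loT_lL X).inv fun i => by rw [lL_diag]; exact hX i
      obtain ⟨h3, h4⟩ := upS_lL_zero (fun i j hij => by
          rw [Matrix.mul_apply]
          refine Finset.sum_eq_zero fun k _ => ?_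
          rw [upS_apply]
          rcases lt_or_ge k i with h | h
          · rw [hUi i k h, zero_mul]
          · rw [if_neg (not_lt.2 (hij.trans h)), mul_zero])
        ((loT_lL H).mul hLi) h2
      have h5 : upS H = 0 := by
        have := congrArg (fun M => uU X * M) h3
        simpa [← Matrix.mul_assoc, Matrix.mul_nonsing_inv _ hUd] using this
      have h6 : lL H = 0 := by
        have := congrArg (fun M => M * lL X) h4
        simpa [Matrix.mul_assoc, Matrix.nonsing_inv_mul _ hLd] using this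
      rw [← upS_add_lL H, h5, h6, add_zero]
    exact LinearMap.range_eq_top.2 (LinearMap.injective_iff_surjective.1 hinj)
  exact (hD.map_nhds_eq_of_surj hsurj).ge (Filter.image_mem_map hN)


/-- Connectedness of the support. -/
def ConnD (X : P002R.Mat r ℂ) : Prop :=
  ∀ D : Fin r → ℂ, (∀ i j, X i j ≠ 0 → D i = D j) → ∀ i j, D i = D j

theorem single_trace (A : P002R.Mat r ℂ) (i j : Fin r) :
    trace (A * Matrix.single i j 1) = A j i := by
  simp [Matrix.trace_mul_single]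

/-- The dual statement for the diagonal map. -/
theorem diag_dual (hr : 0 < r) {X : P002R.Mat r ℂ} (hX : ∀ i, X i i ≠ 0) (hc : ConnD X)
    (A : P002R.Mat r ℂ) (κ : Fin r → ℂ) (h1 : ∀ x, trace (A * (x * zZ X - zZ X * x)) = 0)
    (h2 : trace (A * zZ X) = 0)
    (h3 : ∀ H : P002R.Mat r ℂ, ∑ i, κ i * H i i = trace (A * (upS H * lL X + uU X * lL H))) :
    A = 0 ∧ κ = 0 := by
  obtain ⟨U, hU⟩ : ∃ U, U = uU X := ⟨_, rfl⟩
  obtain ⟨L, hL⟩ : ∃ L, L = lL X := ⟨_, rfl⟩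
  have hUu : IsUnit U := hU ▸ isUnit_uU' X
  have hLu : IsUnit L := hL ▸ isUnit_lL' hX
  have hUd := (Matrix.isUnit_iff_isUnit_det _).1 hUu
  have hLd := (Matrix.isUnit_iff_isUnit_det _).1 hLu
  have hUt : UpT U := hU ▸ upT_uU X
  have hLt : LoT L := hL ▸ loT_lL X
  have hU1 : ∀ i, U i i = 1 := fun i => by rw [hU, uU_diag]
  have hZ : zZ X = U * L := by rw [zZ_eqn, hU, hL]
  rw [← hU, ← hL] at h3
  rw [hZ] at h1 h2
  have hcomm : U * L * A = A * (U * L) := by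
    have : ∀ x, trace ((U * L * A - A * (U * L)) * x) = trace ((0 : P002R.Mat r ℂ) * x) := by
      intro x
      have h4 := tr_comm A 1 1 (U * L) x
      rw [Matrix.one_mul, Matrix.mul_one, Matrix.one_mul, Matrix.mul_one] at h4
      rw [← h4, h1, Matrix.zero_mul, trace_zero]
    exact sub_eq_zero.1 (eq_of_trace_eq this)
  have hLA : UpT (L * A) := by
    intro j i hij
    have h4 := h3 (Matrix.single i j 1)
    have h5 : upS (Matrix.single i j (1 : ℂ)) = Matrix.single i j 1 := by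
      ext a b
      rw [upS_apply, Matrix.single_apply]
      by_cases h6 : a < b
      · rw [if_pos h6]
      · rw [if_neg h6, if_neg]
        rintro ⟨rfl, rfl⟩
        exact h6 hij
    have h6 : lL (Matrix.single i j (1 : ℂ)) = 0 := by
      ext a b
      rw [lL_apply, Matrix.single_apply, Matrix.zero_apply]
      by_cases h6 : b ≤ a
      · rw [if_pos h6, if_neg]
        rintro ⟨rfl, rfl⟩
        exact h6.not_gt hij
      · rw [if_neg h6]
    rw [h5, h6, Matrix.mul_zero, add_zero, ← Matrix.mul_assoc, Matrix.trace_mul_comm,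
      ← Matrix.mul_assoc, single_trace] at h4
    rw [← h4]
    refine (Finset.sum_eq_zero fun k _ => ?_)
    rw [Matrix.single_apply, if_neg, mul_zero]
    rintro ⟨rfl, rfl⟩
    exact lt_irrefl _ hij
  have hAU : LoT (A * U) := by
    intro j i hij
    have h4 := h3 (Matrix.single i j 1)
    have h5 : upS (Matrix.single i j (1 : ℂ)) = 0 := by
      ext a b
      rw [upS_apply, Matrix.single_apply, Matrix.zero_apply]
      by_cases h6 : a < b
      · rw [if_pos h6, if_neg]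
        rintro ⟨rfl, rfl⟩
        exact h6.not_gt hij
      · rw [if_neg h6]
    have h6 : lL (Matrix.single i j (1 : ℂ)) = Matrix.single i j 1 := by
      ext a b
      rw [lL_apply, Matrix.single_apply]
      by_cases h6 : b ≤ a
      · rw [if_pos h6]
      · rw [if_neg h6, if_neg]
        rintro ⟨rfl, rfl⟩
        exact h6 hij.le
    rw [h5, h6, Matrix.zero_mul, zero_add, ← Matrix.mul_assoc, single_trace] at h4
    rw [← h4]
    refine (Finset.sum_eq_zero fun k _ => ?_)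
    rw [Matrix.single_apply, if_neg, mul_zero]
    rintro ⟨rfl, rfl⟩
    exact lt_irrefl _ hij
  have hκ : ∀ i, κ i = (A * U) i i := by
    intro i
    have h4 := h3 (Matrix.single i i 1)
    have h5 : upS (Matrix.single i i (1 : ℂ)) = 0 := by
      ext a b
      rw [upS_apply, Matrix.single_apply, Matrix.zero_apply]
      by_cases h6 : a < b
      · rw [if_pos h6, if_neg]
        rintro ⟨rfl, rfl⟩
        exact lt_irrefl _ h6
      · rw [if_neg h6]
    have h6 : lL (Matrix.single i i (1 : ℂ)) = Matrix.single i i 1 := by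
      ext a b
      rw [lL_apply, Matrix.single_apply]
      by_cases h6 : b ≤ a
      · rw [if_pos h6]
      · rw [if_neg h6, if_neg]
        rintro ⟨rfl, rfl⟩
        exact h6 le_rfl
    rw [h5, h6, Matrix.zero_mul, zero_add, ← Matrix.mul_assoc, single_trace] at h4
    rw [← h4, Finset.sum_eq_single i]
    · rw [Matrix.single_apply_same, mul_one]
    · intro k _ hk
      rw [Matrix.single_apply, if_neg, mul_zero]
      rintro ⟨rfl, -⟩
      exact hk rfl
    · intro h; exact absurd (Finset.mem_univ _) h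
  -- the diagonal matrix
  obtain ⟨M, hM⟩ : ∃ M, M = L * A * U := ⟨_, rfl⟩
  have hMu : UpT M := hM ▸ hLA.mul hUt
  have hMl : LoT M := by
    rw [hM, Matrix.mul_assoc]
    exact hLt.mul hAU
  have hMd : ∀ i j, i ≠ j → M i j = 0 := by
    intro i j hij
    rcases lt_or_gt_of_ne hij with h | h
    · exact hMl i j h
    · exact hMu i j h
  have hE : U * M * U⁻¹ = L⁻¹ * M * L := by
    have h5 : U * M * U⁻¹ = U * L * A := by
      rw [hM]
      calc U * (L * A * U) * U⁻¹ = U * L * A * (U * U⁻¹) := by simp only [Matrix.mul_assoc]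
        _ = U * L * A := by rw [Matrix.mul_nonsing_inv _ hUd, Matrix.mul_one]
    have h6 : L⁻¹ * M * L = A * (U * L) := by
      rw [hM]
      calc L⁻¹ * (L * A * U) * L = (L⁻¹ * L) * A * (U * L) := by simp only [Matrix.mul_assoc]
        _ = A * (U * L) := by rw [Matrix.nonsing_inv_mul _ hLd, Matrix.one_mul]
    rw [h5, h6, hcomm]
  obtain ⟨E, hEd⟩ : ∃ E, E = U * M * U⁻¹ := ⟨_, rfl⟩
  have hUit : UpT U⁻¹ := hUt.inv fun i => by rw [hU1]; exact one_ne_zero
  have hLit : LoT L⁻¹ := hLt.inv fun i => by rw [hL, lL_diag]; exact hX i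
  have hEu : UpT E := hEd ▸ (hUt.mul hMu).mul hUit
  have hEl : LoT E := by
    rw [hEd, hE]
    exact (hLit.mul hMl).mul hLt
  have hEU : E * U = U * M := by
    rw [hEd, Matrix.mul_assoc, Matrix.nonsing_inv_mul _ hUd, Matrix.mul_one]
  have hEL : L * E = M * L := by
    rw [hEd, hE, ← Matrix.mul_assoc, ← Matrix.mul_assoc, Matrix.mul_nonsing_inv _ hLd,
      Matrix.one_mul]
  have hEM : E = M := by
    ext i j
    rcases lt_trichotomy i j with h | h | h
    · rw [hEl i j h, hMl i j h]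
    · subst h
      have h5 := congrFun (congrFun hEU i) i
      rw [hEu.mul_diag hUt, hUt.mul_diag hMu, hU1, mul_one, one_mul] at h5
      exact h5
    · rw [hEu i j h, hMu i j h]
  rw [hEM] at hEU hEL
  have hMdiag : M = diagonal fun i => M i i := by
    ext i j
    by_cases h : i = j
    · subst h; rw [Matrix.diagonal_apply_eq]
    · rw [hMd i j h, Matrix.diagonal_apply_ne _ h]
  have hconst := hc (fun i => M i i) (fun i j hij => by
    by_cases hij' : i = j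
    · rw [hij']
    rcases lt_or_gt_of_ne hij' with h | h
    · have h5 := congrFun (congrFun hEU i) j
      rw [hMdiag, Matrix.diagonal_mul, Matrix.mul_diagonal, hU, uU_apply, if_neg hij', if_pos h,
        mul_comm] at h5
      exact mul_left_cancel₀ hij h5
    · have h5 := congrFun (congrFun hEL i) j
      rw [hMdiag, Matrix.diagonal_mul, Matrix.mul_diagonal, hL, lL_apply, if_pos h.le,
        mul_comm] at h5
      exact (mul_right_cancel₀ hij h5).symm)
  obtain ⟨t, ht⟩ : ∃ t : ℂ, ∀ i, M i i = t := ⟨M ⟨0, hr⟩ ⟨0, hr⟩, fun i => hconst i _⟩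
  have hMt : M = t • (1 : P002R.Mat r ℂ) := by
    rw [hMdiag, Matrix.smul_one_eq_diagonal]
    congr 1
    funext i
    exact ht i
  have hAM : A = L⁻¹ * M * U⁻¹ := by
    rw [hM]
    calc A = (L⁻¹ * L) * A * (U * U⁻¹) := by
          rw [Matrix.nonsing_inv_mul _ hLd, Matrix.mul_nonsing_inv _ hUd, Matrix.one_mul,
            Matrix.mul_one]
      _ = _ := by simp only [Matrix.mul_assoc]
  have ht0 : t = 0 := by
    have h5 : A * (U * L) = t • (1 : P002R.Mat r ℂ) := by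
      rw [hAM, hMt]
      calc L⁻¹ * t • (1 : P002R.Mat r ℂ) * U⁻¹ * (U * L)
          = t • (L⁻¹ * (U⁻¹ * U) * L) := by
            simp only [Matrix.mul_smul, Matrix.smul_mul, Matrix.mul_one, Matrix.mul_assoc]
        _ = _ := by rw [Matrix.nonsing_inv_mul _ hUd, Matrix.mul_one,
              Matrix.nonsing_inv_mul _ hLd]
    rw [h5, trace_smul, trace_one, smul_eq_mul, Fintype.card_fin] at h2
    rcases mul_eq_zero.1 h2 with h | h
    · exact h
    · exact absurd (Nat.cast_eq_zero.1 h) hr.ne'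
  have hA0 : A = 0 := by
    rw [hAM, hMt, ht0, zero_smul, Matrix.mul_zero, Matrix.zero_mul]
  refine ⟨hA0, ?_⟩
  funext i
  rw [hκ, hA0, Matrix.zero_mul]
  rfl

theorem surj_nhds {E F : Type*} [NormedAddCommGroup E] [NormedSpace ℂ E] [FiniteDimensional ℂ E]
    [NormedAddCommGroup F] [NormedSpace ℂ F] [FiniteDimensional ℂ F] {f : E → F} {f' : E →L[ℂ] F}
    {a : E} (hf : HasStrictFDerivAt f f' a) (h : f'.range = ⊤) :
    Filter.map f (nhds a) = nhds (f a) := by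
  have : CompleteSpace E := FiniteDimensional.complete ℂ E
  have : CompleteSpace F := FiniteDimensional.complete ℂ F
  exact hf.map_nhds_eq_of_surj h

/-- If the support is connected, the diagonal is open on the conjugacy class. -/
theorem diag_open_norm (hr : 0 < r) {X : P002R.Mat r ℂ} (hX : ∀ i, X i i ≠ 0) (hc : ConnD X)
    {N : Set (P002R.Mat r ℂ)} (hN : N ∈ nhds X) :
    ∃ V ∈ nhds (fun i => X i i), ∀ p ∈ V, ∏ i, p i = ∏ i, X i i →
      ∃ X' ∈ N, P002G.Cj (zZ X) (zZ X') ∧ ∀ i, X' i i = p i := by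
  obtain ⟨Z, hZ⟩ : ∃ Z, Z = zZ X := ⟨_, rfl⟩
  have hZd : Z.det ≠ 0 := by
    rw [hZ, det_zZ', Finset.prod_ne_zero_iff]
    exact fun i _ => hX i
  obtain ⟨DZ, hDZ, eDZ⟩ := deriv_zZ X
  have hfst : HasStrictFDerivAt (fun p : (P002R.Mat r ℂ × P002R.Mat r ℂ) × ℂ => p.1.1)
      ((ContinuousLinearMap.fst ℂ (P002R.Mat r ℂ) (P002R.Mat r ℂ)).comp
        (ContinuousLinearMap.fst ℂ (P002R.Mat r ℂ × P002R.Mat r ℂ) ℂ))
      (((1 : P002R.Mat r ℂ), X), (1 : ℂ)) :=
    ((ContinuousLinearMap.fst ℂ (P002R.Mat r ℂ) (P002R.Mat r ℂ)).comp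
        (ContinuousLinearMap.fst ℂ (P002R.Mat r ℂ × P002R.Mat r ℂ) ℂ)).hasStrictFDerivAt
  have hsnd : HasStrictFDerivAt (fun p : (P002R.Mat r ℂ × P002R.Mat r ℂ) × ℂ => p.1.2)
      ((ContinuousLinearMap.snd ℂ (P002R.Mat r ℂ) (P002R.Mat r ℂ)).comp
        (ContinuousLinearMap.fst ℂ (P002R.Mat r ℂ × P002R.Mat r ℂ) ℂ))
      (((1 : P002R.Mat r ℂ), X), (1 : ℂ)) :=
    ((ContinuousLinearMap.snd ℂ (P002R.Mat r ℂ) (P002R.Mat r ℂ)).comp
        (ContinuousLinearMap.fst ℂ (P002R.Mat r ℂ × P002R.Mat r ℂ) ℂ)).hasStrictFDerivAt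
  have hscal : HasStrictFDerivAt (fun p : (P002R.Mat r ℂ × P002R.Mat r ℂ) × ℂ => p.2)
      (ContinuousLinearMap.snd ℂ (P002R.Mat r ℂ × P002R.Mat r ℂ) ℂ)
      (((1 : P002R.Mat r ℂ), X), (1 : ℂ)) :=
    (ContinuousLinearMap.snd ℂ (P002R.Mat r ℂ × P002R.Mat r ℂ) ℂ).hasStrictFDerivAt
  have hzz : HasStrictFDerivAt (fun p : (P002R.Mat r ℂ × P002R.Mat r ℂ) × ℂ => zZ p.1.2)
      (DZ.comp ((ContinuousLinearMap.snd ℂ (P002R.Mat r ℂ) (P002R.Mat r ℂ)).comp
        (ContinuousLinearMap.fst ℂ (P002R.Mat r ℂ × P002R.Mat r ℂ) ℂ)))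
      (((1 : P002R.Mat r ℂ), X), (1 : ℂ)) :=
    HasStrictFDerivAt.comp (((1 : P002R.Mat r ℂ), X), (1 : ℂ)) (g := fun X => zZ X) hDZ hsnd
  obtain ⟨D1, h1, e1⟩ := exists_deriv_mul hfst
    (hasStrictFDerivAt_const Z (((1 : P002R.Mat r ℂ), X), (1 : ℂ)))
  obtain ⟨D2, h2, e2⟩ := exists_deriv_mul hzz hfst
  obtain ⟨dg, hdg⟩ : ∃ dg : P002R.Mat r ℂ →L[ℂ] (Fin r → ℂ), ∀ H i, dg H i = H i i :=
    ⟨LinearMap.toContinuousLinearMap (LinearMap.pi fun i =>
      (Matrix.entryLinearMap ℂ ℂ i i : P002R.Mat r ℂ →ₗ[ℂ] ℂ)), fun H i => rfl⟩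
  obtain ⟨G, hG⟩ : ∃ G : ((P002R.Mat r ℂ × P002R.Mat r ℂ) × ℂ) → P002R.Mat r ℂ × (Fin r → ℂ),
      ∀ p, G p = (p.2 • (p.1.1 * Z) - zZ p.1.2 * p.1.1, dg p.1.2) := ⟨_, fun _ => rfl⟩
  obtain ⟨D, hD, e⟩ : ∃ D : ((P002R.Mat r ℂ × P002R.Mat r ℂ) × ℂ) →L[ℂ]
      P002R.Mat r ℂ × (Fin r → ℂ), HasStrictFDerivAt G D (((1 : P002R.Mat r ℂ), X), (1 : ℂ)) ∧
      ∀ (x H : P002R.Mat r ℂ) (σ : ℂ), D ((x, H), σ) = (σ • Z + x * Z - (upS H * lL X + uU X * lL H) - Z * x, dg H) := by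
    have h3 := (hscal.smul h1).sub h2
    have h4 : HasStrictFDerivAt (fun p : (P002R.Mat r ℂ × P002R.Mat r ℂ) × ℂ => dg p.1.2)
        (dg.comp ((ContinuousLinearMap.snd ℂ (P002R.Mat r ℂ) (P002R.Mat r ℂ)).comp
          (ContinuousLinearMap.fst ℂ (P002R.Mat r ℂ × P002R.Mat r ℂ) ℂ)))
        (((1 : P002R.Mat r ℂ), X), (1 : ℂ)) :=
      HasStrictFDerivAt.comp (((1 : P002R.Mat r ℂ), X), (1 : ℂ)) (g := dg)
        dg.hasStrictFDerivAt hsnd
    have h5 : G = fun p => (p.2 • (p.1.1 * Z) - zZ p.1.2 * p.1.1, dg p.1.2) := funext hG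
    rw [h5]
    refine ⟨_, h3.prodMk h4, fun x H σ => ?_⟩
    refine Prod.ext ?_ rfl
    have h6 : D1 ((x, H), σ) = x * Z + 1 * 0 := e1 ((x, H), σ)
    have h7 : D2 ((x, H), σ) = DZ H * 1 + zZ X * x := e2 ((x, H), σ)
    have h8 : DZ H = upS H * lL X + uU X * lL H := eDZ H
    have h9 : (1 : ℂ) • D1 ((x, H), σ) + σ • ((1 : P002R.Mat r ℂ) * Z) - D2 ((x, H), σ) =
        (σ • Z + x * Z - (upS H * lL X + uU X * lL H) - Z * x : P002R.Mat r ℂ) := by
      rw [h6, h7, h8, ← hZ]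
      simp only [one_smul, Matrix.mul_zero, add_zero, Matrix.one_mul, Matrix.mul_one]
      abel
    exact h9
  have hsurj : D.range = ⊤ := by
    by_contra hne
    obtain ⟨φ, hφ, hle⟩ := Submodule.exists_le_ker_of_lt_top _ (lt_top_iff_ne_top.2 hne)
    obtain ⟨A, hA⟩ := exists_trace_repr (φ.comp (LinearMap.inl ℂ (P002R.Mat r ℂ) (Fin r → ℂ)))
    obtain ⟨κ, hκ⟩ : ∃ κ : Fin r → ℂ, ∀ d : Fin r → ℂ, φ (0, d) = ∑ i, κ i * d i := by
      refine ⟨fun i => φ (0, Pi.single i 1), fun d => ?_⟩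
      have h1 : ((0 : P002R.Mat r ℂ), d) = ∑ i, d i • ((0 : P002R.Mat r ℂ), Pi.single i 1) := by
        refine Prod.ext ?_ ?_
        · rw [Prod.fst_sum]; simp
        · rw [Prod.snd_sum]
          funext j
          simp [Finset.sum_apply, Pi.single_apply]
      conv_lhs => rw [h1]
      rw [map_sum]
      exact Finset.sum_congr rfl fun i _ => by rw [map_smul, smul_eq_mul, mul_comm]
    have h0 : ∀ (x H : P002R.Mat r ℂ) (σ : ℂ), trace (A * (σ • Z + x * Z - (upS H * lL X + uU X * lL H) - Z * x)) +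
        ∑ i, κ i * H i i = 0 := by
      intro x H σ
      have h1 : φ (D ((x, H), σ)) = 0 := hle (LinearMap.mem_range_self D.toLinearMap _)
      rw [e] at h1
      have h2 : ((σ • Z + x * Z - (upS H * lL X + uU X * lL H) - Z * x, dg H) :
          P002R.Mat r ℂ × (Fin r → ℂ)) =
          (σ • Z + x * Z - (upS H * lL X + uU X * lL H) - Z * x, 0) + (0, dg H) := by
        rw [Prod.mk_add_mk, add_zero, zero_add]
      rw [h2, map_add, hκ] at h1
      have h3 := hA (σ • Z + x * Z - (upS H * lL X + uU X * lL H) - Z * x)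
      have h4 : ∑ i, κ i * H i i = ∑ i, κ i * dg H i :=
        Finset.sum_congr rfl fun i _ => by rw [hdg]
      rw [← h3, h4]
      exact h1
    have hup0 : upS (0 : P002R.Mat r ℂ) = 0 := by
      ext i j; rw [upS_apply]; split_ifs <;> rfl
    have hlo0 : lL (0 : P002R.Mat r ℂ) = 0 := by
      ext i j; rw [lL_apply]; split_ifs <;> rfl
    obtain ⟨hA0, hκ0⟩ := diag_dual hr hX hc A κ (fun x => by
        have h1 := h0 x 0 0
        rw [hup0, hlo0] at h1
        simpa [hZ] using h1)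
      (by
        have h1 := h0 0 0 1
        rw [hup0, hlo0] at h1
        simpa [hZ] using h1)
      (fun H => by
        have h1 := h0 0 H 0
        rw [zero_smul, Matrix.zero_mul, Matrix.mul_zero, zero_add, sub_zero, zero_sub,
          Matrix.mul_neg, trace_neg] at h1
        linear_combination h1)
    apply hφ
    ext1
    · ext1 M
      rw [hA, hA0, Matrix.zero_mul, trace_zero]
      rfl
    · refine LinearMap.ext fun d => ?_
      show φ (0, d) = 0
      rw [hκ, hκ0]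
      simp
  -- the neighbourhood
  have hUn : {A : P002R.Mat r ℂ | A.det ≠ 0} ∈ nhds (1 : P002R.Mat r ℂ) := by
    refine (isOpen_ne.preimage (Continuous.matrix_det continuous_id)).mem_nhds ?_
    show (1 : P002R.Mat r ℂ).det ≠ 0
    rw [Matrix.det_one]
    exact one_ne_zero
  have hCn : {c : ℂ | c ^ r = 1 → c = 1} ∈ nhds (1 : ℂ) := by
    have hfin : ({c : ℂ | c ^ r = 1 ∧ c ≠ 1}).Finite := by
      refine (Multiset.finite_toSet (Polynomial.nthRoots r (1 : ℂ))).subset ?_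
      rintro c ⟨h1, -⟩
      exact (Polynomial.mem_nthRoots hr).2 h1
    have h1 : {c : ℂ | c ^ r = 1 → c = 1} = {c : ℂ | c ^ r = 1 ∧ c ≠ 1}ᶜ := by
      ext c
      simp only [Set.mem_ofPred_eq, Set.mem_compl_iff, not_and, not_not]
    rw [h1]
    refine hfin.isClosed.isOpen_compl.mem_nhds ?_
    simp
  have hprod : ({A : P002R.Mat r ℂ | A.det ≠ 0} ×ˢ N) ×ˢ {c : ℂ | c ^ r = 1 → c = 1} ∈
      nhds (((1 : P002R.Mat r ℂ), X), (1 : ℂ)) :=
    prod_mem_nhds (prod_mem_nhds hUn hN) hCn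
  have himg := (surj_nhds hD hsurj).ge (Filter.image_mem_map hprod)
  have hbase : G (((1 : P002R.Mat r ℂ), X), (1 : ℂ)) = (0, fun i => X i i) := by
    rw [hG]
    refine Prod.ext ?_ ?_
    · show (1 : ℂ) • ((1 : P002R.Mat r ℂ) * Z) - zZ X * 1 = 0
      rw [one_smul, Matrix.one_mul, Matrix.mul_one, hZ, sub_self]
    · funext i
      exact hdg X i
  rw [hbase, nhds_prod_eq] at himg
  obtain ⟨V₁, hV₁, V₂, hV₂, hV⟩ := Filter.mem_prod_iff.1 himg
  refine ⟨V₂, hV₂, fun p hp hprod => ?_⟩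
  obtain ⟨⟨⟨g, X'⟩, s⟩, ⟨⟨hg, hX'N⟩, hs⟩, hGp⟩ := hV (Set.mk_mem_prod (mem_of_mem_nhds hV₁) hp)
  rw [hG] at hGp
  have hg0 : g.det ≠ 0 := hg
  have hE1 : s • (g * Z) = zZ X' * g := sub_eq_zero.1 (congrArg Prod.fst hGp)
  have hE2 : ∀ i, X' i i = p i := fun i => by
    exact (hdg X' i).symm.trans (congrFun (congrArg Prod.snd hGp) i)
  have hs1 : s = 1 := by
    apply hs
    have h1 := congrArg Matrix.det hE1
    rw [Matrix.det_smul, Matrix.det_mul, Matrix.det_mul, det_zZ', Fintype.card_fin, hZ, det_zZ',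
      Finset.prod_congr rfl fun i _ => hE2 i, hprod] at h1
    have h2 : ∏ i, X i i ≠ 0 := Finset.prod_ne_zero_iff.2 fun i _ => hX i
    have h3 : (s ^ r - 1) * (g.det * ∏ i, X i i) = 0 := by linear_combination h1
    rcases mul_eq_zero.1 h3 with h4 | h4
    · exact sub_eq_zero.1 h4
    · exact absurd h4 (mul_ne_zero hg0 h2)
  refine ⟨X', hX'N, ⟨g, (Matrix.isUnit_iff_isUnit_det _).2 (isUnit_iff_ne_zero.2 hg0), ?_⟩, hE2⟩
  rw [← hZ, ← hE1, hs1, one_smul]

end normed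

theorem zZ_open {X : P002R.Mat r ℂ} (hX : ∀ i, X i i ≠ 0) {N : Set (P002R.Mat r ℂ)}
    (hN : N ∈ nhds X) : zZ '' N ∈ nhds (zZ X) := zZ_open_norm hX hN

/-- If the support is connected, the diagonal is open on the conjugacy class. -/
theorem diag_open (hr : 0 < r) {X : P002R.Mat r ℂ} (hX : ∀ i, X i i ≠ 0) (hc : ConnD X)
    {N : Set (P002R.Mat r ℂ)} (hN : N ∈ nhds X) :
    ∃ V ∈ nhds (fun i => X i i), ∀ p ∈ V, ∏ i, p i = ∏ i, X i i →
      ∃ X' ∈ N, P002G.Cj (zZ X) (zZ X') ∧ ∀ i, X' i i = p i := diag_open_norm hr hX hc hN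

/-- Connectedness of `zZ X` gives connectedness of `X`. -/
theorem connD_of {X : P002R.Mat r ℂ} (h : ∀ I : Finset (Fin r), I.Nonempty → I ≠ Finset.univ →
    ∃ i ∈ I, ∃ j, j ∉ I ∧ (zZ X i j ≠ 0 ∨ zZ X j i ≠ 0)) : ConnD X := by
  classical
  intro D hD i₀ j₀
  by_contra hne
  obtain ⟨i, hi, j, hj, hij⟩ := h (Finset.univ.filter fun i => D i = D i₀) ⟨i₀, by simp⟩
    (fun h => by
      have h1 := Finset.mem_univ j₀
      rw [← h, Finset.mem_filter] at h1
      exact hne h1.2.symm)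
  simp only [Finset.mem_filter, Finset.mem_univ, true_and] at hi hj
  have hzero : ∀ a b, D a ≠ D b → zZ X a b = 0 := by
    intro a b hab
    rw [zZ_eqn, Matrix.mul_apply]
    refine Finset.sum_eq_zero fun k _ => ?_
    by_cases h1 : D a = D k
    · have h2 : X k b = 0 := by
        by_contra h'
        exact hab (h1.trans (hD k b h'))
      rw [lL_apply, h2]
      simp
    · have h2 : X a k = 0 := by
        by_contra h'
        exact h1 (hD a k h')
      have h3 : a ≠ k := fun h' => h1 (by rw [h'])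
      rw [uU_apply, if_neg h3, h2]
      simp
  rcases hij with h1 | h1
  · exact h1 (hzero i j fun h' => hj (h'.symm.trans hi))
  · exact h1 (hzero j i fun h' => hj (h'.trans hi))

end Vale.Agent.P002R
end

section

/-!
# P002, A4: conjugates with nonzero off-diagonal entries
-/

namespace Vale.Agent.P002R

open Matrix P002G

variable {r : ℕ}

/-- A permutation with two prescribed values. -/
theorem exists_perm_two {i j a b : Fin r} (hij : i ≠ j) (hab : a ≠ b) :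
    ∃ σ : Equiv.Perm (Fin r), σ i = a ∧ σ j = b := by
  obtain ⟨j', hj'⟩ : ∃ j', j' = Equiv.swap i a j := ⟨_, rfl⟩
  have h1 : j' ≠ a := by
    intro h
    rw [hj'] at h
    have h2 : Equiv.swap i a j = Equiv.swap i a i := by rw [h, Equiv.swap_apply_left]
    exact hij ((Equiv.swap i a).injective h2).symm
  refine ⟨Equiv.swap j' b * Equiv.swap i a, ?_, ?_⟩
  · rw [Equiv.Perm.mul_apply, Equiv.swap_apply_left, Equiv.swap_apply_of_ne_of_ne h1.symm hab]
  · rw [Equiv.Perm.mul_apply, ← hj', Equiv.swap_apply_left]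

/-- Every off-diagonal entry of some conjugate of a nonscalar matrix is nonzero. -/
theorem exists_conj_entry {Z : Mat r ℂ} (hns : ∀ μ : ℂ, Z ≠ μ • (1 : Mat r ℂ)) {i j : Fin r}
    (hij : i ≠ j) : ∃ G G' : Mat r ℂ, G * G' = 1 ∧ (G * Z * G') i j ≠ 0 := by
  by_contra hcon
  push Not at hcon
  -- all off-diagonal entries of all conjugates vanish
  have hall : ∀ G G' : Mat r ℂ, G * G' = 1 → ∀ a b, a ≠ b → (G * Z * G') a b = 0 := by
    intro G G' hG a b hab
    obtain ⟨σ, hσi, hσj⟩ := exists_perm_two hij hab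
    obtain ⟨P, hP⟩ : ∃ P : Mat r ℂ, P = σ.toPEquiv.toMatrix := ⟨_, rfl⟩
    obtain ⟨P', hP'⟩ : ∃ P' : Mat r ℂ, P' = σ.symm.toPEquiv.toMatrix := ⟨_, rfl⟩
    have hPM : ∀ M : Mat r ℂ, P * M * P' = M.submatrix σ σ := by
      intro M
      rw [hP, hP', PEquiv.toMatrix_toPEquiv_mul, PEquiv.mul_toMatrix_toPEquiv,
        Matrix.submatrix_submatrix]
      rfl
    have hPP : P * P' = 1 := by
      have := hPM 1
      rw [Matrix.mul_one] at this
      rw [this]
      exact Matrix.submatrix_one_equiv σ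
    have h1 := hcon (P * G) (G' * P') (by
      calc P * G * (G' * P') = P * (G * G') * P' := by simp only [Matrix.mul_assoc]
        _ = 1 := by rw [hG, Matrix.mul_one, hPP])
    have h2 : P * G * Z * (G' * P') = P * (G * Z * G') * P' := by
      simp only [Matrix.mul_assoc]
    rw [h2, hPM, Matrix.submatrix_apply, hσi, hσj] at h1
    exact h1
  have hd : ∀ a b, a ≠ b → Z a b = 0 := by
    intro a b hab
    have := hall 1 1 (Matrix.one_mul 1) a b hab
    rwa [Matrix.one_mul, Matrix.mul_one] at this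
  have hdd : ∀ a b, Z a a = Z b b := by
    intro a b
    by_cases hab : a = b
    · rw [hab]
    have h1 : (1 + Matrix.single a b (1 : ℂ)) * (1 - Matrix.single a b (1 : ℂ)) = 1 := by
      rw [Matrix.add_mul, Matrix.mul_sub, Matrix.mul_sub, Matrix.one_mul, Matrix.mul_one,
        Matrix.one_mul, Matrix.single_mul_single_of_ne _ _ _ _ (Ne.symm hab)]
      abel
    have h2 := hall _ _ h1 a b hab
    have h3 : ((1 + Matrix.single a b (1 : ℂ)) * Z * (1 - Matrix.single a b (1 : ℂ))) a b =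
        Z a b + Z b b - Z a a - Z b a := by
      rw [Matrix.add_mul, Matrix.add_mul, Matrix.one_mul, Matrix.mul_sub, Matrix.mul_sub,
        Matrix.mul_one, Matrix.mul_one]
      simp only [Matrix.add_apply, Matrix.sub_apply]
      rw [Matrix.mul_single_apply_same, Matrix.single_mul_apply_same, Matrix.mul_single_apply_same,
        Matrix.single_mul_apply_same]
      ring
    rw [h3, hd a b hab, hd b a (Ne.symm hab)] at h2
    linear_combination -h2
  apply hns (Z i i)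
  ext a b
  rw [Matrix.smul_apply, smul_eq_mul]
  by_cases hab : a = b
  · subst hab
    rw [Matrix.one_apply_eq, mul_one]
    exact hdd a i
  · rw [Matrix.one_apply_ne hab, mul_zero]
    exact hd a b hab

/-- Nonzero polynomial functions do not vanish on open sets. -/
theorem exists_near_ne {V : Type*} [AddCommGroup V] [Module ℂ V] [TopologicalSpace V]
    [ContinuousAdd V] [ContinuousSMul ℂ V] {f : V → ℂ} (hf : IsPoly f) {y : V} (hy : f y ≠ 0)
    {x : V} {N : Set V} (hN : N ∈ nhds x) : ∃ z ∈ N, f z ≠ 0 := by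
  have hl : Continuous fun t : ℂ => x + t • (y - x) := by fun_prop
  have h0 : (fun t : ℂ => x + t • (y - x)) ⁻¹' N ∈ nhds (0 : ℂ) := by
    apply hl.continuousAt.preimage_mem_nhds
    rwa [zero_smul, add_zero]
  by_contra hcon
  push Not at hcon
  have h1 := ((polyMap_line x y).comp hf).eq_zero_of_infinite _ (infinite_of_mem_nhds _ h0)
    (fun t ht => hcon _ ht) 1
  rw [one_smul, add_sub_cancel] at h1
  exact hy h1

/-- All off-diagonal entries at once. -/
theorem exists_conj_all {Z : Mat r ℂ} (hns : ∀ μ : ℂ, Z ≠ μ • (1 : Mat r ℂ)) :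
    ∃ G : Mat r ℂ, ∏ p : Fin r × Fin r, (if p.1 = p.2 then 1 else
      (G * Z * G.adjugate) p.1 p.2) ≠ 0 := by
  classical
  have hfac : ∀ p : Fin r × Fin r, IsPoly fun G : Mat r ℂ => (if p.1 = p.2 then (1 : ℂ) else
      (G * Z * G.adjugate) p.1 p.2) := by
    intro p
    by_cases hp : p.1 = p.2
    · simp only [hp, if_true]
      exact isPoly_const 1
    · simp only [hp, if_false]
      have h1 : PolyMap fun G : Mat r ℂ => G * Z :=
        IsPoly.matrix_mul (polyMap_linear LinearMap.id) (polyMap_const Z)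
      exact (IsPoly.matrix_mul h1 (polyMap_adjugate (polyMap_linear LinearMap.id))).entry _ _
  have key : ∀ s : Finset (Fin r × Fin r), ∃ G : Mat r ℂ, ∏ p ∈ s, (if p.1 = p.2 then 1 else
      (G * Z * G.adjugate) p.1 p.2) ≠ 0 := by
    intro s
    induction s using Finset.induction_on with
    | empty => exact ⟨0, by simp⟩
    | insert p s hp ih =>
      obtain ⟨G₀, hG₀⟩ := ih
      by_contra hcon
      push Not at hcon
      have h1 := (hfac p).eq_zero_of_mul (IsPoly.prod s fun q _ => hfac q) (fun G => by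
        have := hcon G
        rwa [Finset.prod_insert hp] at this) G₀ hG₀
      by_cases hpp : p.1 = p.2
      · have := h1 0
        rw [if_pos hpp] at this
        exact one_ne_zero this
      · obtain ⟨G, G', hGG, hG⟩ := exists_conj_entry hns hpp
        have h2 := h1 G
        rw [if_neg hpp] at h2
        apply hG
        have h3 : G' = (G.det)⁻¹ • G.adjugate := by
          have h4 : G' = G⁻¹ := (Matrix.inv_eq_right_inv hGG).symm
          rw [h4, Matrix.inv_def, Ring.inverse_eq_inv']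
        rw [h3, Matrix.mul_smul, Matrix.smul_apply, h2, smul_zero]
  exact key Finset.univ

/-- Near a nonscalar element of the cell there is a conjugate element of the cell all of whose
off-diagonal entries are nonzero. -/
theorem exists_off_diag {X : Mat r ℂ} (hX : ∀ i, X i i ≠ 0)
    (hns : ∀ μ : ℂ, zZ X ≠ μ • (1 : Mat r ℂ)) :
    ∀ N ∈ nhds X, ∃ X' ∈ N, CjM (zZ X) (zZ X') ∧ ∀ i j, i ≠ j → zZ X' i j ≠ 0 := by
  classical
  intro N hN
  obtain ⟨G₀, hG₀⟩ := exists_conj_all hns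
  obtain ⟨F, hF⟩ : ∃ F : Mat r ℂ → ℂ, ∀ G, F G = ∏ p : Fin r × Fin r,
      (if p.1 = p.2 then 1 else (G * zZ X * G.adjugate) p.1 p.2) := ⟨_, fun _ => rfl⟩
  have hFp : IsPoly F := by
    refine (IsPoly.prod Finset.univ (f := fun (p : Fin r × Fin r) (G : Mat r ℂ) =>
      (if p.1 = p.2 then (1 : ℂ) else (G * zZ X * G.adjugate) p.1 p.2))
      fun p _ => ?_).congr fun G => (hF G).symm
    by_cases hp : p.1 = p.2
    · simp only [hp, if_true]
      exact isPoly_const 1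
    · simp only [hp, if_false]
      have h1 : PolyMap fun G : Mat r ℂ => G * zZ X :=
        IsPoly.matrix_mul (polyMap_linear LinearMap.id) (polyMap_const (zZ X))
      exact (IsPoly.matrix_mul h1 (polyMap_adjugate (polyMap_linear LinearMap.id))).entry _ _
  -- conjugation is continuous at `1`
  have hinv : ContinuousAt (fun G : Mat r ℂ => G * zZ X * G⁻¹) 1 := by
    have h1 : (fun G : Mat r ℂ => G * zZ X * G⁻¹) =
        fun G : Mat r ℂ => (G.det)⁻¹ • (G * zZ X * G.adjugate) := by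
      funext G
      rw [Matrix.inv_def, Ring.inverse_eq_inv', Matrix.mul_smul]
    rw [h1]
    have h2 : Continuous fun A : Mat r ℂ => A.det := Continuous.matrix_det continuous_id
    have h3 : Continuous fun A : Mat r ℂ => A.adjugate :=
      Continuous.matrix_adjugate continuous_id
    have h4 : (1 : Mat r ℂ).det ≠ 0 := by rw [Matrix.det_one]; exact one_ne_zero
    have h5 : Continuous fun A : Mat r ℂ => A * zZ X * A.adjugate :=
      (Continuous.matrix_mul continuous_id continuous_const).matrix_mul h3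
    exact (h2.continuousAt.inv₀ h4).smul h5.continuousAt
  have hU1 : (fun G : Mat r ℂ => G * zZ X * G⁻¹) ⁻¹' (zZ '' N) ∈ nhds (1 : Mat r ℂ) := by
    apply hinv.preimage_mem_nhds
    have h1 : (1 : Mat r ℂ) * zZ X * (1 : Mat r ℂ)⁻¹ = zZ X := by
      rw [Matrix.one_mul, inv_one, Matrix.mul_one]
    rw [h1]
    exact zZ_open hX hN
  have hU2 : {G : Mat r ℂ | G.det ≠ 0} ∈ nhds (1 : Mat r ℂ) := by
    have h2 : Continuous fun A : Mat r ℂ => A.det := Continuous.matrix_det continuous_id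
    apply h2.continuousAt.eventually_ne
    rw [Matrix.det_one]
    exact one_ne_zero
  obtain ⟨G, ⟨⟨X', hX'N, hX'⟩, hGd⟩, hFG⟩ := exists_near_ne hFp (y := G₀) (by
    rw [hF]
    exact hG₀) (Filter.inter_mem hU1 hU2)
  have hGd' : G.det ≠ 0 := hGd
  have hX'' : zZ X' = G * zZ X * G⁻¹ := hX'
  have hGu : IsUnit G := (Matrix.isUnit_iff_isUnit_det _).2 (isUnit_iff_ne_zero.2 hGd')
  refine ⟨X', hX'N, ?_, fun i j hij => ?_⟩
  · obtain ⟨g, hg⟩ := hGu
    refine ⟨g, ?_⟩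
    rw [hX'', ← hg, Matrix.coe_units_inv]
  · rw [hF] at hFG
    have h1 := Finset.prod_ne_zero_iff.1 hFG (i, j) (Finset.mem_univ _)
    rw [if_neg hij] at h1
    rw [hX'', Matrix.inv_def, Ring.inverse_eq_inv', Matrix.mul_smul, Matrix.smul_apply]
    exact mul_ne_zero (inv_ne_zero hGd') h1

end Vale.Agent.P002R
end

section

/-!
# P002: near a tuple of the chart there is one without stable coordinate subspaces
-/

namespace Vale.Agent.P002R

open Matrix

variable {r : ℕ}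

theorem noStab_of_off {Z : Mat r ℂ} (h : ∀ i j, i ≠ j → Z i j ≠ 0) : NoStab Z := by
  intro I hI1 hI2
  obtain ⟨j, hj⟩ := hI1
  obtain ⟨i, hi⟩ : ∃ i, i ∉ I := by
    by_contra h
    push Not at h
    exact hI2 (Finset.eq_univ_iff_forall.2 h)
  exact ⟨i, hi, j, hj, h i j fun h => hi (h ▸ hj)⟩

theorem cjM_of_cj {A B : Mat r ℂ} (h : P002G.Cj A B) : CjM A B := by
  obtain ⟨g, hg, h⟩ := h
  obtain ⟨g, rfl⟩ := hg
  exact ⟨g, by rw [h, mul_assoc, Units.mul_inv, mul_one]⟩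

theorem a4core {m : ℕ} (Y : Fin (m + 1) → Mat r ℂ) (hY0 : ∀ k i, Y k i i ≠ 0) (k₁ : Fin m)
    (h1 : ∀ μ : ℂ, zZ (Y k₁.castSucc) ≠ μ • (1 : Mat r ℂ))
    (h2 : ∀ μ : ℂ, zZ (Y (Fin.last m)) ≠ μ • (1 : Mat r ℂ)) (N : Set (Fin (m + 1) → Mat r ℂ))
    (hN : N ∈ nhds Y) : ∃ Y' ∈ N, (∀ k i, Y' k i i ≠ 0) ∧ (∀ k, CjM (zZ (Y k)) (zZ (Y' k))) ∧
      (∀ i, ∏ l, Y' l i i = ∏ l, Y l i i) ∧ NoStab (zZ (Y' (Fin.last m))) := by
  have hr : 0 < r := by
    apply Nat.pos_of_ne_zero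
    rintro rfl
    exact h2 0 (Subsingleton.elim _ _)
  obtain ⟨Ψ, hΨ⟩ : ∃ Ψ : Mat r ℂ × Mat r ℂ → Fin (m + 1) → Mat r ℂ, Ψ = fun p =>
    Function.update (Function.update Y k₁.castSucc p.1) (Fin.last m) p.2 := ⟨_, rfl⟩
  have hne : k₁.castSucc ≠ Fin.last m := (Fin.castSucc_lt_last k₁).ne
  have hΨc : Continuous Ψ := by
    rw [hΨ]
    have h3 : Continuous fun p : Mat r ℂ × Mat r ℂ => Function.update Y k₁.castSucc p.1 :=
      Continuous.update continuous_const _ continuous_fst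
    exact Continuous.update h3 _ continuous_snd
  have hΨ0 : Ψ (Y k₁.castSucc, Y (Fin.last m)) = Y := by
    rw [hΨ]
    simp only [Function.update_eq_self]
  have hpre : Ψ ⁻¹' N ∈ nhds (Y k₁.castSucc, Y (Fin.last m)) := by
    apply hΨc.continuousAt.preimage_mem_nhds
    rw [hΨ0]
    exact hN
  obtain ⟨N₁, hN₁, N₂, hN₂, hNN⟩ := mem_nhds_prod_iff.1 hpre
  obtain ⟨X₁, hX₁N, hX₁d, hX₁c, hX₁o⟩ := exists_conn _ (Y k₁.castSucc) (hY0 _) h1 le_rfl
    (interior N₁) (interior_mem_nhds.2 hN₁)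
  have hX₁0 : ∀ i, X₁ i i ≠ 0 := fun i => by rw [hX₁d]; exact hY0 _ i
  obtain ⟨V, hV, hVX⟩ := diag_open hr hX₁0 (connD_of hX₁o)
    (mem_interior_iff_mem_nhds.1 hX₁N)
  obtain ⟨q, hq⟩ : ∃ q : Mat r ℂ → Fin r → ℂ, q = fun B i =>
    X₁ i i * Y (Fin.last m) i i / B i i := ⟨_, rfl⟩
  have hqc : ContinuousAt q (Y (Fin.last m)) := by
    rw [hq]
    refine continuousAt_pi.2 fun i => ?_
    exact continuousAt_const.div (continuous_apply_apply i i).continuousAt (hY0 _ i)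
  have hq0 : q (Y (Fin.last m)) = fun i => X₁ i i := by
    rw [hq]
    funext i
    exact mul_div_cancel_right₀ _ (hY0 _ i)
  have hqV : q ⁻¹' V ∈ nhds (Y (Fin.last m)) := hqc.preimage_mem_nhds (by rw [hq0]; exact hV)
  obtain ⟨B, hBN, hBc, hBo⟩ := exists_off_diag (hY0 _) h2 _ (Filter.inter_mem hN₂ hqV)
  have hBd : ∏ i, B i i = ∏ i, Y (Fin.last m) i i := by
    rw [← det_zZ, ← det_zZ, hBc.det]
  have hB0 : ∀ i, B i i ≠ 0 := by
    have h3 : ∏ i, B i i ≠ 0 := by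
      rw [hBd, Finset.prod_ne_zero_iff]
      exact fun i _ => hY0 _ i
    rw [Finset.prod_ne_zero_iff] at h3
    exact fun i => h3 i (Finset.mem_univ i)
  obtain ⟨A, hAN, hAc, hAd⟩ := hVX (q B) hBN.2 (by
    rw [hq]
    simp only
    rw [Finset.prod_div_distrib, Finset.prod_mul_distrib, ← hBd, mul_div_cancel_right₀]
    rw [Finset.prod_ne_zero_iff]
    exact fun i _ => hB0 i)
  have hAd' : ∀ i, A i i = Y k₁.castSucc i i * Y (Fin.last m) i i / B i i := fun i => by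
    rw [hAd, hq, ← hX₁d]
  have hA0 : ∀ i, A i i ≠ 0 := fun i => by
    rw [hAd']
    exact div_ne_zero (mul_ne_zero (hY0 _ i) (hY0 _ i)) (hB0 i)
  have hv1 : Ψ (A, B) (Fin.last m) = B := by
    rw [hΨ]
    simp only [Function.update_self]
  have hv2 : Ψ (A, B) k₁.castSucc = A := by
    rw [hΨ]
    simp only
    rw [Function.update_of_ne hne, Function.update_self]
  have hv3 : ∀ k, k ≠ Fin.last m → k ≠ k₁.castSucc → Ψ (A, B) k = Y k := fun k hk hk' => by
    rw [hΨ]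
    simp only
    rw [Function.update_of_ne hk, Function.update_of_ne hk']
  refine ⟨Ψ (A, B), hNN ⟨hAN, hBN.1⟩, fun k i => ?_, fun k => ?_, fun i => ?_, ?_⟩
  · by_cases hk : k = Fin.last m
    · rw [hk, hv1]
      exact hB0 i
    · by_cases hk' : k = k₁.castSucc
      · rw [hk', hv2]
        exact hA0 i
      · rw [hv3 k hk hk']
        exact hY0 k i
  · by_cases hk : k = Fin.last m
    · rw [hk, hv1]
      exact hBc
    · by_cases hk' : k = k₁.castSucc
      · rw [hk', hv2]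
        exact hX₁c.trans (cjM_of_cj hAc)
      · rw [hv3 k hk hk']
        exact ⟨1, by simp⟩
  · rw [Fin.prod_univ_castSucc, Fin.prod_univ_castSucc, hv1]
    have h3 : ∀ k : Fin m, Ψ (A, B) k.castSucc i i =
        Function.update (fun k : Fin m => Y k.castSucc i i) k₁ (A i i) k := by
      intro k
      by_cases hk : k = k₁
      · rw [hk, hv2, Function.update_self]
      · rw [Function.update_of_ne hk, hv3 _ (Fin.castSucc_lt_last k).ne
          fun h => hk (Fin.castSucc_injective _ h)]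
    have h4 : ∀ k : Fin m, Y k.castSucc i i =
        Function.update (fun k : Fin m => Y k.castSucc i i) k₁ (Y k₁.castSucc i i) k := by
      intro k
      rw [Function.update_eq_self]
    rw [Finset.prod_congr rfl fun k _ => h3 k, Finset.prod_congr rfl fun k _ => h4 k,
      Finset.prod_update_of_mem (Finset.mem_univ k₁),
      Finset.prod_update_of_mem (Finset.mem_univ k₁), hAd']
    have h5 := hB0 i
    field_simp
  · rw [hv1]
    exact noStab_of_off hBo

end Vale.Agent.P002R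
end

section

/-!
# P002, genus 0, rank one classes: back from the tuple with virtual ends
-/

namespace Vale.Agent.P002R

open Matrix

variable {r : ℕ}

theorem prod_mul_rev {G : Type*} [Monoid G] {n : ℕ} (M N : Fin n → G) (h : ∀ i, M i * N i = 1) :
    (List.ofFn M).prod * (List.ofFn fun l => N (Fin.rev l)).prod = 1 := by
  induction n with
  | zero => simp
  | succ n ih =>
    rw [List.ofFn_succ, List.prod_cons, List.ofFn_succ', List.prod_concat]
    simp only [Fin.rev_castSucc, Fin.rev_last]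
    rw [mul_assoc, ← mul_assoc (List.ofFn fun i => M i.succ).prod,
      ih (fun i => M i.succ) (fun i => N i.succ) (fun i => h _), one_mul, h]

theorem rS_mul {s : ℂ} (hs : s ≠ 0) (t : Fin r → ℂ) (i : Fin r) (hκ : 1 + t i ≠ 0) :
    s • (1 + vecMulVec (Pi.single i 1) t) * rS s⁻¹ (1 + t i)⁻¹ t i = (1 : Mat r ℂ) := by
  have h1 : vecMulVec (Pi.single i 1) t * vecMulVec (Pi.single i 1) t =
      t i • (vecMulVec (Pi.single i 1) t : Mat r ℂ) := by
    rw [Matrix.vecMulVec_mul_vecMulVec, dotProduct_single_one, Matrix.vecMulVec_smul]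
  obtain ⟨N, hN⟩ : ∃ N : Mat r ℂ, N = vecMulVec (Pi.single i 1) t := ⟨_, rfl⟩
  rw [rS, smul_mul_smul_comm, mul_inv_cancel₀ hs, one_smul, ← hN]
  rw [← hN] at h1
  rw [add_mul, one_mul, mul_sub, mul_one, mul_smul_comm, h1, smul_smul]
  have h2 : N = ((1 + t i)⁻¹ + (1 + t i)⁻¹ * t i) • N := by
    have h3 : (1 + t i)⁻¹ + (1 + t i)⁻¹ * t i = 1 := by
      rw [← mul_one_add, inv_mul_cancel₀ hκ]
    rw [h3, one_smul]
  have h4 : (1 : Mat r ℂ) - (1 + t i)⁻¹ • N + (N - ((1 + t i)⁻¹ * t i) • N) =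
      1 + (N - ((1 + t i)⁻¹ + (1 + t i)⁻¹ * t i) • N) := by
    rw [add_smul]
    abel
  rw [h4, ← h2, sub_self, add_zero]

theorem rtup_prod (m : ℕ) (c : ℕ → Mat r ℂ) {s κ Δ : Fin r → ℂ} (hs : ∀ i, s i ≠ 0)
    (hκ : ∀ i, κ i ≠ 0) (hΔ : ∀ i, Δ i ≠ 0) (h0 : UpT (c 0)) (h0d : ∀ i, c 0 i i = Δ i)
    (h1 : LoT (c (m + 2))) (h1d : ∀ i, c (m + 2) i i = ((∏ l, s l) * κ i * Δ i)⁻¹)
    (hP : (List.ofFn fun j : Fin (m + 3) => c j).prod = 1) :
    (List.ofFn fun j : Fin (m + 1 + r) => rtup m (∏ l, s l)⁻¹ (∏ i, ((∏ l, s l) * κ i * Δ i))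
      (fun i => (Δ i)⁻¹) (fun i => (s i)⁻¹) (fun i => (κ i)⁻¹) c j).prod = 1 := by
  have e0 : (List.ofFn fun j : Fin (m + 3) => c j).prod =
      c 0 * (List.ofFn fun j : Fin (m + 1) => c (j + 1)).prod * c (m + 2) := by
    rw [List.ofFn_succ, List.prod_cons, List.ofFn_succ', List.prod_concat, ← Matrix.mul_assoc]
    rfl
  rw [e0] at hP
  obtain ⟨hT1, hT2⟩ := rT_spec hs hκ hΔ h0 h0d h1 h1d hP
  have e1 : (List.ofFn fun j : Fin (m + 1) => rtup m (∏ l, s l)⁻¹
      (∏ i, ((∏ l, s l) * κ i * Δ i)) (fun i => (Δ i)⁻¹) (fun i => (s i)⁻¹) (fun i => (κ i)⁻¹) c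
      (Fin.castLE (Nat.le_add_right (m + 1) r) j : ℕ)) =
      List.ofFn fun j : Fin (m + 1) => c (j + 1) := by
    congr 1
    funext j
    exact rtup_lt _ _ _ _ _ c j.2
  have e2 : ∀ l : Fin r, rtup m (∏ l, s l)⁻¹
      (∏ i, ((∏ l, s l) * κ i * Δ i)) (fun i => (Δ i)⁻¹) (fun i => (s i)⁻¹) (fun i => (κ i)⁻¹) c
      (Fin.natAdd (m + 1) l : ℕ) = rS (s (Fin.rev l))⁻¹ (κ (Fin.rev l))⁻¹
        (rT (∏ l, s l)⁻¹ (∏ i, ((∏ l, s l) * κ i * Δ i)) (fun i => (Δ i)⁻¹) (c 0) (c (m + 2))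
          (Fin.rev l)) (Fin.rev l) := by
    intro l
    have h2 := rtup_ge m (∏ l, s l)⁻¹ (∏ i, ((∏ l, s l) * κ i * Δ i)) (fun i => (Δ i)⁻¹)
      (fun i => (s i)⁻¹) (fun i => (κ i)⁻¹) c (Fin.rev l)
    rw [Fin.rev_rev] at h2
    exact h2
  rw [List.ofFn_add, List.prod_append, e1, hT2]
  simp only [e2]
  obtain ⟨T', hT'⟩ : ∃ T' : Mat r ℂ, T' = rT (∏ l, s l)⁻¹ (∏ i, ((∏ l, s l) * κ i * Δ i))
    (fun i => (Δ i)⁻¹) (c 0) (c (m + 2)) := ⟨_, rfl⟩
  rw [← hT'] at hT1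
  rw [← hT']
  exact prod_mul_rev (fun i => s i • (1 + vecMulVec (Pi.single i 1) (T' i)))
    (fun i => rS (s i)⁻¹ (κ i)⁻¹ (T' i) i) fun i => by
      have h3 := rS_mul (hs i) (T' i) i (by rw [hT1]; exact hκ i)
      rw [hT1] at h3
      exact h3

theorem rtup_congr {m : ℕ} (s' δ' : ℂ) (Δ' a κ : Fin r → ℂ) {c c' : ℕ → Mat r ℂ}
    (h : ∀ k, k < m + 3 → c k = c' k) (j : ℕ) :
    rtup m s' δ' Δ' a κ c j = rtup m s' δ' Δ' a κ c' j := by
  rw [rtup, rtup]
  by_cases h1 : j < m + 1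
  · rw [if_pos h1, if_pos h1, h _ (by omega)]
  · rw [if_neg h1, if_neg h1, h 0 (by omega), h (m + 2) (by omega)]

theorem map_units_inv {R : Type*} [CommRing R] (φ : R →+* ℂ) (u : Rˣ) :
    φ ((u⁻¹ : Rˣ) : R) = (φ (u : R))⁻¹ := by
  have h1 : φ (u : R) * φ ((u⁻¹ : Rˣ) : R) = 1 := by rw [← map_mul, Units.mul_inv, map_one]
  exact eq_inv_of_mul_eq_one_right h1

theorem map_units_ne {R : Type*} [CommRing R] (φ : R →+* ℂ) (u : Rˣ) : φ (u : R) ≠ 0 := by
  have h1 : φ (u : R) * φ ((u⁻¹ : Rˣ) : R) = 1 := by rw [← map_mul, Units.mul_inv, map_one]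
  exact left_ne_zero_of_mul (by rw [h1]; exact one_ne_zero)

theorem single_ne (i : Fin r) : (Pi.single i 1 : Fin r → ℂ) ≠ 0 := by
  intro h
  have h1 := congrFun h i
  rw [Pi.single_eq_same, Pi.zero_apply] at h1
  exact one_ne_zero h1

theorem refl_back {R : Type*} [CommRing R] {φ : R →+* ℂ} {E : Subgroup ℂˣ} (hr : 0 < r)
    (hc : CoefOK φ E r) {m : ℕ} (C : Fin (m + 1 + r) → (Mat r ℂ)ˣ)
    (hE : ∀ j, EigIn E (C j : Mat r ℂ)) (s κ Δ : Fin r → Rˣ) (T : Mat r ℂ)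
    (hT : ∀ i, 1 + T i i = φ (κ i)) (hT0 : ∀ i, T i ≠ 0)
    (hCR : ∀ i, CjM (C (Fin.natAdd (m + 1) (Fin.rev i)) : Mat r ℂ)
      (rS (φ (s i))⁻¹ (φ (κ i))⁻¹ (T i) i))
    (y : FU 0 (m + 3) →* (Mat r ℂ)ˣ) (cR : ℕ → Mat r R) (hy1 : y (relatorU 0 (m + 3)) = 1)
    (hyC : ∀ j : Fin (m + 1), CjM (C (Fin.castAdd r j) : Mat r ℂ) (cseq y (j + 1)))
    (hy2 : ∀ j : Fin (m + 3), (y (FreeGroup.of (Sum.inr j)) : Mat r ℂ) = (cR j).map φ)
    (hup : UpT (cR 0)) (hlo : LoT (cR (m + 2))) (hd0 : ∀ i, φ (cR 0 i i) = φ (Δ i))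
    (hd1 : ∀ i, φ (cR (m + 2) i i) = ((∏ l, φ (s l)) * φ (κ i) * φ (Δ i))⁻¹)
    (hβ : ∀ i, rT (∏ l, φ (s l))⁻¹ (∏ i, ((∏ l, φ (s l)) * φ (κ i) * φ (Δ i)))
      (fun i => (φ (Δ i))⁻¹) (cseq y 0) (cseq y (m + 2)) i ≠ 0) :
    ∃ z : FU 0 (m + 1 + r) →* (Mat r ℂ)ˣ, z (relatorU 0 (m + 1 + r)) = 1 ∧
      (∀ j, IsConj (C j) (z (FreeGroup.of (Sum.inr j)))) ∧
      (∀ k, z (FreeGroup.of k) ∈ GR r φ) ∧
      ∀ j : Fin (m + 1 + r), (z (FreeGroup.of (Sum.inr j)) : Mat r ℂ) =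
        rtup m (∏ l, φ (s l))⁻¹ (∏ i, ((∏ l, φ (s l)) * φ (κ i) * φ (Δ i)))
          (fun i => (φ (Δ i))⁻¹) (fun i => (φ (s i))⁻¹) (fun i => (φ (κ i))⁻¹) (cseq y) j := by
  have hcy : ∀ k, k < m + 3 → cseq y k = (cR k).map φ := fun k hk =>
    (cseq_of y ⟨k, hk⟩).trans (hy2 ⟨k, hk⟩)
  have hup' : UpT (cseq y 0) := by
    rw [hcy 0 (by omega)]
    intro i j hij
    rw [Matrix.map_apply, hup i j hij, map_zero]
  have hlo' : LoT (cseq y (m + 2)) := by
    rw [hcy (m + 2) (by omega)]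
    intro i j hij
    rw [Matrix.map_apply, hlo i j hij, map_zero]
  have hd0' : ∀ i, cseq y 0 i i = φ (Δ i) := fun i => by
    rw [hcy 0 (by omega), Matrix.map_apply, hd0]
  have hd1' : ∀ i, cseq y (m + 2) i i = ((∏ l, φ (s l)) * φ (κ i) * φ (Δ i))⁻¹ := fun i => by
    rw [hcy (m + 2) (by omega), Matrix.map_apply, hd1]
  have hprod := rtup_prod (s := fun i => φ (s i)) (κ := fun i => φ (κ i)) (Δ := fun i => φ (Δ i))
    m (cseq y) (fun i => map_units_ne φ (s i)) (fun i => map_units_ne φ (κ i))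
    (fun i => map_units_ne φ (Δ i)) hup' hd0' hlo' hd1' (cseq_prod y hy1)
  obtain ⟨z, hz1, hz2⟩ := exists_hom (m + 1 + r) _ hprod
  have hclass : ∀ j, IsConj (C j) (z (FreeGroup.of (Sum.inr j))) := by
    intro j
    refine Fin.addCases (fun j => ?_) (fun l => ?_) j
    · apply isConj_of_cjM
      rw [hz2]
      have h1 : rtup m (∏ l, φ (s l))⁻¹ (∏ i, ((∏ l, φ (s l)) * φ (κ i) * φ (Δ i)))
          (fun i => (φ (Δ i))⁻¹) (fun i => (φ (s i))⁻¹) (fun i => (φ (κ i))⁻¹) (cseq y)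
          (Fin.castAdd r j : ℕ) = cseq y (j + 1) := rtup_lt _ _ _ _ _ _ j.2
      rw [h1]
      exact hyC j
    · apply isConj_of_cjM
      rw [hz2]
      have h1 := rtup_ge m (∏ l, φ (s l))⁻¹ (∏ i, ((∏ l, φ (s l)) * φ (κ i) * φ (Δ i)))
        (fun i => (φ (Δ i))⁻¹) (fun i => (φ (s i))⁻¹) (fun i => (φ (κ i))⁻¹) (cseq y) (Fin.rev l)
      have h2 := hCR (Fin.rev l)
      rw [Fin.rev_rev] at h1 h2
      refine h2.trans ?_
      have h3 : rtup m (∏ l, φ (s l))⁻¹ (∏ i, ((∏ l, φ (s l)) * φ (κ i) * φ (Δ i)))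
          (fun i => (φ (Δ i))⁻¹) (fun i => (φ (s i))⁻¹) (fun i => (φ (κ i))⁻¹) (cseq y)
          (Fin.natAdd (m + 1) l : ℕ) = _ := h1
      rw [h3]
      refine cjM_rankOne _ _ (single_ne _) (hT0 _) (single_ne _) (hβ _) ?_
      rw [dotProduct_single_one, dotProduct_single_one]
      have h4 := (rT_spec (s := fun i => φ (s i)) (κ := fun i => φ (κ i)) (Δ := fun i => φ (Δ i))
        (fun i => map_units_ne φ (s i)) (fun i => map_units_ne φ (κ i))
        (fun i => map_units_ne φ (Δ i)) (P := (cseq y 0)⁻¹ * (cseq y (m + 2))⁻¹) hup' hd0' hlo'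
        hd1' (by
          have hU : IsUnit (cseq y 0).det := by
            rw [hup'.det, isUnit_iff_ne_zero, Finset.prod_ne_zero_iff]
            exact fun i _ => by rw [hd0']; exact map_units_ne φ (Δ i)
          have hL : IsUnit (cseq y (m + 2)).det := by
            rw [hlo'.det, isUnit_iff_ne_zero, Finset.prod_ne_zero_iff]
            intro i _
            rw [hd1']
            exact inv_ne_zero (mul_ne_zero (mul_ne_zero (Finset.prod_ne_zero_iff.2
              fun l _ => map_units_ne φ (s l)) (map_units_ne φ (κ i))) (map_units_ne φ (Δ i)))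
          rw [← Matrix.mul_assoc, Matrix.mul_nonsing_inv _ hU, Matrix.one_mul,
            Matrix.nonsing_inv_mul _ hL])).1 (Fin.rev l)
      exact add_left_cancel ((hT (Fin.rev l)).trans h4.symm)
  refine ⟨z, hz1, hclass, ?_, hz2⟩
  rintro (k | j)
  · exact k.1.elim0
  · obtain ⟨Y, hY⟩ : ∃ Y : Mat r R, Y = rtup m (((∏ l, s l)⁻¹ : Rˣ) : R)
      ((∏ i, ((∏ l, s l) * κ i * Δ i) : Rˣ) : R) (fun i => (((Δ i)⁻¹ : Rˣ) : R))
      (fun i => (((s i)⁻¹ : Rˣ) : R)) (fun i => (((κ i)⁻¹ : Rˣ) : R)) cR j := ⟨_, rfl⟩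
    have hYz : (z (FreeGroup.of (Sum.inr j)) : Mat r ℂ) = Y.map φ := by
      rw [hz2, hY, rtup_map]
      simp only [map_units_inv, Units.coe_prod, map_prod, Units.val_mul, map_mul]
      exact rtup_congr _ _ _ _ _ (fun k hk => hcy k hk) j
    obtain ⟨e, he, hed⟩ := (hE j).det
    obtain ⟨c, hcc⟩ := exists_unit_root_of_mem hc hr Y.det e he (by
      rw [hed, RingHom.map_det]
      change (Y.map φ).det = _
      rw [← hYz]
      exact (cjM_of_isConj (hclass j)).det)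
    exact mem_GR_of φ _ Y hYz c hcc

end Vale.Agent.P002R
end

section

/-!
# P002: duality, rational charts near every element without stable coordinate subspace
-/

namespace Vale.Agent.P002R

open Matrix

variable {n e : ℕ}

theorem dR_gauge {r : ℕ} (Ξ : Matrix (Fin n) (Fin r) ℂ) (Υ : Matrix (Fin r) (Fin n) ℂ)
    (g g' : Mat n ℂ) (h : g * g' = 1) (i : Fin r) :
    dR (g * Ξ) (Υ * g') i = g * dR Ξ Υ i * g' := by
  have h1 : (fun a => (g * Ξ) a i) = g *ᵥ fun a => Ξ a i := rfl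
  have h2 : (Υ * g') i = Υ i ᵥ* g' := rfl
  rw [dR, dR, Matrix.mul_add, Matrix.mul_one, Matrix.add_mul, h, Matrix.mul_vecMulVec,
    Matrix.vecMulVec_mul, h1, h2]

theorem prod_gauge_list (g g' : Mat n ℂ) (h : g * g' = 1) (h' : g' * g = 1) (l : List (Mat n ℂ)) :
    (l.map fun M => g * M * g').prod = g * l.prod * g' := by
  induction l with
  | nil => rw [List.map_nil, List.prod_nil, Matrix.mul_one, h]
  | cons a l ih =>
    rw [List.map_cons, List.prod_cons, List.prod_cons, ih]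
    calc g * a * g' * (g * l.prod * g') = g * a * (g' * g) * (l.prod * g') := by
          simp only [Matrix.mul_assoc]
      _ = _ := by
          rw [h', Matrix.mul_one]
          simp only [Matrix.mul_assoc]

theorem dualD_good {R : Type*} [CommRing R] (φ : R →+* ℂ) (hinj : Function.Injective φ)
    (hn : 0 < n) (he : 0 < e) (hinf : (Set.range fun u : Rˣ => φ u).Infinite)
    (J : Mat (n + e) ℂ) (ζ : Rˣ) (W0 : Mat n ℂ) (Y0 : Matrix (Fin e) (Fin n) ℂ)
    (h : DualCls (φ ζ) J W0 Y0) (hT : TotD φ W0) (Ξ : Matrix (Fin n) (Fin (n + e)) ℂ)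
    (Υ : Matrix (Fin (n + e)) (Fin n) ℂ) (hΥ : ∀ v, Υ *ᵥ v = 0 → v = 0)
    (hκ : ∀ i, 1 + Υ i ⬝ᵥ (fun a => Ξ a i) ≠ 0) (hg : DGood Ξ Υ)
    (hW : P002G.Cj W0 (List.ofFn (dR Ξ Υ)).prod) :
    DualD φ J (dX (φ ζ) (Υ * Ξ)) := by
  obtain ⟨B, hBd⟩ : ∃ B : Mat n ℂ, B = dB Ξ := ⟨_, rfl⟩
  have hB : IsUnit B.det := by
    rw [hBd]
    exact isUnit_iff_ne_zero.2 hg.basis
  have hBB : B⁻¹ * B = 1 := Matrix.nonsing_inv_mul _ hB
  have hBB' : B * B⁻¹ = 1 := Matrix.mul_nonsing_inv _ hB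
  obtain ⟨x, hx⟩ : ∃ x : Matrix (Fin n) (Fin e) ℂ, x = Matrix.of fun i j =>
    (B⁻¹ * Ξ) i (Fin.natAdd n j) := ⟨_, rfl⟩
  have h1 : B⁻¹ * Ξ = oneX x := by
    ext i j
    refine Fin.addCases (fun j => ?_) (fun j => ?_) j
    · rw [oneX_left, ← hBB, Matrix.mul_apply, Matrix.mul_apply]
      exact Finset.sum_congr rfl fun a _ => by rw [hBd]; rfl
    · rw [oneX_right, hx]
      rfl
  have h2 : (Υ * B) * oneX x = Υ * Ξ := by
    rw [← h1]
    exact prod_gauge Ξ Υ B⁻¹ B hBB'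
  have hdR : ∀ i, dR (oneX x) (Υ * B) i = B⁻¹ * dR Ξ Υ i * B := fun i => by
    rw [← h1]
    exact dR_gauge Ξ Υ B⁻¹ B hBB i
  have hlist : List.ofFn (dR (oneX x) (Υ * B)) =
      (List.ofFn (dR Ξ Υ)).map fun M => B⁻¹ * M * B := by
    rw [List.map_ofFn]
    exact congrArg List.ofFn (funext hdR)
  have h3 := dualD_oneX φ hinj hn he hinf J ζ W0 Y0 h hT x (Υ * B) (fun v hv => by
    have h4 : B *ᵥ v = 0 := hΥ _ (by rw [Matrix.mulVec_mulVec]; exact hv)
    have h5 : (B⁻¹ * B) *ᵥ v = 0 := by rw [← Matrix.mulVec_mulVec, h4, Matrix.mulVec_zero]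
    rwa [hBB, Matrix.one_mulVec] at h5) (fun i => by
    have h4 : (Υ * B) i ⬝ᵥ (fun a => oneX x a i) = Υ i ⬝ᵥ fun a => Ξ a i := by
      have h5 : ((Υ * B) * oneX x) i i = (Υ * Ξ) i i := by rw [h2]
      exact h5
    rw [h4]
    exact hκ i) (fun l => by
    obtain ⟨X, hX1, hX2, hX3⟩ := hg.cell l
    refine ⟨X, hX1, ?_, ?_⟩
    · rw [hlist, ← List.map_take, prod_gauge_list _ _ hBB hBB']
      rw [← hBd] at hX2
      rw [Matrix.mul_assoc, ← hX2, ← Matrix.mul_assoc, hBB, Matrix.one_mul]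
    · have h4 : (fun a => x a l) = (dB Ξ)⁻¹ *ᵥ fun a => Ξ a (Fin.natAdd n l) := by
        rw [← hBd, hx]
        rfl
      rw [h4]
      exact hX3) (by
    have h4 := prod_refl (oneX x) (Υ * B)
    have h5 : 1 + oneX x * (dU (Υ * B * oneX x) * (Υ * B)) =
        B⁻¹ * (List.ofFn (dR Ξ Υ)).prod * B := by
      rw [← h4, ← prod_gauge_list _ _ hBB hBB', ← hlist]
      rfl
    rw [h5]
    refine hW.trans ⟨B⁻¹, Matrix.isUnit_nonsing_inv_iff.2
      ((Matrix.isUnit_iff_isUnit_det _).2 hB), ?_⟩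
    rw [Matrix.mul_assoc _ B, hBB', Matrix.mul_one])
  rw [h2] at h3
  exact h3

theorem continuous_upS {r : ℕ} : Continuous fun A : Mat r ℂ => upS A := by
  refine continuous_matrix fun i j => ?_
  simp only [upS_apply]
  split_ifs
  · exact continuous_id.matrix_elem i j
  · exact continuous_const

theorem continuous_dX {r : ℕ} (ζ : ℂ) : Continuous fun A : Mat r ℂ => dX ζ A := by
  refine continuous_matrix fun i j => ?_
  simp only [dX_apply]
  split_ifs
  · have h1 : Continuous fun A : Mat r ℂ => dU A := by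
      unfold dU
      exact (continuous_const.sub continuous_upS).matrix_adjugate
    exact h1.matrix_elem i j
  · exact continuous_const.mul (continuous_const.add (continuous_id.matrix_elem i j))

/-- Rational charts with integral points near every element of the cell without stable coordinate
subspace. -/
theorem dualD_near_aux {R : Type*} [CommRing R] (φ : R →+* ℂ) (hinj : Function.Injective φ)
    (hDN : DNear n e) (hn : 0 < n) (he : 0 < e)
    (hinf : (Set.range fun u : Rˣ => φ u).Infinite)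
    (J : Mat (n + e) ℂ) (ζ : Rˣ) (W0 : Mat n ℂ) (Y0 : Matrix (Fin e) (Fin n) ℂ)
    (h : DualCls (φ ζ) J W0 Y0) (hT : TotD φ W0) (X : Mat (n + e) ℂ) (hX0 : ∀ i, X i i ≠ 0)
    (hX : CjM J (zZ X)) (hI : ∀ I : Finset (Fin (n + e)), I.Nonempty → I ≠ Finset.univ →
      ∃ i, i ∉ I ∧ ∃ j ∈ I, zZ X i j ≠ 0) (N : Set (Mat (n + e) ℂ)) (hN : N ∈ nhds X) :
    ∃ X' ∈ N, (∀ i, X' i i = X i i) ∧ CjM J (zZ X') ∧ DualD φ J X' := by
  obtain ⟨Ξ, Υ, hXd, hW, hΥ, hΞ⟩ := h.exists_dual X hX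
  rw [hXd] at hI
  have hne := dual_ne (φ ζ) Ξ Υ (by omega) hI
  have hirr := dual_irred (φ ζ) Ξ Υ hΥ hΞ hI
  have hζ : φ ζ ≠ 0 := h.zeta
  have hdiag : ∀ i, (Υ * Ξ) i i = Υ i ⬝ᵥ fun a => Ξ a i := fun i => rfl
  have hκ : ∀ i, 1 + Υ i ⬝ᵥ (fun a => Ξ a i) ≠ 0 := by
    intro i h0
    apply hX0 i
    rw [hXd, dX_diag, hdiag, h0, mul_zero]
  obtain ⟨Λ, hΛ⟩ := exists_left_inv Υ hΥ
  have hc1 : Continuous fun z : Matrix (Fin n) (Fin (n + e)) ℂ × Matrix (Fin (n + e)) (Fin n) ℂ =>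
      dX (φ ζ) (z.2 * z.1) := (continuous_dX (φ ζ)).comp (continuous_snd.matrix_mul continuous_fst)
  have hc2 : Continuous fun z : Matrix (Fin n) (Fin (n + e)) ℂ × Matrix (Fin (n + e)) (Fin n) ℂ =>
      (Λ * z.2).det := (continuous_const.matrix_mul continuous_snd).matrix_det
  have hN1 : (fun z : Matrix (Fin n) (Fin (n + e)) ℂ × Matrix (Fin (n + e)) (Fin n) ℂ =>
      dX (φ ζ) (z.2 * z.1)) ⁻¹' N ∈ nhds (Ξ, Υ) := by
    refine hc1.continuousAt.preimage_mem_nhds ?_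
    simp only
    rw [← hXd]
    exact hN
  have hN2 : (fun z : Matrix (Fin n) (Fin (n + e)) ℂ × Matrix (Fin (n + e)) (Fin n) ℂ =>
      (Λ * z.2).det) ⁻¹' {0}ᶜ ∈ nhds (Ξ, Υ) := by
    refine hc2.continuousAt.preimage_mem_nhds (isOpen_compl_singleton.mem_nhds ?_)
    rw [Set.mem_compl_iff, Set.mem_singleton_iff]
    simp only
    rw [hΛ, Matrix.det_one]
    exact one_ne_zero
  obtain ⟨z, hzN, hzg, hzd, hzW⟩ := hDN Ξ Υ (fun i => (hne i).1) (fun i => (hne i).2) hκ hirr _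
    (Filter.inter_mem hN1 hN2)
  have hz2 : ∀ v, z.2 *ᵥ v = 0 → v = 0 := by
    intro v hv
    have h3 : (Λ * z.2) *ᵥ v = 0 := by
      rw [← Matrix.mulVec_mulVec, hv, Matrix.mulVec_zero]
    exact Matrix.eq_zero_of_mulVec_eq_zero hzN.2 h3
  have hWz : P002G.Cj W0 (List.ofFn (dR z.1 z.2)).prod := by
    rw [← hW, ← prod_refl]
    exact hzW
  have hκz : ∀ i, 1 + z.2 i ⬝ᵥ (fun a => z.1 a i) ≠ 0 := fun i => by rw [hzd]; exact hκ i
  refine ⟨dX (φ ζ) (z.2 * z.1), hzN.1, fun i => ?_, ?_, ?_⟩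
  · rw [hXd, dX_diag, dX_diag, hdiag]
    congr 2
    exact hzd i
  · refine h.cj_dX z.1 z.2 hz2 (isUnit_iff_ne_zero.2 hzg.basis) ?_
    rw [← prod_refl]
    exact hWz
  · exact dualD_good φ hinj hn he hinf J ζ W0 Y0 h hT z.1 z.2 hz2 hκz hzg hWz

/-- Rational charts with integral points near every element of the cell without stable coordinate
subspace. -/
theorem dualD_near {R : Type*} [CommRing R] (φ : R →+* ℂ) (hinj : Function.Injective φ)
    (hDN : ∀ n e : ℕ, 0 < n → 0 < e → DNear n e) {r : ℕ}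
    (u : Rˣ) (hu : ∀ k : ℕ, 0 < k → φ u ^ k ≠ 1) (J : Mat r ℂ) (hJu : IsUnit J)
    (hJ : ∀ z, J.charpoly.IsRoot z → ∃ e : Rˣ, φ e = z) (hns : ∀ μ : ℂ, J ≠ μ • 1)
    (X : Mat r ℂ) (hX0 : ∀ i, X i i ≠ 0)
    (hX : CjM J (zZ X)) (hI : ∀ I : Finset (Fin r), I.Nonempty → I ≠ Finset.univ →
      ∃ i, i ∉ I ∧ ∃ j ∈ I, zZ X i j ≠ 0) (N : Set (Mat r ℂ)) (hN : N ∈ nhds X) :
    ∃ X' ∈ N, (∀ i, X' i i = X i i) ∧ CjM J (zZ X') ∧ DualD φ J X' := by
  have hr : 0 < r := by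
    rcases Nat.eq_zero_or_pos r with h | h
    · subst h
      exact absurd (Subsingleton.elim _ _) (hns 1)
    · exact h
  have hinf : (Set.range fun u : Rˣ => φ u).Infinite := by
    refine Set.infinite_of_injective_forall_mem (f := fun k : ℕ => φ u ^ k) ?_ ?_
    · intro a b hab
      by_contra hne
      simp only at hab
      have h0 : φ u ≠ 0 := (u.isUnit.map φ).ne_zero
      rcases lt_or_gt_of_ne hne with h | h
      · apply hu (b - a) (by omega)
        have h1 : φ u ^ b = φ u ^ a * φ u ^ (b - a) := by rw [← pow_add]; congr 1; omega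
        rw [h1] at hab
        exact (mul_left_cancel₀ (pow_ne_zero a h0) (by rw [mul_one]; exact hab)).symm
      · apply hu (a - b) (by omega)
        have h1 : φ u ^ a = φ u ^ b * φ u ^ (a - b) := by rw [← pow_add]; congr 1; omega
        rw [h1] at hab
        exact mul_left_cancel₀ (pow_ne_zero b h0) (by rw [mul_one]; exact hab)
    · intro k
      exact ⟨u ^ k, by simp only [Units.val_pow_eq_pow_val, map_pow]⟩
  obtain ⟨ζ, hζ⟩ := IsAlgClosed.exists_root J.charpoly (by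
    rw [Matrix.charpoly_degree_eq_dim, Fintype.card_fin]
    exact_mod_cast hr.ne')
  obtain ⟨z, hz⟩ := hJ ζ hζ
  have hζ0 : ζ ≠ 0 := by rw [← hz]; exact (z.isUnit.map φ).ne_zero
  obtain ⟨p, hp⟩ : ∃ p, Module.finrank ℂ (LinearMap.ker (J - ζ • 1).mulVecLin) = p := ⟨_, rfl⟩
  have hp0 : 0 < p := by
    rw [← hp]
    apply Module.finrank_pos_iff_exists_ne_zero.2
    obtain ⟨v, hv0, hv⟩ := Matrix.exists_mulVec_eq_zero_iff.2 ((P002G.isRoot_iff J ζ).1 hζ)
    exact ⟨⟨v, by rw [LinearMap.mem_ker, Matrix.mulVecLin_apply]; exact hv⟩,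
      fun h => hv0 (congrArg Subtype.val h)⟩
  have hpn : p < r := by
    refine lt_of_le_of_ne ?_ ?_
    · rw [← hp]
      refine (Submodule.finrank_le _).trans ?_
      rw [Module.finrank_fin_fun]
    · intro h
      apply hns ζ
      rw [h] at hp
      have h1 : LinearMap.ker (J - ζ • 1).mulVecLin = ⊤ := by
        apply Submodule.eq_top_of_finrank_eq
        rw [hp, Module.finrank_fin_fun]
      have h2 : (J - ζ • 1).mulVecLin = 0 := LinearMap.ker_eq_top.1 h1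
      have h3 : J - ζ • 1 = 0 := by
        ext i j
        have h4 := congrFun (LinearMap.congr_fun h2 (Pi.single j 1)) i
        rw [Matrix.mulVecLin_apply, Matrix.mulVec_single_one] at h4
        exact h4
      exact sub_eq_zero.1 h3
  obtain ⟨m, rfl⟩ : ∃ m, r = m + p := ⟨r - p, by omega⟩
  obtain ⟨W0, Y0, h⟩ := exists_dualCls hζ0 J hp
  have hT : TotD φ W0 := P002G.totD φ u hu W0 (h.isUnit hJu) (h.root φ hz hJ)
  subst hz
  exact dualD_near_aux φ hinj (hDN m p (by omega) hp0) (by omega) hp0 hinf J z W0 Y0 h hT X hX0 hX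
    hI N hN

end Vale.Agent.P002R
end

section

/-!
# P002, genus 0, dual chart: the prefix products of a generic tuple of reflections lie in the cell
-/

namespace Vale.Agent.P002R

open Matrix Module Vale.Agent.P002

section good

variable {n N m : ℕ} {c : Fin N → P002R.Mat n ℂ} {ξ w : Fin N → Fin n → ℂ}

/-- the matrix with the first `n` vectors as columns -/
def bM (hN : n ≤ N) (ξ : Fin N → Fin n → ℂ) : P002R.Mat n ℂ :=
  Matrix.of fun a i => ξ (Fin.castLE hN i) a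

/-- extension of a vector by zero -/
def extv (N : ℕ) (u : Fin n → ℂ) (l : Fin N) : ℂ := if h : l.val < n then u ⟨l, h⟩ else 0

theorem extv_castLE (hN : n ≤ N) (u : Fin n → ℂ) (i : Fin n) :
    extv N u (Fin.castLE hN i) = u i := by
  rw [extv, dif_pos (by simp)]
  rfl

theorem extv_ne {u : Fin n → ℂ} {l : Fin N} (h : extv N u l ≠ 0) : l.val < n := by
  by_contra h'
  exact h (by rw [extv, dif_neg h'])

theorem bM_mulVec (hN : n ≤ N) (ξ : Fin N → Fin n → ℂ) (u : Fin n → ℂ) :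
    bM hN ξ *ᵥ u = ∑ l, extv N u l • ξ l := by
  have h1 : bM hN ξ *ᵥ u = ∑ i : Fin n, u i • ξ (Fin.castLE hN i) := by
    funext a
    simp only [Matrix.mulVec, dotProduct, bM, Matrix.of_apply, Finset.sum_apply, Pi.smul_apply,
      smul_eq_mul]
    exact Finset.sum_congr rfl fun i _ => mul_comm _ _
  rw [h1, ← Finset.sum_subset (Finset.subset_univ (Finset.univ.map (Fin.castLEEmb hN)))]
  · rw [Finset.sum_map]
    refine Finset.sum_congr rfl fun i _ => ?_
    rw [Fin.coe_castLEEmb, extv_castLE]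
  · intro l _ hl
    have : extv N u l = 0 := by
      by_contra h
      apply hl
      rw [Finset.mem_map]
      exact ⟨⟨l, extv_ne h⟩, Finset.mem_univ _, Fin.ext rfl⟩
    rw [this, zero_smul]

theorem vecMul_bM (hN : n ≤ N) (ξ : Fin N → Fin n → ℂ) (y : Fin n → ℂ) (i : Fin n) :
    (y ᵥ* bM hN ξ) i = y ⬝ᵥ ξ (Fin.castLE hN i) := rfl

/-- (G1) -/
theorem RP.det_bM (h : RP m c ξ w) (hN : n ≤ N) (hmN : m < N) (hnm : n < m) :
    (bM hN ξ).det ≠ 0 := by
  intro hdet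
  obtain ⟨u, hu, hBu⟩ := Matrix.exists_mulVec_eq_zero_iff.2 hdet
  obtain ⟨y, hy, hyB⟩ := Matrix.exists_vecMul_eq_zero_iff.2 hdet
  have h1 := h.indep hmN n hnm (extv N u) y hy (by rw [← bM_mulVec hN, hBu])
    (fun i hi => extv_ne hi) (fun i hi => by
      have := congrFun hyB ⟨i, hi⟩
      rw [vecMul_bM] at this
      exact this)
  apply hu
  funext i
  rw [← extv_castLE hN u i, h1]
  rfl

/-- a vector in the span of the vectors with indices at least `k` plus one further vector -/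
theorem RP.corner (h : RP m c ξ w) (hN : n ≤ N) (hmN : m < N) (j : ℕ) (hnj : n ≤ j) (hjm : j ≤ m)
    (k : Fin n) (q : Fin N) (hq : q.val < j) (hqk : q.val = k.val ∨ n ≤ q.val)
    (g t : Fin n → ℂ) (r : ℂ) (y : Fin n → ℂ)
    (hg : ∀ i, g i ≠ 0 → i < k) (ht : ∀ i, t i ≠ 0 → k < i)
    (hrel : bM hN ξ *ᵥ g + pre c j *ᵥ (r • ξ q + bM hN ξ *ᵥ t) = 0)
    (hy1 : ∀ i, i < k → (y ᵥ* bM hN ξ) i = 0)
    (hy2 : ∀ i, k < i → (y ᵥ* (pre c j * bM hN ξ)) i = 0)
    (hy3 : y ⬝ᵥ (pre c j *ᵥ ξ q) = 0) (hyk : (y ᵥ* bM hN ξ) k ≠ 0) : r = 0 := by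
  have hkN : k.val < N := lt_of_lt_of_le k.isLt hN
  obtain ⟨β, hβ⟩ : ∃ β : Fin N → ℂ, ∀ l, β l = extv N t l + (Pi.single q r : Fin N → ℂ) l :=
    ⟨_, fun _ => rfl⟩
  have hβsum : ∑ l, β l • ξ l = r • ξ q + bM hN ξ *ᵥ t := by
    rw [bM_mulVec, add_comm]
    simp only [hβ, add_smul, Finset.sum_add_distrib]
    congr 1
    rw [Finset.sum_eq_single q]
    · rw [Pi.single_eq_same]
    · intro l _ hl
      rw [Pi.single_eq_of_ne hl, zero_smul]
    · intro h; exact absurd (Finset.mem_univ _) h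
  have hξB : ∀ i : Fin N, ∀ hi : i.val < n, ξ i = bM hN ξ *ᵥ Pi.single ⟨i, hi⟩ 1 := by
    intro i hi
    rw [Matrix.mulVec_single_one]
    rfl
  have hβz := h.beta_eq_zero j hjm hmN.le ⟨k, hkN⟩ (lt_of_lt_of_le k.isLt hnj) (extv N g) β y
    (by rw [← bM_mulVec hN, hβsum]; exact hrel)
    (fun i hi => by
      have h1 := extv_ne hi
      rw [extv, dif_pos h1] at hi
      have h2 := hg _ hi
      refine ⟨h2, ?_⟩
      have h3 := hy1 ⟨i, h1⟩ h2
      rwa [vecMul_bM] at h3)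
    (fun i hi => by
      by_cases hiq : i = q
      · subst hiq
        refine ⟨⟨?_, hq⟩, hy3⟩
        rcases hqk with h1 | h1
        · exact h1.ge
        · exact k.isLt.le.trans h1
      · rw [hβ, Pi.single_eq_of_ne hiq, add_zero] at hi
        have h1 := extv_ne hi
        rw [extv, dif_pos h1] at hi
        have h2 := ht _ hi
        refine ⟨⟨(Fin.lt_def.1 h2).le, h1.trans_le hnj⟩, ?_⟩
        have h3 := hy2 ⟨i, h1⟩ h2
        rw [← h3, hξB i h1, Matrix.mulVec_mulVec, Matrix.dotProduct_mulVec,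
          dotProduct_single_one])
    (by rw [vecMul_bM] at hyk; exact hyk)
  have h1 := hβ q
  rw [hβz, Pi.single_eq_same] at h1
  have h2 : extv N t q = 0 := by
    by_contra h'
    have h3 := extv_ne h'
    rw [extv, dif_pos h3] at h'
    have h4 := Fin.lt_def.1 (ht _ h')
    rcases hqk with h5 | h5
    · simp only at h4
      omega
    · omega
  rw [h2, zero_add] at h1
  exact h1.symm

/-- singular corners -/
theorem corner_iff (M : P002R.Mat n ℂ) (k : ℕ) :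
    (M.submatrix (fun i : {i : Fin n // k ≤ (i : ℕ)} => (i : Fin n))
      (fun i : {i : Fin n // k ≤ (i : ℕ)} => (i : Fin n))).det = 0 ↔
    ∃ v : Fin n → ℂ, v ≠ 0 ∧ (∀ i : Fin n, (i : ℕ) < k → v i = 0) ∧
      ∀ i : Fin n, k ≤ (i : ℕ) → (M *ᵥ v) i = 0 := by
  have hsum : ∀ (F : Fin n → ℂ), (∀ i : Fin n, (i : ℕ) < k → F i = 0) →
      ∑ i, F i = ∑ i : {i : Fin n // k ≤ (i : ℕ)}, F i := by
    intro F hF
    rw [← Fintype.sum_subtype_add_sum_subtype (fun i : Fin n => k ≤ (i : ℕ)) F,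
      add_eq_left]
    refine Finset.sum_eq_zero fun i _ => hF i ?_
    have := i.2
    omega
  rw [← Matrix.exists_mulVec_eq_zero_iff]
  constructor
  · rintro ⟨v, hv0, hv⟩
    obtain ⟨v', hv'⟩ : ∃ v' : Fin n → ℂ, ∀ i, v' i = if h : k ≤ (i : ℕ) then v ⟨i, h⟩ else 0 :=
      ⟨_, fun _ => rfl⟩
    have h0 : ∀ i : Fin n, (i : ℕ) < k → v' i = 0 := fun i hi => by
      rw [hv', dif_neg (by omega)]
    refine ⟨v', ?_, h0, fun i hi => ?_⟩
    · intro h
      apply hv0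
      funext i
      have h1 := hv' i
      rw [h, dif_pos i.2] at h1
      exact h1.symm
    · have h1 := congrFun hv ⟨i, hi⟩
      simp only [Matrix.mulVec, dotProduct, Matrix.submatrix_apply, Pi.zero_apply] at h1 ⊢
      rw [hsum _ fun l hl => by rw [h0 l hl, mul_zero], ← h1]
      refine Finset.sum_congr rfl fun l _ => ?_
      rw [hv', dif_pos l.2]
  · rintro ⟨v, hv0, h0, hv⟩
    refine ⟨fun i => v i, ?_, ?_⟩
    · intro h
      apply hv0
      funext i
      by_cases hi : k ≤ (i : ℕ)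
      · exact congrFun h ⟨i, hi⟩
      · exact h0 i (by omega)
    · funext i
      have h1 := hv i i.2
      simp only [Matrix.mulVec, dotProduct, Matrix.submatrix_apply, Pi.zero_apply] at h1 ⊢
      rw [← h1, hsum _ fun l hl => by rw [h0 l hl, mul_zero]]

theorem corner_iff' (M : P002R.Mat n ℂ) (k : ℕ) :
    (M.submatrix (fun i : {i : Fin n // k ≤ (i : ℕ)} => (i : Fin n))
      (fun i : {i : Fin n // k ≤ (i : ℕ)} => (i : Fin n))).det = 0 ↔
    ∃ v : Fin n → ℂ, v ≠ 0 ∧ (∀ i : Fin n, (i : ℕ) < k → v i = 0) ∧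
      ∀ i : Fin n, k ≤ (i : ℕ) → (v ᵥ* M) i = 0 := by
  have h1 := corner_iff Mᵀ k
  rw [← Matrix.transpose_submatrix, Matrix.det_transpose] at h1
  simpa only [Matrix.mulVec_transpose] using h1

/-- (G2) -/
theorem RP.exists_cell (h : RP m c ξ w) (hN : n ≤ N) (hmN : m < N) (hnm : n < m) (j : ℕ)
    (hnj : n ≤ j) (hjm : j ≤ m) :
    ∃ X : P002R.Mat n ℂ, (bM hN ξ)⁻¹ * pre c j * bM hN ξ = zZ X ∧ ∀ i, X i i ≠ 0 := by
  obtain ⟨B, hB⟩ : ∃ B, B = bM hN ξ := ⟨_, rfl⟩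
  have hdet : IsUnit B.det := by rw [hB]; exact (h.det_bM hN hmN hnm).isUnit
  have hB1 : B * B⁻¹ = 1 := Matrix.mul_nonsing_inv _ hdet
  have hB2 : B⁻¹ * B = 1 := Matrix.nonsing_inv_mul _ hdet
  obtain ⟨M, hM⟩ : ∃ M, M = B⁻¹ * pre c j * B := ⟨_, rfl⟩
  have hBM : B * M = pre c j * B := by
    rw [hM, ← Matrix.mul_assoc, ← Matrix.mul_assoc, hB1, Matrix.one_mul]
  rw [← hB, ← hM]
  refine exists_UL M fun k hk => ?_
  induction hk using Nat.decreasingInduction with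
  | self =>
    have : IsEmpty {i : Fin n // n ≤ (i : ℕ)} := ⟨fun i => absurd i.1.isLt (not_lt.2 i.2)⟩
    rw [Matrix.det_isEmpty]
    exact one_ne_zero
  | of_succ k hk ih =>
    intro hd
    obtain ⟨v, hv0, hv1, hv2⟩ := (corner_iff M k).1 hd
    obtain ⟨z, hz0, hz1, hz2⟩ := (corner_iff' M k).1 hd
    have hvk : v ⟨k, hk⟩ ≠ 0 := by
      intro h0
      refine ih ((corner_iff M (k + 1)).2 ⟨v, hv0, fun i hi => ?_, fun i hi => hv2 i (by omega)⟩)
      rcases Nat.lt_succ_iff_lt_or_eq.1 hi with h | h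
      · exact hv1 i h
      · rw [show i = ⟨k, hk⟩ from Fin.ext h]; exact h0
    have hzk : z ⟨k, hk⟩ ≠ 0 := by
      intro h0
      refine ih ((corner_iff' M (k + 1)).2 ⟨z, hz0, fun i hi => ?_, fun i hi => hz2 i (by omega)⟩)
      rcases Nat.lt_succ_iff_lt_or_eq.1 hi with h | h
      · exact hz1 i h
      · rw [show i = ⟨k, hk⟩ from Fin.ext h]; exact h0
    have hyB : (z ᵥ* B⁻¹) ᵥ* B = z := by
      rw [Matrix.vecMul_vecMul, hB2, Matrix.vecMul_one]
    have hyP : (z ᵥ* B⁻¹) ᵥ* (pre c j * B) = z ᵥ* M := by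
      rw [Matrix.vecMul_vecMul, hM, ← Matrix.mul_assoc]
    have hkN : k < N := lt_of_lt_of_le hk hN
    have hξk : ξ ⟨k, hkN⟩ = B *ᵥ Pi.single ⟨k, hk⟩ 1 := by
      rw [Matrix.mulVec_single_one, hB]
      rfl
    refine hvk (h.corner hN hmN j hnj hjm ⟨k, hk⟩ ⟨k, hkN⟩ (lt_of_lt_of_le hk hnj) (Or.inl rfl)
      (-(M *ᵥ v)) (v - Pi.single ⟨k, hk⟩ (v ⟨k, hk⟩)) _ (z ᵥ* B⁻¹) (fun i hi => ?_)
      (fun i hi => ?_) ?_ (fun i hi => ?_) (fun i hi => ?_) ?_ ?_)
    · by_contra h'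
      rw [Fin.lt_def, not_lt] at h'
      apply hi
      rw [Pi.neg_apply, hv2 i h', neg_zero]
    · by_contra h'
      rw [Fin.lt_def, not_lt] at h'
      apply hi
      rcases Nat.lt_or_eq_of_le h' with h'' | h''
      · rw [Pi.sub_apply, hv1 i h'', Pi.single_eq_of_ne, sub_zero]
        rintro rfl
        exact lt_irrefl _ h''
      · have : i = ⟨k, hk⟩ := Fin.ext h''
        rw [this, Pi.sub_apply, Pi.single_eq_same, sub_self]
    · have h1 : v ⟨k, hk⟩ • ξ ⟨k, hkN⟩ + bM hN ξ *ᵥ (v - Pi.single ⟨k, hk⟩ (v ⟨k, hk⟩)) =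
          B *ᵥ v := by
        rw [hξk, ← hB, ← Matrix.mulVec_smul, ← Matrix.mulVec_add]
        congr 1
        rw [← Pi.single_smul, smul_eq_mul, mul_one, add_sub_cancel]
      rw [h1, ← hB, Matrix.mulVec_neg, Matrix.mulVec_mulVec, hBM, Matrix.mulVec_mulVec,
        neg_add_cancel]
    · rw [← hB, hyB]
      exact hz1 i hi
    · rw [← hB, hyP]
      exact hz2 i (Fin.lt_def.1 hi).le
    · rw [hξk, Matrix.mulVec_mulVec, Matrix.dotProduct_mulVec, dotProduct_single_one, hyP]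
      exact hz2 _ le_rfl
    · rw [← hB, hyB]
      exact hzk

/-- (G3) -/
theorem RP.coord_ne (h : RP m c ξ w) (hN : n ≤ N) (hmN : m < N) (hnm : n < m) (j : ℕ)
    (hnj : n ≤ j) (hjm : j ≤ m) (q : Fin N) (hq : q.val < j) (hnq : n ≤ q.val)
    (X : P002R.Mat n ℂ) (hX : (bM hN ξ)⁻¹ * pre c j * bM hN ξ = zZ X) (hX0 : ∀ i, X i i ≠ 0)
    (k : Fin n) : (lL X *ᵥ ((bM hN ξ)⁻¹ *ᵥ ξ q)) k ≠ 0 := by
  intro hk
  obtain ⟨B, hB⟩ : ∃ B, B = bM hN ξ := ⟨_, rfl⟩
  have hdet : IsUnit B.det := by rw [hB]; exact (h.det_bM hN hmN hnm).isUnit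
  have hB1 : B * B⁻¹ = 1 := Matrix.mul_nonsing_inv _ hdet
  have hB2 : B⁻¹ * B = 1 := Matrix.nonsing_inv_mul _ hdet
  rw [← hB] at hX hk
  have hBM : B * zZ X = pre c j * B := by
    rw [← hX, ← Matrix.mul_assoc, ← Matrix.mul_assoc, hB1, Matrix.one_mul]
  obtain ⟨U, hU⟩ : ∃ U, U = uU X := ⟨_, rfl⟩
  obtain ⟨L, hL⟩ : ∃ L, L = lL X := ⟨_, rfl⟩
  have hUt : UpT U := hU ▸ upT_uU X
  have hUd : ∀ i, U i i ≠ 0 := fun i => by rw [hU, uU_diag]; exact one_ne_zero
  have hLt : LoT L := hL ▸ loT_lL X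
  have hLd : ∀ i, L i i ≠ 0 := fun i => by rw [hL, lL_diag]; exact hX0 i
  have hUdet : IsUnit U.det := by
    rw [hUt.det, isUnit_iff_ne_zero, Finset.prod_ne_zero_iff]
    exact fun i _ => hUd i
  have hLdet : IsUnit L.det := by
    rw [hLt.det, isUnit_iff_ne_zero, Finset.prod_ne_zero_iff]
    exact fun i _ => hLd i
  have hZ : zZ X = U * L := by rw [zZ_eqn, hU, hL]
  have hU1 : U * U⁻¹ = 1 := Matrix.mul_nonsing_inv _ hUdet
  have hU2 : U⁻¹ * U = 1 := Matrix.nonsing_inv_mul _ hUdet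
  have hL1 : L * L⁻¹ = 1 := Matrix.mul_nonsing_inv _ hLdet
  rw [← hL] at hk
  obtain ⟨v, hv⟩ : ∃ v, v = B⁻¹ *ᵥ ξ q := ⟨_, rfl⟩
  obtain ⟨s, hs⟩ : ∃ s, s = L *ᵥ v := ⟨_, rfl⟩
  rw [← hv, ← hs] at hk
  -- the two parts of `s`
  obtain ⟨s₁, hs₁⟩ : ∃ s₁ : Fin n → ℂ, ∀ i, s₁ i = if i < k then s i else 0 := ⟨_, fun _ => rfl⟩
  obtain ⟨s₂, hs₂⟩ : ∃ s₂ : Fin n → ℂ, ∀ i, s₂ i = if k < i then s i else 0 := ⟨_, fun _ => rfl⟩
  have hs12 : s = s₁ + s₂ := by
    funext i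
    rw [Pi.add_apply, hs₁, hs₂]
    rcases lt_trichotomy i k with h1 | h1 | h1
    · rw [if_pos h1, if_neg h1.not_gt, add_zero]
    · rw [h1, hk]
      simp
    · rw [if_neg h1.not_gt, if_pos h1, zero_add]
  have hξ : ξ q = B *ᵥ v := by
    rw [hv, Matrix.mulVec_mulVec, hB1, Matrix.one_mulVec]
  obtain ⟨z, hz⟩ : ∃ z : Fin n → ℂ, z = (Pi.single k 1 : Fin n → ℂ) ᵥ* U⁻¹ := ⟨_, rfl⟩
  have hzi : ∀ i, z i = U⁻¹ k i := fun i => by
    rw [hz, Matrix.single_one_vecMul]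
    rfl
  have hzM : z ᵥ* zZ X = fun i => L k i := by
    rw [hz, hZ, Matrix.vecMul_vecMul, ← Matrix.mul_assoc, hU2, Matrix.one_mul,
      Matrix.single_one_vecMul]
    rfl
  have hyB : (z ᵥ* B⁻¹) ᵥ* B = z := by
    rw [Matrix.vecMul_vecMul, hB2, Matrix.vecMul_one]
  have hyP : (z ᵥ* B⁻¹) ᵥ* (pre c j * B) = z ᵥ* zZ X := by
    rw [Matrix.vecMul_vecMul, ← hBM, ← Matrix.mul_assoc, hB2, Matrix.one_mul]
  have hone := h.corner hN hmN j hnj hjm k q hq (Or.inr hnq) (-(U *ᵥ s₁)) (-(L⁻¹ *ᵥ s₂)) 1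
    (z ᵥ* B⁻¹) (fun i hi => ?_) (fun i hi => ?_) ?_ (fun i hi => ?_) (fun i hi => ?_) ?_ ?_
  · exact one_ne_zero hone
  · by_contra h'
    rw [not_lt] at h'
    apply hi
    rw [Pi.neg_apply, Matrix.mulVec, dotProduct, Finset.sum_eq_zero, neg_zero]
    intro l _
    rcases lt_or_ge l i with h1 | h1
    · rw [hUt i l h1, zero_mul]
    · rw [hs₁, if_neg (not_lt.2 (h'.trans h1)), mul_zero]
  · by_contra h'
    rw [not_lt] at h'
    apply hi
    rw [Pi.neg_apply, Matrix.mulVec, dotProduct, Finset.sum_eq_zero, neg_zero]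
    intro l _
    rcases lt_or_ge i l with h1 | h1
    · rw [hLt.inv hLd i l h1, zero_mul]
    · rw [hs₂, if_neg (not_lt.2 (h1.trans h')), mul_zero]
  · rw [← hB, one_smul, hξ, Matrix.mulVec_neg, Matrix.mulVec_neg, ← sub_eq_add_neg,
      ← Matrix.mulVec_sub, Matrix.mulVec_mulVec (v - L⁻¹ *ᵥ s₂), ← hBM,
      ← Matrix.mulVec_mulVec (v - L⁻¹ *ᵥ s₂), neg_add_eq_zero]
    congr 1
    rw [hZ, ← Matrix.mulVec_mulVec]
    congr 1
    rw [Matrix.mulVec_sub, ← hs, Matrix.mulVec_mulVec, hL1, Matrix.one_mulVec, hs12,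
      add_sub_cancel_right]
  · rw [← hB, hyB, hzi]
    exact hUt.inv hUd k i hi
  · rw [← hB, hyP, hzM]
    exact hLt k i hi
  · rw [hξ, Matrix.mulVec_mulVec, Matrix.dotProduct_mulVec, hyP, hzM]
    have h1 : (fun i => L k i) ⬝ᵥ v = s k := by rw [hs]; rfl
    rw [h1, hk]
  · rw [← hB, hyB, hzi, inv_diag hUt hUd, hU, uU_diag, inv_one]
    exact one_ne_zero

end good

end Vale.Agent.P002R
end

section

/-!
# P002, genus 0, dual chart: existence of dual tuples in general position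
-/

namespace Vale.Agent.P002R

open Matrix Module Vale.Agent.P002

section rot

variable {r : ℕ} {ι : Type}

/-- Rotation of the relation. -/
theorem DL_rotateA (c x : ι → P002R.Mat r ℂ) (l₁ l₂ : List ι)
    (h : ((l₁ ++ l₂).map c).prod = 1) (hx : DL c x (l₂ ++ l₁) = 0) : DL c x (l₁ ++ l₂) = 0 := by
  rw [List.map_append, List.prod_append] at h
  rw [DL_append] at hx ⊢
  obtain ⟨P, hP⟩ : ∃ P, P = (l₁.map c).prod := ⟨_, rfl⟩
  obtain ⟨Q, hQ⟩ : ∃ Q, Q = (l₂.map c).prod := ⟨_, rfl⟩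
  rw [← hP, ← hQ] at h hx ⊢
  have h1 : P * (DL c x l₂ * P + Q * DL c x l₁) * Q = 0 := by
    rw [hx, Matrix.mul_zero, Matrix.zero_mul]
  calc DL c x l₁ * Q + P * DL c x l₂
      = (P * Q) * DL c x l₁ * Q + P * DL c x l₂ * (P * Q) := by
        rw [h, Matrix.one_mul, Matrix.mul_one]
    _ = P * (DL c x l₂ * P + Q * DL c x l₁) * Q := by noncomm_ring
    _ = 0 := h1

/-- Pairwise nonvanishing at a generic point. -/
theorem generic_pair {N n : ℕ} {K₀ : Subfield ℂ} {J Y : Fin N → P002R.Mat n ℂ}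
    (hJK : ∀ j a b, J j a b ∈ K₀) (hJ : ∀ j, IsUnit (J j)) (hY : ∀ j, IsUnit (Y j))
    (hrel : ((List.finRange N).map (cj J Y)).prod = 1)
    (hadj : Algebra.adjoin ℂ (Set.range (cj J Y)) = ⊤)
    (hgen : GenPt K₀ J (List.finRange N) Y) (b t : Fin N) (hbt : t ≠ b)
    (e ε : Fin n → ℂ) (he : ∀ i, e i ∈ K₀) (hε : ∀ i, ε i ∈ K₀) (he0 : e ≠ 0) (hε0 : ε ≠ 0) :
    ε ⬝ᵥ (((Y t)⁻¹ * Y b) *ᵥ e) ≠ 0 := by
  obtain ⟨p, s, hps⟩ := List.append_of_mem (List.mem_finRange b)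
  have hrel' : ((p ++ b :: s).map (cj J Y)).prod = 1 := by rw [← hps]; exact hrel
  have ht : t ∈ s ++ p := by
    have h1 := List.mem_finRange t
    rw [hps, List.mem_append, List.mem_cons] at h1
    rw [List.mem_append]
    rcases h1 with h1 | h1 | h1
    · exact Or.inr h1
    · exact absurd h1 hbt
    · exact Or.inl h1
  obtain ⟨l₂, l₃, hl⟩ := List.append_of_mem ht
  have hperm : (b :: (([] : List (Fin N)) ++ (l₂ ++ t :: l₃))).Perm (List.finRange N) := by
    rw [List.nil_append, ← hl, hps]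
    exact (List.perm_append_comm (l₁ := b :: s) (l₂ := p))
  have hrot : (b :: s) ++ p = b :: (([] : List (Fin N)) ++ (l₂ ++ t :: l₃)) := by
    rw [List.nil_append, ← hl, List.cons_append]
  have hgen' : GenPt K₀ J (b :: (([] : List (Fin N)) ++ (l₂ ++ t :: l₃))) Y := by
    intro x hx
    rw [← hrot] at hx
    exact hgen x (by rw [hps]; exact DL_rotateA _ x p (b :: s) hrel' hx)
  have hrel'' : ((b :: (([] : List (Fin N)) ++ (l₂ ++ t :: l₃))).map (cj J Y)).prod = 1 := by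
    rw [← hrot, List.map_append, List.prod_append]
    rw [List.map_append, List.prod_append] at hrel'
    exact mul_eq_one_comm.1 hrel'
  have h1 := generic_functional hJK hJ hY b t [] l₂ l₃ (hperm.nodup_iff.2 (List.nodup_finRange N))
    (fun j => hperm.mem_iff.2 (List.mem_finRange j)) hrel'' hadj hgen' e ε he hε he0 hε0
  rwa [List.map_nil, List.prod_nil, inv_one, Matrix.mul_one] at h1

end rot

section near

variable {n : ℕ}

/-- conjugate of a reflection -/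
theorem conj_refl {A : P002R.Mat n ℂ} (hA : IsUnit A) (ξ w : Fin n → ℂ) :
    A * (1 + vecMulVec ξ w) * A⁻¹ = 1 + vecMulVec (A *ᵥ ξ) (w ᵥ* A⁻¹) := by
  have hd : IsUnit A.det := (Matrix.isUnit_iff_isUnit_det _).1 hA
  rw [Matrix.mul_add, Matrix.mul_one, Matrix.add_mul, Matrix.mul_nonsing_inv _ hd,
    Matrix.mul_vecMulVec, Matrix.vecMulVec_mul]

theorem isUnit_refl {ξ w : Fin n → ℂ} (h : 1 + w ⬝ᵥ ξ ≠ 0) :
    IsUnit (1 + vecMulVec ξ w : P002R.Mat n ℂ) := by
  refine (Matrix.isUnit_iff_isUnit_det _).2 (isUnit_iff_ne_zero.2 ?_)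
  intro hd
  obtain ⟨v, hv0, hv⟩ := Matrix.exists_mulVec_eq_zero_iff.2 hd
  rw [Matrix.add_mulVec, Matrix.one_mulVec, Matrix.vecMulVec_mulVec, op_smul_eq_smul] at hv
  have h1 : (1 + w ⬝ᵥ ξ) * (w ⬝ᵥ v) = 0 := by
    have := congrArg (fun u => w ⬝ᵥ u) hv
    simp only [dotProduct_add, dotProduct_smul, smul_eq_mul, dotProduct_zero] at this
    linear_combination this
  rcases mul_eq_zero.1 h1 with h2 | h2
  · exact h h2
  · rw [h2, zero_smul, add_zero] at hv
    exact hv0 hv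

theorem pre_ofFn {M : ℕ} (c : Fin (M + 1) → P002R.Mat n ℂ) (j : ℕ) (hj : j ≤ M) :
    pre c j = ((List.ofFn fun i : Fin M => c i.castSucc).take j).prod := by
  rw [pre, List.finRange_succ_last, List.take_append_of_le_length (by simpa using hj),
    List.ofFn_eq_map, ← List.map_take, List.map_map, List.map_take]
  rfl

/-- continuity of the inverse -/
theorem continuousAt_inv_one : ContinuousAt (fun A : P002R.Mat n ℂ => A⁻¹) 1 := by
  have h1 : (fun A : P002R.Mat n ℂ => A⁻¹) = fun A : P002R.Mat n ℂ => (A.det)⁻¹ • A.adjugate := by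
    funext A
    rw [Matrix.inv_def, Ring.inverse_eq_inv']
  rw [h1]
  have h2 : Continuous fun A : P002R.Mat n ℂ => A.det := Continuous.matrix_det continuous_id
  have h3 : Continuous fun A : P002R.Mat n ℂ => A.adjugate :=
    Continuous.matrix_adjugate continuous_id
  have h4 : (1 : P002R.Mat n ℂ).det ≠ 0 := by rw [Matrix.det_one]; exact one_ne_zero
  exact (h2.continuousAt.inv₀ h4).smul h3.continuousAt

/-- Generic position near an irreducible dual tuple. -/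
theorem dNear {n e : ℕ} (hn : 0 < n) (he : 0 < e) : DNear n e := by
  intro Ξ Υ hΞ hΥ hu hirr V hV
  -- the tuple
  obtain ⟨W, hW⟩ : ∃ W, W = (List.ofFn (dR Ξ Υ)).prod := ⟨_, rfl⟩
  obtain ⟨ξ0, hξ0⟩ : ∃ ξ0 : Fin (n + e + 1) → Fin n → ℂ, ∀ i : Fin (n + e),
      ξ0 i.castSucc = fun a => Ξ a i := by
    exact ⟨fun i => if h : i.val < n + e then fun a => Ξ a ⟨i.val, h⟩ else 0,
      fun i => dif_pos i.isLt⟩
  obtain ⟨w0, hw0⟩ : ∃ w0 : Fin (n + e + 1) → Fin n → ℂ, ∀ i : Fin (n + e),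
      w0 i.castSucc = Υ i := by
    exact ⟨fun i => if h : i.val < n + e then Υ ⟨i.val, h⟩ else 0, fun i => dif_pos i.isLt⟩
  obtain ⟨J, hJ1, hJ2⟩ : ∃ J : Fin (n + e + 1) → P002R.Mat n ℂ,
      (∀ i : Fin (n + e), J i.castSucc = 1 + vecMulVec (ξ0 i.castSucc) (w0 i.castSucc)) ∧
      J (Fin.last _) = W⁻¹ := by
    exact ⟨fun i => if i.val < n + e then 1 + vecMulVec (ξ0 i) (w0 i) else W⁻¹,
      fun i => if_pos i.isLt, if_neg (lt_irrefl _)⟩
  have hJR : ∀ i : Fin (n + e), J i.castSucc = dR Ξ Υ i := fun i => by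
    rw [hJ1, hξ0, hw0]
    rfl
  have hRu : ∀ i, IsUnit (dR Ξ Υ i) := fun i => isUnit_refl (hu i)
  have hWu : IsUnit W := by
    rw [hW]
    refine List.prod_isUnit fun m hm => ?_
    rw [List.mem_ofFn] at hm
    obtain ⟨i, rfl⟩ := hm
    exact hRu i
  have hWd : IsUnit W.det := (Matrix.isUnit_iff_isUnit_det _).1 hWu
  have hJu : ∀ j, IsUnit (J j) := by
    intro j
    refine Fin.lastCases ?_ (fun i => ?_) j
    · rw [hJ2]; exact Matrix.isUnit_nonsing_inv_iff.2 hWu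
    · rw [hJR]; exact hRu i
  have hJrel : ((List.finRange (n + e + 1)).map J).prod = 1 := by
    rw [List.finRange_succ_last, List.map_append, List.prod_append, List.map_map,
      List.map_singleton, List.prod_singleton, hJ2]
    have h1 : (List.finRange (n + e)).map (J ∘ Fin.castSucc) = List.ofFn (dR Ξ Υ) := by
      rw [List.ofFn_eq_map]
      refine List.map_congr_left fun i _ => ?_
      exact hJR i
    rw [h1, ← hW, Matrix.mul_nonsing_inv _ hWd]
  have hcj1 : cj J (fun _ => 1) = J := by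
    funext j
    rw [cj_apply, inv_one, Matrix.one_mul, Matrix.mul_one]
  have hadj : Algebra.adjoin ℂ (Set.range J) = ⊤ := by
    obtain ⟨x, hx⟩ : ∃ x : FreeGroup (Fin (n + e + 1)) →* (P002R.Mat n ℂ)ˣ,
        ∀ j, (x (FreeGroup.of j) : P002R.Mat n ℂ) = J j :=
      ⟨FreeGroup.lift fun j => (hJu j).unit, fun j => by rw [FreeGroup.lift_apply_of]; rfl⟩
    have h1 := adjoin_gen_eq_top x (adjoin_top_of_simple hn x fun H hH =>
      hirr H fun i v hv => by
        rw [← hJR, ← hx]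
        exact hH _ v hv)
    have h2 : (fun j => (x (FreeGroup.of j) : P002R.Mat n ℂ)) = J := funext hx
    rwa [h2] at h1
  -- the field
  obtain ⟨K₀, hK₀, hsub⟩ := exists_countable_subfield'
    ((Set.range fun p : Fin (n + e + 1) × Fin n × Fin n => J p.1 p.2.1 p.2.2) ∪
      ((Set.range fun p : Fin (n + e + 1) × Fin n => ξ0 p.1 p.2) ∪
        Set.range fun p : Fin (n + e + 1) × Fin n => w0 p.1 p.2))
    ((Set.countable_range _).union ((Set.countable_range _).union (Set.countable_range _)))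
  have hJK : ∀ j a b, J j a b ∈ K₀ := fun j a b => hsub (Or.inl ⟨(j, a, b), rfl⟩)
  have hξK : ∀ j a, ξ0 j a ∈ K₀ := fun j a => hsub (Or.inr (Or.inl ⟨(j, a), rfl⟩))
  have hwK : ∀ j a, w0 j a ∈ K₀ := fun j a => hsub (Or.inr (Or.inr ⟨(j, a), rfl⟩))
  -- the map
  obtain ⟨F, hF⟩ : ∃ F : (Fin (n + e + 1) → P002R.Mat n ℂ) →
      Matrix (Fin n) (Fin (n + e)) ℂ × Matrix (Fin (n + e)) (Fin n) ℂ, ∀ Y, F Y =
      (Matrix.of fun a i => (Y (Fin.castSucc i) *ᵥ ξ0 i.castSucc) a,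
        Matrix.of fun i => w0 i.castSucc ᵥ* (Y (Fin.castSucc i))⁻¹) := ⟨_, fun _ => rfl⟩
  have hF1 : F (fun _ => 1) = (Ξ, Υ) := by
    rw [hF]
    refine Prod.ext ?_ ?_
    · ext a i
      simp only [Matrix.of_apply, Matrix.one_mulVec, hξ0]
    · ext i a
      simp only [Matrix.of_apply, inv_one, Matrix.vecMul_one, hw0]
  have hFc : ContinuousAt F (fun _ => 1) := by
    have h0 : F = fun Y => (Matrix.of fun a i => (Y (Fin.castSucc i) *ᵥ ξ0 i.castSucc) a,
        Matrix.of fun i => w0 i.castSucc ᵥ* (Y (Fin.castSucc i))⁻¹) := funext hF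
    rw [h0]
    refine ContinuousAt.prodMk ?_ ?_
    · refine continuousAt_pi.2 fun a => continuousAt_pi.2 fun i => ?_
      show ContinuousAt (fun Y : Fin (n + e + 1) → P002R.Mat n ℂ =>
        (Y (Fin.castSucc i) *ᵥ ξ0 i.castSucc) a) _
      have h1 : Continuous fun Y : Fin (n + e + 1) → P002R.Mat n ℂ => Y (Fin.castSucc i) :=
        continuous_apply _
      have h2 : Continuous fun Y : Fin (n + e + 1) → P002R.Mat n ℂ =>
          Y (Fin.castSucc i) *ᵥ ξ0 i.castSucc := Continuous.matrix_mulVec h1 continuous_const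
      exact ((continuous_apply a).comp h2).continuousAt
    · refine continuousAt_pi.2 fun i => ?_
      show ContinuousAt (fun Y : Fin (n + e + 1) → P002R.Mat n ℂ =>
        w0 i.castSucc ᵥ* (Y (Fin.castSucc i))⁻¹) _
      have h1 : ContinuousAt (fun Y : Fin (n + e + 1) → P002R.Mat n ℂ =>
          (Y (Fin.castSucc i))⁻¹) (fun _ => 1) := by
        have h2 : ContinuousAt (fun Y : Fin (n + e + 1) → P002R.Mat n ℂ => Y (Fin.castSucc i))
          (fun _ => 1) := (continuous_apply _).continuousAt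
        exact ContinuousAt.comp (f := fun Y : Fin (n + e + 1) → P002R.Mat n ℂ =>
          Y (Fin.castSucc i)) (g := fun A : P002R.Mat n ℂ => A⁻¹) continuousAt_inv_one h2
      have h3 : Continuous fun A : P002R.Mat n ℂ => w0 i.castSucc ᵥ* A :=
        Continuous.matrix_vecMul continuous_const continuous_id
      exact ContinuousAt.comp (g := fun A : P002R.Mat n ℂ => w0 i.castSucc ᵥ* A)
        h3.continuousAt h1
  have hpre : F ⁻¹' V ∈ nhds (fun _ => 1 : Fin (n + e + 1) → P002R.Mat n ℂ) := by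
    refine hFc ?_
    rw [hF1]
    exact hV
  obtain ⟨Y, hYV, hYu, hYrel, hYadj, hgen⟩ := generic_point hn (List.finRange (n + e + 1))
    (List.nodup_finRange _) (fun j => List.mem_finRange j) K₀ hK₀ J hJK (fun _ => 1)
    (fun _ => isUnit_one) (by rw [hcj1]; exact hJrel) (by rw [hcj1]; exact hadj) _ hpre
  have hYd : ∀ j, IsUnit (Y j).det := fun j => (Matrix.isUnit_iff_isUnit_det _).1 (hYu j)
  obtain ⟨ξ, hξ⟩ : ∃ ξ : Fin (n + e + 1) → Fin n → ℂ, ∀ i, ξ i = Y i *ᵥ ξ0 i := ⟨_, fun _ => rfl⟩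
  obtain ⟨w, hw⟩ : ∃ w : Fin (n + e + 1) → Fin n → ℂ, ∀ i, w i = w0 i ᵥ* (Y i)⁻¹ :=
    ⟨_, fun _ => rfl⟩
  have hlt : ∀ i : Fin (n + e + 1), i.val < n + e → ∃ i' : Fin (n + e), i = i'.castSucc :=
    fun i hi => ⟨⟨i, hi⟩, Fin.ext rfl⟩
  have hwξ : ∀ i, w i ⬝ᵥ ξ i = w0 i ⬝ᵥ ξ0 i := by
    intro i
    rw [hw, hξ, Matrix.dotProduct_mulVec, Matrix.vecMul_vecMul, Matrix.nonsing_inv_mul _ (hYd i),
      Matrix.vecMul_one]
  have hRP : RP (n + e) (cj J Y) ξ w := by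
    refine ⟨hYrel, fun H hH => eq_bot_or_top_of_adjoin (cj J Y) hYadj H hH, fun i hi => ?_,
      fun i hi => ?_, fun i hi => ?_, fun i hi => ?_, fun i l hi hl hil => ?_,
      fun j hj α β y hv hα hβ => ?_⟩
    · obtain ⟨i', rfl⟩ := hlt i hi
      rw [cj_apply, hJ1, conj_refl (hYu _), hξ, hw]
    · obtain ⟨i', rfl⟩ := hlt i hi
      intro h0
      apply hΞ i'
      rw [← hξ0, ← Matrix.one_mulVec (ξ0 i'.castSucc), ← Matrix.nonsing_inv_mul _ (hYd _),
        ← Matrix.mulVec_mulVec, ← hξ, h0, Matrix.mulVec_zero]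
    · obtain ⟨i', rfl⟩ := hlt i hi
      intro h0
      apply hΥ i'
      rw [← hw0, ← Matrix.vecMul_one (w0 i'.castSucc), ← Matrix.nonsing_inv_mul _ (hYd _),
        ← Matrix.vecMul_vecMul, ← hw, h0, Matrix.zero_vecMul]
    · obtain ⟨i', rfl⟩ := hlt i hi
      rw [hwξ, hξ0, hw0]
      exact hu i'
    · obtain ⟨i', rfl⟩ := hlt i hi
      obtain ⟨l', rfl⟩ := hlt l hl
      have h1 := generic_pair hJK hJu hYu hYrel hYadj hgen l'.castSucc i'.castSucc hil
        (ξ0 l'.castSucc) (w0 i'.castSucc) (hξK _) (hwK _) (by rw [hξ0]; exact hΞ l')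
        (by rw [hw0]; exact hΥ i')
      rwa [← Matrix.mulVec_mulVec, Matrix.dotProduct_mulVec, ← hξ, ← hw] at h1
    · have hξ' : ξ = fun i => Y i *ᵥ ξ0 i := funext hξ
      subst hξ'
      obtain ⟨Λ, h1, h2, h3, -⟩ := dual_eqs hYrel (fun i => Y i *ᵥ ξ0 i) α β y j hj
        (fun i hi => (hα i hi).1) (fun i hi => (hβ i hi).1)
        (generic_rel hJK hYu hgen ξ0 hξK j α β y hv (fun i hi => (hα i hi).2)
          fun i hi => (hβ i hi).2)
      exact ⟨Λ, h1, h2, h3⟩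
  -- conclusions
  have hN : n ≤ n + e + 1 := by omega
  have hz1 : ∀ i : Fin (n + e), (fun a => (F Y).1 a i) = ξ i.castSucc := by
    intro i
    rw [hF, hξ]
    rfl
  have hz2 : ∀ i : Fin (n + e), (F Y).2 i = w i.castSucc := by
    intro i
    rw [hF, hw]
    rfl
  have hdR : ∀ i : Fin (n + e), dR (F Y).1 (F Y).2 i = cj J Y i.castSucc := by
    intro i
    rw [hRP.refl _ (by simp), ← hz1, ← hz2]
    rfl
  have hdR' : dR (F Y).1 (F Y).2 = fun i : Fin (n + e) => cj J Y i.castSucc := funext hdR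
  have hdB : dB (F Y).1 = bM hN ξ := by
    ext a i
    have h1 := congrFun (hz1 (Fin.castAdd e i)) a
    exact h1
  refine ⟨F Y, hYV, ⟨?_, fun l => ?_⟩, fun i => ?_, ?_⟩
  · rw [hdB]
    exact hRP.det_bM hN (by omega) (by omega)
  · obtain ⟨X, hX, hX0⟩ := hRP.exists_cell hN (by omega) (by omega) (n + l + 1) (by omega)
      (by omega)
    refine ⟨X, hX0, ?_, fun i => ?_⟩
    · have hd : IsUnit (bM hN ξ).det := (hRP.det_bM hN (by omega) (by omega)).isUnit
      rw [hdB, hdR', ← pre_ofFn _ _ (by omega), ← hX, ← Matrix.mul_assoc, ← Matrix.mul_assoc,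
        Matrix.mul_nonsing_inv _ hd, Matrix.one_mul]
    · have h1 := hRP.coord_ne hN (by omega) (by omega) (n + l + 1) (by omega) (by omega)
        (Fin.natAdd n l).castSucc (by simp) (by simp) X hX hX0 i
      rw [hdB]
      have h2 := hz1 (Fin.natAdd n l)
      rw [h2]
      exact h1
  · rw [hz1, hz2, hwξ, hξ0, hw0]
  · refine ⟨Y (Fin.last _), hYu _, ?_⟩
    have h1 := hYrel
    rw [List.finRange_succ_last, List.map_append, List.prod_append, List.map_map,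
      List.map_singleton, List.prod_singleton, cj_apply, hJ2] at h1
    have h2 : (List.finRange (n + e)).map (cj J Y ∘ Fin.castSucc) =
        List.ofFn (dR (F Y).1 (F Y).2) := by
      rw [List.ofFn_eq_map, hdR']
      rfl
    rw [h2] at h1
    rw [← hW]
    obtain ⟨Q, hQ⟩ : ∃ Q, Q = (List.ofFn (dR (F Y).1 (F Y).2)).prod := ⟨_, rfl⟩
    obtain ⟨A, hA⟩ : ∃ A, A = Y (Fin.last (n + e)) := ⟨_, rfl⟩
    have hAd : IsUnit A.det := by rw [hA]; exact hYd _
    rw [← hQ, ← hA] at h1 ⊢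
    calc A * W = (Q * (A * W⁻¹ * A⁻¹)) * (A * W) := by rw [h1, Matrix.one_mul]
      _ = Q * A * (W⁻¹ * (A⁻¹ * A) * W) := by simp only [Matrix.mul_assoc]
      _ = Q * A := by
        rw [Matrix.nonsing_inv_mul _ hAd, Matrix.mul_one, Matrix.nonsing_inv_mul _ hWd,
          Matrix.mul_one]

end near

end Vale.Agent.P002R
end

section

/-!
# P002: duality, final form
-/

namespace Vale.Agent.P002R

open Matrix

/-- Rational charts with integral points near every element of the cell without stable coordinate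
subspace. -/
theorem dual_near {R : Type*} [CommRing R] (φ : R →+* ℂ) (hinj : Function.Injective φ)
    (u : Rˣ) (hu : ∀ k : ℕ, 0 < k → φ u ^ k ≠ 1) {r : ℕ} (J : Mat r ℂ) (hJu : IsUnit J)
    (hJ : EigU φ J) (hns : ∀ μ : ℂ, J ≠ μ • 1) :
    ∀ X : Mat r ℂ, (∀ i, X i i ≠ 0) → CjM J (zZ X) →
      (∀ I : Finset (Fin r), I.Nonempty → I ≠ Finset.univ →
        ∃ i, i ∉ I ∧ ∃ j ∈ I, zZ X i j ≠ 0) → ∀ N ∈ nhds X,
      ∃ X' ∈ N, (∀ i, X' i i = X i i) ∧ CjM J (zZ X') ∧ DualD φ J X' :=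
  fun X h0 h1 h2 N hN => dualD_near φ hinj (fun _ _ hn he => dNear hn he) u hu J hJu hJ hns X h0 h1
    h2 N hN

end Vale.Agent.P002R
end

section

/-!
# P002, genus 0: the main theorem for irreducible representations, two nonderogatory classes
-/

namespace Vale.Agent.P002R

theorem dualNear_of_eigIn {r : ℕ} {R : Type} [CommRing R] (φ : R →+* ℂ) (E : Subgroup ℂˣ)
    (hc : CoefOK φ E r) (hr : 0 < r) (J : (Mat r ℂ)ˣ) (hJ : EigIn E (J : Mat r ℂ))
    (hns : ∀ μ : ℂ, (J : Mat r ℂ) ≠ μ • (1 : Mat r ℂ)) : DualNear φ (J : Mat r ℂ) := by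
  obtain ⟨u, hu⟩ := hc.exists_free
  intro X h0 h1 h2 N hN
  refine dual_near φ hc.inj u hu (J : Mat r ℂ) J.isUnit (fun z hz => ?_) hns X h0 h1 h2 N hN
  obtain ⟨e, he, rfl⟩ := hJ z hz
  exact hc.exists_unit hr he

theorem g02Irr_of_a4 (hA4 : A4Core) : G02Irr := by
  intro m r hr R _ φ E hc _ C hE h0 hl x hx hirr f hf
  exact g02Irr_of (chartDensity3_of hA4)
    (fun φ E hc hr J hJ hns => dualNear_of_eigIn φ E hc hr J hJ hns) hr φ E hc C hE h0 hl x hx
    hirr f hf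

end Vale.Agent.P002R
end

section

/-!
# P002, genus 0, rank one classes: the virtual ends of a given tuple
-/

namespace Vale.Agent.P002R

open Matrix

variable {r : ℕ}

theorem eigU_of_diag {R : Type*} [CommRing R] {φ : R →+* ℂ} {M : Mat r ℂ}
    (h : M.charpoly = ∏ i, (Polynomial.X - Polynomial.C (M i i)))
    (hd : ∀ i, ∃ e : Rˣ, φ (e : R) = M i i) : EigU φ M := by
  intro z hz
  rw [h, Polynomial.IsRoot.def, Polynomial.eval_prod, Finset.prod_eq_zero_iff] at hz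
  obtain ⟨i, -, hi⟩ := hz
  rw [Polynomial.eval_sub, Polynomial.eval_X, Polynomial.eval_C, sub_eq_zero] at hi
  rw [hi]
  exact hd i

theorem cyc_of_upT {M : Mat r ℂ} (h : UpT M) (hd : Function.Injective fun i => M i i) :
    ∃ v, P002G.Cyc M v := by
  obtain ⟨P, hPu, hPd, hP⟩ := exists_diag_upT h fun i j hij =>
    isUnit_iff_ne_zero.2 (sub_ne_zero.2 fun h => hij (hd h))
  refine ⟨_, cyc_of_diag ?_ hP hd⟩
  rw [Matrix.isUnit_iff_isUnit_det, hPu.det, isUnit_iff_ne_zero, Finset.prod_ne_zero_iff]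
  exact fun i _ => by rw [hPd]; exact one_ne_zero

theorem cyc_of_loT {M : Mat r ℂ} (h : LoT M) (hd : Function.Injective fun i => M i i) :
    ∃ v, P002G.Cyc M v := by
  obtain ⟨P, hPu, hPd, hP⟩ := exists_diag_loT h fun i j hij =>
    isUnit_iff_ne_zero.2 (sub_ne_zero.2 fun h => hij (hd h))
  refine ⟨_, cyc_of_diag ?_ hP hd⟩
  rw [Matrix.isUnit_iff_isUnit_det, hPu.det, isUnit_iff_ne_zero, Finset.prod_ne_zero_iff]
  exact fun i _ => by rw [hPd]; exact one_ne_zero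

theorem two_pow_free {E : Subgroup ℂˣ} (U : ℂˣ) (hU : ∀ k : ℕ, 0 < k → U ^ k ∉ E)
    (I J : Finset (Fin r)) (h : ∃ ε ∈ E, ∏ i ∈ I, ((U ^ 2 ^ (i : ℕ) : ℂˣ) : ℂ) =
      (ε : ℂ) * ∏ j ∈ J, ((U ^ 2 ^ (j : ℕ) : ℂˣ) : ℂ)) : I = J := by
  obtain ⟨ε, hε, h⟩ := h
  rw [← Units.coe_prod, ← Units.coe_prod, ← Units.val_mul, Units.val_inj,
    Finset.prod_pow_eq_pow_sum, Finset.prod_pow_eq_pow_sum] at h
  apply sum_two_pow_inj
  by_contra hne
  rcases lt_or_gt_of_ne hne with h1 | h1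
  · refine hU (∑ i ∈ J, 2 ^ (i : ℕ) - ∑ i ∈ I, 2 ^ (i : ℕ)) (by omega) ?_
    have h2 : U ^ (∑ i ∈ J, 2 ^ (i : ℕ) - ∑ i ∈ I, 2 ^ (i : ℕ)) = ε⁻¹ := by
      rw [eq_comm, inv_eq_iff_mul_eq_one]
      have h3 : U ^ (∑ i ∈ I, 2 ^ (i : ℕ)) * (ε *
          U ^ (∑ i ∈ J, 2 ^ (i : ℕ) - ∑ i ∈ I, 2 ^ (i : ℕ))) =
          U ^ (∑ i ∈ I, 2 ^ (i : ℕ)) * 1 := by
        rw [mul_left_comm, ← pow_add, Nat.add_sub_cancel' h1.le, ← h, mul_one]
      exact mul_left_cancel h3
    rw [h2]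
    exact E.inv_mem hε
  · refine hU (∑ i ∈ I, 2 ^ (i : ℕ) - ∑ i ∈ J, 2 ^ (i : ℕ)) (by omega) ?_
    have h2 : U ^ (∑ i ∈ I, 2 ^ (i : ℕ) - ∑ i ∈ J, 2 ^ (i : ℕ)) = ε := by
      have h3 : U ^ (∑ i ∈ J, 2 ^ (i : ℕ)) *
          U ^ (∑ i ∈ I, 2 ^ (i : ℕ) - ∑ i ∈ J, 2 ^ (i : ℕ)) =
          U ^ (∑ i ∈ J, 2 ^ (i : ℕ)) * ε := by
        rw [← pow_add, Nat.add_sub_cancel' h1.le, h, mul_comm]
      exact mul_left_cancel h3
    rw [h2]
    exact hε

theorem dU_inv (T : Mat r ℂ) : (dU T)⁻¹ = 1 - upS T := Matrix.inv_eq_left_inv (mul_dU T)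

theorem lL_dX_sub {T : Mat r ℂ} {z : ℂ} (hz : z ≠ 0) :
    z⁻¹ • lL (dX z T) - (1 - upS T) = T := by
  rw [lL_dX, smul_smul, inv_mul_cancel₀ hz, one_smul]
  have h1 := upS_add_lL T
  calc 1 + lL T - (1 - upS T) = upS T + lL T := by abel
    _ = T := h1

/-- The product of the first classes. -/
theorem refl_pm {m : ℕ} (x : FU 0 (m + 1 + r) →* (Mat r ℂ)ˣ) (hx1 : x (relatorU 0 (m + 1 + r)) = 1)
    (s : Fin r → ℂ) (T : Mat r ℂ)
    (hS : ∀ i, (((x (FreeGroup.of (Sum.inr (Fin.natAdd (m + 1) (Fin.rev i)))))⁻¹ : (Mat r ℂ)ˣ) :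
      Mat r ℂ) = s i • (1 + vecMulVec (Pi.single i 1) (T i))) :
    (List.ofFn fun j : Fin (m + 1) => cseq x j).prod = dU T * lL (dX (∏ i, s i) T) := by
  have h1 := cseq_prod x hx1
  rw [List.ofFn_add, List.prod_append] at h1
  obtain ⟨Q, hQ⟩ : ∃ Q : Mat r ℂ, Q = (List.ofFn fun l : Fin r =>
    (x (FreeGroup.of (Sum.inr (Fin.natAdd (m + 1) l))) : Mat r ℂ)).prod := ⟨_, rfl⟩
  have h2 : (List.ofFn fun i : Fin r => cseq x (Fin.natAdd (m + 1) i : ℕ)).prod = Q := by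
    rw [hQ]
    congr 2
    funext l
    exact cseq_of x _
  obtain ⟨Pm, hPm⟩ : ∃ Pm : Mat r ℂ, Pm = (List.ofFn fun j : Fin (m + 1) => cseq x j).prod :=
    ⟨_, rfl⟩
  have h3 : (List.ofFn fun i : Fin (m + 1) =>
      cseq x (Fin.castLE (Nat.le_add_right (m + 1) r) i : ℕ)).prod = Pm := by
    rw [hPm]
    rfl
  rw [h2, h3] at h1
  have h4 := prod_mul_rev (fun i => s i • (1 + vecMulVec (Pi.single i 1) (T i) : Mat r ℂ))
    (fun i => (x (FreeGroup.of (Sum.inr (Fin.natAdd (m + 1) (Fin.rev i)))) : Mat r ℂ)) fun i => by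
      rw [← hS, Units.inv_mul]
  simp only [Fin.rev_rev] at h4
  rw [← hQ, prod_single_ofFn] at h4
  have h5 : Q * Pm = 1 := mul_eq_one_comm.1 h1
  rw [← hPm]
  calc Pm = ((∏ i, s i) • (1 + dU T * T) * Q) * Pm := by rw [h4, Matrix.one_mul]
    _ = (∏ i, s i) • (1 + dU T * T) * (Q * Pm) := by rw [Matrix.mul_assoc]
    _ = zZ (dX (∏ i, s i) T) := by rw [h5, Matrix.mul_one, zZ_dX]
    _ = _ := by rw [zZ, uU_dX]

theorem cSt_of_stable {W : Submodule ℂ (Fin r → ℂ)} {I : Finset (Fin r)}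
    (hI : ∀ v, v ∈ W ↔ ∀ i, i ∉ I → v i = 0) {M : Mat r ℂ} (hM : ∀ v ∈ W, M *ᵥ v ∈ W) :
    CSt I M := by
  intro i hi j hj
  have h1 : (Pi.single j 1 : Fin r → ℂ) ∈ W := by
    rw [hI]
    intro k hk
    have h1 : k ≠ j := fun h => hk (by rw [h]; exact hj)
    exact Pi.single_eq_of_ne h1 _
  have h2 := (hI _).1 (hM _ h1) i hi
  rwa [Matrix.mulVec_single_one] at h2

theorem stable_of_cSt {W : Submodule ℂ (Fin r → ℂ)} {I : Finset (Fin r)}
    (hI : ∀ v, v ∈ W ↔ ∀ i, i ∉ I → v i = 0) {M : Mat r ℂ} (hM : CSt I M) :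
    ∀ v ∈ W, M *ᵥ v ∈ W := by
  intro v hv
  rw [hI] at hv ⊢
  exact mulVec_mem_cSub (K := ℂ) hM hv

theorem refl_irr {m : ℕ} {E : Subgroup ℂˣ} (x : FU 0 (m + 1 + r) →* (Mat r ℂ)ˣ)
    (hx1 : x (relatorU 0 (m + 1 + r)) = 1)
    (hadj : Algebra.adjoin ℂ (Set.range fun w => (x w : Mat r ℂ)) = ⊤)
    (hEx : ∀ j : Fin (m + 1), EigIn E (cseq x j)) (s κ : Fin r → ℂˣ) (hsE : ∀ i, s i ∈ E)
    (hκE : ∀ i, κ i ∈ E) (T : Mat r ℂ) (hκ : ∀ i, (κ i : ℂ) = 1 + T i i)
    (hS : ∀ i, (((x (FreeGroup.of (Sum.inr (Fin.natAdd (m + 1) (Fin.rev i)))))⁻¹ : (Mat r ℂ)ˣ) :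
      Mat r ℂ) = (s i : ℂ) • (1 + vecMulVec (Pi.single i 1) (T i)))
    (Δ : Fin r → ℂ) (hΔ0 : ∀ i, Δ i ≠ 0)
    (hno : ∀ (I J : Finset (Fin r)), (∃ ε ∈ E, ∏ i ∈ I, Δ i = (ε : ℂ) * ∏ j ∈ J, Δ j) → I = J)
    (W : Submodule ℂ (Fin r → ℂ)) (hW0 : ∀ v ∈ W, (diagonal Δ * (1 - upS T)) *ᵥ v ∈ W)
    (hWl : ∀ j : Fin (m + 1), ∀ v ∈ W, cseq x j *ᵥ v ∈ W)
    (hW1 : ∀ v ∈ W, ((lL (dX (∏ i, (s i : ℂ)) T))⁻¹ * diagonal fun i => (Δ i)⁻¹) *ᵥ v ∈ W) :
    W = ⊥ ∨ W = ⊤ := by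
  obtain ⟨sP, hsP⟩ : ∃ sP : ℂˣ, sP = ∏ i, s i := ⟨_, rfl⟩
  have hsP' : ∏ i, (s i : ℂ) = sP := by rw [hsP, Units.coe_prod]
  obtain ⟨L, hL⟩ : ∃ L : Mat r ℂ, L = lL (dX (∏ i, (s i : ℂ)) T) := ⟨_, rfl⟩
  have hLl : LoT L := by rw [hL]; exact loT_lL _
  have hLd : ∀ i, L i i = sP * κ i := fun i => by
    rw [hL, lL_diag, dX_diag, hsP', hκ]
  have hL0 : ∀ i, L i i ≠ 0 := fun i => by
    rw [hLd]
    exact mul_ne_zero sP.ne_zero (κ i).ne_zero
  have hLdet : IsUnit L.det := by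
    rw [hLl.det, isUnit_iff_ne_zero, Finset.prod_ne_zero_iff]
    exact fun i _ => hL0 i
  have hpm := refl_pm x hx1 (fun i => (s i : ℂ)) T hS
  rw [← hL] at hW1 hpm
  obtain ⟨I, hI⟩ := exists_coord_of_stable (W := W) (E := E) (U := dU T) (L := L) (upT_dU T)
    (dU_diag T) hLl (fun i => ⟨sP * κ i, E.mul_mem (hsP ▸ E.prod_mem fun i _ => hsE i) (hκE i), by
      rw [hLd, Units.val_mul]⟩) Δ hΔ0 hno (List.ofFn fun j : Fin (m + 1) => cseq x j) hpm
    (fun M hM => by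
      obtain ⟨j, rfl⟩ := List.mem_ofFn.1 hM
      exact hEx j) (by rwa [dU_inv]) (fun M hM => by
      obtain ⟨j, rfl⟩ := List.mem_ofFn.1 hM
      exact hWl j) hW1
  have hdd : (diagonal fun i => (Δ i)⁻¹) * diagonal Δ = (1 : Mat r ℂ) := by
    rw [Matrix.diagonal_mul_diagonal, ← Matrix.diagonal_one]
    congr 1
    funext i
    exact inv_mul_cancel₀ (hΔ0 i)
  have c0 : CSt I (1 - upS T) := by
    have h1 := (cSt_diagonal I fun i => (Δ i)⁻¹).mul (cSt_of_stable hI hW0)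
    rwa [← Matrix.mul_assoc, hdd, Matrix.one_mul] at h1
  have c1 : CSt I L := by
    have h1 := (cSt_of_stable hI hW1).mul (cSt_diagonal I Δ)
    rw [Matrix.mul_assoc, hdd, Matrix.mul_one] at h1
    have h2 := h1.inv (by
      rw [Matrix.isUnit_nonsing_inv_det_iff]
      exact hLdet)
    rwa [Matrix.nonsing_inv_nonsing_inv _ hLdet] at h2
  have cT : CSt I T := by
    have h1 := (c1.smul (sP : ℂ)⁻¹).sub c0
    rw [hL, hsP', lL_dX_sub sP.ne_zero] at h1
    exact h1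
  have h6 := adjoin_gen_eq_top x hadj
  refine eq_bot_or_top_of_adjoin _ h6 W ?_
  rintro (k | j)
  · exact k.1.elim0
  · refine Fin.addCases (fun j => ?_) (fun l => ?_) j
    · intro v hv
      have h1 := hWl j v hv
      rwa [show cseq x (j : ℕ) = _ from cseq_of x (Fin.castAdd r j)] at h1
    · have h1 : CSt I (((x (FreeGroup.of (Sum.inr (Fin.natAdd (m + 1) (Fin.rev (Fin.rev l))))))⁻¹ :
          (Mat r ℂ)ˣ) : Mat r ℂ) := by
        rw [hS]
        exact (cT.refl _).smul _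
      rw [Fin.rev_rev] at h1
      have h2 := h1.inv (Matrix.isUnits_det_units _)
      rw [← Matrix.coe_units_inv, inv_inv] at h2
      exact stable_of_cSt hI h2

end Vale.Agent.P002R
end

section

/-!
# P002, genus 0, rank one classes: density in the chart
-/

namespace Vale.Agent.P002R

open Matrix

variable {r : ℕ}

theorem prod_split_ends (m : ℕ) (c : ℕ → Mat r ℂ) :
    (List.ofFn fun j : Fin (m + 3) => c j).prod =
      c 0 * (List.ofFn fun j : Fin (m + 1) => c (j + 1)).prod * c (m + 2) := by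
  rw [List.ofFn_succ, List.prod_cons, List.ofFn_succ', List.prod_concat, ← Matrix.mul_assoc]
  rfl

theorem diag_inv_mul {Δ : Fin r → ℂ} (hΔ : ∀ i, Δ i ≠ 0) :
    (diagonal fun i => (Δ i)⁻¹) * diagonal Δ = (1 : Mat r ℂ) := by
  rw [Matrix.diagonal_mul_diagonal, ← Matrix.diagonal_one]
  congr 1
  funext i
  exact inv_mul_cancel₀ (hΔ i)

/-- The virtual ends. -/
theorem virtual_ends {sP : ℂ} {κ Δ : Fin r → ℂ} {T : Mat r ℂ} (hsP : sP ≠ 0)
    (hκ : ∀ i, κ i = 1 + T i i) (hκ0 : ∀ i, κ i ≠ 0) (hΔ : ∀ i, Δ i ≠ 0) :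
    ∃ b0 b1 : Mat r ℂ, b0 = diagonal Δ * (1 - upS T) ∧
      b1 = (lL (dX sP T))⁻¹ * (diagonal fun i => (Δ i)⁻¹) ∧ UpT b0 ∧ (∀ i, b0 i i = Δ i) ∧
      LoT b1 ∧ (∀ i, b1 i i = (sP * κ i * Δ i)⁻¹) ∧ b0 * (dU T * lL (dX sP T)) * b1 = 1 ∧
      rT sP⁻¹ (∏ i, (sP * κ i * Δ i)) (fun i => (Δ i)⁻¹) b0 b1 = T := by
  obtain ⟨L, hL⟩ : ∃ L : Mat r ℂ, L = lL (dX sP T) := ⟨_, rfl⟩
  have hLl : LoT L := by rw [hL]; exact loT_lL _
  have hLd : ∀ i, L i i = sP * κ i := fun i => by rw [hL, lL_diag, dX_diag, hκ]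
  have hL0 : ∀ i, L i i ≠ 0 := fun i => by
    rw [hLd]
    exact mul_ne_zero hsP (hκ0 i)
  have hLdet : IsUnit L.det := by
    rw [hLl.det, isUnit_iff_ne_zero, Finset.prod_ne_zero_iff]
    exact fun i _ => hL0 i
  obtain ⟨D, hD⟩ : ∃ D : Mat r ℂ, D = diagonal Δ := ⟨_, rfl⟩
  obtain ⟨D', hD'⟩ : ∃ D' : Mat r ℂ, D' = diagonal fun i => (Δ i)⁻¹ := ⟨_, rfl⟩
  have hDD : D' * D = 1 := by rw [hD, hD']; exact diag_inv_mul hΔ
  have hDD' : D * D' = 1 := mul_eq_one_comm.1 hDD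
  obtain ⟨b0, hb0⟩ : ∃ b0 : Mat r ℂ, b0 = D * (1 - upS T) := ⟨_, rfl⟩
  obtain ⟨b1, hb1⟩ : ∃ b1 : Mat r ℂ, b1 = L⁻¹ * D' := ⟨_, rfl⟩
  have hb1l : LoT b1 := by
    rw [hb1, hD']
    exact (hLl.inv hL0).mul (loT_diagonal _)
  have hb1d : ∀ i, b1 i i = (sP * κ i * Δ i)⁻¹ := fun i => by
    rw [hb1, hD', (hLl.inv hL0).mul_diag (loT_diagonal _), Matrix.diagonal_apply_eq,
      LoT.inv_diag hLl hL0, hLd, ← mul_inv]
  refine ⟨b0, b1, by rw [hb0, hD], by rw [hb1, hD', hL], ?_, fun i => ?_, hb1l, hb1d, ?_, ?_⟩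
  · rw [hb0, hD]
    exact (upT_diagonal _).mul (upT_one_sub_upS T)
  · rw [hb0, hD, (upT_diagonal _).mul_diag (upT_one_sub_upS T), Matrix.diagonal_apply_eq,
      one_sub_upS_diag, mul_one]
  · rw [← hL, hb0, hb1]
    calc D * (1 - upS T) * (dU T * L) * (L⁻¹ * D')
        = D * ((1 - upS T) * dU T) * (L * L⁻¹) * D' := by simp only [Matrix.mul_assoc]
      _ = 1 := by
        rw [mul_dU, Matrix.mul_nonsing_inv _ hLdet, Matrix.mul_one, Matrix.mul_one, hDD']
  · have h1 : (∏ i, (sP * κ i * Δ i)) • b1.adjugate = D * L := by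
      have h2 : b1 * (D * L) = 1 := by
        rw [hb1, Matrix.mul_assoc, ← Matrix.mul_assoc D', hDD, Matrix.one_mul,
          Matrix.nonsing_inv_mul _ hLdet]
      have h3 : b1.det * (∏ i, (sP * κ i * Δ i)) = 1 := by
        rw [hb1l.det, ← Finset.prod_mul_distrib]
        refine Finset.prod_eq_one fun i _ => ?_
        rw [hb1d]
        exact inv_mul_cancel₀ (mul_ne_zero (mul_ne_zero hsP (hκ0 i)) (hΔ i))
      calc (∏ i, (sP * κ i * Δ i)) • b1.adjugate
          = ((∏ i, (sP * κ i * Δ i)) • b1.adjugate) * (b1 * (D * L)) := by rw [h2, Matrix.mul_one]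
        _ = ((∏ i, (sP * κ i * Δ i)) * b1.det) • (D * L) := by
          rw [← Matrix.mul_assoc, Matrix.smul_mul, Matrix.adjugate_mul, smul_smul,
            Matrix.smul_mul, Matrix.one_mul]
        _ = _ := by rw [mul_comm, h3, one_smul]
    rw [rT, h1, ← hD', ← Matrix.mul_assoc, hDD, Matrix.one_mul, hb0, ← Matrix.mul_assoc, hDD,
      Matrix.one_mul, hL, lL_dX_sub hsP]

theorem eq_rS {s : ℂ} (hs : s ≠ 0) (T : Mat r ℂ) (i : Fin r) (hκ : 1 + T i i ≠ 0) (U : (Mat r ℂ)ˣ)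
    (hU : ((U⁻¹ : (Mat r ℂ)ˣ) : Mat r ℂ) = s • (1 + vecMulVec (Pi.single i 1) (T i))) :
    (U : Mat r ℂ) = rS s⁻¹ (1 + T i i)⁻¹ (T i) i := by
  have h1 := rS_mul hs (T i) i hκ
  rw [← hU] at h1
  calc (U : Mat r ℂ) = (U : Mat r ℂ) * (((U⁻¹ : (Mat r ℂ)ˣ) : Mat r ℂ) *
        rS s⁻¹ (1 + T i i)⁻¹ (T i) i) := by rw [h1, Matrix.mul_one]
    _ = _ := by rw [← Matrix.mul_assoc, Units.mul_inv, Matrix.one_mul]

end Vale.Agent.P002R
end

section

/-!
# P002, genus 0, rank one classes: density in the chart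
-/

namespace Vale.Agent.P002R

open Matrix

variable {r : ℕ}

theorem refl_chart {R : Type} [CommRing R] (φ : R →+* ℂ) {E : Subgroup ℂˣ} {m : ℕ} (hr : 0 < r)
    (hc : CoefOK φ E r) (C : Fin (m + 1 + r) → (Mat r ℂ)ˣ) (hE : ∀ j, EigIn E (C j : Mat r ℂ))
    (hns : ∀ μ : ℂ, (C (Fin.castAdd r (Fin.last m)) : Mat r ℂ) ≠ μ • (1 : Mat r ℂ))
    (x : FU 0 (m + 1 + r) →* (Mat r ℂ)ˣ) (hx1 : x (relatorU 0 (m + 1 + r)) = 1)
    (hxC : ∀ j, IsConj (C j) (x (FreeGroup.of (Sum.inr j))))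
    (hadj : Algebra.adjoin ℂ (Set.range fun w => (x w : Mat r ℂ)) = ⊤)
    (s κ : Fin r → ℂˣ) (hsE : ∀ i, s i ∈ E) (hκE : ∀ i, κ i ∈ E) (T : Mat r ℂ)
    (hκ : ∀ i, (κ i : ℂ) = 1 + T i i)
    (hS : ∀ i, (((x (FreeGroup.of (Sum.inr (Fin.natAdd (m + 1) (Fin.rev i)))))⁻¹ : (Mat r ℂ)ˣ) :
      Mat r ℂ) = (s i : ℂ) • (1 + vecMulVec (Pi.single i 1) (T i)))
    (hT0 : ∀ i, T i ≠ 0)
    (hcell : ∀ k ≤ m + 1, ∃ X : Mat r ℂ, (∀ i, X i i ≠ 0) ∧
      (List.ofFn fun j : Fin k => cseq x j).prod = zZ X)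
    (f : MvPolynomial (GenU 0 (m + 1 + r) × Fin r × Fin r) ℂ)
    (hf : ∀ y : FU 0 (m + 1 + r) →* (Mat r ℂ)ˣ, y (relatorU 0 (m + 1 + r)) = 1 →
      (∀ j, IsConj (C j) (y (FreeGroup.of (Sum.inr j)))) →
      (∀ k, y (FreeGroup.of k) ∈ GR r φ) → evalG y f = 0) : evalG x f = 0 := by
  obtain ⟨u, hu⟩ := hc.unit
  obtain ⟨U, hU⟩ : ∃ U : ℂˣ, U = Units.map (φ : R →* ℂ) u := ⟨_, rfl⟩
  rw [← hU] at hu
  obtain ⟨Δ, hΔ⟩ : ∃ Δ : Fin r → ℂ, Δ = fun i : Fin r => ((U ^ 2 ^ (i : ℕ) : ℂˣ) : ℂ) := ⟨_, rfl⟩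
  have hΔR : ∀ i : Fin r, φ ((u ^ 2 ^ (i : ℕ) : Rˣ) : R) = Δ i := fun i => by
    simp only [hΔ, hU, Units.val_pow_eq_pow_val, map_pow]
    rfl
  have hΔ0 : ∀ i, Δ i ≠ 0 := fun i => by
    rw [hΔ]
    exact Units.ne_zero _
  have hno : ∀ (I J : Finset (Fin r)),
      (∃ ε ∈ E, ∏ i ∈ I, Δ i = (ε : ℂ) * ∏ j ∈ J, Δ j) → I = J := by
    rw [hΔ]
    exact two_pow_free U hu
  choose sR hsR using fun i => hc.exists_unit hr (hsE i)
  choose κR hκR using fun i => hc.exists_unit hr (hκE i)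
  have hs0 : ∀ i, (s i : ℂ) ≠ 0 := fun i => (s i).ne_zero
  have hκ0 : ∀ i, (κ i : ℂ) ≠ 0 := fun i => (κ i).ne_zero
  have hsP : ∏ l, (s l : ℂ) ≠ 0 := Finset.prod_ne_zero_iff.2 fun i _ => hs0 i
  obtain ⟨b0, b1, hb0, hb1, hb0u, hb0d, hb1l, hb1d, hbP, hbT⟩ := virtual_ends hsP hκ hκ0 hΔ0
  -- the tuple with virtual ends
  obtain ⟨v, hv⟩ : ∃ v : ℕ → Mat r ℂ, v = fun j => if j = 0 then b0 else if j = m + 2 then b1
    else cseq x (j - 1) := ⟨_, rfl⟩
  have hv0 : v 0 = b0 := by rw [hv]; rfl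
  have hvl : v (m + 2) = b1 := by
    rw [hv]
    simp
  have hvm : ∀ j < m + 1, v (j + 1) = cseq x j := by
    intro j hj
    rw [hv]
    simp only [Nat.succ_ne_zero, if_false]
    rw [if_neg (by omega), Nat.add_sub_cancel]
  have hvm' : (List.ofFn fun j : Fin (m + 1) => v (j + 1)) =
      List.ofFn fun j : Fin (m + 1) => cseq x j := by
    congr 1
    funext j
    exact hvm j j.2
  have hvprod : (List.ofFn fun j : Fin (m + 3) => v j).prod = 1 := by
    rw [prod_split_ends, hv0, hvl, hvm', refl_pm x hx1 (fun i => (s i : ℂ)) T hS, hbP]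
  obtain ⟨x', hx'1, hx'2⟩ := exists_hom (m + 3) (fun j : Fin (m + 3) => v j) hvprod
  have hcx' : ∀ j, j < m + 3 → cseq x' j = v j := fun j hj =>
    (cseq_of x' ⟨j, hj⟩).trans (hx'2 ⟨j, hj⟩)
  have hc0 : cseq x' 0 = b0 := (hcx' 0 (by omega)).trans hv0
  have hcl : cseq x' (m + 2) = b1 := (hcx' (m + 2) (by omega)).trans hvl
  have hcm : ∀ j < m + 1, cseq x' (j + 1) = cseq x j := fun j hj =>
    (hcx' (j + 1) (by omega)).trans (hvm j hj)
  have hEx : ∀ j : Fin (m + 1), EigIn E (cseq x j) := by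
    intro j
    rw [show cseq x (j : ℕ) = _ from cseq_of x (Fin.castAdd r j)]
    exact (hE _).conj (hxC _)
  have hCx : ∀ j : Fin (m + 1), CjM (C (Fin.castAdd r j) : Mat r ℂ) (cseq x j) := by
    intro j
    rw [show cseq x (j : ℕ) = _ from cseq_of x (Fin.castAdd r j)]
    exact cjM_of_isConj (hxC _)
  have hinj : Function.Injective Δ := by
    intro i j hij
    have h1 := hno {i} {j} ⟨1, E.one_mem, by
      rw [Finset.prod_singleton, Finset.prod_singleton, hij, Units.val_one, one_mul]⟩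
    exact Finset.singleton_inj.1 h1
  have hinj1 : Function.Injective fun i => b1 i i := by
    intro i j hij
    simp only [hb1d] at hij
    have h1 := inv_injective hij
    have h2 := hno {i} {j} ⟨(κ i)⁻¹ * κ j, E.mul_mem (E.inv_mem (hκE i)) (hκE j), by
      rw [Finset.prod_singleton, Finset.prod_singleton, Units.val_mul, Units.val_inv_eq_inv_val,
        mul_assoc]
      rw [mul_assoc, mul_assoc] at h1
      rw [← mul_left_cancel₀ hsP h1, ← mul_assoc, inv_mul_cancel₀ (hκ0 i), one_mul]⟩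
    exact Finset.singleton_inj.1 h2
  -- the polynomial
  have hβ : ∀ i, ∃ b, T i b ≠ 0 := fun i => by
    obtain ⟨b, hb⟩ := Function.ne_iff.1 (hT0 i)
    exact ⟨b, hb⟩
  choose β hβ using hβ
  obtain ⟨F, hF⟩ := exists_rtup_poly (m := m) (∏ l, (s l : ℂ))⁻¹
    (∏ i, ((∏ l, (s l : ℂ)) * (κ i : ℂ) * Δ i)) (fun i => (Δ i)⁻¹) (fun i => (s i : ℂ)⁻¹)
    (fun i => (κ i : ℂ)⁻¹) β f
  have hmain : evalG x' F = 0 := by
    refine chart_density3 (fun Y hY0 k₁ h1 h2 N hN => a4core Y hY0 k₁ h1 h2 N hN) φ hc.inj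
      (fun j => x' (FreeGroup.of (Sum.inr j))) (fun j => ?_) (fun j hj1 hj2 => ?_) ?_ ?_ ?_ ?_ x'
      hx'1 (fun j => IsConj.refl _) ?_ ?_ ?_ ?_ F fun y cR hy1 hy2 hy3 hy4 hy5 hy6 hy7 hy8 => ?_
    · rw [← cseq_of]
      rcases Nat.eq_zero_or_pos (j : ℕ) with h | h
      · rw [h, hc0]
        exact eigU_of_diag (charpoly_upT hb0u) fun i => ⟨u ^ 2 ^ (i : ℕ), by rw [hΔR, hb0d]⟩
      · by_cases h' : (j : ℕ) = m + 2
        · rw [h', hcl]
          refine eigU_of_diag (charpoly_loT hb1l) fun i =>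
            ⟨((∏ l, sR l) * κR i * u ^ 2 ^ (i : ℕ))⁻¹, ?_⟩
          rw [map_units_inv, hb1d, Units.val_mul, Units.val_mul, map_mul, map_mul, hΔR,
            Units.coe_prod, map_prod, hκR]
          simp only [hsR]
        · have h2 := j.2
          rw [show (j : ℕ) = ((j : ℕ) - 1) + 1 by omega, hcm _ (by omega)]
          intro z hz
          obtain ⟨e, he, rfl⟩ := hEx ⟨(j : ℕ) - 1, by omega⟩ z hz
          exact hc.exists_unit hr he
    · refine totD_of_eigIn hc hr _ ?_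
      rw [← cseq_of, show (j : ℕ) = ((j : ℕ) - 1) + 1 by omega, hcm _ (by omega)]
      exact hEx ⟨(j : ℕ) - 1, by omega⟩
    · rw [← cseq_of]
      exact (congrArg (fun M : Mat r ℂ => ∃ v, P002G.Cyc M v) hc0).mpr
        (cyc_of_upT hb0u (by simpa only [hb0d] using hinj))
    · rw [← cseq_of]
      exact (congrArg (fun M : Mat r ℂ => ∃ v, P002G.Cyc M v) hcl).mpr
        (cyc_of_loT hb1l hinj1)
    · intro μ hμ
      rw [← cseq_of] at hμ
      have h2 : cseq x' (m + 1) = cseq x m := hcm m (Nat.lt_succ_self m)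
      exact (hCx (Fin.last m)).nonscalar hns μ (h2.symm.trans hμ)
    · refine dualNear_of_eigIn φ E hc hr _ ?_ fun μ hμ => ?_
      · rw [← cseq_of]
        have h2 : cseq x' (m + 1) = cseq x m := hcm m (Nat.lt_succ_self m)
        exact (congrArg (EigIn E) h2).mpr (hEx (Fin.last m))
      · rw [← cseq_of] at hμ
        have h2 : cseq x' (m + 1) = cseq x m := hcm m (Nat.lt_succ_self m)
        exact (hCx (Fin.last m)).nonscalar hns μ (h2.symm.trans hμ)
    · rw [hc0]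
      exact hb0u
    · rw [hcl]
      exact hb1l
    · intro k hk
      obtain ⟨X, hX1, hX2⟩ := hcell k hk
      refine ⟨X, ?_, hX1⟩
      rw [← hX2]
      congr 2
      funext j
      exact hcm j (lt_of_lt_of_le j.2 hk)
    · intro W hW
      refine refl_irr x hx1 hadj hEx s κ hsE hκE T hκ hS Δ hΔ0 hno W ?_ (fun j => ?_) ?_
      · intro v hv
        have h2 := hW 0 v hv
        rw [← cseq_of] at h2
        rw [← hb0, ← hc0]
        exact h2
      · intro v hv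
        have h2 := hW ⟨j + 1, by omega⟩ v hv
        rw [← cseq_of] at h2
        rw [← hcm j j.2]
        exact h2
      · intro v hv
        have h2 := hW (Fin.last (m + 2)) v hv
        rw [← cseq_of] at h2
        rw [← hb1, ← hcl]
        exact h2
    · rw [hF]
      by_cases hz : ∏ i, rT (∏ l, (s l : ℂ))⁻¹ (∏ i, ((∏ l, (s l : ℂ)) * (κ i : ℂ) * Δ i))
          (fun i => (Δ i)⁻¹) (cseq y 0) (cseq y (m + 2)) i (β i) = 0
      · rw [hz, mul_zero]
      · have hz' := Finset.prod_ne_zero_iff.1 hz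
        obtain ⟨z, hz1, hz2, hz3, hz4⟩ := refl_back hr hc C hE sR κR (fun i => u ^ 2 ^ (i : ℕ)) T
          (fun i => by rw [hκR, hκ]) hT0 (fun i => by
            rw [hsR, hκR, hκ]
            rw [← eq_rS (hs0 i) T i (by rw [← hκ]; exact hκ0 i) _ (hS i)]
            exact cjM_of_isConj (hxC _)) y cR hy1 (fun j => by
            have h2 : CjM (cseq x' (j + 1)) (cseq y (j + 1)) := by
              have h3 := cjM_of_isConj (hy2 ⟨j + 1, by omega⟩)
              rw [← cseq_of, ← cseq_of] at h3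
              exact h3
            rw [hcm j j.2] at h2
            exact (hCx j).trans h2) hy3 hy5 hy6 (fun i => by rw [hy7, hc0, hb0d, hΔR])
          (fun i => by
            rw [hy8, hcl, hb1d, hκR, hΔR]
            simp only [hsR]) fun i => by
            simp only [hsR, hκR, hΔR]
            intro h2
            exact hz' i (Finset.mem_univ i) (by rw [h2, Pi.zero_apply])
        have h2 := hf z hz1 hz2 hz3
        rw [evalG_eq_evalT z _ hz4] at h2
        simp only [hsR, hκR, hΔR] at h2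
        rw [h2, zero_mul]
  rw [hF, hc0, hcl, hbT] at hmain
  have h1 := (mul_eq_zero.1 hmain).resolve_right (Finset.prod_ne_zero_iff.2 fun i _ => hβ i)
  rw [evalG_eq_evalT x _ fun j => ?_]
  · exact h1
  refine Fin.addCases (fun j => ?_) (fun l => ?_) j
  · have h2 : rtup m (∏ l, (s l : ℂ))⁻¹ (∏ i, ((∏ l, (s l : ℂ)) * (κ i : ℂ) * Δ i))
        (fun i => (Δ i)⁻¹) (fun i => (s i : ℂ)⁻¹) (fun i => (κ i : ℂ)⁻¹) (cseq x')
        (Fin.castAdd r j : ℕ) = cseq x' (j + 1) := rtup_lt _ _ _ _ _ _ j.2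
    rw [h2, hcm j j.2]
    exact (cseq_of x (Fin.castAdd r j)).symm
  · have h2 := rtup_ge m (∏ l, (s l : ℂ))⁻¹ (∏ i, ((∏ l, (s l : ℂ)) * (κ i : ℂ) * Δ i))
      (fun i => (Δ i)⁻¹) (fun i => (s i : ℂ)⁻¹) (fun i => (κ i : ℂ)⁻¹) (cseq x') (Fin.rev l)
    have h3 := eq_rS (hs0 (Fin.rev l)) T (Fin.rev l) (by rw [← hκ]; exact hκ0 _) _ (hS (Fin.rev l))
    rw [hc0, hcl, hbT] at h2
    rw [← hκ] at h3
    rw [Fin.rev_rev] at h2 h3
    rw [h3]
    exact h2.symm

end Vale.Agent.P002R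
end

section

/-!
# P002, genus 0: generic position of tuples with at least as many reflections as the rank
-/

namespace Vale.Agent.P002R

open Matrix Module Vale.Agent.P002

section key

variable {n N m : ℕ} {c : Fin N → P002R.Mat n ℂ} {ξ w : Fin N → Fin n → ℂ}

/-- Downward step, for prefixes which contain all the reflections. -/
theorem RP.beta_eq_zero' (h : RP m c ξ w) (j : ℕ) (hmj : m ≤ j) (hjN : j ≤ N) (k : Fin N)
    (hk : k.val < m) (α β : Fin N → ℂ) (y : Fin n → ℂ)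
    (hv : ∑ i, α i • ξ i + pre c j *ᵥ ∑ i, β i • ξ i = 0)
    (hα : ∀ i, α i ≠ 0 → i.val < k.val ∧ y ⬝ᵥ ξ i = 0)
    (hβ : ∀ i, β i ≠ 0 → (k.val ≤ i.val ∧ i.val < m) ∧ y ⬝ᵥ (pre c j *ᵥ ξ i) = 0)
    (hyk : y ⬝ᵥ ξ k ≠ 0) : β = 0 := by
  obtain ⟨Λ, hΛP, -, hΛ⟩ := h.key j hjN α β y hv
    (fun i hi => ⟨((hα i hi).1.trans hk).trans_le hmj, (hα i hi).2⟩)
    (fun i hi => ⟨(hβ i hi).1.2.trans_le hmj, (hβ i hi).2⟩)
  have hαk : ∀ i : Fin N, k.val ≤ i.val → α i = 0 := by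
    intro i hi
    by_contra h'
    exact absurd (hα i h').1 (by omega)
  -- the equations for `i < m` when `β` vanishes before `i`
  have hE : ∀ i : Fin N, k.val ≤ i.val → i.val < m → (∀ l : Fin N, l.val < i.val → β l = 0) →
      ∃ γ : ℂ, Λ *ᵥ ξ i = γ • ξ i ∧
        w i ᵥ* Λ = γ • w i + (1 + w i ⬝ᵥ ξ i) • β i • (y ᵥ* pre c j) := by
    intro i hki him hl
    have h1 := hΛ i (him.trans_le hmj)
    have h2 := dG_succ Λ (pre c j *ᵥ ∑ i, β i • ξ i) y (y ᵥ* pre c j) ξ α β i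
    rw [hαk i hki, zero_smul, zero_add] at h2
    have h3 : dG Λ (pre c j *ᵥ ∑ i, β i • ξ i) y (y ᵥ* pre c j) ξ α β i = Λ :=
      dG_eq Λ y _ hv i (fun l hl' => lt_of_lt_of_le (hα l hl').1 hki) hl
    rw [h3] at h1 h2
    exact refl_eq (h.refl i him) (h.xi_ne i him) (h.w_ne i him) h1 h2
  obtain ⟨z, hz⟩ : ∃ z, pre c j *ᵥ z = ξ k := by
    refine ⟨suf c j *ᵥ ξ k, ?_⟩
    rw [Matrix.mulVec_mulVec, pre_mul_suf h.rel, Matrix.one_mulVec]
  have hηz : (y ᵥ* pre c j) ⬝ᵥ z ≠ 0 := by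
    rwa [← Matrix.dotProduct_mulVec, hz]
  have hβlt : ∀ i : Fin N, i.val < k.val → β i = 0 := by
    intro i hi
    by_contra h'
    exact absurd (hβ i h').1.1 (by omega)
  obtain ⟨γ, hγ1, hγ2⟩ := hE k le_rfl hk hβlt
  have hΛz : Λ *ᵥ z = γ • z := by
    have h1 : pre c j *ᵥ (Λ *ᵥ z) = pre c j *ᵥ (γ • z) := by
      rw [Matrix.mulVec_mulVec, ← hΛP, ← Matrix.mulVec_mulVec, hz, hγ1, Matrix.mulVec_smul, hz]
    have h2 : ∀ v : Fin n → ℂ, suf c j *ᵥ (pre c j *ᵥ v) = v := fun v => by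
      rw [Matrix.mulVec_mulVec, suf_mul_pre h.rel, Matrix.one_mulVec]
    rw [← h2 (Λ *ᵥ z), h1, h2]
  -- conclusion for one index
  have hC : ∀ i : Fin N, i.val < m → w i ᵥ* Λ = γ • w i +
      (1 + w i ⬝ᵥ ξ i) • β i • (y ᵥ* pre c j) → β i = 0 := by
    intro i him hi
    have h1 : (w i ᵥ* Λ) ⬝ᵥ z = γ * (w i ⬝ᵥ z) := by
      rw [← Matrix.dotProduct_mulVec, hΛz, dotProduct_smul, smul_eq_mul]
    rw [hi, add_dotProduct, smul_dotProduct, smul_dotProduct, smul_dotProduct, smul_eq_mul,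
      smul_eq_mul, smul_eq_mul] at h1
    have h2 : (1 + w i ⬝ᵥ ξ i) * (β i * ((y ᵥ* pre c j) ⬝ᵥ z)) = 0 := by
      linear_combination h1
    rcases mul_eq_zero.1 h2 with h3 | h3
    · exact absurd h3 (h.unit i him)
    · rcases mul_eq_zero.1 h3 with h4 | h4
      · exact h4
      · exact absurd h4 hηz
  have hβk : β k = 0 := hC k hk hγ2
  have hwk : w k ᵥ* Λ = γ • w k := by
    rw [hγ2, hβk, zero_smul, smul_zero, add_zero]
  have hmain : ∀ s : ℕ, ∀ i : Fin N, i.val = s → β i = 0 := by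
    intro s
    induction s using Nat.strong_induction_on with
    | _ s ih =>
      rintro i rfl
      by_contra hne
      obtain ⟨⟨hki, him⟩, -⟩ := hβ i hne
      have hik : k ≠ i := by
        rintro rfl
        exact hne hβk
      obtain ⟨γ', h1, h2⟩ := hE i hki him fun l hl => ih l hl l rfl
      have h3 : γ' = γ := by
        have h4 : (w k ᵥ* Λ) ⬝ᵥ ξ i = w k ⬝ᵥ (Λ *ᵥ ξ i) := (Matrix.dotProduct_mulVec _ _ _).symm
        rw [hwk, h1, smul_dotProduct, dotProduct_smul, smul_eq_mul, smul_eq_mul] at h4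
        exact (mul_right_cancel₀ (h.pair k i hk him hik) h4).symm
      rw [h3] at h2
      exact hne (hC i him h2)
  funext i
  exact hmain i i rfl

/-- The vectors of the reflections have no relation which is killed by a covector that kills all
of them. -/
theorem RP.indep' (h : RP m c ξ w) (α : Fin N → ℂ)
    (y : Fin n → ℂ) (hy : y ≠ 0) (hv : ∑ i, α i • ξ i = 0)
    (hα : ∀ i, α i ≠ 0 → i.val < m) (hys : ∀ i : Fin N, i.val < m → y ⬝ᵥ ξ i = 0) : α = 0 := by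
  have hv' : ∑ i, α i • ξ i + pre c N *ᵥ ∑ i, (0 : Fin N → ℂ) i • ξ i = 0 := by
    simp [hv]
  obtain ⟨Λ, -, -, hΛ⟩ := h.key N le_rfl α 0 y hv' (fun i hi => ⟨i.isLt, hys i (hα i hi)⟩)
    (fun i hi => absurd rfl hi)
  obtain ⟨a, ha⟩ : ∃ a, a = pre c N *ᵥ ∑ i, (0 : Fin N → ℂ) i • ξ i := ⟨_, rfl⟩
  have ha0 : a = 0 := by rw [ha]; simp
  rw [← ha] at hv' hΛ
  have hG : ∀ i : ℕ, m ≤ i → dG Λ a y (y ᵥ* pre c N) ξ α 0 i = Λ := fun i hi =>
    dG_eq Λ y _ hv' i (fun l hl' => lt_of_lt_of_le (hα l hl') hi) (fun _ _ => rfl)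
  have hcomm : ∀ i : Fin N, m ≤ i.val → c i * Λ = Λ * c i := by
    intro i hi
    have h1 := hΛ i i.isLt
    rwa [hG _ hi, hG _ (by omega)] at h1
  have hE : ∀ i : Fin N, i.val < m → ∃ γ : ℂ,
      dG Λ a y (y ᵥ* pre c N) ξ α 0 i *ᵥ ξ i = γ • ξ i ∧
      w i ᵥ* dG Λ a y (y ᵥ* pre c N) ξ α 0 i = γ • w i + (1 + w i ⬝ᵥ ξ i) • α i • y := by
    intro i him
    have h1 := hΛ i i.isLt
    have h2 := dG_succ Λ a y (y ᵥ* pre c N) ξ α 0 i
    rw [Pi.zero_apply, zero_smul, add_zero] at h2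
    exact refl_eq (h.refl i him) (h.xi_ne i him) (h.w_ne i him) h1 h2
  -- the first coefficient
  by_contra hne
  obtain ⟨i₁, hi₁⟩ := Function.ne_iff.1 hne
  rw [Pi.zero_apply] at hi₁
  have hex : ∃ p : ℕ, ∃ i : Fin N, i.val = p ∧ α i ≠ 0 := ⟨i₁, i₁, rfl, hi₁⟩
  classical
  obtain ⟨t, ht, hαt⟩ := Nat.find_spec hex
  have hmin : ∀ l : Fin N, l.val < t.val → α l = 0 := by
    intro l hl
    by_contra h'
    exact Nat.find_min hex (ht ▸ hl) ⟨l, rfl, h'⟩
  have htm : t.val < m := hα t hαt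
  have hGt : dG Λ a y (y ᵥ* pre c N) ξ α 0 t = Λ := by
    rw [dG, ha0, Finset.sum_eq_zero]
    · ext; simp
    · intro l hl
      rw [Finset.mem_filter] at hl
      rw [hmin l hl.2, Pi.zero_apply, zero_smul, zero_smul, add_zero]
      ext; simp [vecMulVec_apply]
  have hvec : ∀ (i : Fin N) (v : Fin n → ℂ), y ⬝ᵥ v = 0 →
      dG Λ a y (y ᵥ* pre c N) ξ α 0 i *ᵥ v = Λ *ᵥ v := fun i v hv0 =>
    dG_mulVec Λ _ _ hv0
  obtain ⟨γ, hγ1, hγ2⟩ := hE t htm
  rw [hGt] at hγ1 hγ2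
  -- all the vectors are eigenvectors for the same eigenvalue
  have heig : ∀ i : Fin N, i.val < m → Λ *ᵥ ξ i = γ • ξ i := by
    intro i him
    by_cases hit : i = t
    · rw [hit]; exact hγ1
    obtain ⟨γ', h1, -⟩ := hE i him
    rw [hvec i _ (hys i him)] at h1
    have h3 : (w t ᵥ* Λ) ⬝ᵥ ξ i = w t ⬝ᵥ (Λ *ᵥ ξ i) := (Matrix.dotProduct_mulVec _ _ _).symm
    rw [hγ2, h1, add_dotProduct, smul_dotProduct, smul_dotProduct, smul_dotProduct,
      hys i him, smul_zero, smul_zero, add_zero, dotProduct_smul, smul_eq_mul, smul_eq_mul] at h3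
    rw [h1, mul_right_cancel₀ (h.pair t i htm him (Ne.symm hit)) h3]
  -- `Λ` is scalar
  have hscal : ∀ v, Λ *ᵥ v = γ • v := by
    obtain ⟨W, hW⟩ : ∃ W : Submodule ℂ (Fin n → ℂ), ∀ v, v ∈ W ↔ Λ *ᵥ v = γ • v := by
      refine ⟨LinearMap.ker (Matrix.mulVecLin Λ - γ • LinearMap.id), fun v => ?_⟩
      rw [LinearMap.mem_ker, LinearMap.sub_apply, LinearMap.smul_apply, LinearMap.id_apply,
        Matrix.mulVecLin_apply, sub_eq_zero]
    have h1 := h.irr W fun i v hv => by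
      rw [hW] at hv ⊢
      by_cases him : i.val < m
      · rw [h.refl i him, Matrix.add_mulVec, Matrix.one_mulVec, Matrix.vecMulVec_mulVec,
          Matrix.mulVec_add, hv, smul_add]
        congr 1
        rw [op_smul_eq_smul, Matrix.mulVec_smul, heig i him, smul_comm]
      · rw [Matrix.mulVec_mulVec, ← hcomm i (by omega), ← Matrix.mulVec_mulVec, hv,
          Matrix.mulVec_smul]
    rcases h1 with h1 | h1
    · exfalso
      have h2 : ξ t ∈ W := (hW _).2 hγ1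
      rw [h1, Submodule.mem_bot] at h2
      exact h.xi_ne t htm h2
    · intro v
      exact (hW v).1 (h1 ▸ Submodule.mem_top)
  have hscal' : ∀ v : Fin n → ℂ, v ᵥ* Λ = γ • v := by
    intro v
    have h1 : Λ = γ • (1 : P002R.Mat n ℂ) := by
      ext p q
      have := congrFun (hscal (Pi.single q 1)) p
      rw [Matrix.mulVec_single_one] at this
      rw [Matrix.smul_apply, Matrix.one_apply, smul_eq_mul]
      have h2 : Λ p q = γ * (Pi.single q 1 : Fin n → ℂ) p := this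
      rw [h2]
      by_cases hpq : p = q
      · subst hpq; simp
      · rw [Pi.single_eq_of_ne hpq, if_neg hpq]
    rw [h1, Matrix.vecMul_smul, Matrix.vecMul_one]
  rw [hscal'] at hγ2
  have h5 : (1 + w t ⬝ᵥ ξ t) • α t • y = 0 := by
    have := hγ2
    rwa [left_eq_add] at this
  rw [smul_smul] at h5
  rcases smul_eq_zero.1 h5 with h6 | h6
  · rcases mul_eq_zero.1 h6 with h7 | h7
    · exact h.unit t htm h7
    · exact hαt h7
  · exact hy h6

end key

section good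

variable {n N : ℕ} {c : Fin N → P002R.Mat n ℂ} {ξ w : Fin N → Fin n → ℂ}

theorem RP.det_bM' (h : RP n c ξ w) (hN : n ≤ N) : (bM hN ξ).det ≠ 0 := by
  intro hdet
  obtain ⟨u, hu, hBu⟩ := Matrix.exists_mulVec_eq_zero_iff.2 hdet
  obtain ⟨y, hy, hyB⟩ := Matrix.exists_vecMul_eq_zero_iff.2 hdet
  have h1 := h.indep' (extv N u) y hy (by rw [← bM_mulVec hN, hBu])
    (fun i hi => extv_ne hi) (fun i hi => by
      have := congrFun hyB ⟨i, hi⟩
      rw [vecMul_bM] at this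
      exact this)
  apply hu
  funext i
  rw [← extv_castLE hN u i, h1]
  rfl

/-- a vector in the span of the vectors with indices at least `k` -/
theorem RP.corner' (h : RP n c ξ w) (hN : n ≤ N) (j : ℕ) (hnj : n ≤ j) (hjN : j ≤ N)
    (k : Fin n) (g t : Fin n → ℂ) (y : Fin n → ℂ)
    (hg : ∀ i, g i ≠ 0 → i < k) (ht : ∀ i, t i ≠ 0 → k ≤ i)
    (hrel : bM hN ξ *ᵥ g + pre c j *ᵥ (bM hN ξ *ᵥ t) = 0)
    (hy1 : ∀ i, i < k → (y ᵥ* bM hN ξ) i = 0)
    (hy2 : ∀ i, k ≤ i → (y ᵥ* (pre c j * bM hN ξ)) i = 0)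
    (hyk : (y ᵥ* bM hN ξ) k ≠ 0) : t = 0 := by
  have hkN : k.val < N := lt_of_lt_of_le k.isLt hN
  have hξB : ∀ i : Fin N, ∀ hi : i.val < n, ξ i = bM hN ξ *ᵥ Pi.single ⟨i, hi⟩ 1 := by
    intro i hi
    rw [Matrix.mulVec_single_one]
    rfl
  have hβz := h.beta_eq_zero' j hnj hjN ⟨k, hkN⟩ k.isLt (extv N g) (extv N t) y
    (by rw [← bM_mulVec hN, ← bM_mulVec hN]; exact hrel)
    (fun i hi => by
      have h1 := extv_ne hi
      rw [extv, dif_pos h1] at hi
      have h2 := hg _ hi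
      refine ⟨h2, ?_⟩
      have h3 := hy1 ⟨i, h1⟩ h2
      rwa [vecMul_bM] at h3)
    (fun i hi => by
      have h1 := extv_ne hi
      rw [extv, dif_pos h1] at hi
      have h2 := ht _ hi
      refine ⟨⟨h2, h1⟩, ?_⟩
      have h3 := hy2 ⟨i, h1⟩ h2
      rw [← h3, hξB i h1, Matrix.mulVec_mulVec, Matrix.dotProduct_mulVec,
        dotProduct_single_one])
    (by rw [vecMul_bM] at hyk; exact hyk)
  funext i
  rw [← extv_castLE hN t i, hβz]
  rfl

theorem RP.exists_cell' (h : RP n c ξ w) (hN : n ≤ N) (j : ℕ) (hnj : n ≤ j) (hjN : j ≤ N) :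
    ∃ X : P002R.Mat n ℂ, (bM hN ξ)⁻¹ * pre c j * bM hN ξ = zZ X ∧ ∀ i, X i i ≠ 0 := by
  obtain ⟨B, hB⟩ : ∃ B, B = bM hN ξ := ⟨_, rfl⟩
  have hdet : IsUnit B.det := by rw [hB]; exact (h.det_bM' hN).isUnit
  have hB1 : B * B⁻¹ = 1 := Matrix.mul_nonsing_inv _ hdet
  have hB2 : B⁻¹ * B = 1 := Matrix.nonsing_inv_mul _ hdet
  obtain ⟨M, hM⟩ : ∃ M, M = B⁻¹ * pre c j * B := ⟨_, rfl⟩
  have hBM : B * M = pre c j * B := by
    rw [hM, ← Matrix.mul_assoc, ← Matrix.mul_assoc, hB1, Matrix.one_mul]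
  rw [← hB, ← hM]
  refine exists_UL M fun k hk => ?_
  induction hk using Nat.decreasingInduction with
  | self =>
    have : IsEmpty {i : Fin n // n ≤ (i : ℕ)} := ⟨fun i => absurd i.1.isLt (not_lt.2 i.2)⟩
    rw [Matrix.det_isEmpty]
    exact one_ne_zero
  | of_succ k hk ih =>
    intro hd
    obtain ⟨v, hv0, hv1, hv2⟩ := (corner_iff M k).1 hd
    obtain ⟨z, hz0, hz1, hz2⟩ := (corner_iff' M k).1 hd
    have hzk : z ⟨k, hk⟩ ≠ 0 := by
      intro h0
      refine ih ((corner_iff' M (k + 1)).2 ⟨z, hz0, fun i hi => ?_, fun i hi => hz2 i (by omega)⟩)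
      rcases Nat.lt_succ_iff_lt_or_eq.1 hi with h | h
      · exact hz1 i h
      · rw [show i = ⟨k, hk⟩ from Fin.ext h]; exact h0
    have hyB : (z ᵥ* B⁻¹) ᵥ* B = z := by
      rw [Matrix.vecMul_vecMul, hB2, Matrix.vecMul_one]
    have hyP : (z ᵥ* B⁻¹) ᵥ* (pre c j * B) = z ᵥ* M := by
      rw [Matrix.vecMul_vecMul, hM, ← Matrix.mul_assoc]
    refine hv0 (h.corner' hN j hnj hjN ⟨k, hk⟩ (-(M *ᵥ v)) v (z ᵥ* B⁻¹) (fun i hi => ?_)
      (fun i hi => ?_) ?_ (fun i hi => ?_) (fun i hi => ?_) ?_)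
    · by_contra h'
      rw [Fin.lt_def, not_lt] at h'
      apply hi
      rw [Pi.neg_apply, hv2 i h', neg_zero]
    · by_contra h'
      rw [Fin.le_def, not_le] at h'
      exact hi (hv1 i h')
    · rw [← hB, Matrix.mulVec_neg, Matrix.mulVec_mulVec, hBM, Matrix.mulVec_mulVec,
        neg_add_cancel]
    · rw [← hB, hyB]
      exact hz1 i hi
    · rw [← hB, hyP]
      exact hz2 i hi
    · rw [← hB, hyB]
      exact hzk

/-- Generic position near an irreducible tuple whose first members are reflections. -/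
theorem exists_refl_generic (hn : 0 < n) (hN : n ≤ N) (J : Fin N → P002R.Mat n ℂ)
    (hJu : ∀ j, IsUnit (J j)) (hJrel : ((List.finRange N).map J).prod = 1)
    (hadj : Algebra.adjoin ℂ (Set.range J) = ⊤) (ξ0 w0 : Fin N → Fin n → ℂ)
    (hJ1 : ∀ i : Fin N, i.val < n → J i = 1 + vecMulVec (ξ0 i) (w0 i))
    (hξ : ∀ i : Fin N, i.val < n → ξ0 i ≠ 0) (hw : ∀ i : Fin N, i.val < n → w0 i ≠ 0)
    (hu : ∀ i : Fin N, i.val < n → 1 + w0 i ⬝ᵥ ξ0 i ≠ 0)
    (V : Set (Fin N → P002R.Mat n ℂ)) (hV : V ∈ nhds (fun _ => 1)) :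
    ∃ Y ∈ V, (∀ j, IsUnit (Y j)) ∧ ((List.finRange N).map (cj J Y)).prod = 1 ∧
      Algebra.adjoin ℂ (Set.range (cj J Y)) = ⊤ ∧
      ∃ B : P002R.Mat n ℂ, IsUnit B.det ∧
        (∀ i : Fin n, ∃ t : Fin n → ℂ,
          B⁻¹ * cj J Y (Fin.castLE hN i) * B = 1 + vecMulVec (Pi.single i 1) t) ∧
        ∀ j, n ≤ j → j ≤ N →
          ∃ X : P002R.Mat n ℂ, B⁻¹ * pre (cj J Y) j * B = zZ X ∧ ∀ i, X i i ≠ 0 := by
  have hcj1 : cj J (fun _ => 1) = J := by
    funext j
    rw [cj_apply, inv_one, Matrix.one_mul, Matrix.mul_one]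
  -- the field
  obtain ⟨K₀, hK₀, hsub⟩ := exists_countable_subfield'
    ((Set.range fun p : Fin N × Fin n × Fin n => J p.1 p.2.1 p.2.2) ∪
      ((Set.range fun p : Fin N × Fin n => ξ0 p.1 p.2) ∪
        Set.range fun p : Fin N × Fin n => w0 p.1 p.2))
    ((Set.countable_range _).union ((Set.countable_range _).union (Set.countable_range _)))
  have hJK : ∀ j a b, J j a b ∈ K₀ := fun j a b => hsub (Or.inl ⟨(j, a, b), rfl⟩)
  have hξK : ∀ j a, ξ0 j a ∈ K₀ := fun j a => hsub (Or.inr (Or.inl ⟨(j, a), rfl⟩))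
  have hwK : ∀ j a, w0 j a ∈ K₀ := fun j a => hsub (Or.inr (Or.inr ⟨(j, a), rfl⟩))
  obtain ⟨Y, hYV, hYu, hYrel, hYadj, hgen⟩ := generic_point hn (List.finRange N)
    (List.nodup_finRange _) (fun j => List.mem_finRange j) K₀ hK₀ J hJK (fun _ => 1)
    (fun _ => isUnit_one) (by rw [hcj1]; exact hJrel) (by rw [hcj1]; exact hadj) _ hV
  have hYd : ∀ j, IsUnit (Y j).det := fun j => (Matrix.isUnit_iff_isUnit_det _).1 (hYu j)
  obtain ⟨ξ, hξe⟩ : ∃ ξ : Fin N → Fin n → ℂ, ∀ i, ξ i = Y i *ᵥ ξ0 i := ⟨_, fun _ => rfl⟩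
  obtain ⟨w, hwe⟩ : ∃ w : Fin N → Fin n → ℂ, ∀ i, w i = w0 i ᵥ* (Y i)⁻¹ := ⟨_, fun _ => rfl⟩
  have hwξ : ∀ i, w i ⬝ᵥ ξ i = w0 i ⬝ᵥ ξ0 i := by
    intro i
    rw [hwe, hξe, Matrix.dotProduct_mulVec, Matrix.vecMul_vecMul,
      Matrix.nonsing_inv_mul _ (hYd i), Matrix.vecMul_one]
  have hRP : RP n (cj J Y) ξ w := by
    refine ⟨hYrel, fun H hH => eq_bot_or_top_of_adjoin (cj J Y) hYadj H hH, fun i hi => ?_,
      fun i hi => ?_, fun i hi => ?_, fun i hi => ?_, fun i l hi hl hil => ?_,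
      fun j hj α β y hv hα hβ => ?_⟩
    · rw [cj_apply, hJ1 i hi, conj_refl (hYu _), hξe, hwe]
    · intro h0
      apply hξ i hi
      rw [← Matrix.one_mulVec (ξ0 i), ← Matrix.nonsing_inv_mul _ (hYd i),
        ← Matrix.mulVec_mulVec, ← hξe, h0, Matrix.mulVec_zero]
    · intro h0
      apply hw i hi
      rw [← Matrix.vecMul_one (w0 i), ← Matrix.nonsing_inv_mul _ (hYd i),
        ← Matrix.vecMul_vecMul, ← hwe, h0, Matrix.zero_vecMul]
    · rw [hwξ]
      exact hu i hi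
    · have h1 := generic_pair hJK hJu hYu hYrel hYadj hgen l i hil
        (ξ0 l) (w0 i) (hξK _) (hwK _) (hξ l hl) (hw i hi)
      rwa [← Matrix.mulVec_mulVec, Matrix.dotProduct_mulVec, ← hξe, ← hwe] at h1
    · have hξ' : ξ = fun i => Y i *ᵥ ξ0 i := funext hξe
      subst hξ'
      obtain ⟨Λ, h1, h2, h3, -⟩ := dual_eqs hYrel (fun i => Y i *ᵥ ξ0 i) α β y j hj
        (fun i hi => (hα i hi).1) (fun i hi => (hβ i hi).1)
        (generic_rel hJK hYu hgen ξ0 hξK j α β y hv (fun i hi => (hα i hi).2)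
          fun i hi => (hβ i hi).2)
      exact ⟨Λ, h1, h2, h3⟩
  have hBd : IsUnit (bM hN ξ).det := (hRP.det_bM' hN).isUnit
  refine ⟨Y, hYV, hYu, hYrel, hYadj, bM hN ξ, hBd, fun i => ⟨w (Fin.castLE hN i) ᵥ* bM hN ξ, ?_⟩,
    fun j hj1 hj2 => hRP.exists_cell' hN j hj1 hj2⟩
  have h1 : ξ (Fin.castLE hN i) = bM hN ξ *ᵥ Pi.single i 1 := by
    rw [Matrix.mulVec_single_one]
    rfl
  rw [hRP.refl (Fin.castLE hN i) i.isLt, Matrix.mul_add, Matrix.mul_one, Matrix.add_mul,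
    Matrix.nonsing_inv_mul _ hBd, Matrix.mul_vecMulVec, Matrix.vecMulVec_mul, h1,
    Matrix.mulVec_mulVec, Matrix.nonsing_inv_mul _ hBd, Matrix.one_mulVec]

end good

end Vale.Agent.P002R
end

section

/-!
# P002, genus 0, at least `r` classes of rank one type: generic position
-/

namespace Vale.Agent.P002R

open Matrix Module Vale.Agent.P002

variable {r : ℕ}

/-- Inverse of a rank one perturbation. -/
theorem inv_refl {v w : Fin r → ℂ} (h : 1 + w ⬝ᵥ v ≠ 0) :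
    (1 + vecMulVec v w : P002R.Mat r ℂ)⁻¹ = 1 + vecMulVec (-((1 + w ⬝ᵥ v)⁻¹ • v)) w := by
  refine Matrix.inv_eq_right_inv ?_
  have hq : vecMulVec v w * vecMulVec (-((1 + w ⬝ᵥ v)⁻¹ • v)) w =
      (-((1 + w ⬝ᵥ v)⁻¹ * (w ⬝ᵥ v))) • vecMulVec v w := by
    ext a b
    simp only [Matrix.mul_apply, vecMulVec_apply, Matrix.smul_apply, smul_eq_mul, dotProduct,
      Finset.mul_sum, Finset.sum_mul, Pi.neg_apply, Pi.smul_apply, ← Finset.sum_neg_distrib]
    exact Finset.sum_congr rfl fun i _ => by ring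
  rw [Matrix.add_mul, Matrix.one_mul, Matrix.mul_add, Matrix.mul_one, hq]
  ext a b
  simp only [Matrix.add_apply, vecMulVec_apply, Matrix.smul_apply, smul_eq_mul, Pi.neg_apply,
    Pi.smul_apply]
  have h1 : (1 + w ⬝ᵥ v)⁻¹ * (1 + w ⬝ᵥ v) = 1 := inv_mul_cancel₀ h
  linear_combination (v a * w b) * (-h1)

/-- Products in the reverse order. -/
theorem pre_rev {N : ℕ} (c : ℕ → P002R.Mat r ℂ) (hc : ∀ j, IsUnit (c j)) (l : Fin N → ℂ) :
    ∀ j k : ℕ, j + k = N → (List.ofFn fun i : Fin N => c i).prod *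
      pre (fun i : Fin N => l i • (c ((Fin.rev i : Fin N) : ℕ))⁻¹) j =
      (((List.finRange N).take j).map l).prod • (List.ofFn fun i : Fin k => c i).prod := by
  intro j
  induction j with
  | zero =>
    intro k hk
    rw [Nat.zero_add] at hk
    subst hk
    rw [pre_zero, Matrix.mul_one, List.take_zero, List.map_nil, List.prod_nil, one_smul]
  | succ j ih =>
    intro k hk
    rw [pre_succ _ (by omega : j < N), ← Matrix.mul_assoc, ih (k + 1) (by omega),
      take_succ_finRange (by omega : j < N), List.map_append, List.prod_append, List.map_singleton,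
      List.prod_singleton, Matrix.smul_mul, Matrix.mul_smul, smul_smul]
    congr 1
    rw [List.ofFn_succ', List.concat_eq_append, List.prod_append, List.prod_singleton]
    have h1 : ((Fin.rev (⟨j, by omega⟩ : Fin N) : Fin N) : ℕ) = k := by
      rw [Fin.val_rev]
      simp only
      omega
    simp only [Fin.val_last, Fin.val_castSucc]
    rw [h1, Matrix.mul_assoc, Matrix.mul_nonsing_inv _ ((Matrix.isUnit_iff_isUnit_det _).1 (hc k)),
      Matrix.mul_one]

theorem stable_invA {M : P002R.Mat r ℂ} (hM : IsUnit M.det) (W : Submodule ℂ (Fin r → ℂ))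
    (h : ∀ w ∈ W, M *ᵥ w ∈ W) : ∀ w ∈ W, M⁻¹ *ᵥ w ∈ W := by
  have h' : ∀ w ∈ W, Matrix.mulVecLin M w ∈ W := h
  have hinj : Function.Injective ((Matrix.mulVecLin M).restrict h') := by
    intro a b hab
    have h1 := congrArg Subtype.val hab
    have h2 : M *ᵥ (a : Fin r → ℂ) = M *ᵥ (b : Fin r → ℂ) := h1
    have h3 := congrArg (fun v => M⁻¹ *ᵥ v) h2
    simp only [Matrix.mulVec_mulVec, Matrix.nonsing_inv_mul _ hM, Matrix.one_mulVec] at h3
    exact Subtype.ext h3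
  have hsurj := LinearMap.injective_iff_surjective.1 hinj
  intro w hw
  obtain ⟨a, ha⟩ := hsurj ⟨w, hw⟩
  have h1 : M *ᵥ (a : Fin r → ℂ) = w := congrArg Subtype.val ha
  rw [← h1, Matrix.mulVec_mulVec, Matrix.nonsing_inv_mul _ hM, Matrix.one_mulVec]
  exact a.2

theorem cseq_isUnit {N : ℕ} (x : FU 0 N →* (Mat r ℂ)ˣ) (j : ℕ) : IsUnit (cseq x j) := by
  rw [cseq]
  split_ifs
  · exact Units.isUnit _
  · exact isUnit_one

/-- The product relation. -/
theorem relU_iff' {N : ℕ} (x : FU 0 N →* (Mat r ℂ)ˣ) :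
    x (relatorU 0 N) = 1 ↔ (List.ofFn fun i : Fin N => cseq x i).prod = 1 := by
  rw [relU_iff, List.ofFn_eq_map]
  have h1 : (fun i : Fin N => cseq x i) = bt x := funext fun i => cseq_of x i
  rw [h1]

theorem exists_scalars {N r : ℕ} (hN : r < N) (z : Fin N → ℂ) (hz : ∀ i, z i ≠ 0) :
    ∃ l : Fin N → ℂ, (∀ i : Fin N, i.val < r → l i = z i) ∧ (∀ i, l i ≠ 0) ∧ ∏ i, l i = 1 := by
  obtain ⟨P, hP⟩ : ∃ P, P = ∏ i ∈ Finset.univ.filter (fun i : Fin N => i.val < r), z i := ⟨_, rfl⟩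
  have hP0 : P ≠ 0 := by
    rw [hP, Finset.prod_ne_zero_iff]
    exact fun i _ => hz i
  obtain ⟨l, hl⟩ : ∃ l : Fin N → ℂ, l = fun i => if i.val < r then z i else
      if i.val = N - 1 then P⁻¹ else 1 := ⟨_, rfl⟩
  refine ⟨l, fun i hi => ?_, fun i => ?_, ?_⟩
  · rw [hl]
    simp only
    rw [if_pos hi]
  · rw [hl]
    simp only
    split_ifs
    · exact hz i
    · exact inv_ne_zero hP0
    · exact one_ne_zero
  · rw [← Finset.prod_filter_mul_prod_filter_not Finset.univ (fun i : Fin N => i.val < r)]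
    have h1 : ∏ i ∈ Finset.univ.filter (fun i : Fin N => i.val < r), l i = P := by
      rw [hP]
      refine Finset.prod_congr rfl fun i hi => ?_
      rw [hl]
      simp only
      rw [if_pos (Finset.mem_filter.1 hi).2]
    have h2 : ∏ i ∈ Finset.univ.filter (fun i : Fin N => ¬ i.val < r), l i = P⁻¹ := by
      rw [Finset.prod_eq_single (⟨N - 1, by omega⟩ : Fin N)]
      · rw [hl]
        simp only
        rw [if_neg (by omega), if_true]
      · intro i hi hne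
        rw [hl]
        simp only
        rw [if_neg (Finset.mem_filter.1 hi).2, if_neg]
        intro h
        exact hne (Fin.ext h)
      · intro h
        exact absurd (Finset.mem_filter.2 ⟨Finset.mem_univ _, by simp only; omega⟩) h
    rw [h1, h2, mul_inv_cancel₀ hP0]

/-- Density of the representations in reflection form. -/
theorem exists_reflForm {m : ℕ} (hr : 0 < r) (C : Fin (m + 1 + r) → (Mat r ℂ)ˣ)
    (hR : ∀ j : Fin r, ∃ z : ℂ, z ≠ 0 ∧ ∃ v w : Fin r → ℂ, v ≠ 0 ∧ w ≠ 0 ∧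
      (C (Fin.natAdd (m + 1) j) : Mat r ℂ) = z • (1 + vecMulVec v w))
    (x : FU 0 (m + 1 + r) →* (Mat r ℂ)ˣ) (hrel : x (relatorU 0 (m + 1 + r)) = 1)
    (hcl : ∀ j, IsConj (C j) (x (FreeGroup.of (Sum.inr j))))
    (hadj : Algebra.adjoin ℂ (Set.range fun w => (x w : Mat r ℂ)) = ⊤)
    (f : MvPolynomial (GenU 0 (m + 1 + r) × Fin r × Fin r) ℂ) (hf : evalG x f ≠ 0) :
    ∃ (x' : FU 0 (m + 1 + r) →* (Mat r ℂ)ˣ) (g : (Mat r ℂ)ˣ), evalG (conjH g x') f ≠ 0 ∧
      x' (relatorU 0 (m + 1 + r)) = 1 ∧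
      (∀ j, IsConj (C j) (x' (FreeGroup.of (Sum.inr j)))) ∧
      Algebra.adjoin ℂ (Set.range fun w => (x' w : Mat r ℂ)) = ⊤ ∧
      ∃ (s : Fin r → ℂ) (T : Mat r ℂ),
        (∀ i : Fin r, s i ≠ 0 ∧
          (((x' (FreeGroup.of (Sum.inr (Fin.natAdd (m + 1) (Fin.rev i)))))⁻¹ : (Mat r ℂ)ˣ) :
            Mat r ℂ) = s i • (1 + vecMulVec (Pi.single i 1) (T i))) ∧
        ∀ k ≤ m + 1, ∃ X : Mat r ℂ, (∀ i, X i i ≠ 0) ∧
          (List.ofFn fun j : Fin k => cseq x' j).prod = zZ X := by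
  have hnat : ∀ i : Fin (m + 1 + r), i.val < r → ∃ i' : Fin r, i'.val = i.val ∧
      Fin.rev i = Fin.natAdd (m + 1) (Fin.rev i') := by
    intro i hi
    refine ⟨⟨i.val, hi⟩, rfl, Fin.ext ?_⟩
    rw [Fin.val_rev, Fin.val_natAdd, Fin.val_rev]
    simp only
    omega
  -- the reflections
  have hx1 : ∀ i : Fin (m + 1 + r), ∃ z : ℂ, z ≠ 0 ∧ (i.val < r → ∃ v w : Fin r → ℂ, v ≠ 0 ∧
      w ≠ 0 ∧ 1 + w ⬝ᵥ v ≠ 0 ∧ z • (cseq x (Fin.rev i : Fin (m + 1 + r)))⁻¹ =
        1 + vecMulVec v w) := by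
    intro i
    by_cases hi : i.val < r
    · obtain ⟨i', -, hi'⟩ := hnat i hi
      obtain ⟨z, hz, v, w, hv, hw, hzvw⟩ := hR (Fin.rev i')
      obtain ⟨g, hg⟩ := isConj_iff.1 (hcl (Fin.rev i))
      have h1 : (x (FreeGroup.of (Sum.inr (Fin.rev i))) : Mat r ℂ) =
          z • (1 + vecMulVec ((g : Mat r ℂ) *ᵥ v) (w ᵥ* (g : Mat r ℂ)⁻¹)) := by
        rw [← hg, hi', Units.val_mul, Units.val_mul, hzvw, Matrix.coe_units_inv, Matrix.mul_smul,
          Matrix.smul_mul, conj_refl g.isUnit]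
      obtain ⟨v', hv'⟩ : ∃ v', v' = (g : Mat r ℂ) *ᵥ v := ⟨_, rfl⟩
      obtain ⟨w', hw'⟩ : ∃ w', w' = w ᵥ* (g : Mat r ℂ)⁻¹ := ⟨_, rfl⟩
      have hg2 : (g : Mat r ℂ)⁻¹ * (g : Mat r ℂ) = 1 := by
        rw [← Matrix.coe_units_inv, Units.inv_mul]
      have hv0 : v' ≠ 0 := by
        intro h
        apply hv
        rw [← Matrix.one_mulVec v, ← hg2, ← Matrix.mulVec_mulVec, ← hv', h, Matrix.mulVec_zero]
      have hw0 : w' ≠ 0 := by
        intro h
        apply hw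
        have h2 : (w ᵥ* (g : Mat r ℂ)⁻¹) ᵥ* (g : Mat r ℂ) = w := by
          rw [Matrix.vecMul_vecMul, hg2, Matrix.vecMul_one]
        rw [← h2, ← hw', h, Matrix.zero_vecMul]
      rw [← hv', ← hw'] at h1
      have hd : 1 + w' ⬝ᵥ v' ≠ 0 := by
        intro h0
        have h2 : ((x (FreeGroup.of (Sum.inr (Fin.rev i))) : Mat r ℂ)) *ᵥ v' = 0 := by
          rw [h1, Matrix.smul_mulVec, Matrix.add_mulVec, Matrix.one_mulVec,
            Matrix.vecMulVec_mulVec, op_smul_eq_smul]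
          have h3 : v' + (w' ⬝ᵥ v') • v' = (1 + w' ⬝ᵥ v') • v' := by rw [add_smul, one_smul]
          rw [h3, h0, zero_smul, smul_zero]
        have h3 := congrArg (fun u => ((x (FreeGroup.of (Sum.inr (Fin.rev i)))) : Mat r ℂ)⁻¹ *ᵥ u)
          h2
        simp only [Matrix.mulVec_mulVec, Matrix.mulVec_zero, ← Matrix.coe_units_inv,
          Units.inv_mul, Matrix.one_mulVec] at h3
        exact hv0 h3
      refine ⟨z, hz, fun _ => ⟨-((1 + w' ⬝ᵥ v')⁻¹ • v'), w', ?_, hw0, ?_, ?_⟩⟩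
      · rw [neg_ne_zero]
        exact smul_ne_zero (inv_ne_zero hd) hv0
      · rw [dotProduct_neg, dotProduct_smul, smul_eq_mul]
        have h3 : 1 + -((1 + w' ⬝ᵥ v')⁻¹ * w' ⬝ᵥ v') = (1 + w' ⬝ᵥ v')⁻¹ := by
          field_simp
          ring
        rw [h3]
        exact inv_ne_zero hd
      · rw [cseq_of, h1, ← inv_refl hd]
        have h4 : IsUnit (1 + vecMulVec v' w' : P002R.Mat r ℂ).det :=
          (Matrix.isUnit_iff_isUnit_det _).1 (isUnit_refl hd)
        refine (Matrix.inv_eq_right_inv ?_).symm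
        have h5 : (z • (1 + vecMulVec v' w' : P002R.Mat r ℂ)) *
            (z • (1 + vecMulVec v' w' : P002R.Mat r ℂ))⁻¹ = 1 := by
          rw [← h1, ← Matrix.coe_units_inv, Units.mul_inv]
        rw [Matrix.mul_smul, ← Matrix.smul_mul]
        exact h5
    · exact ⟨1, one_ne_zero, fun h => absurd h hi⟩
  choose z hz hzr using hx1
  obtain ⟨l, hl1, hl0, hlp⟩ := exists_scalars (r := r) (by omega) z hz
  have hvw : ∀ i : Fin (m + 1 + r), ∃ v w : Fin r → ℂ, i.val < r → (v ≠ 0 ∧ w ≠ 0 ∧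
      1 + w ⬝ᵥ v ≠ 0 ∧ l i • (cseq x (Fin.rev i : Fin (m + 1 + r)))⁻¹ = 1 + vecMulVec v w) := by
    intro i
    by_cases hi : i.val < r
    · obtain ⟨v, w, h⟩ := hzr i hi
      exact ⟨v, w, fun _ => by rw [hl1 i hi]; exact h⟩
    · exact ⟨0, 0, fun h => absurd h hi⟩
  choose ξ0 w0 hvw using hvw
  obtain ⟨J, hJ⟩ : ∃ J : Fin (m + 1 + r) → Mat r ℂ, J = fun i =>
    l i • (cseq x (Fin.rev i : Fin (m + 1 + r)))⁻¹ := ⟨_, rfl⟩
  have hJi : ∀ i, J i = l i • (cseq x (Fin.rev i : Fin (m + 1 + r)))⁻¹ := fun i => by rw [hJ]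
  have hJu : ∀ j, IsUnit (J j) := by
    intro j
    rw [hJi]
    have h1 : IsUnit (cseq x (Fin.rev j : Fin (m + 1 + r)))⁻¹ :=
      Matrix.isUnit_nonsing_inv_iff.2 (cseq_isUnit x _)
    obtain ⟨u, hu⟩ := h1
    rw [← hu]
    exact (Units.mk0 (l j) (hl0 j) • u).isUnit
  have hlist : (((List.finRange (m + 1 + r)).take (m + 1 + r)).map l).prod = 1 := by
    rw [List.take_of_length_le (by simp), ← List.ofFn_eq_map, List.prod_ofFn, hlp]
  have hpreN : ∀ c : Fin (m + 1 + r) → Mat r ℂ, pre c (m + 1 + r) =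
      ((List.finRange (m + 1 + r)).map c).prod := by
    intro c
    rw [pre, List.take_of_length_le (by simp)]
  have hJrel : ((List.finRange (m + 1 + r)).map J).prod = 1 := by
    have h1 := pre_rev (cseq x) (cseq_isUnit x) l (m + 1 + r) 0 (Nat.add_zero _)
    rw [(relU_iff' x).1 hrel, Matrix.one_mul, hlist, one_smul, List.ofFn_zero, List.prod_nil,
      hpreN, ← hJ] at h1
    exact h1
  have hadjJ : ∀ (y : FU 0 (m + 1 + r) →* (Mat r ℂ)ˣ),
      Algebra.adjoin ℂ (Set.range fun w => (y w : Mat r ℂ)) = ⊤ ↔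
      Algebra.adjoin ℂ (Set.range fun i : Fin (m + 1 + r) =>
        l i • (cseq y (Fin.rev i : Fin (m + 1 + r)))⁻¹) = ⊤ := by
    intro y
    constructor
    · intro h
      have h1 := adjoin_gen_eq_top y h
      obtain ⟨A, hA⟩ : ∃ A, A = Algebra.adjoin ℂ (Set.range fun i : Fin (m + 1 + r) =>
        l i • (cseq y (Fin.rev i : Fin (m + 1 + r)))⁻¹) := ⟨_, rfl⟩
      rw [← hA, eq_top_iff]
      -- irreducibility
      have hirr : ∀ W : Submodule ℂ (Fin r → ℂ), (∀ i : Fin (m + 1 + r), ∀ v ∈ W,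
          (l i • (cseq y (Fin.rev i : Fin (m + 1 + r)))⁻¹) *ᵥ v ∈ W) → W = ⊥ ∨ W = ⊤ := by
        intro W hW
        refine eq_bot_or_top_of_adjoin (fun k => (y (FreeGroup.of k) : Mat r ℂ)) h1 W ?_
        rintro (k | j)
        · exact k.1.elim0
        · intro v hv
          have h2 : ∀ v ∈ W, (cseq y j)⁻¹ *ᵥ v ∈ W := by
            intro v hv
            have h3 := hW (Fin.rev j) v hv
            rw [Fin.rev_rev, Matrix.smul_mulVec] at h3
            have h4 := W.smul_mem (l (Fin.rev j))⁻¹ h3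
            rwa [smul_smul, inv_mul_cancel₀ (hl0 _), one_smul] at h4
          have h5 : IsUnit ((cseq y j)⁻¹).det := (Matrix.isUnit_iff_isUnit_det _).1
            (Matrix.isUnit_nonsing_inv_iff.2 (cseq_isUnit y j))
          have h6 := stable_invA h5 W h2 v hv
          rw [Matrix.nonsing_inv_nonsing_inv _ ((Matrix.isUnit_iff_isUnit_det _).1
            (cseq_isUnit y j)), cseq_of] at h6
          exact h6
      have h7 : ∀ i : Fin (m + 1 + r), IsUnit
          (l i • (cseq y (Fin.rev i : Fin (m + 1 + r)))⁻¹ : Mat r ℂ) := by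
        intro i
        obtain ⟨u, hu⟩ := Matrix.isUnit_nonsing_inv_iff.2
          (cseq_isUnit y (Fin.rev i : Fin (m + 1 + r)))
        rw [← hu]
        exact (Units.mk0 (l i) (hl0 i) • u).isUnit
      obtain ⟨y', hy'⟩ : ∃ y' : FreeGroup (Fin (m + 1 + r)) →* (Mat r ℂ)ˣ, ∀ i,
          (y' (FreeGroup.of i) : Mat r ℂ) =
            l i • (cseq y (Fin.rev i : Fin (m + 1 + r)))⁻¹ :=
        ⟨FreeGroup.lift fun i => (h7 i).unit, fun i => by rw [FreeGroup.lift_apply_of]; rfl⟩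
      have h8 := adjoin_gen_eq_top y' (adjoin_top_of_simple hr y' fun W hW =>
        hirr W fun i v hv => by
          rw [← hy']
          exact hW _ v hv)
      have h9 : (fun i => (y' (FreeGroup.of i) : Mat r ℂ)) = fun i : Fin (m + 1 + r) =>
        l i • (cseq y (Fin.rev i : Fin (m + 1 + r)))⁻¹ := funext hy'
      rw [h9, ← hA] at h8
      rw [h8]
    · intro h
      rw [eq_top_iff, ← h, Algebra.adjoin_le_iff]
      rintro _ ⟨i, rfl⟩
      have h1 : (cseq y (Fin.rev i : Fin (m + 1 + r)))⁻¹ ∈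
          Algebra.adjoin ℂ (Set.range fun w => (y w : Mat r ℂ)) := by
        refine Algebra.subset_adjoin ⟨(FreeGroup.of (Sum.inr (Fin.rev i)))⁻¹, ?_⟩
        simp only
        rw [map_inv, Matrix.coe_units_inv, cseq_of]
      exact Subalgebra.smul_mem _ h1 _
  have hJadj : Algebra.adjoin ℂ (Set.range J) = ⊤ := by
    rw [hJ]
    exact (hadjJ x).1 hadj
  -- the neighbourhood
  have hbu : ∀ j, IsUnit (bt x j) := fun j => Units.isUnit _
  have hV : {Y : Fin (m + 1 + r) → Mat r ℂ | evT f (cj (bt x) fun j => Y (Fin.rev j)) ≠ 0} ∈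
      nhds (fun _ => 1) := by
    have h0 : cj (bt x) (fun _ => 1) = bt x := by
      funext j
      rw [cj_apply, inv_one, Matrix.one_mul, Matrix.mul_one]
    have h1 : ContinuousAt (fun Y : Fin (m + 1 + r) → Mat r ℂ => evT f (cj (bt x) Y))
        (fun _ => 1) :=
      ContinuousAt.comp (f := fun Y : Fin (m + 1 + r) → Mat r ℂ => cj (bt x) Y)
        (evT_continuous f).continuousAt (continuousAt_cj (bt x) fun _ => isUnit_one)
    have h2 : Continuous fun Y : Fin (m + 1 + r) → Mat r ℂ => fun j => Y (Fin.rev j) :=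
      continuous_pi fun j => continuous_apply _
    have h3 : ContinuousAt (fun Y : Fin (m + 1 + r) → Mat r ℂ =>
        evT f (cj (bt x) fun j => Y (Fin.rev j))) (fun _ => 1) :=
      ContinuousAt.comp (f := fun Y : Fin (m + 1 + r) → Mat r ℂ => fun j => Y (Fin.rev j))
        (g := fun Y : Fin (m + 1 + r) → Mat r ℂ => evT f (cj (bt x) Y)) h1 h2.continuousAt
    refine h3.eventually_ne ?_
    rw [h0, ← evalG_eq_evT]
    exact hf
  obtain ⟨Y, hYV, hYu, hYrel, hYadj, B, hB, hBr, hBc⟩ := exists_refl_generic hr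
    (by omega : r ≤ m + 1 + r) J hJu hJrel hJadj ξ0 w0
    (fun i hi => by rw [hJi]; exact (hvw i hi).2.2.2) (fun i hi => (hvw i hi).1)
    (fun i hi => (hvw i hi).2.1) (fun i hi => (hvw i hi).2.2.1) _ hV
  have hYV' : evT f (cj (bt x) fun j => Y (Fin.rev j)) ≠ 0 := hYV
  choose yy hyy using hYu
  obtain ⟨z', hz'⟩ : ∃ z' : FU 0 (m + 1 + r) →* (Mat r ℂ)ˣ, ∀ j,
      z' (FreeGroup.of (Sum.inr j)) =
        yy (Fin.rev j) * x (FreeGroup.of (Sum.inr j)) * (yy (Fin.rev j))⁻¹ :=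
    ⟨mkR fun j => yy (Fin.rev j) * x (FreeGroup.of (Sum.inr j)) * (yy (Fin.rev j))⁻¹,
      fun j => mkR_inr _ j⟩
  have hbz : bt z' = cj (bt x) fun j => Y (Fin.rev j) := by
    funext j
    rw [cj_apply, ← hyy, bt_eqn, hz', Units.val_mul, Units.val_mul, Matrix.coe_units_inv, bt_eqn]
  have hcj : cj J Y = fun i : Fin (m + 1 + r) =>
      l i • (cseq z' (Fin.rev i : Fin (m + 1 + r)))⁻¹ := by
    funext i
    rw [cj_apply, hJi, cseq_of, cseq_of, hz', ← hyy, ← Matrix.coe_units_inv,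
      ← Matrix.coe_units_inv, ← Matrix.coe_units_inv, Fin.rev_rev, Matrix.mul_smul,
      Matrix.smul_mul, ← Units.val_mul, ← Units.val_mul]
    congr 2
    group
  have hz'rel : (List.ofFn fun i : Fin (m + 1 + r) => cseq z' i).prod = 1 := by
    have h1 := pre_rev (cseq z') (cseq_isUnit z') l (m + 1 + r) 0 (Nat.add_zero _)
    rw [hlist, one_smul, List.ofFn_zero, List.prod_nil, hpreN, ← hcj, hYrel, Matrix.mul_one] at h1
    exact h1
  obtain ⟨g, hg⟩ : ∃ g : (Mat r ℂ)ˣ, (g : Mat r ℂ) = B :=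
    ⟨((Matrix.isUnit_iff_isUnit_det _).2 hB).unit, rfl⟩
  have hcs : ∀ j : ℕ, j < m + 1 + r → cseq (conjH g⁻¹ z') j = B⁻¹ * cseq z' j * B := by
    intro j hj
    have h1 := cseq_of (conjH g⁻¹ z') ⟨j, hj⟩
    have h2 := cseq_of z' ⟨j, hj⟩
    simp only at h1 h2
    rw [h1, h2, conjH_apply, inv_inv, unit_conj, hg]
  refine ⟨conjH g⁻¹ z', g, ?_, ?_, ?_, ?_, fun i => (l (Fin.castLE (by omega) i))⁻¹, ?_⟩
  · have h1 : conjH g (conjH g⁻¹ z') = z' := by
      ext1 w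
      simp only [conjH_apply]
      group
    rw [h1, evalG_eq_evT, hbz]
    exact hYV'
  · rw [conjH_apply, (relU_iff' z').2 hz'rel, mul_one, inv_inv, inv_mul_cancel]
  · intro j
    refine (hcl j).trans ?_
    rw [conjH_apply, hz', isConj_iff]
    exact ⟨g⁻¹ * yy (Fin.rev j), by group⟩
  · refine adjoin_conj_top z' g⁻¹ ?_
    rw [hadjJ, ← hcj]
    exact hYadj
  · choose t ht using hBr
    refine ⟨Matrix.of t, fun i => ⟨inv_ne_zero (hl0 _), ?_⟩, fun k hk => ?_⟩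
    · have h1 : Fin.natAdd (m + 1) (Fin.rev i) =
          Fin.rev (Fin.castLE (by omega : r ≤ m + 1 + r) i) := by
        apply Fin.ext
        rw [Fin.val_rev, Fin.val_natAdd, Fin.val_rev, Fin.val_castLE]
        omega
      have h2 := ht i
      rw [hcj] at h2
      simp only at h2
      rw [cseq_of, ← Matrix.coe_units_inv, Matrix.mul_smul, Matrix.smul_mul] at h2
      rw [h1, conjH_apply, inv_inv, _root_.mul_inv_rev, _root_.mul_inv_rev, inv_inv, ← mul_assoc,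
        unit_conj, hg]
      change _ = (l (Fin.castLE _ i))⁻¹ • (1 + vecMulVec (Pi.single i 1) (t i))
      rw [← h2, smul_smul, inv_mul_cancel₀ (hl0 _), one_smul]
    · obtain ⟨j, hj⟩ : ∃ j, j + k = m + 1 + r := ⟨m + 1 + r - k, by omega⟩
      obtain ⟨X, hX, hX0⟩ := hBc j (by omega) (by omega)
      have h1 := pre_rev (cseq z') (cseq_isUnit z') l j k hj
      rw [hz'rel, Matrix.one_mul, ← hcj] at h1
      obtain ⟨Λ, hΛ⟩ : ∃ Λ, Λ = (((List.finRange (m + 1 + r)).take j).map l).prod := ⟨_, rfl⟩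
      have hΛ0 : Λ ≠ 0 := by
        rw [hΛ]
        refine List.prod_ne_zero ?_
        intro h
        rw [List.mem_map] at h
        obtain ⟨i, -, hi⟩ := h
        exact hl0 i hi
      rw [← hΛ] at h1
      have h2 : (List.ofFn fun j : Fin k => cseq (conjH g⁻¹ z') j).prod =
          B⁻¹ * (List.ofFn fun i : Fin k => cseq z' i).prod * B := by
        rw [List.ofFn_eq_map, List.ofFn_eq_map]
        have h3 : ((List.finRange k).map fun j : Fin k => cseq (conjH g⁻¹ z') j) =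
            (List.finRange k).map fun j : Fin k =>
              (g : Mat r ℂ)⁻¹ * cseq z' j * (g : Mat r ℂ) := by
          refine List.map_congr_left fun j _ => ?_
          rw [hcs j (by omega), hg]
        rw [h3, prod_conj g (fun j : Fin k => cseq z' j), hg]
      have h4 : (List.ofFn fun i : Fin k => cseq z' i).prod = Λ⁻¹ • pre (cj J Y) j := by
        rw [h1, smul_smul, inv_mul_cancel₀ hΛ0, one_smul]
      obtain ⟨X', h5, h6, h7⟩ := exists_coord (uU X) (Λ⁻¹ • lL X) (upT_uU X) (uU_diag X)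
        (fun a b hab => by rw [Matrix.smul_apply, loT_lL X a b hab, smul_zero])
      refine ⟨X', fun i => ?_, ?_⟩
      · rw [h7, Matrix.smul_apply, lL_diag]
        exact mul_ne_zero (inv_ne_zero hΛ0) (hX0 i)
      · rw [h2, h4, Matrix.mul_smul, Matrix.smul_mul, hX, zZ_eqn, zZ_eqn, h5, h6, Matrix.mul_smul]

end Vale.Agent.P002R
end

section

/-!
# P002, genus 0, rank one classes: the main theorem
-/

namespace Vale.Agent.P002R

open Matrix

variable {r : ℕ}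

theorem rank_one_form {A : Mat r ℂ} (h : A.rank ≤ 1) (hA : A ≠ 0) :
    ∃ v w : Fin r → ℂ, v ≠ 0 ∧ w ≠ 0 ∧ A = vecMulVec v w := by
  have h1 : Module.finrank ℂ (LinearMap.range A.mulVecLin) ≤ 1 := h
  obtain ⟨u, hu⟩ := finrank_le_one_iff.1 h1
  have h2 : ∀ j, ∃ c : ℂ, ∀ i, A i j = (u : Fin r → ℂ) i * c := by
    intro j
    obtain ⟨c, hc⟩ := hu ⟨A *ᵥ Pi.single j 1, ⟨Pi.single j 1, rfl⟩⟩
    refine ⟨c, fun i => ?_⟩
    have h3 : (c • (u : Fin r → ℂ)) i = (A *ᵥ Pi.single j 1) i :=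
      congrFun (congrArg Subtype.val hc) i
    rw [Matrix.mulVec_single_one] at h3
    rw [mul_comm]
    exact h3.symm
  choose c hc using h2
  have h3 : A = vecMulVec (u : Fin r → ℂ) c := by
    ext i j
    rw [vecMulVec_apply, hc]
  refine ⟨u, c, ?_, ?_, h3⟩
  · intro h0
    apply hA
    rw [h3, h0, Matrix.zero_vecMulVec]
  · intro h0
    apply hA
    rw [h3, h0, Matrix.vecMulVec_zero]

theorem ro_form (hr : 2 ≤ r) (M : (Mat r ℂ)ˣ) (h : RO r (M : Mat r ℂ))
    (hns : ∀ c : ℂ, (M : Mat r ℂ) ≠ c • (1 : Mat r ℂ)) :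
    ∃ z : ℂ, z ≠ 0 ∧ ∃ v w : Fin r → ℂ, v ≠ 0 ∧ w ≠ 0 ∧
      (M : Mat r ℂ) = z • (1 + vecMulVec v w) := by
  obtain ⟨z, hz⟩ := h
  obtain ⟨v, w, hv, hw, hvw⟩ := rank_one_form hz (sub_ne_zero.2 (hns z))
  have hz0 : z ≠ 0 := by
    rintro rfl
    rw [zero_smul, sub_zero, Matrix.rank_of_isUnit _ M.isUnit, Fintype.card_fin] at hz
    omega
  refine ⟨z, hz0, v, z⁻¹ • w, hv, smul_ne_zero (inv_ne_zero hz0) hw, ?_⟩
  rw [Matrix.vecMulVec_smul, smul_add, smul_smul, mul_inv_cancel₀ hz0, one_smul, ← hvw]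
  abel

theorem eig_of_inv {E : Subgroup ℂˣ} (U : (Mat r ℂ)ˣ) (hU : EigIn E (U : Mat r ℂ)) {c : ℂ}
    {v : Fin r → ℂ} (hv : v ≠ 0) (h : ((U⁻¹ : (Mat r ℂ)ˣ) : Mat r ℂ) *ᵥ v = c • v) :
    ∃ e ∈ E, (e : ℂ) = c := by
  have h1 : c • ((U : Mat r ℂ) *ᵥ v) = v := by
    rw [← Matrix.mulVec_smul, ← h, Matrix.mulVec_mulVec, Units.mul_inv, Matrix.one_mulVec]
  have hc : c ≠ 0 := by
    rintro rfl
    rw [zero_smul] at h1
    exact hv h1.symm
  have h2 : (U : Mat r ℂ) *ᵥ v = c⁻¹ • v := by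
    conv_rhs => rw [← h1]
    rw [smul_smul, inv_mul_cancel₀ hc, one_smul]
  obtain ⟨e, he, he'⟩ := hU c⁻¹ (isRoot_charpoly_of_mulVec hv h2)
  exact ⟨e⁻¹, E.inv_mem he, by rw [Units.val_inv_eq_inv_val, he', inv_inv]⟩

theorem refl_eig {E : Subgroup ℂˣ} (hr : 2 ≤ r) (U : (Mat r ℂ)ˣ) (hU : EigIn E (U : Mat r ℂ))
    {s : ℂ} {t : Fin r → ℂ} {i : Fin r}
    (h : ((U⁻¹ : (Mat r ℂ)ˣ) : Mat r ℂ) = s • (1 + vecMulVec (Pi.single i 1) t)) :
    (∃ e ∈ E, (e : ℂ) = s) ∧ ∃ e ∈ E, (e : ℂ) = 1 + t i := by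
  have h1 : ∀ v : Fin r → ℂ, ((U⁻¹ : (Mat r ℂ)ˣ) : Mat r ℂ) *ᵥ v =
      s • (v + (t ⬝ᵥ v) • Pi.single i 1) := by
    intro v
    rw [h, Matrix.smul_mulVec, Matrix.add_mulVec, Matrix.one_mulVec, vmv_mulVec]
  have h2 : ∃ e ∈ E, (e : ℂ) = s := by
    obtain ⟨v, hv, htv⟩ : ∃ v : Fin r → ℂ, v ≠ 0 ∧ t ⬝ᵥ v = 0 := by
      by_cases hti : t i = 0
      · exact ⟨Pi.single i 1, single_ne i, by rw [dotProduct_single_one, hti]⟩
      · obtain ⟨j, hj⟩ : ∃ j : Fin r, j ≠ i := by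
          by_cases h0 : (i : ℕ) = 0
          · exact ⟨⟨1, by omega⟩, fun h => by rw [← h] at h0; simp at h0⟩
          · exact ⟨⟨0, by omega⟩, fun h => h0 (by rw [← h])⟩
        refine ⟨t j • Pi.single i 1 - t i • Pi.single j 1, ?_, ?_⟩
        · intro h0
          have h3 := congrFun h0 j
          rw [Pi.sub_apply, Pi.smul_apply, Pi.smul_apply, Pi.single_eq_same,
            Pi.single_eq_of_ne hj, Pi.zero_apply, smul_zero, zero_sub, smul_eq_mul, mul_one,
            neg_eq_zero] at h3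
          exact hti h3
        · rw [dotProduct_sub, dotProduct_smul, dotProduct_smul, dotProduct_single_one,
            dotProduct_single_one, smul_eq_mul, smul_eq_mul, mul_comm, sub_self]
    refine eig_of_inv U hU hv ?_
    rw [h1, htv, zero_smul, add_zero]
  obtain ⟨e, he, hes⟩ := h2
  refine ⟨⟨e, he, hes⟩, ?_⟩
  obtain ⟨e', he', hes'⟩ := eig_of_inv U hU (c := s * (1 + t i)) (single_ne i) (by
    rw [h1, dotProduct_single_one, mul_smul, add_smul, one_smul])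
  refine ⟨e⁻¹ * e', E.mul_mem (E.inv_mem he) he', ?_⟩
  rw [Units.val_mul, Units.val_inv_eq_inv_val, hes, hes', ← mul_assoc, inv_mul_cancel₀, one_mul]
  rw [← hes]
  exact e.ne_zero

/-- The last of the other classes is not scalar. -/
theorem g0R_pos {m : ℕ} (hr : 2 ≤ r) {R : Type} [CommRing R] (φ : R →+* ℂ) (E : Subgroup ℂˣ)
    (hc : CoefOK φ E r) (C : Fin (m + 1 + r) → (Mat r ℂ)ˣ)
    (hE : ∀ j, EigIn E (C j : Mat r ℂ))
    (hRO : ∀ j : Fin r, RO r (C (Fin.natAdd (m + 1) j) : Mat r ℂ) ∧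
      ∀ c : ℂ, (C (Fin.natAdd (m + 1) j) : Mat r ℂ) ≠ c • (1 : Mat r ℂ))
    (hns : ∀ μ : ℂ, (C (Fin.castAdd r (Fin.last m)) : Mat r ℂ) ≠ μ • (1 : Mat r ℂ))
    (x : FU 0 (m + 1 + r) →* (Mat r ℂ)ˣ)
    (hx : x ∈ YG ({relatorU 0 (m + 1 + r)} :
      Set (FreeGroup ((Fin 0 × Bool) ⊕ Fin (m + 1 + r)))) C)
    (hirr : ∀ M : Mat r ℂ, (∀ w, Commute M (x w : Mat r ℂ)) → ∃ c : ℂ, M = c • (1 : Mat r ℂ))
    (f : MvPolynomial (((Fin 0 × Bool) ⊕ Fin (m + 1 + r)) × Fin r × Fin r) ℂ)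
    (hf : ∀ y ∈ DGT ({relatorU 0 (m + 1 + r)} :
      Set (FreeGroup ((Fin 0 × Bool) ⊕ Fin (m + 1 + r)))) φ C, evalG y f = 0) :
    evalG x f = 0 := by
  have hr0 : 0 < r := by omega
  obtain ⟨hx1, hx2, hx3⟩ := hx
  have hadj := adjoin_top_of_irr x hx3 hirr
  have hxrel : x (relatorU 0 (m + 1 + r)) = 1 := hx1 _ rfl
  refine upgrade x hadj {y | y (relatorU 0 (m + 1 + r)) = 1 ∧
    (∀ j, IsConj (C j) (y (FreeGroup.of (Sum.inr j)))) ∧
    ∀ k, y (FreeGroup.of k) ∈ GR r φ} ?_ f ?_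
  · intro f' hf'
    by_contra hne
    obtain ⟨x', g, h1, h2, h3, h4, s, T, hs, hcell⟩ := exists_reflForm hr0 C
      (fun j => ro_form hr _ (hRO j).1 (hRO j).2) x hxrel hx2 hadj f' hne
    obtain ⟨f'', hf''⟩ := exists_conjP g f'
    apply h1
    rw [← hf'']
    have h5 : ∀ i : Fin r, EigIn E
        (x' (FreeGroup.of (Sum.inr (Fin.natAdd (m + 1) (Fin.rev i)))) : Mat r ℂ) :=
      fun i => (hE _).conj (h3 _)
    have h6 : ∀ i, ∃ e ∈ E, (e : ℂ) = s i := fun i => (refl_eig hr _ (h5 i) (hs i).2).1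
    have h7 : ∀ i, ∃ e ∈ E, (e : ℂ) = 1 + T i i := fun i => (refl_eig hr _ (h5 i) (hs i).2).2
    choose s' hs'E hs' using h6
    choose κ hκE hκ using h7
    refine refl_chart φ hr0 hc C hE hns x' h2 h3 h4 s' κ hs'E hκE T hκ
      (fun i => by rw [hs']; exact (hs i).2) (fun i h0 => ?_) hcell f'' fun y hy1 hy2 hy3 => ?_
    · have h8 := (hs i).2
      rw [h0, Matrix.vecMulVec_zero, add_zero] at h8
      have h9 : (x' (FreeGroup.of (Sum.inr (Fin.natAdd (m + 1) (Fin.rev i)))) : Mat r ℂ) =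
          (s i)⁻¹ • (1 : Mat r ℂ) := by
        have h10 := Units.mul_inv (x' (FreeGroup.of (Sum.inr (Fin.natAdd (m + 1) (Fin.rev i)))))
        rw [h8, mul_smul_comm, Matrix.mul_one] at h10
        rw [← h10, smul_smul, inv_mul_cancel₀ (hs i).1, one_smul]
      exact (hRO (Fin.rev i)).2 (s i)⁻¹ (conj_scalar' (h3 _).symm h9)
    · rw [hf'']
      refine conj_vanish_gen {y | y (relatorU 0 (m + 1 + r)) = 1 ∧
        (∀ j, IsConj (C j) (y (FreeGroup.of (Sum.inr j)))) ∧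
        ∀ k, y (FreeGroup.of k) ∈ GR r φ} ?_ f' hf' y ⟨hy1, hy2, hy3⟩ g
      rintro z ⟨hz1, hz2, hz3⟩ X
      refine ⟨?_, fun j => ?_, fun k => ?_⟩
      · rw [conjH_apply, hz1, mul_one, mul_inv_cancel]
      · refine (hz2 j).trans ?_
        rw [isConj_iff]
        exact ⟨slU (Int.castRingHom ℂ) X, (conjH_apply _ _ _).symm⟩
      · rw [conjH_apply]
        exact (GR r φ).mul_mem ((GR r φ).mul_mem (slU_int_mem_GR φ X) (hz3 k))
          ((GR r φ).inv_mem (slU_int_mem_GR φ X))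
  · rintro y ⟨hy1, hy2, hy3⟩ hy4
    refine hf y ⟨⟨⟨?_, hy2, ss_of_adjoin y hy4⟩, hy3⟩, hy4⟩
    rintro w rfl
    exact hy1

end Vale.Agent.P002R
end

section

/-!
# P002, genus 0, at least `r` classes of rank one type: the main theorem
-/

namespace Vale.Agent.P002R

open Matrix

variable {r : ℕ}

/-- Not all other classes are scalar. -/
theorem exists_nonscalar {m : ℕ} (hr : 2 ≤ r) (C : Fin (m + 1 + r) → (Mat r ℂ)ˣ)
    (hRO : ∀ j : Fin r, RO r (C (Fin.natAdd (m + 1) j) : Mat r ℂ))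
    (x : FU 0 (m + 1 + r) →* (Mat r ℂ)ˣ) (hx1 : x (relatorU 0 (m + 1 + r)) = 1)
    (hx2 : ∀ j, IsConj (C j) (x (FreeGroup.of (Sum.inr j))))
    (hadj : Algebra.adjoin ℂ (Set.range fun w => (x w : Mat r ℂ)) = ⊤) :
    ∃ j : Fin (m + 1), ∀ μ : ℂ, (C (Fin.castAdd r j) : Mat r ℂ) ≠ μ • (1 : Mat r ℂ) := by
  classical
  by_contra hcon
  push Not at hcon
  obtain ⟨S, hS, hj₀, hS'⟩ := exists_refl_set hr C (Fin.natAdd (m + 1) ⟨0, by omega⟩)
    (fun j _ => by
      refine Fin.addCases (fun j => ?_) (fun l => hRO l) j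
      obtain ⟨μ, hμ⟩ := hcon j
      refine ⟨μ, ?_⟩
      rw [hμ, sub_self, Matrix.rank_zero]
      exact Nat.zero_le 1) x hx1 hx2 hadj
  have h1 : S ⊆ ((Finset.univ : Finset (Fin r)).erase ⟨0, by omega⟩).map
      (Fin.natAddEmb (m + 1)) := by
    intro j hj
    obtain ⟨-, hj2⟩ := hS' j hj
    revert hj hj2
    refine Fin.addCases (fun j => ?_) (fun l => ?_) j
    · intro _ hj2
      obtain ⟨μ, hμ⟩ := hcon j
      exact absurd hμ (hj2 μ)
    · intro hj _
      rw [Finset.mem_map]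
      refine ⟨l, Finset.mem_erase.2 ⟨?_, Finset.mem_univ _⟩, rfl⟩
      rintro rfl
      exact hj₀ hj
  have h2 := Finset.card_le_card h1
  rw [Finset.card_map, Finset.card_erase_of_mem (Finset.mem_univ _), Finset.card_univ,
    Fintype.card_fin] at h2
  omega

/-- Genus zero, the last `r` classes are scalar plus rank one and not scalar. -/
theorem g0R : P002L.G0R := by
  intro m r hr R _ φ E hc _ C hE hRO x hx hirr f hf
  have hr2 : 2 ≤ r := by
    by_contra h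
    have h1 : r = 1 := by omega
    subst h1
    refine (hRO 0).2 ((C (Fin.natAdd (m + 1) 0) : Mat 1 ℂ) 0 0) ?_
    ext i j
    rw [Subsingleton.elim i 0, Subsingleton.elim j 0, Matrix.smul_apply, Matrix.one_apply_eq,
      smul_eq_mul, mul_one]
  obtain ⟨j₀, hj₀⟩ := exists_nonscalar hr2 C (fun j => (hRO j).1) x (hx.1 _ rfl) hx.2.1
    (adjoin_top_of_irr x hx.2.2 hirr)
  refine reorder_one C (Equiv.swap (Fin.castAdd r (Fin.last m)) (Fin.castAdd r j₀))
    (fun x hx hirr f hf => ?_) x hx hirr f hf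
  have hswap : ∀ j : Fin r, Equiv.swap (Fin.castAdd r (Fin.last m)) (Fin.castAdd r j₀)
      (Fin.natAdd (m + 1) j) = Fin.natAdd (m + 1) j := by
    intro j
    refine Equiv.swap_apply_of_ne_of_ne ?_ ?_
    · intro h
      have := congrArg Fin.val h
      rw [Fin.val_natAdd, Fin.val_castAdd, Fin.val_last] at this
      omega
    · intro h
      have := congrArg Fin.val h
      rw [Fin.val_natAdd, Fin.val_castAdd] at this
      omega
  refine g0R_pos hr2 φ E hc _ (fun j => hE _) (fun j => ?_) ?_ x hx hirr f hf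
  · rw [hswap]
    exact hRO j
  · rw [Equiv.swap_apply_left]
    exact hj₀

end Vale.Agent.P002R
end
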