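import Mathlib
import Vale.Agent.P002.Bdl.B14
import Vale.Agent.P002.Bdl.B19
import Vale.Agent.P002.Bdl.B20
import Vale.Agent.P002.Bdl.B2
import Vale.Agent.P002.Bdl.B18
import Vale.Agent.P002.Bdl.B13
import Vale.Agent.P002R.ZStatement
import Vale.Agent.P002.Bdl.B17
import Vale.Agent.P002R.YOrbStmt

set_option linter.all false

section

/-!
# P002, genus 1: linear algebra
-/

namespace Vale.Agent.P002R

open Matrix

theorem dot_mulVec_left {r : ℕ} {M : Mat r ℂ} {lam : ℂ} {y : Fin r → ℂ} (h : y ᵥ* M = lam • y)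
    (w : Fin r → ℂ) : y ⬝ᵥ (M *ᵥ w) = lam * (y ⬝ᵥ w) := by
  rw [Matrix.dotProduct_mulVec, h, smul_dotProduct, smul_eq_mul]

/-- Data attached to a vector which is not cyclic. -/
theorem noncyc_data {r : ℕ} {M : Mat r ℂ} (hM : IsUnit M) {v : Fin r → ℂ} (hv : v ≠ 0)
    (h : (P002.kry M v).det = 0) : ∃ (lam kap : ℂ) (y w : Fin r → ℂ), lam ≠ 0 ∧ y ≠ 0 ∧ w ≠ 0 ∧
      y ᵥ* M = lam • y ∧ y ⬝ᵥ v = 0 ∧ y ⬝ᵥ w = 0 ∧ M *ᵥ w = lam • w - kap • v := by
  have h1 : ∃ (lam : ℂ) (y : Fin r → ℂ), y ≠ 0 ∧ y ᵥ* M = lam • y ∧ y ⬝ᵥ v = 0 := by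
    by_contra hc
    exact kry_det_ne M v (fun lam y hy hyM h0 => hc ⟨lam, y, hy, hyM, h0⟩) h
  obtain ⟨lam, y, hy, hyM, hyv⟩ := h1
  have hlam : lam ≠ 0 := by
    rintro rfl
    rw [zero_smul] at hyM
    obtain ⟨N, rfl⟩ := hM
    apply hy
    calc y = y ᵥ* ((N : Mat r ℂ) * ((N⁻¹ : (Mat r ℂ)ˣ) : Mat r ℂ)) := by
          rw [N.mul_inv, Matrix.vecMul_one]
      _ = 0 := by rw [← Matrix.vecMul_vecMul, hyM, Matrix.zero_vecMul]
  -- the functional
  obtain ⟨f, hf⟩ : ∃ f : (Fin r → ℂ) →ₗ[ℂ] ℂ, ∀ w, f w = y ⬝ᵥ w :=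
    ⟨{ toFun := fun w => y ⬝ᵥ w
       map_add' := fun a b => dotProduct_add y a b
       map_smul' := fun c a => by simp [dotProduct_smul] }, fun _ => rfl⟩
  have hf0 : f ≠ 0 := by
    intro h0
    apply hy
    ext i
    have h2 := hf (Pi.single i 1)
    rw [h0, LinearMap.zero_apply, dotProduct_single, mul_one] at h2
    rw [← h2]
    rfl
  have hK := Module.Dual.finrank_ker_add_one_of_ne_zero (f := f) hf0
  have hr : Module.finrank ℂ (Fin r → ℂ) = r := by simp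
  rw [hr] at hK
  obtain ⟨T, hT⟩ : ∃ T : (Fin r → ℂ) × ℂ →ₗ[ℂ] (Fin r → ℂ),
      ∀ p, T p = M *ᵥ p.1 - lam • p.1 + p.2 • v :=
    ⟨{ toFun := fun p => M *ᵥ p.1 - lam • p.1 + p.2 • v
       map_add' := fun a b => by
        simp only [Prod.fst_add, Prod.snd_add, Matrix.mulVec_add, smul_add, add_smul]
        abel
       map_smul' := fun c a => by
        simp only [Prod.smul_fst, Prod.smul_snd, Matrix.mulVec_smul, RingHom.id_apply, smul_add,
          smul_sub, smul_eq_mul, mul_smul, smul_comm lam c] }, fun _ => rfl⟩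
  have hTK : ∀ p, T p ∈ LinearMap.ker f := by
    intro p
    rw [LinearMap.mem_ker, hf, hT, dotProduct_add, dotProduct_sub, dot_mulVec_left hyM,
      dotProduct_smul, dotProduct_smul, hyv]
    simp
  obtain ⟨g, hg⟩ : ∃ g : (Fin r → ℂ) × ℂ →ₗ[ℂ] (LinearMap.ker f × ℂ),
      g = (T.codRestrict (LinearMap.ker f) hTK).prod (f.comp (LinearMap.fst ℂ _ ℂ)) := ⟨_, rfl⟩
  have hker : LinearMap.ker g ≠ ⊥ := by
    apply LinearMap.ker_ne_bot_of_finrank_lt
    rw [Module.finrank_prod, Module.finrank_prod, hr, Module.finrank_self]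
    omega
  obtain ⟨⟨w, kap⟩, hp, hp0⟩ := Submodule.exists_mem_ne_zero_of_ne_bot hker
  rw [LinearMap.mem_ker, hg] at hp
  have hp1 : T (w, kap) = 0 := by
    have := congrArg (fun q : LinearMap.ker f × ℂ => (q.1 : Fin r → ℂ)) hp
    exact this
  have hp2 : y ⬝ᵥ w = 0 := by
    have := congrArg (fun q : LinearMap.ker f × ℂ => q.2) hp
    rw [← hf]
    exact this
  rw [hT] at hp1
  refine ⟨lam, kap, y, w, hlam, hy, ?_, hyM, hyv, hp2, ?_⟩
  · rintro rfl
    simp only [Matrix.mulVec_zero, smul_zero, sub_zero, zero_add] at hp1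
    rcases smul_eq_zero.1 hp1 with h2 | h2
    · exact hp0 (by rw [h2]; rfl)
    · exact hv h2
  · have h3 : M *ᵥ w = (M *ᵥ w - lam • w + kap • v) + (lam • w - kap • v) := by abel
    rw [h3, hp1, zero_add]

/-- A matrix whose left and right eigenvectors pair nontrivially has distinct eigenvalues. -/
theorem exists_eigenbasis {r : ℕ} {M : Mat r ℂ} (h : ∀ (lam : ℂ) (y w : Fin r → ℂ), y ≠ 0 →
    w ≠ 0 → y ᵥ* M = lam • y → M *ᵥ w = lam • w → y ⬝ᵥ w ≠ 0) :
    ∃ (A : Mat r ℂ) (nu : Fin r → ℂ), IsUnit A ∧ Function.Injective nu ∧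
      M * A = A * diagonal nu := by
  classical
  obtain ⟨f, hf⟩ : ∃ f : Module.End ℂ (Fin r → ℂ), ∀ w, f w = M *ᵥ w :=
    ⟨Matrix.mulVecLin M, fun w => rfl⟩
  -- left eigenvectors
  have hleft : ∀ (lam : ℂ) (w : Fin r → ℂ), w ≠ 0 → M *ᵥ w = lam • w →
      ∃ y : Fin r → ℂ, y ≠ 0 ∧ y ᵥ* M = lam • y := by
    intro lam w hw hMw
    have h1 : (M - lam • (1 : Mat r ℂ)).det = 0 := by
      rw [← Matrix.exists_mulVec_eq_zero_iff]
      exact ⟨w, hw, by rw [Matrix.sub_mulVec, hMw, Matrix.smul_mulVec, Matrix.one_mulVec,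
        sub_self]⟩
    obtain ⟨y, hy, hy0⟩ := Matrix.exists_vecMul_eq_zero_iff.2 h1
    refine ⟨y, hy, ?_⟩
    rw [Matrix.vecMul_sub, Matrix.vecMul_smul, Matrix.vecMul_one, sub_eq_zero] at hy0
    exact hy0
  have hmem : ∀ (lam : ℂ) (w : Fin r → ℂ), w ∈ f.eigenspace lam ↔ M *ᵥ w = lam • w := by
    intro lam w
    rw [Module.End.mem_eigenspace_iff, hf]
  -- semisimplicity
  have hss : ∀ (lam : ℂ) (u : Fin r → ℂ), (f - lam • (1 : Module.End ℂ (Fin r → ℂ)))
      ((f - lam • (1 : Module.End ℂ (Fin r → ℂ))) u) = 0 →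
      (f - lam • (1 : Module.End ℂ (Fin r → ℂ))) u = 0 := by
    intro lam u hu
    by_contra hne
    obtain ⟨w, hw⟩ : ∃ w, w = (f - lam • (1 : Module.End ℂ (Fin r → ℂ))) u := ⟨_, rfl⟩
    rw [← hw] at hu hne
    have h1 : M *ᵥ w = lam • w := by
      have : (f - lam • (1 : Module.End ℂ (Fin r → ℂ))) w = M *ᵥ w - lam • w := by
        rw [LinearMap.sub_apply, hf]; rfl
      rw [this, sub_eq_zero] at hu
      exact hu
    obtain ⟨y, hy, hyM⟩ := hleft lam w hne h1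
    apply h lam y w hy hne hyM h1
    have h2 : w = M *ᵥ u - lam • u := by
      rw [hw, LinearMap.sub_apply, hf]; rfl
    rw [h2, dotProduct_sub, dot_mulVec_left hyM, dotProduct_smul, smul_eq_mul, sub_self]
  have hgen : ∀ (lam : ℂ) (k : ℕ) (u : Fin r → ℂ),
      ((f - lam • (1 : Module.End ℂ (Fin r → ℂ))) ^ k) u = 0 → u ∈ f.eigenspace lam := by
    intro lam k
    induction k with
    | zero =>
      intro u hu
      rw [pow_zero] at hu
      have : u = 0 := hu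
      rw [this]
      exact Submodule.zero_mem _
    | succ k ih =>
      intro u hu
      rw [pow_succ, Module.End.mul_apply] at hu
      have h1 := ih _ hu
      rw [hmem] at h1
      have h2 : (f - lam • (1 : Module.End ℂ (Fin r → ℂ))) u = 0 := by
        apply hss
        rw [LinearMap.sub_apply, hf, h1]
        exact sub_self _
      rw [hmem]
      have : (f - lam • (1 : Module.End ℂ (Fin r → ℂ))) u = M *ᵥ u - lam • u := by
        rw [LinearMap.sub_apply, hf]; rfl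
      rw [this, sub_eq_zero] at h2
      exact h2
  -- eigenvectors
  have hev : ∀ μ : f.Eigenvalues, ∃ w : Fin r → ℂ, w ≠ 0 ∧ M *ᵥ w = (μ : ℂ) • w := by
    intro μ
    obtain ⟨w, hw⟩ := Module.End.HasEigenvalue.exists_hasEigenvector (f := f) (μ := (μ : ℂ)) μ.2
    exact ⟨w, hw.2, (hmem _ _).1 hw.1⟩
  choose w hw0 hw using hev
  have hspan : ∀ (μ : f.Eigenvalues) (u : Fin r → ℂ), M *ᵥ u = (μ : ℂ) • u →
      u ∈ Submodule.span ℂ (Set.range w) := by
    intro μ u hu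
    obtain ⟨y, hy, hyM⟩ := hleft μ (w μ) (hw0 μ) (hw μ)
    have h1 := h μ y (w μ) hy (hw0 μ) hyM (hw μ)
    obtain ⟨z, hz⟩ : ∃ z, z = (y ⬝ᵥ w μ) • u - (y ⬝ᵥ u) • w μ := ⟨_, rfl⟩
    have hz1 : M *ᵥ z = (μ : ℂ) • z := by
      rw [hz, Matrix.mulVec_sub, Matrix.mulVec_smul, Matrix.mulVec_smul, hu, hw, smul_sub,
        smul_comm, smul_comm (y ⬝ᵥ u)]
    have hz2 : y ⬝ᵥ z = 0 := by
      rw [hz, dotProduct_sub, dotProduct_smul, dotProduct_smul, smul_eq_mul, smul_eq_mul]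
      ring
    have hz0 : z = 0 := by
      by_contra hne
      exact h μ y z hy hne hyM hz1 hz2
    have h2 : u = ((y ⬝ᵥ w μ)⁻¹ * (y ⬝ᵥ u)) • w μ := by
      rw [hz0] at hz
      have h3 : (y ⬝ᵥ w μ) • u = (y ⬝ᵥ u) • w μ := (sub_eq_zero.1 hz.symm)
      rw [mul_smul, ← h3, smul_smul, inv_mul_cancel₀ h1, one_smul]
    rw [h2]
    exact Submodule.smul_mem _ _ (Submodule.subset_span ⟨μ, rfl⟩)
  have htop : ⊤ ≤ Submodule.span ℂ (Set.range w) := by
    rw [← Module.End.iSup_maxGenEigenspace_eq_top f]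
    refine iSup_le fun lam => ?_
    intro u hu
    rw [Module.End.mem_maxGenEigenspace] at hu
    obtain ⟨k, hk⟩ := hu
    have h1 := hgen lam k u hk
    by_cases hu0 : u = 0
    · rw [hu0]
      exact Submodule.zero_mem _
    · have h2 : f.HasEigenvalue lam := Module.End.hasEigenvalue_of_hasEigenvector ⟨h1, hu0⟩
      exact hspan ⟨lam, h2⟩ u ((hmem _ _).1 h1)
  have hli : LinearIndependent ℂ w :=
    Module.End.eigenvectors_linearIndependent' f (fun μ : f.Eigenvalues => (μ : ℂ))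
      Subtype.val_injective w fun μ => ⟨(hmem _ _).2 (hw μ), hw0 μ⟩
  obtain ⟨b, hb⟩ : ∃ b : Module.Basis f.Eigenvalues ℂ (Fin r → ℂ), ∀ μ, b μ = w μ :=
    ⟨Module.Basis.mk hli htop, fun μ => Module.Basis.mk_apply hli htop μ⟩
  have hcard : Fintype.card f.Eigenvalues = r := by
    rw [← Module.finrank_eq_card_basis b]
    simp
  obtain ⟨e⟩ : Nonempty (Fin r ≃ f.Eigenvalues) :=
    ⟨(Fintype.equivFinOfCardEq hcard).symm⟩
  have hbe := (b.reindex e.symm)
  obtain ⟨A, hA⟩ : ∃ A : Mat r ℂ, A = Matrix.of fun i j => w (e j) i := ⟨_, rfl⟩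
  refine ⟨A, fun j => (e j : ℂ), ?_, ?_, ?_⟩
  · have h1 : LinearIndependent ℂ fun j => w (e j) := hli.comp _ e.injective
    have h2 : LinearIndependent ℂ A.col := by
      have : A.col = fun j => w (e j) := by
        funext j i
        rw [hA]
        rfl
      rw [this]
      exact h1
    exact Matrix.linearIndependent_cols_iff_isUnit.1 h2
  · intro i j hij
    exact e.injective (Subtype.ext hij)
  · ext i j
    rw [Matrix.mul_diagonal, Matrix.mul_apply]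
    have h1 := congrFun (hw (e j)) i
    rw [Matrix.mulVec, dotProduct, Pi.smul_apply, smul_eq_mul] at h1
    rw [hA]
    simp only [Matrix.of_apply]
    rw [h1, mul_comm]

end Vale.Agent.P002R
end

section

/-!
# P002, genus 1: tuples with all flags in general position
-/

namespace Vale.Agent.P002R

open Matrix Module Vale.Agent.P002

variable {r : ℕ} {ι : Type}

/-- Near every irreducible tuple there is one all of whose flags are in general position and
which satisfies the cyclicity condition. -/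
theorem exists_generic_one [Fintype ι] [DecidableEq ι] (hr : 1 ≤ r) (i₀ : ι) (l : List ι)
    (hnd : (i₀ :: l).Nodup) (hmem : ∀ j, j ∈ i₀ :: l) (J : ι → P002R.Mat r ℂ)
    (hJ : ∀ j, IsUnit (J j)) (hcyc : ∃ v, (kry (J i₀) v).det ≠ 0)
    (Y₀ : ι ⊕ Bool → P002R.Mat r ℂ) (hY₀ : ∀ j, IsUnit (Y₀ j)) (hrel : PhiI J (i₀ :: l) Y₀ = 1)
    (hadj : Algebra.adjoin ℂ (Set.range (allI J Y₀)) = ⊤) (U : Set (ι ⊕ Bool → P002R.Mat r ℂ))
    (hU : U ∈ nhds Y₀) :
    ∃ Y ∈ U, (∀ j, IsUnit (Y j)) ∧ PhiI J (i₀ :: l) Y = 1 ∧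
      Algebra.adjoin ℂ (Set.range (allI J Y)) = ⊤ ∧
      (∀ a : Fin r, (kry (Y (Sum.inr false)) ((((l.map (cI J Y)).prod)⁻¹ * Y (Sum.inl i₀)) *ᵥ
        (Pi.single a 1 : Fin r → ℂ))).det ≠ 0) ∧
      ∃ (A : P002R.Mat r ℂ) (ν : Fin r → ℂ), IsUnit A ∧ Function.Injective ν ∧
        Y (Sum.inr false) * A = A * diagonal ν ∧
        ∀ (l₁ l₂ : List ι), l = l₁ ++ l₂ → ∀ (k : ℕ) (f g : Fin k → Fin r),
          Function.Injective f → Function.Injective g →
          (((Y (Sum.inl i₀))⁻¹ * (l₁.map (cI J Y)).prod *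
            (Y (Sum.inr true) * A)).submatrix f g).det ≠ 0 := by
  obtain ⟨K₀, hK₀, hJK', hE⟩ := exists_eigen_field (Sum.elim J fun j => (J j)ᵀ : ι ⊕ ι → _)
  have hJK : ∀ j a b, J j a b ∈ K₀ := fun j => hJK' (Sum.inl j)
  have hER : ∀ (lam : ℂ) (u : Fin r → ℂ), u ≠ 0 → J i₀ *ᵥ u = lam • u →
      ∃ z : Fin r → ℂ, z ≠ 0 ∧ J i₀ *ᵥ z = lam • z ∧ ∀ i, z i ∈ K₀ := by
    intro lam u hu0 hu
    obtain ⟨z, hz0, hz, hzK⟩ := hE (Sum.inr i₀) lam u hu0 (by
      rw [Sum.elim_inr, Matrix.vecMul_transpose]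
      exact hu)
    rw [Sum.elim_inr, Matrix.vecMul_transpose] at hz
    exact ⟨z, hz0, hz, hzK⟩
  obtain ⟨Y, hYU, hYu, hYrel, hYadj, hgen⟩ := generic_point1 hr (i₀ :: l) hnd hmem K₀ hK₀ J hJK Y₀
    hY₀ hrel hadj U hU
  have hPd : IsUnit ((l.map (cI J Y)).prod).det :=
    (Matrix.isUnit_iff_isUnit_det _).1 (isUnit_cI_prod hJ hYu l)
  have h0d : IsUnit (Y (Sum.inl i₀)).det := (Matrix.isUnit_iff_isUnit_det _).1 (hYu _)
  have hk : ∀ e : Fin r → ℂ, (∀ i, e i ∈ K₀) → e ≠ 0 → (kry (Y (Sum.inr false))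
      ((((l.map (cI J Y)).prod)⁻¹ * Y (Sum.inl i₀)) *ᵥ e)).det ≠ 0 := by
    intro e heK he0 hdet
    obtain ⟨v, hv⟩ : ∃ v, v = (((l.map (cI J Y)).prod)⁻¹ * Y (Sum.inl i₀)) *ᵥ e := ⟨_, rfl⟩
    rw [← hv] at hdet
    have hv0 : v ≠ 0 := by
      intro h
      apply he0
      have hud : IsUnit (((l.map (cI J Y)).prod)⁻¹ * Y (Sum.inl i₀)).det :=
        (Matrix.isUnit_iff_isUnit_det _).1 ((Matrix.isUnit_nonsing_inv_iff.2
          (isUnit_cI_prod hJ hYu l)).mul (hYu _))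
      calc e = ((((l.map (cI J Y)).prod)⁻¹ * Y (Sum.inl i₀))⁻¹ *
            (((l.map (cI J Y)).prod)⁻¹ * Y (Sum.inl i₀))) *ᵥ e := by
            rw [Matrix.nonsing_inv_mul _ hud, Matrix.one_mulVec]
        _ = 0 := by rw [← Matrix.mulVec_mulVec, ← hv, h, Matrix.mulVec_zero]
    obtain ⟨lam, κ, y, w, hlam, hy, hw, hya, hyv, hyw, haw⟩ := noncyc_data (hYu _) hv0 hdet
    exact gen_cyc hJK hJ hYu i₀ l hnd hmem hYrel hYadj hgen e heK lam κ y w v hv hlam hy hw hya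
      hyv hyw haw
  have hirr : ∀ W : Submodule ℂ (Fin r → ℂ), (∀ j, ∀ w ∈ W, cI J Y j *ᵥ w ∈ W) →
      (∀ w ∈ W, Y (Sum.inr false) *ᵥ w ∈ W) → W = ⊥ ∨ W = ⊤ :=
    gen_irr hJ hYu i₀ l hcyc hER hk
  obtain ⟨A, ν, hA, hν, haA⟩ := exists_eigenbasis (M := Y (Sum.inr false))
    (fun lam y w hy hw hya haw => gen_pair hJ hYu i₀ l hnd hmem hYrel hYadj hgen lam y w hy hw hya
      haw)
  refine ⟨Y, hYU, hYu, hYrel, hYadj, fun a => hk _ (fun i => ?_) fun h => ?_, A, ν, hA, hν, haA,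
    ?_⟩
  · by_cases hi : i = a
    · subst hi
      rw [Pi.single_eq_same]
      exact K₀.one_mem
    · rw [Pi.single_eq_of_ne hi]
      exact K₀.zero_mem
  · have := congrFun h a
    rw [Pi.single_eq_same, Pi.zero_apply] at this
    exact one_ne_zero this
  · rintro l₁ l₂ rfl k f g hf hg
    exact gen_minor hJK hJ hYu i₀ l₁ l₂ hnd hmem hYrel hirr hgen hA hν haA f g hf hg

end Vale.Agent.P002R
end

section

/-!
# P002, genus 1, arbitrary classes: generic representations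
-/

namespace Vale.Agent.P002R

open Matrix Module Vale.Agent.P002

variable {r : ℕ} {ι : Type}

/-- a countable field which contains the entries and the eigenvalues -/
theorem exists_entry_field [Finite ι] (J : ι → P002R.Mat r ℂ) :
    ∃ K₀ : Subfield ℂ, Countable K₀ ∧ (∀ j a b, J j a b ∈ K₀) ∧
      ∀ j lam, (J j).charpoly.IsRoot lam → lam ∈ K₀ := by
  obtain ⟨K₀, hK₀, hsub⟩ := exists_countable_subfield'
    ((Set.range fun p : ι × Fin r × Fin r => J p.1 p.2.1 p.2.2) ∪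
      ⋃ j, {lam : ℂ | (J j).charpoly.IsRoot lam}) (by
      have := Finite.to_countable (α := ι)
      refine (Set.countable_range _).union (Set.countable_iUnion fun j => Set.Finite.countable ?_)
      exact Polynomial.finite_setOfPred_isRoot (Matrix.charpoly_monic _).ne_zero)
  exact ⟨K₀, hK₀, fun j a b => hsub (Or.inl ⟨(j, a, b), rfl⟩),
    fun j lam hlam => hsub (Or.inr (Set.mem_iUnion.2 ⟨j, hlam⟩))⟩

/-- Near every irreducible tuple, one of whose classes is not scalar, there is a generic one. -/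
theorem exists_generic_two [Fintype ι] [DecidableEq ι] (hr : 1 ≤ r) (L : List ι)
    (hnd : L.Nodup) (hmem : ∀ j, j ∈ L) (J : ι → P002R.Mat r ℂ) (hJ : ∀ j, IsUnit (J j)) (j₀ : ι)
    (hns : ∀ μ : ℂ, J j₀ ≠ μ • (1 : P002R.Mat r ℂ))
    (Y₀ : ι ⊕ Bool → P002R.Mat r ℂ) (hY₀ : ∀ j, IsUnit (Y₀ j)) (hrel : PhiI J L Y₀ = 1)
    (hadj : Algebra.adjoin ℂ (Set.range (allI J Y₀)) = ⊤) (U : Set (ι ⊕ Bool → P002R.Mat r ℂ))
    (hU : U ∈ nhds Y₀) :
    ∃ Y ∈ U, (∀ j, IsUnit (Y j)) ∧ PhiI J L Y = 1 ∧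
      Algebra.adjoin ℂ (Set.range (allI J Y)) = ⊤ ∧
      (∀ W : Submodule ℂ (Fin r → ℂ), (∀ j, ∀ w ∈ W, cI J Y j *ᵥ w ∈ W) →
        (∀ w ∈ W, Y (Sum.inr false) *ᵥ w ∈ W) → W = ⊥ ∨ W = ⊤) ∧
      ∃ (A : P002R.Mat r ℂ) (ν : Fin r → ℂ), IsUnit A ∧ Function.Injective ν ∧
        Y (Sum.inr false) * A = A * diagonal ν ∧
        (∀ m m' : Fin r → ℕ, ∏ i, ν i ^ m i = ∏ i, ν i ^ m' i → m = m') ∧
        ∀ (l₁ l₂ : List ι), L = l₁ ++ l₂ → ∀ (k : ℕ) (f g : Fin k → Fin r),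
          Function.Injective f → Function.Injective g →
          (((Y (Sum.inr true) * A)⁻¹ * (l₁.map (cI J Y)).prod * A).submatrix f g).det ≠ 0 := by
  obtain ⟨K₀, hK₀, hJK, hJE⟩ := exists_entry_field J
  obtain ⟨Y, hYU, hYu, hYrel, hYadj, hgen⟩ := generic_point1 hr L hnd hmem K₀ hK₀ J hJK Y₀
    hY₀ hrel hadj U hU
  -- distinct eigenvalues; rotate the list
  obtain ⟨A, ν, hA, hν, haA⟩ := exists_eigenbasis (M := Y (Sum.inr false)) (by
    obtain ⟨i₀, l, rfl⟩ : ∃ i₀ l, L = i₀ :: l := by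
      cases L with
      | nil => exact absurd (hmem j₀) (by simp)
      | cons i₀ l => exact ⟨i₀, l, rfl⟩
    exact fun lam y w hy hw hya haw => gen_pair hJ hYu i₀ l hnd hmem hYrel hYadj hgen lam y w hy
      hw hya haw)
  have hno : ∀ e : P002R.Mat r ℂ, e * e = e → (∀ j, Commute e (cI J Y j)) →
      Commute e (Y (Sum.inr false)) → e = 0 ∨ e = 1 := by
    intro e he hec hea
    by_contra hcon
    push Not at hcon
    obtain ⟨μ, hμ⟩ := gen_idem hJK hJ hYu L hnd hYrel hgen hA hν haA he hec hea hcon.1 hcon.2 j₀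
      (hmem j₀)
    apply hns μ
    have hud : IsUnit (Y (Sum.inl j₀)).det := (Matrix.isUnit_iff_isUnit_det _).1 (hYu _)
    have a2 := Matrix.nonsing_inv_mul _ hud
    have h1 : J j₀ = (Y (Sum.inl j₀))⁻¹ * cI J Y j₀ * Y (Sum.inl j₀) := by
      rw [cI_eqn, cj_apply]
      simp only [Matrix.mul_assoc, mulL a2, a2, Matrix.mul_one]
    rw [h1, hμ, Matrix.mul_smul, Matrix.mul_one, Matrix.smul_mul, a2]
  have hirr : ∀ W : Submodule ℂ (Fin r → ℂ), (∀ j, ∀ w ∈ W, cI J Y j *ᵥ w ∈ W) →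
      (∀ w ∈ W, Y (Sum.inr false) *ᵥ w ∈ W) → W = ⊥ ∨ W = ⊤ :=
    gen_irr2 hJK hJE hJ hYu L hnd hmem hYrel hYadj hgen hA hν haA j₀ hns
  refine ⟨Y, hYU, hYu, hYrel, hYadj, hirr, A, ν, hA, hν, haA, fun m m' h => ?_, ?_⟩
  · exact gen_mult_indep hYu L hgen hA haA (fun m hm => gen_free hJ hYu L hnd hmem hYrel hA hν haA
      j₀ hno m hm) m m' h
  · rintro l₁ l₂ rfl k f g hf hg
    exact gen_minor2 hJK hJ hYu l₁ l₂ hnd hmem hYrel hirr hgen hA hν haA f g hf hg

/-- Generic representations of the once punctured handle. -/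
structure GenRep {n : ℕ} (x : FU 1 n →* (Mat r ℂ)ˣ) (A : Mat r ℂ) (ν : Fin r → ℂ) : Prop where
  /-- `c_j` and `a` generate an irreducible group -/
  irr : ∀ W : Submodule ℂ (Fin r → ℂ), (∀ j, ∀ w ∈ W, mt x (Sum.inl j) *ᵥ w ∈ W) →
    (∀ w ∈ W, mt x (Sum.inr false) *ᵥ w ∈ W) → W = ⊥ ∨ W = ⊤
  /-- the eigenbasis of `a` -/
  unit : IsUnit A
  inj : Function.Injective ν
  eig : mt x (Sum.inr false) * A = A * diagonal ν
  /-- multiplicative independence -/
  indep : ∀ m m' : Fin r → ℕ, ∏ i, ν i ^ m i = ∏ i, ν i ^ m' i → m = m'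
  /-- general position of the flags of `b a⁻¹ b⁻¹` and `a` -/
  minor : ∀ (l₁ l₂ : List (Fin n)), List.finRange n = l₁ ++ l₂ → ∀ (k : ℕ) (f g : Fin k → Fin r),
    Function.Injective f → Function.Injective g →
    (((mt x (Sum.inr true) * A)⁻¹ * (l₁.map fun j => mt x (Sum.inl j)).prod * A).submatrix
      f g).det ≠ 0

/-- Density of the generic representations. -/
theorem exists_genRep {n : ℕ} (hr : 0 < r) (C : Fin n → (Mat r ℂ)ˣ) (j₀ : Fin n)
    (hns : ∀ μ : ℂ, (C j₀ : Mat r ℂ) ≠ μ • (1 : Mat r ℂ))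
    (x : FU 1 n →* (Mat r ℂ)ˣ) (hrel : x (relatorU 1 n) = 1)
    (hcl : ∀ j, IsConj (C j) (x (FreeGroup.of (Sum.inr j))))
    (hadj : Algebra.adjoin ℂ (Set.range fun w => (x w : Mat r ℂ)) = ⊤)
    (f : MvPolynomial (GenU 1 n × Fin r × Fin r) ℂ) (hf : evalG x f ≠ 0) :
    ∃ (z : FU 1 n →* (Mat r ℂ)ˣ) (A : Mat r ℂ) (ν : Fin r → ℂ), evalG z f ≠ 0 ∧
      z (relatorU 1 n) = 1 ∧ (∀ j, IsConj (C j) (z (FreeGroup.of (Sum.inr j)))) ∧
      Algebra.adjoin ℂ (Set.range fun w => (z w : Mat r ℂ)) = ⊤ ∧ GenRep z A ν := by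
  classical
  have hy : ∀ j, ∃ y : (Mat r ℂ)ˣ, y * C j * y⁻¹ = x (FreeGroup.of (Sum.inr j)) := fun j =>
    isConj_iff.1 (hcl j)
  choose y hy using hy
  obtain ⟨Y₀, hY₀, hY₀'⟩ : ∃ Y₀ : Fin n ⊕ Bool → Mat r ℂ,
      (∀ j, Y₀ (Sum.inl j) = (y j : Mat r ℂ)) ∧ ∀ s, Y₀ (Sum.inr s) = mt x (Sum.inr s) :=
    ⟨Sum.elim (fun j => (y j : Mat r ℂ)) fun s => mt x (Sum.inr s), fun _ => rfl, fun _ => rfl⟩
  obtain ⟨J', hJ'⟩ : ∃ J' : Fin n → Mat r ℂ, ∀ j, J' j = (C j : Mat r ℂ) :=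
    ⟨_, fun _ => rfl⟩
  have hY₀u : ∀ j, IsUnit (Y₀ j) := by
    rintro (j | s)
    · rw [hY₀]
      exact (y j).isUnit
    · rw [hY₀', mt_inr]
      exact Units.isUnit _
  have hJ'u : ∀ j, IsUnit (J' j) := fun j => by rw [hJ']; exact (C j).isUnit
  have hcj : allI J' Y₀ = mt x := by
    funext k
    rcases k with j | s
    · rw [allI_inl, cI_eqn, cj_apply, hY₀, hJ', mt_inl, ← hy, Units.val_mul, Units.val_mul,
        Matrix.coe_units_inv]
    · rw [allI_inr, hY₀']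
  have hPhi : ∀ (z : FU 1 n →* (Mat r ℂ)ˣ) (Y : Fin n ⊕ Bool → Mat r ℂ),
      mt z = allI J' Y → (z (relatorU 1 n) = 1 ↔ PhiI J' (List.finRange n) Y = 1) := by
    intro z Y hz
    rw [relU1_iff, PhiI, hI]
    have h1 : (fun j => mt z (Sum.inl j)) = cI J' Y := by
      funext j
      rw [hz, allI_inl]
    rw [h1, hz, allI_inr, allI_inr]
  -- the neighbourhood
  have hU : {Y : Fin n ⊕ Bool → Mat r ℂ | evT1 f (allI J' Y) ≠ 0} ∈ nhds Y₀ := by
    have h1 : ContinuousAt (fun Y : Fin n ⊕ Bool → Mat r ℂ => evT1 f (allI J' Y)) Y₀ :=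
      ContinuousAt.comp (f := fun Y : Fin n ⊕ Bool → Mat r ℂ => allI J' Y)
        (evT1_continuous f).continuousAt (continuousAt_allI' J' hY₀u)
    refine h1.eventually_ne ?_
    rw [hcj, ← evalG_eq_evT1]
    exact hf
  obtain ⟨Y, hYU, hYu, hYrel, hYadj, hYirr, A, ν, hA, hν, haA, hind, hmin⟩ :=
    exists_generic_two hr (List.finRange n) (List.nodup_finRange _)
    (fun j => List.mem_finRange j) J' hJ'u j₀ (by rw [hJ']; exact hns) Y₀ hY₀u
    ((hPhi x Y₀ hcj.symm).1 hrel) (by rw [hcj]; exact (adjoin_iff1 x).1 hadj) _ hU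
  have hYU' : evT1 f (allI J' Y) ≠ 0 := hYU
  obtain ⟨yy, hyy⟩ : ∃ yy : Fin n ⊕ Bool → (Mat r ℂ)ˣ, ∀ k, (yy k : Mat r ℂ) = Y k :=
    ⟨fun k => (hYu k).unit, fun k => rfl⟩
  obtain ⟨z, hz1, hz2⟩ : ∃ z : FU 1 n →* (Mat r ℂ)ˣ,
      (∀ j, z (FreeGroup.of (Sum.inr j)) = yy (Sum.inl j) * C j * (yy (Sum.inl j))⁻¹) ∧
      ∀ s, z (FreeGroup.of (Sum.inl (0, s))) = yy (Sum.inr s) :=
    ⟨mkR1 (Sum.elim (fun j => yy (Sum.inl j) * C j * (yy (Sum.inl j))⁻¹) fun s => yy (Sum.inr s)),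
      fun j => mkR1_inr _ j, fun s => mkR1_inl _ 0 s⟩
  have hmz : mt z = allI J' Y := by
    funext k
    rcases k with j | s
    · rw [allI_inl, cI_eqn, cj_apply, hJ', ← hyy, mt_inl, hz1, Units.val_mul, Units.val_mul,
        Matrix.coe_units_inv]
    · rw [allI_inr, mt_inr, hz2, hyy]
  refine ⟨z, A, ν, ?_, (hPhi z Y hmz).2 hYrel, ?_, ?_, ?_⟩
  · rw [evalG_eq_evT1, hmz]
    exact hYU'
  · intro j
    rw [hz1, isConj_iff]
    exact ⟨yy (Sum.inl j), rfl⟩
  · rw [adjoin_iff1, hmz]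
    exact hYadj
  · have h1 : (fun j => mt z (Sum.inl j)) = cI J' Y := by
      funext j
      rw [hmz, allI_inl]
    have h2 : ∀ s, mt z (Sum.inr s) = Y (Sum.inr s) := fun s => by rw [hmz, allI_inr]
    refine ⟨?_, hA, hν, by rw [h2]; exact haA, hind, ?_⟩
    · intro W hW hWa
      rw [h2] at hWa
      exact hYirr W (fun j => by rw [← h1]; exact hW j) hWa
    · rw [h1, h2]
      exact hmin

end Vale.Agent.P002R
end

section

/-!
# The fibre of the second handle matrix: the genus zero tuple and polynomials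
-/

namespace Vale.Agent.P002R

open Matrix

section tuple

variable {G : Type*} [Group G] {m : ℕ}

/-- The genus zero tuple attached to a genus one tuple. -/
def zT (a b : G) (c : Fin (m + 1) → G) : Fin (m + 3) → G :=
  Fin.cons (α := fun _ => G) b⁻¹ (Fin.snoc (α := fun _ => G) c (a * b * a⁻¹))

theorem zT_zero (a b : G) (c : Fin (m + 1) → G) : zT a b c 0 = b⁻¹ := rfl

theorem zT_mid (a b : G) (c : Fin (m + 1) → G) (j : Fin (m + 1)) :
    zT a b c ⟨j + 1, by omega⟩ = c j := by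
  have h : (⟨j + 1, by omega⟩ : Fin (m + 3)) = Fin.succ (Fin.castSucc j) := rfl
  rw [h, zT, Fin.cons_succ, Fin.snoc_castSucc]

theorem zT_last (a b : G) (c : Fin (m + 1) → G) : zT a b c (Fin.last (m + 2)) = a * b * a⁻¹ := by
  rw [← Fin.succ_last, zT, Fin.cons_succ, Fin.snoc_last]

theorem fin_cases3 {p : Fin (m + 3) → Prop} (h0 : p 0)
    (h1 : ∀ j : Fin (m + 1), p ⟨j + 1, by omega⟩) (h2 : p (Fin.last (m + 2))) : ∀ j, p j := by
  intro j
  refine Fin.cases h0 (fun j => ?_) j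
  refine Fin.lastCases ?_ (fun j => ?_) j
  · rwa [Fin.succ_last]
  · exact h1 j

theorem prod_ofFn3 (d : Fin (m + 3) → G) : (List.ofFn d).prod =
    d 0 * (List.ofFn fun j : Fin (m + 1) => d ⟨j + 1, by omega⟩).prod * d (Fin.last (m + 2)) := by
  rw [List.ofFn_succ, List.ofFn_succ', List.prod_cons, List.concat_eq_append, List.prod_append,
    List.prod_singleton, Fin.succ_last, mul_assoc]
  rfl

end tuple

theorem relU0_units {n r : ℕ} (y : FU 0 n →* (Mat r ℂ)ˣ) : y (relatorU 0 n) =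
    (List.ofFn fun j : Fin n => y (FreeGroup.of (Sum.inr j))).prod := by
  rw [relatorU_eqn, List.ofFn_zero, List.prod_nil, mul_one, map_list_prod, List.map_ofFn]
  rfl

theorem relU1_units {n r : ℕ} (x : FU 1 n →* (Mat r ℂ)ˣ) : x (relatorU 1 n) =
    (List.ofFn fun j : Fin n => x (FreeGroup.of (Sum.inr j))).prod *
      (x (FreeGroup.of (Sum.inl (0, false))) * x (FreeGroup.of (Sum.inl (0, true))) *
        (x (FreeGroup.of (Sum.inl (0, false))))⁻¹ * (x (FreeGroup.of (Sum.inl (0, true))))⁻¹) := by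
  rw [relatorU_eqn, map_mul, map_list_prod, List.map_ofFn]
  simp only [List.ofFn_succ (n := 0), List.ofFn_zero, List.prod_nil, List.prod_cons, mul_one,
    map_mul, map_inv]
  rfl

section evMat

variable {κ : Type*} {r : ℕ} {S T : Type*} [CommRing S] [Algebra ℂ S] [CommRing T] [Algebra ℂ T]

/-- Evaluation of a polynomial at matrices. -/
noncomputable def evMat (c : κ → Mat r S) (f : MvPolynomial (κ × Fin r × Fin r) ℂ) : S :=
  MvPolynomial.aeval (fun p => c p.1 p.2.1 p.2.2) f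

theorem evalG_eq_evMat (y : FreeGroup κ →* (Mat r ℂ)ˣ) (f : MvPolynomial (κ × Fin r × Fin r) ℂ) :
    evalG y f = evMat (fun k => (y (FreeGroup.of k) : Mat r ℂ)) f := evalG_eqn y f

theorem evMat_map (ψ : S →ₐ[ℂ] T) (c : κ → Mat r S) (f : MvPolynomial (κ × Fin r × Fin r) ℂ) :
    ψ (evMat c f) = evMat (fun k => (c k).map ψ) f := by
  rw [evMat, evMat, ← AlgHom.comp_apply, MvPolynomial.comp_aeval]
  rfl

/-- The matrices of the handle and of the boundary components. -/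
noncomputable def hMat {m : ℕ} (a b : Mat r S) (c : Fin (m + 1) → Mat r S) :
    GenU 1 (m + 1) → Mat r S :=
  Sum.elim (fun k => if k.2 then b else a) c

theorem hMat_map {m : ℕ} (ψ : S →ₐ[ℂ] T) (a b : Mat r S) (c : Fin (m + 1) → Mat r S) :
    (fun k => (hMat a b c k).map ψ) = hMat (a.map ψ) (b.map ψ) fun j => (c j).map ψ := by
  funext k
  rcases k with ⟨k, _ | _⟩ | k <;> rfl

theorem map_aevalMat (ψ : S →ₐ[ℂ] T) (A : Mat r S) (p : Polynomial ℂ) :
    (Polynomial.aeval A p).map ψ = Polynomial.aeval (A.map ψ) p :=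
  (Polynomial.aeval_algHom_apply ψ.mapMatrix A p).symm

end evMat

/-- The polynomial in the matrices of genus zero. -/
theorem exists_fib_poly2 {m r : ℕ} (p : Fin r → Polynomial ℂ) (δ : ℂ) (B : Mat r ℂ)
    (f : MvPolynomial (GenU 1 (m + 1) × Fin r × Fin r) ℂ) :
    ∃ F : MvPolynomial (GenU 0 (m + 3) × Fin r × Fin r) ℂ, ∀ c : GenU 0 (m + 3) → Mat r ℂ,
      evMat c F = evMat (hMat (∑ i, Polynomial.aeval (c (Sum.inr (Fin.last (m + 2)))) (p i) * B *
          Polynomial.aeval (δ • (c (Sum.inr 0)).adjugate) (p i))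
        (δ • (c (Sum.inr 0)).adjugate)
        fun j : Fin (m + 1) => c (Sum.inr ⟨j + 1, by omega⟩)) f := by
  obtain ⟨cg, hcg⟩ : ∃ cg : GenU 0 (m + 3) →
      Mat r (MvPolynomial (GenU 0 (m + 3) × Fin r × Fin r) ℂ),
    cg = fun k => Matrix.of fun i j => MvPolynomial.X (k, (i, j)) := ⟨_, rfl⟩
  refine ⟨evMat (hMat (∑ i, Polynomial.aeval (cg (Sum.inr (Fin.last (m + 2)))) (p i) *
          B.map (algebraMap ℂ _) *
          Polynomial.aeval (δ • (cg (Sum.inr 0)).adjugate) (p i))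
        (δ • (cg (Sum.inr 0)).adjugate)
        fun j : Fin (m + 1) => cg (Sum.inr ⟨j + 1, by omega⟩)) f, fun c => ?_⟩
  obtain ⟨ev, hev⟩ : ∃ ev : MvPolynomial (GenU 0 (m + 3) × Fin r × Fin r) ℂ →ₐ[ℂ] ℂ,
    ev = MvPolynomial.aeval (fun p => c p.1 p.2.1 p.2.2) := ⟨_, rfl⟩
  have h1 : ∀ k, (cg k).map ev = c k := by
    intro k
    ext i j
    rw [hcg, Matrix.map_apply, hev]
    exact MvPolynomial.aeval_X _ _
  have h2 : ∀ F, evMat c F = ev F := fun F => by rw [hev]; rfl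
  have h4 : (δ • (cg (Sum.inr 0)).adjugate).map ev = δ • (c (Sum.inr 0)).adjugate := by
    have h5 : (cg (Sum.inr 0)).adjugate.map ev = (c (Sum.inr 0)).adjugate := by
      rw [← h1]
      exact RingHom.map_adjugate (ev : _ →+* ℂ) (cg (Sum.inr 0))
    rw [← h5]
    ext i j
    exact map_smul ev δ ((cg (Sum.inr 0)).adjugate i j)
  rw [h2, evMat_map, hMat_map, h4]
  simp only [h1]
  congr 2
  have h3 : ∀ M : Mat r (MvPolynomial (GenU 0 (m + 3) × Fin r × Fin r) ℂ),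
      M.map ev = ev.mapMatrix M := fun M => rfl
  rw [h3, map_sum]
  refine Finset.sum_congr rfl fun i _ => ?_
  rw [map_mul, map_mul]
  congr 1
  · congr 1
    · rw [← h3, map_aevalMat, h1]
    · ext i j
      rw [← h3, Matrix.map_apply, Matrix.map_apply]
      exact ev.commutes _
  · rw [← h3, map_aevalMat, h4]

/-- The polynomial in the torus. -/
theorem exists_torus_poly2 {r m : ℕ} (b P Q : Mat r ℂ)
    (c : Fin (m + 1) → Mat r ℂ) (f : MvPolynomial (GenU 1 (m + 1) × Fin r × Fin r) ℂ) :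
    ∃ G : MvPolynomial (Fin r) ℂ, ∀ t : Fin r → ℂ, MvPolynomial.eval t G =
      evMat (hMat (P * diagonal t * Q) b c) f := by
  refine ⟨evMat (hMat (P.map (algebraMap ℂ _) *
    diagonal (fun j => (MvPolynomial.X j : MvPolynomial (Fin r) ℂ)) * Q.map (algebraMap ℂ _))
    (b.map (algebraMap ℂ _)) fun j => (c j).map (algebraMap ℂ _)) f, fun t => ?_⟩
  obtain ⟨ev, hev⟩ : ∃ ev : MvPolynomial (Fin r) ℂ →ₐ[ℂ] ℂ, ev = MvPolynomial.aeval t := ⟨_, rfl⟩
  have h1 : ∀ F, MvPolynomial.eval t F = ev F := fun F => by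
    rw [hev, ← MvPolynomial.coe_aeval_eq_eval]
    rfl
  have h2 : ∀ M : Mat r ℂ, (M.map (algebraMap ℂ (MvPolynomial (Fin r) ℂ))).map ev = M := by
    intro M
    ext i j
    exact ev.commutes _
  have h3 : ∀ M : Mat r (MvPolynomial (Fin r) ℂ), M.map ev = ev.mapMatrix M := fun M => rfl
  rw [h1, evMat_map, hMat_map, h2]
  simp only [h2]
  congr 2
  rw [h3, map_mul, map_mul, ← h3, ← h3, ← h3, h2, h2]
  congr 2
  rw [Matrix.diagonal_map (map_zero ev)]
  congr 1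
  funext j
  rw [hev, MvPolynomial.aeval_X]

end Vale.Agent.P002R
end

section

/-!
# P002, genus 1: integral points and the polynomial of the chart
-/

namespace Vale.Agent.P002R

open Matrix

variable {r m : ℕ}

theorem isUnit_of_prod' {S : Type*} [CommRing S] (N : ℕ) (c : Fin N → Mat r S)
    (h : (List.ofFn c).prod = 1) (j : Fin N) : IsUnit (c j) := by
  rw [Matrix.isUnit_iff_isUnit_det]
  have h1 : ((List.ofFn c).map Matrix.det).prod = 1 := by
    have := congrArg Matrix.det h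
    rwa [Matrix.det_one, ← Matrix.coe_detMonoidHom, map_list_prod] at this
  apply isUnit_of_dvd_one
  rw [← h1]
  apply List.dvd_prod
  rw [List.mem_map]
  exact ⟨c j, List.mem_ofFn.2 ⟨j, rfl⟩, rfl⟩

/-- The matrices of the generators. -/
noncomputable def Gone (m : ℕ) (t t' : Fin r → ℂ) (κ : ℕ → ℂ) (Y : ℕ → Mat r ℂ)
    (e y : Fin r → ℂ) : GenU 1 (m + 1) → Mat r ℂ :=
  Sum.elim (fun k => if k.2 then Bmat m t' Y e y else ctup (m + 1) t t' κ Y (m + 1))
    fun j => ctup (m + 1) t t' κ Y j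

theorem Gone_inr (t t' : Fin r → ℂ) (κ : ℕ → ℂ) (Y : ℕ → Mat r ℂ) (e y : Fin r → ℂ)
    (j : Fin (m + 1)) : Gone m t t' κ Y e y (Sum.inr j) = ctup (m + 1) t t' κ Y j := rfl

theorem Gone_false (t t' : Fin r → ℂ) (κ : ℕ → ℂ) (Y : ℕ → Mat r ℂ) (e y : Fin r → ℂ) :
    Gone m t t' κ Y e y (Sum.inl (0, false)) = ctup (m + 1) t t' κ Y (m + 1) := rfl

theorem Gone_true (t t' : Fin r → ℂ) (κ : ℕ → ℂ) (Y : ℕ → Mat r ℂ) (e y : Fin r → ℂ) :
    Gone m t t' κ Y e y (Sum.inl (0, true)) = Bmat m t' Y e y := rfl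

/-- The matrices of the generators, multiplied by the determinant of the Krylov matrix. -/
noncomputable def Mone {S : Type*} [CommRing S] (m : ℕ) (t t' : Fin r → S) (κ : ℕ → S)
    (Y : ℕ → Mat r S) (e y : Fin r → S) : GenU 1 (m + 1) → Mat r S :=
  Sum.elim (fun k => if k.2 then P002.kry (Amat m t' Y) y * (P002.kry (zZ (Y m)) e).adjugate *
      Lc Y m else (P002.kry (zZ (Y m)) e).det • ctup (m + 1) t t' κ Y (m + 1))
    fun j => (P002.kry (zZ (Y m)) e).det • ctup (m + 1) t t' κ Y j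

theorem kry_map {S T : Type*} [CommRing S] [CommRing T] (φ : S →+* T) (A : Mat r S)
    (v : Fin r → S) : (P002.kry A v).map φ = P002.kry (A.map φ) fun i => φ (v i) := by
  ext i j
  simp only [P002.kry, Matrix.of_apply, Matrix.map_apply]
  have h2 : (A.map φ) ^ (j : ℕ) = (A ^ (j : ℕ)).map φ := by
    have := map_pow φ.mapMatrix A (j : ℕ)
    exact this.symm
  rw [h2, RingHom.map_mulVec]
  rfl

theorem Mone_map {S T : Type*} [CommRing S] [CommRing T] (φ : S →+* T) (m : ℕ) (t t' : Fin r → S)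
    (κ : ℕ → S) (Y : ℕ → Mat r S) (e y : Fin r → S) (k : GenU 1 (m + 1)) :
    (Mone m t t' κ Y e y k).map φ = Mone m (fun i => φ (t i)) (fun i => φ (t' i))
      (fun k => φ (κ k)) (fun k => (Y k).map φ) (fun i => φ (e i)) (fun i => φ (y i)) k := by
  rcases k with ⟨k, b⟩ | j
  · cases b
    · simp only [Mone, Sum.elim_inl, Bool.false_eq_true, if_false]
      rw [smul_map, ctup_map, RingHom.map_det, ← zZ_map, ← kry_map]
      rfl
    · simp only [Mone, Sum.elim_inl, if_true]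
      rw [Matrix.map_mul, Matrix.map_mul, kry_map, Amat_map, adjugate_map, kry_map, zZ_map, Lc_map]
  · simp only [Mone, Sum.elim_inr]
    rw [smul_map, ctup_map, RingHom.map_det, ← zZ_map, ← kry_map]
    rfl

theorem Mone_eq (t t' : Fin r → ℂ) (κ : ℕ → ℂ) (Y : ℕ → Mat r ℂ) (e y : Fin r → ℂ)
    (h : (P002.kry (zZ (Y m)) e).det ≠ 0) (k : GenU 1 (m + 1)) :
    (P002.kry (zZ (Y m)) e).det⁻¹ • Mone m t t' κ Y e y k = Gone m t t' κ Y e y k := by
  rcases k with ⟨k, b⟩ | j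
  · cases b
    · simp only [Mone, Gone, Sum.elim_inl, Bool.false_eq_true, if_false]
      rw [smul_smul, inv_mul_cancel₀ h, one_smul]
    · simp only [Mone, Gone, Sum.elim_inl, if_true]
      rw [Bmat, Matrix.inv_def, Ring.inverse_eq_inv', mul_smul_comm, smul_mul_assoc]
  · simp only [Mone, Gone, Sum.elim_inr]
    rw [smul_smul, inv_mul_cancel₀ h, one_smul]

/-- The polynomial of the chart. -/
theorem exists_chart_poly1 (t t' : Fin r → ℂ) (κ : ℕ → ℂ) (e v : Fin r → ℂ)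
    (f : MvPolynomial (GenU 1 (m + 1) × Fin r × Fin r) ℂ) :
    ∃ (F : MvPolynomial ((Fin (m + 1) × Fin r × Fin r) ⊕ Fin r) ℂ) (N : ℕ),
      ∀ (Y : Fin (m + 1) → Mat r ℂ) (y : Fin r → ℂ), (P002.kry (zZ (extY Y m)) e).det ≠ 0 →
      MvPolynomial.aeval (Sum.elim (fun p => Y p.1 p.2.1 p.2.2) y) F =
        (P002.kry (zZ (extY Y m)) e).det ^ N *
        MvPolynomial.aeval (fun p => Gone m t t' κ (extY Y) e y p.1 p.2.1 p.2.2) f *
        (P002.kry (ctup (m + 1) t t' κ (extY Y) 0) v).det := by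
  obtain ⟨N, H, hH⟩ := P002.exists_homog f
  obtain ⟨Yg, hYg⟩ : ∃ Yg : Fin (m + 1) →
    Mat r (MvPolynomial ((Fin (m + 1) × Fin r × Fin r) ⊕ Fin r) ℂ),
    Yg = fun k => Matrix.of fun i j => MvPolynomial.X (Sum.inl (k, (i, j))) := ⟨_, rfl⟩
  obtain ⟨yg, hyg⟩ : ∃ yg : Fin r → MvPolynomial ((Fin (m + 1) × Fin r × Fin r) ⊕ Fin r) ℂ,
    yg = fun i => MvPolynomial.X (Sum.inr i) := ⟨_, rfl⟩
  obtain ⟨M, hM⟩ : ∃ M : GenU 1 (m + 1) →
    Mat r (MvPolynomial ((Fin (m + 1) × Fin r × Fin r) ⊕ Fin r) ℂ), M =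
      Mone m (fun i => MvPolynomial.C (t i)) (fun i => MvPolynomial.C (t' i))
      (fun k => MvPolynomial.C (κ k)) (extY Yg) (fun i => MvPolynomial.C (e i)) yg := ⟨_, rfl⟩
  obtain ⟨dg, hdg⟩ : ∃ dg : MvPolynomial ((Fin (m + 1) × Fin r × Fin r) ⊕ Fin r) ℂ, dg =
    (P002.kry (zZ (extY Yg m)) fun i => MvPolynomial.C (e i)).det := ⟨_, rfl⟩
  refine ⟨MvPolynomial.aeval (fun o : Option (GenU 1 (m + 1) × Fin r × Fin r) =>
      o.elim dg fun p => M p.1 p.2.1 p.2.2) H *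
    (P002.kry (ctup (m + 1) (fun i => MvPolynomial.C (t i)) (fun i => MvPolynomial.C (t' i))
      (fun k => MvPolynomial.C (κ k)) (extY Yg) 0) fun i => MvPolynomial.C (v i)).det, N,
      fun Y y hd => ?_⟩
  obtain ⟨ev, hev⟩ : ∃ ev : MvPolynomial ((Fin (m + 1) × Fin r × Fin r) ⊕ Fin r) ℂ →ₐ[ℂ] ℂ,
    ev = MvPolynomial.aeval (Sum.elim (fun p => Y p.1 p.2.1 p.2.2) y) := ⟨_, rfl⟩
  rw [← hev]
  have h3 : ∀ z : ℂ, (ev : MvPolynomial ((Fin (m + 1) × Fin r × Fin r) ⊕ Fin r) ℂ →+* ℂ)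
      (MvPolynomial.C z) = z := fun z => ev.commutes z
  have hYe : (fun k => (extY Yg k).map
      (ev : MvPolynomial ((Fin (m + 1) × Fin r × Fin r) ⊕ Fin r) ℂ →+* ℂ)) = extY Y := by
    rw [extY_map]
    congr 1
    funext k
    ext i j
    rw [hYg, Matrix.map_apply]
    change ev (MvPolynomial.X (Sum.inl (k, (i, j)))) = _
    rw [hev, MvPolynomial.aeval_X]
    rfl
  have hye : (fun i => (ev : MvPolynomial ((Fin (m + 1) × Fin r × Fin r) ⊕ Fin r) ℂ →+* ℂ)
      (yg i)) = y := by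
    funext i
    rw [hyg]
    change ev (MvPolynomial.X (Sum.inr i)) = _
    rw [hev, MvPolynomial.aeval_X]
    rfl
  have hMe : ∀ k, (M k).map (ev : MvPolynomial ((Fin (m + 1) × Fin r × Fin r) ⊕ Fin r) ℂ →+* ℂ) =
      Mone m t t' κ (extY Y) e y k := by
    intro k
    rw [hM, Mone_map]
    simp only [h3]
    rw [hYe, hye]
  have hde : ev dg = (P002.kry (zZ (extY Y m)) e).det := by
    rw [hdg]
    have h6 := kry_map' (ev : MvPolynomial ((Fin (m + 1) × Fin r × Fin r) ⊕ Fin r) ℂ →+* ℂ)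
      (zZ (extY Yg m)) fun i => MvPolynomial.C (e i)
    simp only [h3] at h6
    rw [zZ_map] at h6
    have h7 := congrFun hYe m
    rw [h7] at h6
    exact h6
  have h8 : ev (P002.kry (ctup (m + 1) (fun i => MvPolynomial.C (t i))
      (fun i => MvPolynomial.C (t' i)) (fun k => MvPolynomial.C (κ k)) (extY Yg) 0)
      fun i => MvPolynomial.C (v i)).det =
      (P002.kry (ctup (m + 1) t t' κ (extY Y) 0) v).det := by
    have h6 := kry_map' (ev : MvPolynomial ((Fin (m + 1) × Fin r × Fin r) ⊕ Fin r) ℂ →+* ℂ)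
      (ctup (m + 1) (fun i => MvPolynomial.C (t i)) (fun i => MvPolynomial.C (t' i))
        (fun k => MvPolynomial.C (κ k)) (extY Yg) 0) fun i => MvPolynomial.C (v i)
    rw [ctup_map] at h6
    simp only [h3] at h6
    rw [hYe] at h6
    exact h6
  rw [map_mul, h8, ← AlgHom.comp_apply, MvPolynomial.comp_aeval]
  congr 1
  have h9 := hH _ hd fun p => Mone m t t' κ (extY Y) e y p.1 p.2.1 p.2.2
  rw [← MvPolynomial.coe_aeval_eq_eval] at h9
  have h10 : (fun o : Option (GenU 1 (m + 1) × Fin r × Fin r) =>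
      ev (o.elim dg fun p => M p.1 p.2.1 p.2.2)) =
      fun o => o.elim (P002.kry (zZ (extY Y m)) e).det
        fun p => Mone m t t' κ (extY Y) e y p.1 p.2.1 p.2.2 := by
    funext o
    cases o with
    | none => exact hde
    | some p => exact congrFun (congrFun (hMe p.1) p.2.1) p.2.2
  rw [h10]
  refine h9.trans ?_
  congr 1
  rw [← MvPolynomial.coe_aeval_eq_eval]
  change MvPolynomial.aeval _ f = MvPolynomial.aeval _ f
  congr 2
  funext p
  rw [← Mone_eq t t' κ (extY Y) e y hd]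
  rfl

end Vale.Agent.P002R
end

section

/-!
# P002, genus 1: the chart
-/

namespace Vale.Agent.P002R

open Matrix

variable {r m : ℕ}

/-- The integral points of the chart give integral representations. -/
theorem chart_integral1 {R : Type*} [CommRing R] (φ : R →+* ℂ) (hφ : Function.Injective φ)
    (C : Fin (m + 1) → (Mat r ℂ)ˣ)
    (h0 : ∃ v, P002G.Cyc (C 0 : Mat r ℂ) v)
    (δ : ℕ → Rˣ) (ξ : Fin r → Rˣ)
    (hδ : ∀ l (hl : l < m), φ (δ l) = (C ⟨l + 1, by omega⟩ : Mat r ℂ).det)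
    (hξ : (C 0 : Mat r ℂ).charpoly = ∏ i, (Polynomial.X - Polynomial.C (φ (ξ i))))
    (Y : ℕ → Mat r R) (e y : Fin r → R)
    (hYu : ∀ k ≤ m, ∀ i, IsUnit (Y k i i))
    (hY : ∀ k (hk : k < m), CjM (C ⟨k + 1, by omega⟩ : Mat r ℂ) (zZ ((Y k).map φ)))
    (hYm : (zZ (Y m)).charpoly = ∏ i, (Polynomial.X - Polynomial.C
      ((ξ i : R) * ∏ l ∈ Finset.range (m + 1), Y l i i)))
    (hZ : IsUnit (P002.kry (zZ (Y m)) e).det)
    (hA : IsUnit (P002.kry (Amat m (fun i => (ξ i : R)) Y) y).det) (κ : ℕ → ℂ)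
    (hκ : ∀ k ≤ m, κ k = φ (kap' δ k)) :
    ∃ z : FU 1 (m + 1) →* (Mat r ℂ)ˣ, z (relatorU 1 (m + 1)) = 1 ∧
      (∀ k, (z (FreeGroup.of k) : Mat r ℂ) =
        Gone m (fun i => φ ((ξ i)⁻¹ : Rˣ)) (fun i => φ (ξ i)) κ (fun k => (Y k).map φ)
          (fun i => φ (e i)) (fun i => φ (y i)) k) ∧
      (∀ k, ∃ A : Mat r R, IsUnit A.det ∧ (z (FreeGroup.of k) : Mat r ℂ) = A.map φ) ∧
      ((∃ v, P002G.Cyc (ctup (m + 1) (fun i => φ ((ξ i)⁻¹ : Rˣ)) (fun i => φ (ξ i))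
          κ (fun k => (Y k).map φ) 0) v) →
        ∀ j, IsConj (C j) (z (FreeGroup.of (Sum.inr j)))) := by
  have hpr : ∀ k ≤ m + 1, IsUnit (Lc Y k).det := by
    intro k hk
    rw [det_Lc, IsUnit.prod_univ_iff]
    intro i
    rw [IsUnit.prod_iff]
    exact fun l hl => hYu l (by rw [Finset.mem_range] at hl; omega) i
  obtain ⟨w, hw⟩ := hpr (m + 1) le_rfl
  obtain ⟨κR, hκR⟩ : ∃ κR : ℕ → R, κR = fun k => if k ≤ m then kap' δ k else ((w⁻¹ : Rˣ) : R) :=
    ⟨_, rfl⟩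
  have hκR1 : ∀ k ≤ m, κR k = kap' δ k := fun k hk => by rw [hκR]; exact if_pos hk
  have hκR2 : κR (m + 1) = ((w⁻¹ : Rˣ) : R) := by rw [hκR]; exact if_neg (by omega)
  have hκRdet : ∀ k ≤ m + 1, κR k * (Lc Y k).det = 1 := by
    intro k hk
    rcases Nat.lt_or_ge m k with h | h
    · have hk' : k = m + 1 := by omega
      rw [hk', hκR2, ← hw, Units.inv_mul]
    · rw [hκR1 k h]
      apply hφ
      have h1 := kap'_mul δ φ (fun k => (Y k).map φ) k fun l hl => by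
        rw [(hY l (by omega)).det, hδ l (by omega)]
      rw [map_mul, map_one, ← h1, ← Lc_map]
      congr 1
      exact RingHom.map_det φ _
  obtain ⟨tR, htR⟩ : ∃ tR : Fin r → R, tR = fun i => (((ξ i)⁻¹ : Rˣ) : R) := ⟨_, rfl⟩
  obtain ⟨tR', htR'⟩ : ∃ tR' : Fin r → R, tR' = fun i => (ξ i : R) := ⟨_, rfl⟩
  have htt : ∀ i, tR' i * tR i = 1 := by
    intro i
    rw [htR, htR']
    simp only
    rw [Units.mul_inv]
  have hprodR := ctup_prod (m + 1) tR tR' κR Y hκRdet htt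
  have hcu : ∀ j < m + 3, IsUnit (ctup (m + 1) tR tR' κR Y j).det := by
    intro j hj
    rw [← Matrix.isUnit_iff_isUnit_det]
    exact isUnit_of_prod' (m + 3) (fun j : Fin (m + 3) => ctup (m + 1) tR tR' κR Y j) hprodR ⟨j, hj⟩
  -- complex objects
  obtain ⟨Y', hY'⟩ : ∃ Y' : ℕ → Mat r ℂ, Y' = fun k => (Y k).map φ := ⟨_, rfl⟩
  obtain ⟨t, ht⟩ : ∃ t : Fin r → ℂ, t = fun i => φ (tR i) := ⟨_, rfl⟩
  obtain ⟨t', ht'⟩ : ∃ t' : Fin r → ℂ, t' = fun i => φ (tR' i) := ⟨_, rfl⟩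
  obtain ⟨κ', hκ'⟩ : ∃ κ' : ℕ → ℂ, κ' = fun k => φ (κR k) := ⟨_, rfl⟩
  have htC : (fun i => φ ((ξ i)⁻¹ : Rˣ)) = t := by rw [ht, htR]
  have htC' : (fun i => φ (ξ i)) = t' := by rw [ht', htR']
  rw [← hY', htC, htC']
  have hmap : ∀ j, (ctup (m + 1) tR tR' κR Y j).map φ = ctup (m + 1) t t' κ' Y' j := by
    intro j
    rw [ctup_map, ht, ht', hκ', hY']
  have hκc : ∀ k ≤ m + 1, κ' k * (Lc Y' k).det = 1 := by
    intro k hk
    have h1 := congrArg φ (hκRdet k hk)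
    rw [map_mul, map_one] at h1
    rw [← h1, hκ', hY', ← Lc_map]
    congr 1
    exact (RingHom.map_det φ _).symm
  have htt' : ∀ i, t' i * t i = 1 := by
    intro i
    rw [ht, ht']
    simp only
    rw [← map_mul, htt, map_one]
  have hκκ : ∀ j ≤ m + 1, ctup (m + 1) t t' κ Y' j = ctup (m + 1) t t' κ' Y' j := by
    intro j hj
    refine ctup_congr_kap (fun l hl => ?_) j hj
    rw [hκ l (by omega), hκ']
    simp only
    rw [hκR1 l (by omega)]
  have hprod := ctup_prod (m + 1) t t' κ' Y' hκc htt'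
  have hZc : IsUnit (P002.kry (zZ (Y' m)) fun i => φ (e i)) := by
    rw [hY', ← zZ_map, ← kry_map, Matrix.isUnit_iff_isUnit_det]
    have := hZ.map φ
    rwa [RingHom.map_det] at this
  have hAc : IsUnit (P002.kry (Amat m t' Y') fun i => φ (y i)) := by
    have h1 : Amat m t' Y' = (Amat m tR' Y).map φ := by rw [Amat_map, ht', hY']
    rw [h1, ← kry_map, Matrix.isUnit_iff_isUnit_det]
    rw [← htR'] at hA
    have := hA.map φ
    rwa [RingHom.map_det] at this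
  have hchc : (zZ (Y' m)).charpoly = ∏ i, (Polynomial.X - Polynomial.C
      (t' i * ∏ l ∈ Finset.range (m + 1), Y' l i i)) := by
    have h1 : (zZ (Y' m)).charpoly = (zZ (Y m)).charpoly.map φ := by
      rw [hY', ← zZ_map]
      exact Matrix.charpoly_map _ φ
    rw [h1, hYm, Polynomial.map_prod]
    refine Finset.prod_congr rfl fun i _ => ?_
    rw [Polynomial.map_sub, Polynomial.map_X, Polynomial.map_C, map_mul, map_prod, ht', htR', hY']
    rfl
  obtain ⟨z, hz1, hz2, hz3, hz4⟩ := exists_hom1 (fun j => ctup (m + 1) t t' κ' Y' j)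
    (Amat m t' Y') (Bmat m t' Y' (fun i => φ (e i)) fun i => φ (y i)) hprod
    (isUnit_Bmat t' κ' Y' _ _ (hκc m (Nat.le_succ m)) hAc hZc)
    (Bmat_mul t t' κ' Y' _ _ (hκc m (Nat.le_succ m)) hchc hZc)
    (Amat_mul_ctup t t' κ' Y' (hκc (m + 1) le_rfl) htt')
  have hzG : ∀ k, (z (FreeGroup.of k) : Mat r ℂ) =
      Gone m t t' κ Y' (fun i => φ (e i)) (fun i => φ (y i)) k := by
    intro k
    rcases k with ⟨k, b⟩ | j
    · have hk0 : k = 0 := Subsingleton.elim _ _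
      subst hk0
      cases b
      · rw [hz3, Gone_false, hκκ _ le_rfl]
      · rw [hz4, Gone_true]
    · rw [hz2, Gone_inr, hκκ _ (by omega)]
  refine ⟨z, hz1, hzG, fun k => ?_, fun hc0 j => ?_⟩
  · rcases k with ⟨k, b⟩ | j
    · have hk0 : k = 0 := Subsingleton.elim _ _
      subst hk0
      cases b
      · exact ⟨_, hcu (m + 1) (by omega), by rw [hz3, ← hmap]⟩
      · obtain ⟨η, hη⟩ := hZ
        refine ⟨P002.kry (Amat m tR' Y) y * (((η⁻¹ : Rˣ) : R) • (P002.kry (zZ (Y m)) e).adjugate) *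
          Lc Y m, ?_, ?_⟩
        · rw [← Matrix.isUnit_iff_isUnit_det]
          refine IsUnit.mul (IsUnit.mul ?_ ?_) ?_
          · rw [Matrix.isUnit_iff_isUnit_det, htR']
            exact hA
          · have h1 : (((η⁻¹ : Rˣ) : R) • (P002.kry (zZ (Y m)) e).adjugate) *
                P002.kry (zZ (Y m)) e = 1 := by
              rw [smul_mul_assoc, Matrix.adjugate_mul, smul_smul, ← hη, Units.inv_mul, one_smul]
            exact IsUnit.of_mul_eq_one _ h1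
          · rw [Matrix.isUnit_iff_isUnit_det]
            exact hpr m (Nat.le_succ m)
        · rw [hz4, Bmat, Matrix.map_mul, Matrix.map_mul, smul_map, adjugate_map, Lc_map, kry_map,
            kry_map, Amat_map, zZ_map, Matrix.inv_def, Ring.inverse_eq_inv', ht', hY']
          congr 2
          congr 1
          have h2 : (P002.kry (zZ ((Y m).map φ)) fun i => φ (e i)).det = φ η := by
            rw [hη, ← zZ_map, ← kry_map]
            exact (RingHom.map_det φ _).symm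
          rw [h2]
          exact (eq_inv_of_mul_eq_one_left (by rw [← map_mul, Units.inv_mul, map_one])).symm
    · exact ⟨_, hcu j (by omega), by rw [hz2, ← hmap]⟩
  · rcases Nat.eq_zero_or_pos (j : ℕ) with h | h
    · have hj : j = 0 := Fin.ext h
      subst hj
      obtain ⟨v, hv⟩ := h0
      obtain ⟨w', hw'⟩ := hc0
      obtain ⟨h1, h2⟩ := ctup_zero_upT (m + 1) t t' κ' Y'
      have h3 : (z (FreeGroup.of (Sum.inr 0)) : Mat r ℂ) = ctup (m + 1) t t' κ' Y' 0 := hz2 0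
      refine isConj_of_cyc (v := v) (w := w') _ _ ?_ hv
        (by rw [h3, ← hκκ 0 (Nat.zero_le _)]; exact hw')
      rw [h3, charpoly_upT h1, hξ]
      refine Finset.prod_congr rfl fun i _ => ?_
      rw [h2, ← htC']
    obtain ⟨k, hk⟩ : ∃ k, (j : ℕ) = k + 1 := ⟨(j : ℕ) - 1, by omega⟩
    have hkN : k + 1 < m + 1 := by have := j.2; omega
    have hj : j = ⟨k + 1, hkN⟩ := Fin.ext hk
    clear hk h
    subst hj
    have h3 : (z (FreeGroup.of (Sum.inr ⟨k + 1, hkN⟩)) : Mat r ℂ) =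
      ctup (m + 1) t t' κ' Y' (k + 1) := hz2 _
    obtain ⟨L, hL, hL'⟩ := ctup_mid_cjM (m + 1) t t' κ' Y' k (by omega) (hκc k (by omega))
    have h4 : CjM (z (FreeGroup.of (Sum.inr ⟨k + 1, hkN⟩)) : Mat r ℂ) (zZ (Y' k)) := by
      rw [h3]
      exact ⟨L, hL'⟩
    have h5 := hY k (by omega)
    apply isConj_of_cjM
    refine CjM.trans ?_ h4.symm
    rw [hY']
    exact h5

/-- The matrices of `c_0, ..., c_m, a, b a⁻¹ b⁻¹`. -/
noncomputable def cseq1 (x : FU 1 (m + 1) →* (Mat r ℂ)ˣ) (j : ℕ) : Mat r ℂ :=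
  if h : j < m + 1 then (x (FreeGroup.of (Sum.inr ⟨j, h⟩)) : Mat r ℂ)
  else if j = m + 1 then (x (FreeGroup.of (Sum.inl (0, false))) : Mat r ℂ)
  else ((x (FreeGroup.of (Sum.inl (0, true))) * (x (FreeGroup.of (Sum.inl (0, false))))⁻¹ *
    (x (FreeGroup.of (Sum.inl (0, true))))⁻¹ : (Mat r ℂ)ˣ) : Mat r ℂ)

theorem cseq1_inr (x : FU 1 (m + 1) →* (Mat r ℂ)ˣ) (j : Fin (m + 1)) :
    cseq1 x j = (x (FreeGroup.of (Sum.inr j)) : Mat r ℂ) := by
  rw [cseq1, dif_pos j.2]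

theorem cseq1_a (x : FU 1 (m + 1) →* (Mat r ℂ)ˣ) :
    cseq1 x (m + 1) = (x (FreeGroup.of (Sum.inl (0, false))) : Mat r ℂ) := by
  rw [cseq1, dif_neg (by omega), if_pos rfl]

theorem cseq1_a' (x : FU 1 (m + 1) →* (Mat r ℂ)ˣ) :
    cseq1 x (m + 2) = ((x (FreeGroup.of (Sum.inl (0, true))) *
      (x (FreeGroup.of (Sum.inl (0, false))))⁻¹ *
      (x (FreeGroup.of (Sum.inl (0, true))))⁻¹ : (Mat r ℂ)ˣ) : Mat r ℂ) := by
  rw [cseq1, dif_neg (by omega), if_neg (by omega)]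

theorem cseq1_prod (x : FU 1 (m + 1) →* (Mat r ℂ)ˣ) (hx : x (relatorU 1 (m + 1)) = 1) :
    (List.ofFn fun j : Fin (m + 3) => cseq1 x j).prod = 1 := by
  have h1 : ((x (relatorU 1 (m + 1)) : (Mat r ℂ)ˣ) : Mat r ℂ) = 1 := by rw [hx, Units.val_one]
  rw [relatorU_eqn] at h1
  simp only [List.ofFn_succ (n := 0), List.ofFn_zero, List.prod_nil, List.prod_cons, mul_one] at h1
  rw [map_mul, Units.val_mul, map_list_prod, List.map_ofFn, ← Units.coeHom_apply, map_list_prod,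
    List.map_ofFn] at h1
  rw [List.ofFn_succ', List.concat_eq_append, List.prod_append, List.prod_singleton,
    List.ofFn_succ', List.concat_eq_append, List.prod_append, List.prod_singleton]
  have h2 : cseq1 x (Fin.last (m + 2)) = _ := cseq1_a' x
  have h3 : cseq1 x (Fin.castSucc (Fin.last (m + 1)) : Fin (m + 3)) = _ := cseq1_a x
  have h4 : (List.ofFn fun i : Fin (m + 1) =>
      cseq1 x ((Fin.castSucc (Fin.castSucc i) : Fin (m + 3)) : ℕ)) =
      List.ofFn ((Units.coeHom (Mat r ℂ)) ∘ (x ∘ fun j : Fin (m + 1) =>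
        (FreeGroup.of (Sum.inr j) : FU 1 (m + 1)))) := by
    congr 1
    funext j
    exact cseq1_inr x j
  rw [h4, h3, h2, mul_assoc, ← Units.val_mul]
  rw [← h1]
  congr 2
  simp only [map_mul, map_inv]
  group

theorem units_infinite {R : Type*} [CommRing R] (φ : R →+* ℂ) (E : Subgroup ℂˣ) {r : ℕ}
    (hc : CoefOK φ E r) : {z : ℂ | ∃ w ∈ (⊤ : Subgroup Rˣ), φ (w : R) = z}.Infinite := by
  obtain ⟨u, hu⟩ := hc.unit
  have hinj : Function.Injective fun k : ℕ => φ ((u ^ k : Rˣ) : R) := by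
    have key : ∀ k l : ℕ, k < l → φ ((u ^ k : Rˣ) : R) ≠ φ ((u ^ l : Rˣ) : R) := by
      intro k l hkl h
      have h1 : u ^ k = u ^ l := Units.ext (hc.inj h)
      apply hu (l - k) (by omega)
      have h2 : u ^ (l - k) = 1 := by
        have h3 : u ^ l = u ^ (l - k) * u ^ k := by rw [← pow_add]; congr 1; omega
        rw [h3] at h1
        exact (mul_eq_right.1 h1.symm)
      rw [← map_pow, h2, map_one]
      exact E.one_mem
    intro k l h
    rcases lt_trichotomy k l with h' | h' | h'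
    · exact absurd h (key k l h')
    · exact h'
    · exact absurd h.symm (key l k h')
  refine (Set.infinite_range_of_injective hinj).mono ?_
  rintro _ ⟨k, rfl⟩
  exact ⟨u ^ k, Subgroup.mem_top _, rfl⟩

theorem e0_map {R : Type*} [CommRing R] (φ : R →+* ℂ) (n : ℕ) :
    (fun i => φ (P002G.e0 n R i)) = P002G.e0 n ℂ := by
  funext i
  refine Fin.cases ?_ (fun i => ?_) i
  · exact map_one φ
  · exact map_zero φ

theorem chart_density1 {R₀ : Type*} [CommRing R₀] (φ₀ : R₀ →+* ℂ) (E : Subgroup ℂˣ) {n m : ℕ}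
    (hc : CoefOK φ₀ E (n + 1)) (hB : FibV φ₀ ⊤ n) (hVec : VecV φ₀ ⊤ (n + 1))
    (G : Subgroup (Mat (n + 1) ℂ)ˣ)
    (hR : ∀ (A : Mat (n + 1) R₀) (U : (Mat (n + 1) ℂ)ˣ), IsUnit A.det →
      (U : Mat (n + 1) ℂ) = A.map φ₀ → U ∈ G)
    (C : Fin (m + 1) → (Mat (n + 1) ℂ)ˣ) (hE : ∀ j, EigIn E (C j : Mat (n + 1) ℂ))
    (hT : ∀ j : Fin (m + 1), 1 ≤ (j : ℕ) → TotV φ₀ ⊤ (C j : Mat (n + 1) ℂ))
    (h0 : ∃ v, P002G.Cyc (C 0 : Mat (n + 1) ℂ) v)
    (x : FU 1 (m + 1) →* (Mat (n + 1) ℂ)ˣ) (hx1 : x (relatorU 1 (m + 1)) = 1)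
    (hxC : ∀ j, IsConj (C j) (x (FreeGroup.of (Sum.inr j))))
    (hup : UpT (cseq1 x 0)) (hlo : LoT (cseq1 x (m + 2)))
    (hcell : ∀ k ≤ m + 1, ∃ X : Mat (n + 1) ℂ,
      (List.ofFn fun j : Fin k => cseq1 x ((j : ℕ) + 1)).prod = zZ X ∧ ∀ i, X i i ≠ 0)
    (hcyc : P002G.Cyc (cseq1 x (m + 1))
      (((List.ofFn fun j : Fin m => cseq1 x ((j : ℕ) + 1)).prod)⁻¹ *ᵥ P002G.e0 n ℂ))
    (f : MvPolynomial (GenU 1 (m + 1) × Fin (n + 1) × Fin (n + 1)) ℂ)
    (hf : ∀ y : FU 1 (m + 1) →* (Mat (n + 1) ℂ)ˣ, y (relatorU 1 (m + 1)) = 1 →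
      (∀ j, IsConj (C j) (y (FreeGroup.of (Sum.inr j)))) →
      (∀ k, y (FreeGroup.of k) ∈ G) → evalG y f = 0) :
    evalG x f = 0 := by
  -- the tuple in the chart
  have hXex : ∀ k, ∃ X : Mat (n + 1) ℂ, k ≤ m + 1 →
      (List.ofFn fun j : Fin k => cseq1 x ((j : ℕ) + 1)).prod = zZ X ∧ ∀ i, X i i ≠ 0 := by
    intro k
    by_cases hk : k ≤ m + 1
    · obtain ⟨X, hX⟩ := hcell k hk
      exact ⟨X, fun _ => hX⟩
    · exact ⟨0, fun h => absurd h hk⟩
  choose X hX using hXex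
  obtain ⟨Y, κ, t, hκ, ht, hctup, hLc, hY0⟩ := exists_ctup (m + 1) (cseq1 x) X
    (fun k hk => (hX k hk).1) (fun k hk => (hX k hk).2) hup hlo (cseq1_prod x hx1)
  obtain ⟨t', ht'⟩ : ∃ t' : Fin (n + 1) → ℂ, t' = fun i => cseq1 x 0 i i := ⟨_, rfl⟩
  rw [← ht'] at hctup
  have hcx : ∀ j (hj : j < m + 1), CjM (C ⟨j, hj⟩ : Mat (n + 1) ℂ) (cseq1 x j) := by
    intro j hj
    have h1 : cseq1 x j = _ := cseq1_inr x ⟨j, hj⟩
    rw [h1]
    exact cjM_of_isConj (hxC ⟨j, hj⟩)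
  have hcx0 : CjM (C 0 : Mat (n + 1) ℂ) (cseq1 x 0) := hcx 0 (by omega)
  -- eigenvalues
  have hξ0 : ∀ i, ∃ u : R₀ˣ, φ₀ (u : R₀) = cseq1 x 0 i i := by
    intro i
    apply exists_unit_of_mem φ₀ hc (Nat.succ_pos n)
    apply hE 0
    rw [← hcx0.charpoly, charpoly_upT hup, Polynomial.IsRoot.def, Polynomial.eval_prod]
    exact Finset.prod_eq_zero (Finset.mem_univ i) (by simp)
  choose ξ hξ using hξ0
  have hδ0 : ∀ l, ∃ u : R₀ˣ, ∀ hl : l < m, φ₀ (u : R₀) =
      (C ⟨l + 1, by omega⟩ : Mat (n + 1) ℂ).det := by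
    intro l
    by_cases hl : l < m
    · obtain ⟨u, hu⟩ := exists_unit_of_mem φ₀ hc (Nat.succ_pos n) _
        (hE ⟨l + 1, by omega⟩).det
      exact ⟨u, fun _ => hu⟩
    · exact ⟨1, fun h => absurd h hl⟩
  choose δ hδ using hδ0
  -- the elements of the cell
  have hYc : ∀ k (hk : k < m + 1), CjM (cseq1 x (k + 1)) (zZ (Y k)) := by
    intro k hk
    obtain ⟨L, -, hL⟩ := ctup_mid_cjM (m + 1) t t' κ Y k hk (hκ k hk.le)
    refine ⟨L, ?_⟩
    rw [hctup (k + 1) (by omega)]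
    exact hL
  have hYC : ∀ k (hk : k < m), CjM (C ⟨k + 1, by omega⟩ : Mat (n + 1) ℂ) (zZ (Y k)) :=
    fun k hk => (hcx (k + 1) (by omega)).trans (hYc k (by omega))
  have hκ' : ∀ k ≤ m, κ k = φ₀ (kap' δ k) := by
    intro k hk
    have h1 := kap'_mul δ φ₀ Y k fun l hlk => by
      rw [(hYC l (by omega)).det, hδ l (by omega)]
    have h2 := hκ k (by omega)
    have h3 : (Lc Y k).det ≠ 0 := right_ne_zero_of_mul (by rw [h2]; exact one_ne_zero)
    exact mul_right_cancel₀ h3 (h2.trans h1.symm)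
  have htt : t = fun i => φ₀ ((ξ i)⁻¹ : R₀ˣ) := by
    funext i
    have h1 := ht i
    have h2 : φ₀ (ξ i) * φ₀ ((ξ i)⁻¹ : R₀ˣ) = 1 := by rw [← map_mul, Units.mul_inv, map_one]
    rw [hξ] at h2
    exact mul_left_cancel₀ (left_ne_zero_of_mul (by rw [h1]; exact one_ne_zero)) (h1.trans h2.symm)
  have htt' : t' = fun i => φ₀ (ξ i) := by
    rw [ht']
    funext i
    rw [hξ]
  have ht't : ∀ i, t' i * t i = 1 := by
    intro i
    rw [ht']
    exact ht i
  -- the matrices `a` and `b`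
  obtain ⟨a, ha⟩ : ∃ a, a = x (FreeGroup.of (Sum.inl (0, false))) := ⟨_, rfl⟩
  obtain ⟨b, hb⟩ : ∃ b, b = x (FreeGroup.of (Sum.inl (0, true))) := ⟨_, rfl⟩
  have hca : cseq1 x (m + 1) = (a : Mat (n + 1) ℂ) := by rw [cseq1_a, ha]
  have hca' : cseq1 x (m + 2) = ((b * a⁻¹ * b⁻¹ : (Mat (n + 1) ℂ)ˣ) : Mat (n + 1) ℂ) := by
    rw [cseq1_a', ha, hb]
  have hAinv : Amat m t' Y = ((b * a * b⁻¹ : (Mat (n + 1) ℂ)ˣ) : Mat (n + 1) ℂ) := by
    have h1 := Amat_mul_ctup (m := m) t t' κ Y (hκ (m + 1) le_rfl) ht't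
    rw [← hctup (m + 2) le_rfl, hca'] at h1
    have h2 := Units.eq_inv_of_mul_eq_one_right h1
    rw [h2]
    congr 1
    group
  have hchA : (zZ (Y m)).charpoly = ∏ i, (Polynomial.X - Polynomial.C
      (t' i * ∏ l ∈ Finset.range (m + 1), Y l i i)) := by
    have h1 : (zZ (Y m)).charpoly = (a : Mat (n + 1) ℂ).charpoly := by
      rw [← hca]
      exact (hYc m (Nat.lt_succ_self m)).charpoly
    have h2 : (Amat m t' Y).charpoly = (a : Mat (n + 1) ℂ).charpoly := by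
      rw [hAinv, Units.val_mul, Units.val_mul, Matrix.coe_units_inv, Matrix.charpoly_units_conj]
    rw [h1, ← h2, charpoly_loT (Amat_loT m t' Y)]
    exact Finset.prod_congr rfl fun i _ => by rw [Amat_diag]
  -- cyclicity
  obtain ⟨L, hL1, hL2⟩ := ctup_mid_cjM (m + 1) t t' κ Y m (Nat.lt_succ_self m)
    (hκ m (Nat.le_succ m))
  rw [← hctup (m + 1) (by omega)] at hL2
  have hcycY : P002G.Cyc (zZ (Y m)) (P002G.e0 n ℂ) := by
    rw [hL2]
    have h1 := P002G.cyc_conj L hcyc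
    have h2 : (L : Mat (n + 1) ℂ) *ᵥ (((List.ofFn fun j : Fin m => cseq1 x ((j : ℕ) + 1)).prod)⁻¹ *ᵥ
        P002G.e0 n ℂ) = P002G.e0 n ℂ := by
      have h3 := (hX m (Nat.le_succ m)).1
      have hdU : IsUnit (uU (X m)).det := by rw [det_uU]; exact isUnit_one
      have hdL : IsUnit (lL (X m)).det := by
        rw [det_lL, isUnit_iff_ne_zero, Finset.prod_ne_zero_iff]
        exact fun i _ => (hX m (Nat.le_succ m)).2 i
      rw [h3, zZ, Matrix.mul_inv_rev, hL1, hLc m (Nat.le_succ m), mulVec_mulVec, ← mul_assoc,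
        Matrix.mul_nonsing_inv _ hdL, one_mul]
      have h4 : uU (X m) *ᵥ P002G.e0 n ℂ = P002G.e0 n ℂ := by
        funext i
        rw [mulVec, dotProduct, Fin.sum_univ_succ]
        have h5 : ∀ j : Fin n, P002G.e0 n ℂ j.succ = 0 := fun j => rfl
        have h6 : P002G.e0 n ℂ 0 = 1 := rfl
        simp only [h5, mul_zero, Finset.sum_const_zero, add_zero, h6, mul_one]
        refine Fin.cases ?_ (fun i => ?_) i
        · rw [uU_diag, h6]
        · rw [h5, upT_uU _ _ _ (Fin.succ_pos i)]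
      calc (uU (X m))⁻¹ *ᵥ P002G.e0 n ℂ = (uU (X m))⁻¹ *ᵥ (uU (X m) *ᵥ P002G.e0 n ℂ) := by rw [h4]
        _ = P002G.e0 n ℂ := by rw [mulVec_mulVec, Matrix.nonsing_inv_mul _ hdU, one_mulVec]
    rw [h2] at h1
    exact h1
  have hkZ : IsUnit (P002.kry (zZ (Y m)) (P002G.e0 n ℂ)) := (P002G.cyc_iff _ _).1 hcycY
  have hkZ' : (P002.kry (zZ (Y m)) (P002G.e0 n ℂ)).det ≠ 0 :=
    ((Matrix.isUnit_iff_isUnit_det _).1 hkZ).ne_zero
  -- the vector
  obtain ⟨y, hy⟩ : ∃ y : Fin (n + 1) → ℂ, y = (b : Mat (n + 1) ℂ) *ᵥ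
    (((L⁻¹ : (Mat (n + 1) ℂ)ˣ) : Mat (n + 1) ℂ) *ᵥ P002G.e0 n ℂ) := ⟨_, rfl⟩
  have hBb : Bmat m t' Y (P002G.e0 n ℂ) y = (b : Mat (n + 1) ℂ) := by
    have h1 : ((b * L⁻¹ : (Mat (n + 1) ℂ)ˣ) : Mat (n + 1) ℂ) * zZ (Y m) =
        Amat m t' Y * ((b * L⁻¹ : (Mat (n + 1) ℂ)ˣ) : Mat (n + 1) ℂ) := by
      rw [hAinv, hL2, hca, ← Units.val_mul, ← Units.val_mul, ← Units.val_mul, ← Units.val_mul]
      congr 1
      group
    have h2 := P002.mul_kry ((b * L⁻¹ : (Mat (n + 1) ℂ)ˣ) : Mat (n + 1) ℂ) (zZ (Y m))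
      (P002G.e0 n ℂ) (Amat m t' Y) h1
    have h3 : ((b * L⁻¹ : (Mat (n + 1) ℂ)ˣ) : Mat (n + 1) ℂ) *ᵥ P002G.e0 n ℂ = y := by
      rw [hy, Units.val_mul, mulVec_mulVec]
    rw [h3] at h2
    rw [Bmat, ← h2, mul_assoc _ (P002.kry (zZ (Y m)) (P002G.e0 n ℂ)),
      Matrix.mul_nonsing_inv _ ((Matrix.isUnit_iff_isUnit_det _).1 hkZ), mul_one, ← hL1,
      ← Units.val_mul]
    congr 1
    group
  -- the polynomial
  obtain ⟨v, hv⟩ := hcx0.cyc h0
  obtain ⟨F, N, hF⟩ := exists_chart_poly1 (m := m) t t' κ (P002G.e0 n ℂ) v f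
  have hext : ∀ j, ctup (m + 1) t t' κ (extY fun k : Fin (m + 1) => Y k) j =
      ctup (m + 1) t t' κ Y j := fun j =>
    ctup_congr (fun l hl => extY_of _ l hl) (fun _ _ => rfl) j
  have hextm : extY (fun k : Fin (m + 1) => Y k) m = Y m := extY_of _ m (Nat.lt_succ_self m)
  have hdet : (∏ i, φ₀ (ξ i)) * ∏ k : Fin m, (C ⟨k + 1, by omega⟩ : Mat (n + 1) ℂ).det = 1 := by
    have h1 : (cseq1 x 0).det = ∏ i, φ₀ (ξ i) := by
      rw [hup.det]
      exact Finset.prod_congr rfl fun i _ => (hξ i).symm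
    have h2 := congrArg Matrix.det (cseq1_prod x hx1)
    rw [Matrix.det_one, ← Matrix.coe_detMonoidHom, map_list_prod, List.map_ofFn, List.prod_ofFn,
      Fin.prod_univ_castSucc, Fin.prod_univ_castSucc, Fin.prod_univ_succ] at h2
    simp only [Function.comp_apply, Matrix.coe_detMonoidHom, Fin.val_last, Fin.val_castSucc,
      Fin.val_succ, Fin.val_zero] at h2
    rw [h1, hca, hca'] at h2
    have h3 : ((b * a⁻¹ * b⁻¹ : (Mat (n + 1) ℂ)ˣ) : Mat (n + 1) ℂ).det *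
        (a : Mat (n + 1) ℂ).det = 1 := by
      rw [← Matrix.det_mul, ← Units.val_mul]
      have h4 : b * a⁻¹ * b⁻¹ * a = b * (a⁻¹ * (b⁻¹ * a * b)) * b⁻¹ := by group
      rw [h4, Units.val_mul, Units.val_mul, Matrix.det_units_conj, Units.val_mul, Matrix.det_mul,
        Units.val_mul, Units.val_mul]
      have h5 : (((b⁻¹ : (Mat (n + 1) ℂ)ˣ) : Mat (n + 1) ℂ) * (a : Mat (n + 1) ℂ) *
          (b : Mat (n + 1) ℂ)).det = (a : Mat (n + 1) ℂ).det :=
        Matrix.det_units_conj' b (a : Mat (n + 1) ℂ)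
      rw [h5, ← Matrix.det_mul, Units.inv_mul, Matrix.det_one]
    rw [mul_assoc _ (a : Mat (n + 1) ℂ).det, mul_comm (a : Mat (n + 1) ℂ).det, h3, mul_one] at h2
    rw [← h2]
    congr 1
    refine Finset.prod_congr rfl fun k _ => ?_
    exact ((hcx (k + 1) (by omega)).det).symm
  have hmain := core1 φ₀ ⊤ ?_ hB hVec
    (fun k : Fin m => (C ⟨k + 1, by omega⟩ : Mat (n + 1) ℂ))
    (fun k => hT _ (Nat.succ_le_succ (Nat.zero_le _))) ξ (fun _ => Subgroup.mem_top _) hdet F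
    (fun Y' y' hY1 hY2 hY3 hY4 hY5 => ?_)
    (fun k : Fin (m + 1) => Y k) (fun k i => hY0 k k.2 i) (fun k => hYC k k.2)
    (by
      have h1 : (zZ (Y m)).charpoly = ∏ i, (Polynomial.X - Polynomial.C
          (φ₀ (ξ i) * ∏ l : Fin (m + 1), Y l i i)) := by
        rw [hchA]
        refine Finset.prod_congr rfl fun i _ => ?_
        rw [htt', Fin.prod_univ_eq_prod_range (fun l => Y l i i)]
      exact h1) hcycY y
  · have h1 := hF (fun k : Fin (m + 1) => Y k) y (by rw [hextm]; exact hkZ')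
    rw [hmain, hext] at h1
    have hkv : (P002.kry (ctup (m + 1) t t' κ Y 0) v).det ≠ 0 := by
      rw [← hctup 0 (by omega), ← isUnit_iff_ne_zero, ← Matrix.isUnit_iff_isUnit_det,
        ← P002G.cyc_iff]
      exact hv
    rw [hextm] at h1
    have h2 : MvPolynomial.aeval (fun p => Gone m t t' κ (extY fun k : Fin (m + 1) => Y k)
        (P002G.e0 n ℂ) y p.1 p.2.1 p.2.2) f = (0 : ℂ) := by
      rcases mul_eq_zero.1 h1.symm with h | h
      · exact (mul_eq_zero.1 h).resolve_left (pow_ne_zero _ hkZ')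
      · exact absurd h hkv
    rw [evalG_eqn, ← h2]
    congr 2
    funext p
    obtain ⟨k, i, j⟩ := p
    have hG : (x (FreeGroup.of k) : Mat (n + 1) ℂ) =
        Gone m t t' κ (extY fun k : Fin (m + 1) => Y k) (P002G.e0 n ℂ) y k := by
      rcases k with ⟨k, b'⟩ | j
      · have hk0 : k = 0 := Subsingleton.elim _ _
        subst hk0
        cases b'
        · rw [Gone_false, hext, ← hctup (m + 1) (by omega), cseq1_a]
        · rw [Gone_true, ← hb, ← hBb, Bmat, Bmat, Amat, Amat, hextm]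
          rw [Lc_congr (Y := extY fun k : Fin (m + 1) => Y k) (Y' := Y) (k := m + 1)
            fun l hl => extY_of _ l hl]
          rw [Lc_congr (Y := extY fun k : Fin (m + 1) => Y k) (Y' := Y) (k := m)
            fun l hl => extY_of _ l (by omega)]
      · rw [Gone_inr, hext, ← hctup j (by omega), cseq1_inr]
    rw [hG]
  · exact units_infinite φ₀ E hc
  · obtain ⟨Z, hZ⟩ : ∃ Z : ℕ → Mat (n + 1) R₀, Z = extY Y' := ⟨_, rfl⟩
    have hZk : ∀ k (hk : k < m + 1), Z k = Y' ⟨k, hk⟩ := fun k hk => by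
      rw [hZ, extY_of _ k hk]
    have hZm : Z m = Y' (Fin.last m) := hZk m (Nat.lt_succ_self m)
    obtain ⟨z, hz1, hz2, hz3, hz4⟩ := chart_integral1 φ₀ hc.inj C h0 δ ξ (fun l hl => hδ l hl)
      (by
        rw [← hcx0.charpoly, charpoly_upT hup]
        exact Finset.prod_congr rfl fun i _ => by rw [hξ])
      Z (P002G.e0 n R₀) y'
      (fun k hk i => by
        rw [hZk k (by omega)]
        obtain ⟨w, -, hw⟩ := hY1 ⟨k, by omega⟩ i
        rw [← hw]
        exact w.isUnit)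
      (fun k hk => by
        rw [hZk k (by omega)]
        exact hY2 ⟨k, hk⟩)
      (by
        rw [hZm, hY3]
        refine Finset.prod_congr rfl fun i _ => ?_
        rw [← Fin.prod_univ_eq_prod_range (fun l => Z l i i)]
        congr 3
        exact Finset.prod_congr rfl fun l _ => by rw [hZk l l.2])
      (by
        rw [hZm]
        obtain ⟨w, -, hw⟩ := hY4
        rw [← hw]
        exact w.isUnit)
      (by
        rw [Amat, hZ]
        obtain ⟨w, -, hw⟩ := hY5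
        rw [← hw]
        exact w.isUnit) κ hκ'
    have hZe : (fun k => (Z k).map φ₀) = extY fun k => (Y' k).map φ₀ := by
      rw [hZ, extY_map]
    rw [e0_map, hZe, ← htt, ← htt'] at hz2
    rw [hZe, ← htt, ← htt'] at hz4
    have hFY := hF (fun k => (Y' k).map φ₀) (fun i => φ₀ (y' i)) (by
      rw [extY_of _ m (Nat.lt_succ_self m)]
      have h1 : (⟨m, Nat.lt_succ_self m⟩ : Fin (m + 1)) = Fin.last m := rfl
      rw [h1, ← zZ_map, ← e0_map φ₀, ← kry_map]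
      obtain ⟨w, -, hw⟩ := hY4
      have h2 := RingHom.map_det φ₀ (P002.kry (zZ (Y' (Fin.last m))) (P002G.e0 n R₀))
      rw [← hw] at h2
      change ((P002.kry (zZ (Y' (Fin.last m))) (P002G.e0 n R₀)).map φ₀).det ≠ 0
      have h3 : ((P002.kry (zZ (Y' (Fin.last m))) (P002G.e0 n R₀)).map φ₀).det = φ₀ w := h2.symm
      rw [h3]
      exact (w.isUnit.map φ₀).ne_zero)
    simp only [Matrix.map_apply] at hFY
    rw [hFY]
    by_cases hk1 : (P002.kry (ctup (m + 1) t t' κ (extY fun k => (Y' k).map φ₀) 0) v).det = 0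
    · rw [hk1, mul_zero]
    have hz5 := hz4 ⟨v, by
      rw [P002G.cyc_iff, Matrix.isUnit_iff_isUnit_det, isUnit_iff_ne_zero]
      exact hk1⟩
    have hz6 := hf z hz1 hz5 (fun k => by
      obtain ⟨A, hA1, hA2⟩ := hz3 k
      exact hR A _ hA1 hA2)
    have hz7 : MvPolynomial.aeval (fun p => Gone m t t' κ (extY fun k => (Y' k).map φ₀)
        (P002G.e0 n ℂ) (fun i => φ₀ (y' i)) p.1 p.2.1 p.2.2) f = (0 : ℂ) := by
      rw [← hz6, evalG_eqn]
      congr 2
      funext p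
      rw [hz2]
    rw [hz7, mul_zero, zero_mul]

end Vale.Agent.P002R
end

section

/-!
# The black boxes of the chart in genus one, for the group of all units
-/

namespace Vale.Agent.P002G

open Matrix Polynomial
open Vale.Agent.P002 (kry)
open Vale.Agent.P002R (GoodD VecV FibV LoT isPoly_entries)

variable {R : Type*} [CommRing R]

theorem goodD_top (φ : R →+* ℂ) (hφ : Function.Injective φ) (u : Rˣ)
    (hu : ∀ k : ℕ, 0 < k → φ (u : R) ^ k ≠ 1)
    (hUP : ∀ D : R, D ≠ 0 → ∃ M : ℕ, 0 < M ∧ D ∣ (u : R) ^ M - 1) {r : ℕ}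
    (ν : Fin r → Rˣ) (hν : Function.Injective ν) :
    GoodD φ ⊤ ν ((∏ j, ∏ i ∈ Finset.univ.filter (fun i => j < i), ((ν i : R) - ν j)) ^ r) := by
  have hdom : IsDomain R := hφ.isDomain φ
  intro A hA hAd hA1 hA2 G hG y
  obtain ⟨Δ, hΔ⟩ : ∃ Δ : R, Δ = ∏ j, ∏ i ∈ Finset.univ.filter (fun i => j < i),
      ((ν i : R) - ν j) := ⟨_, rfl⟩
  have hνR : Function.Injective fun i => (ν i : R) := fun i j h => hν (Units.ext h)
  have hs : ∀ k : ℕ, ∃ s : Rˣ, ∀ i j : Fin r, (j : ℕ) = k → (i : ℕ) = k + 1 →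
      Δ ^ r ∣ A i j - (s : R) := by
    intro k
    by_cases hk : k + 1 < r
    · obtain ⟨s, -, hs⟩ := hA2 ⟨k + 1, hk⟩ ⟨k, by omega⟩ rfl
      refine ⟨s, fun i j hj hi => ?_⟩
      have h1 : i = ⟨k + 1, hk⟩ := Fin.ext hi
      have h2 : j = ⟨k, by omega⟩ := Fin.ext hj
      rw [h1, h2, hΔ]
      exact hs
    · exact ⟨1, fun i j _ hi => absurd i.2 (by omega)⟩
  choose s hs using hs
  obtain ⟨v, hv, -⟩ := exists_cyc_tri Δ (fun i => (ν i : R)) (fun j => by
      rw [hΔ]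
      exact Finset.dvd_prod_of_mem _ (Finset.mem_univ j))
    (fun i j hij h => hij.ne (hνR h).symm) s 1 A hAd hA (fun i j hij => by
      rw [mul_one]
      by_cases h6 : (i : ℕ) = j + 1
      · rw [if_pos h6]
        exact hs j i j rfl h6
      · rw [if_neg h6, sub_zero, hΔ]
        refine hA1 i j ?_
        have := Fin.lt_def.1 hij
        omega) 1
  have hcp : A.charpoly = ∏ i, (Polynomial.X - C (ν i : R)) := by
    have h1 : (Aᵀ).charpoly = ∏ i, (X - C (Aᵀ i i)) :=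
      Matrix.charpoly_of_isUpperTriangular Aᵀ fun i j hij => hA j i hij
    rw [← Matrix.charpoly_transpose, h1]
    exact Finset.prod_congr rfl fun i _ => by rw [Matrix.transpose_apply, hAd]
  refine cyc_vectors_dense φ hφ u hu hUP A hνR hcp hv (isPoly_mvPoly G) ?_ y
  intro z hz
  refine hG z ?_
  have h1 : IsUnit (kry A z).det := (Matrix.isUnit_iff_isUnit_det _).1 ((cyc_iff _ _).1 hz)
  obtain ⟨w, hw⟩ := h1
  exact ⟨w, Subgroup.mem_top w, hw⟩

/-- Density of the cyclic vectors. -/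
theorem vecV_top (φ : R →+* ℂ) (hφ : Function.Injective φ) (u : Rˣ)
    (hu : ∀ k : ℕ, 0 < k → φ (u : R) ^ k ≠ 1)
    (hUP : ∀ D : R, D ≠ 0 → ∃ M : ℕ, 0 < M ∧ D ∣ (u : R) ^ M - 1) (r : ℕ) : VecV φ ⊤ r := by
  have hdom : IsDomain R := hφ.isDomain φ
  intro ν hν _
  refine ⟨_, ?_, goodD_top φ hφ u hu hUP ν hν⟩
  apply pow_ne_zero
  rw [Finset.prod_ne_zero_iff]
  intro j _
  rw [Finset.prod_ne_zero_iff]
  intro i hi
  rw [Finset.mem_filter] at hi
  exact sub_ne_zero.2 fun h => hi.2.ne (hν (Units.ext h)).symm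

/-- Fibrewise density with a modulus. -/
theorem fibV_top (φ : R →+* ℂ) (hφ : Function.Injective φ) (u : Rˣ)
    (hu : ∀ k : ℕ, 0 < k → φ (u : R) ^ k ≠ 1)
    (hUP : ∀ D : R, D ≠ 0 → ∃ M : ℕ, 0 < M ∧ D ∣ (u : R) ^ M - 1) (n : ℕ) : FibV φ ⊤ n := by
  intro D hD q χ hχ hχd F hF X hX1 hX2 hX3
  obtain ⟨F', hF'⟩ : ∃ F' : Matrix (Fin (n + 1)) (Fin (n + 1)) ℂ → ℂ, ∀ X, F' X =
    MvPolynomial.eval (fun p => X p.1 p.2) F := ⟨_, fun _ => rfl⟩
  have hP : IsPoly F' := (isPoly_entries F).congr fun X => (hF' X).symm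
  rw [← en_eq_e0] at hX3
  rw [← hF']
  refine QQ_all φ hφ u hu hUP n D hD q χ hχ hχd F' hP ?_ X hX1 hX2 hX3
  intro X' h1 h2 h3 h4
  rw [hF']
  rw [en_eq_e0] at h4
  obtain ⟨w, hw⟩ := (Matrix.isUnit_iff_isUnit_det _).1 ((cyc_iff _ _).1 h4)
  exact hF X' h1 h2 h3 ⟨w, Subgroup.mem_top w, hw⟩

end Vale.Agent.P002G
end

section

/-!
# P002, genus 1: the chart with all density hypotheses discharged
-/

namespace Vale.Agent.P002R

open Matrix

theorem totV_of_totM {R : Type*} [CommRing R] (φ : R →+* ℂ) {r : ℕ} (J : Mat r ℂ)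
    (h : P002G.TotM φ J) : TotV φ (⊤ : Subgroup Rˣ) J := by
  intro D hD F hF X hX1 hX2
  obtain ⟨F', hF'⟩ : ∃ F' : Matrix (Fin r) (Fin r) ℂ → ℂ, ∀ X, F' X =
    MvPolynomial.eval (fun p => X p.1 p.2) F := ⟨_, fun _ => rfl⟩
  have hP : P002G.IsPoly F' := (isPoly_entries F).congr fun X => (hF' X).symm
  have hint : ∀ X : Mat r R, (∀ i, IsUnit (X i i)) → (∀ i j, j < i → D ∣ X i j) →
      P002G.CjC J (P002G.zZ (X.map φ)) → F' (X.map φ) = 0 := by
    intro X' h1 h2 h3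
    rw [hF']
    exact hF X' (fun i => by
      obtain ⟨w, hw⟩ := h1 i
      exact ⟨w, Subgroup.mem_top _, hw⟩) h2 h3
  rw [← hF']
  exact h D hD F' hP hint X hX1 hX2

/-- Density of the integral points in the chart, genus 1. -/
theorem chart_density1_full {R₀ : Type*} [CommRing R₀] (φ₀ : R₀ →+* ℂ) (E : Subgroup ℂˣ) {n m : ℕ}
    (hc : CoefOK φ₀ E (n + 1))
    (hUP : ∀ (u : R₀ˣ) (D : R₀), D ≠ 0 → ∃ M : ℕ, 0 < M ∧ D ∣ (u : R₀) ^ M - 1)
    (G : Subgroup (Mat (n + 1) ℂ)ˣ)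
    (hR : ∀ (A : Mat (n + 1) R₀) (U : (Mat (n + 1) ℂ)ˣ), IsUnit A.det →
      (U : Mat (n + 1) ℂ) = A.map φ₀ → U ∈ G)
    (C : Fin (m + 1) → (Mat (n + 1) ℂ)ˣ) (hE : ∀ j, EigIn E (C j : Mat (n + 1) ℂ))
    (h0 : ∃ v, P002G.Cyc (C 0 : Mat (n + 1) ℂ) v)
    (x : FU 1 (m + 1) →* (Mat (n + 1) ℂ)ˣ) (hx1 : x (relatorU 1 (m + 1)) = 1)
    (hxC : ∀ j, IsConj (C j) (x (FreeGroup.of (Sum.inr j))))
    (hup : UpT (cseq1 x 0)) (hlo : LoT (cseq1 x (m + 2)))
    (hcell : ∀ k ≤ m + 1, ∃ X : Mat (n + 1) ℂ,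
      (List.ofFn fun j : Fin k => cseq1 x ((j : ℕ) + 1)).prod = zZ X ∧ ∀ i, X i i ≠ 0)
    (hcyc : P002G.Cyc (cseq1 x (m + 1))
      (((List.ofFn fun j : Fin m => cseq1 x ((j : ℕ) + 1)).prod)⁻¹ *ᵥ P002G.e0 n ℂ))
    (f : MvPolynomial (GenU 1 (m + 1) × Fin (n + 1) × Fin (n + 1)) ℂ)
    (hf : ∀ y : FU 1 (m + 1) →* (Mat (n + 1) ℂ)ˣ, y (relatorU 1 (m + 1)) = 1 →
      (∀ j, IsConj (C j) (y (FreeGroup.of (Sum.inr j)))) →
      (∀ k, y (FreeGroup.of k) ∈ G) → evalG y f = 0) :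
    evalG x f = 0 := by
  obtain ⟨u, hu⟩ := hc.exists_free
  exact chart_density1 φ₀ E hc (P002G.fibV_top φ₀ hc.inj u hu (hUP u) n)
    (P002G.vecV_top φ₀ hc.inj u hu (hUP u) (n + 1)) G hR C hE
    (fun j _ => totV_of_totM φ₀ _ (totM_of_eigIn hc (Nat.succ_pos n) hUP (C j) (hE j)))
    h0 x hx1 hxC hup hlo hcell hcyc f hf

/-- Matrices with unit determinant over the small ring are integral up to scalars over the big
ring. -/
theorem mem_GR_of_two_rings {R₀ R : Type*} [CommRing R₀] [CommRing R] (φ₀ : R₀ →+* ℂ)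
    (φ : R →+* ℂ) (ι : R₀ →+* R) (hι : ∀ a, φ (ι a) = φ₀ a) {r : ℕ}
    (hroot : ∀ u : R₀ˣ, ∃ c : Rˣ, ι (u : R₀) = (c : R) ^ r)
    (A : Mat r R₀) (U : (Mat r ℂ)ˣ) (hA : IsUnit A.det) (hU : (U : Mat r ℂ) = A.map φ₀) :
    U ∈ GR r φ := by
  obtain ⟨u, hu⟩ := hA
  obtain ⟨c, hc⟩ := hroot u
  refine mem_GR_of φ U (A.map ι) ?_ c ?_
  · rw [hU]
    ext i j
    simp only [Matrix.map_apply, hι]
  · have h1 := RingHom.map_det ι A
    have h2 : (A.map ι).det = ι A.det := h1.symm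
    rw [h2, ← hu, hc]

end Vale.Agent.P002R
end

section

/-!
# The fibre of the second handle matrix: vanishing at integral genus zero tuples
-/

namespace Vale.Agent.P002R

open Matrix Polynomial

variable {r : ℕ}

/-- Elements of `ℂ^* SL_r(R)` with determinant in `E` are integral. -/
theorem exists_int_of_GR {R : Type} [CommRing R] {φ : R →+* ℂ} {E : Subgroup ℂˣ}
    (hc : CoefOK φ E r) (hr : 0 < r) (U : (Mat r ℂ)ˣ) (hU : U ∈ GR r φ)
    (hdet : ∃ e ∈ E, (e : ℂ) = (U : Mat r ℂ).det) : ∃ A : Mat r R, (U : Mat r ℂ) = A.map φ := by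
  obtain ⟨c, y, rfl⟩ := hU
  obtain ⟨e, he, he'⟩ := hdet
  have h1 : ((scalarU c * slU φ y : (Mat r ℂ)ˣ) : Mat r ℂ) = (c : ℂ) • (y : Mat r R).map φ := by
    ext i j
    rw [scalarU_mul_coe, slU_coe]
  have h2 : (c : ℂ) ^ r = (e : ℂ) := by
    rw [he', h1, Matrix.det_smul, Fintype.card_fin]
    have h3 : ((y : Mat r R).map φ).det = φ (y : Mat r R).det := (RingHom.map_det φ _).symm
    rw [h3, y.2, map_one, mul_one]
  have h3 : c ^ r = e := by
    ext1
    rw [Units.val_pow_eq_pow_val, h2]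
  obtain ⟨c₀, hc₀⟩ := hc.root r hr le_rfl c (by rw [h3]; exact he)
  refine ⟨c₀ • (y : Mat r R), ?_⟩
  rw [h1, ← hc₀]
  ext i j
  simp only [Matrix.smul_apply, Matrix.map_apply, smul_eq_mul, map_mul]

theorem GR_ring_mono {R₁ R : Type} [CommRing R₁] [CommRing R] {φ₁ : R₁ →+* ℂ} {φ : R →+* ℂ}
    (ι : R₁ →+* R) (hι : ∀ a, φ (ι a) = φ₁ a) (U : (Mat r ℂ)ˣ) (hU : U ∈ GR r φ₁) :
    U ∈ GR r φ := by
  obtain ⟨c, y, rfl⟩ := hU
  refine ⟨c, SpecialLinearGroup.map ι y, ?_⟩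
  congr 1
  apply Units.ext
  ext i j
  rw [slU_coe, slU_coe]
  change φ₁ _ = φ (ι _)
  rw [hι]

theorem det_of_charpoly {M : Mat r ℂ} {ω : Fin r → ℂ} (h : M.charpoly = ∏ i, (X - C (ω i))) :
    M.det = ∏ i, ω i := by
  have h1 : ∏ i, (X - C (ω i)) =
      ((Finset.univ.val.map ω).map fun a => (X - C a : ℂ[X])).prod := by
    rw [Multiset.map_map]
    rfl
  rw [Matrix.det_eq_prod_roots_charpoly_of_splits (IsAlgClosed.splits _), h, h1,
    Polynomial.roots_multiset_prod_X_sub_C]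
  rfl

theorem det_sub_of_charpoly {M : Mat r ℂ} {ω : Fin r → ℂ} (h : M.charpoly = ∏ i, (X - C (ω i)))
    (i : Fin r) : (M - Matrix.scalar (Fin r) (ω i)).det = 0 := by
  have h1 := Matrix.eval_charpoly M (ω i)
  rw [h, eval_prod, Finset.prod_eq_zero (Finset.mem_univ i) (by simp)] at h1
  rw [← neg_sub, Matrix.det_neg, ← h1, mul_zero]

theorem prod_mem_E {E : Subgroup ℂˣ} {ι : Type*} (s : Finset ι) (g : ι → ℂ)
    (h : ∀ i ∈ s, ∃ e ∈ E, (e : ℂ) = g i) : ∃ e ∈ E, (e : ℂ) = ∏ i ∈ s, g i := by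
  classical
  induction s using Finset.induction_on with
  | empty => exact ⟨1, one_mem _, by simp⟩
  | insert i s hi ih =>
    obtain ⟨e, he, h1⟩ := h i (Finset.mem_insert_self _ _)
    obtain ⟨e', he', h2⟩ := ih fun j hj => h j (Finset.mem_insert_of_mem hj)
    exact ⟨e * e', mul_mem he he', by rw [Units.val_mul, h1, h2, Finset.prod_insert hi]⟩

/-- Integral diagonalization. -/
theorem exists_diag_GR {R₁ R₂ : Type} [CommRing R₁] [CommRing R₂] {φ₁ : R₁ →+* ℂ} {φ₂ : R₂ →+* ℂ}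
    (ι : R₁ →+* R₂) (hι : ∀ a, φ₂ (ι a) = φ₁ a) (hφ₂ : Function.Injective φ₂) (hprin : Prin ι)
    {E : Subgroup ℂˣ} (hc : CoefOK φ₁ E r) (hr : 0 < r) (ω : Fin r → R₁)
    (hωE : ∀ i, ∃ e ∈ E, (e : ℂ) = φ₁ (ω i)) (hωd : ∀ i j, i ≠ j → IsUnit (ω i - ω j))
    (U : (Mat r ℂ)ˣ) (hU : U ∈ GR r φ₁)
    (hch : (U : Mat r ℂ).charpoly = ∏ i, (X - C (φ₁ (ω i)))) :
    ∃ P : Mat r R₂, IsUnit P.det ∧
      (U : Mat r ℂ) * P.map φ₂ = P.map φ₂ * diagonal fun i => φ₁ (ω i) := by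
  have : IsDomain R₁ := hc.inj.isDomain φ₁
  have : IsDomain R₂ := hφ₂.isDomain φ₂
  have hιi : Function.Injective ι := by
    intro a b hab
    apply hc.inj
    rw [← hι, ← hι, hab]
  obtain ⟨A, hA⟩ := exists_int_of_GR hc hr U hU (by
    rw [det_of_charpoly hch]
    exact prod_mem_E _ _ fun i _ => hωE i)
  have h1 : ∀ i, (A - Matrix.scalar (Fin r) (ω i)).det = 0 := by
    intro i
    apply hc.inj
    rw [map_zero, RingHom.map_det, ← det_sub_of_charpoly hch i, hA]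
    congr 1
    ext k l
    simp only [RingHom.mapMatrix_apply, Matrix.map_apply, Matrix.sub_apply, map_sub,
      Matrix.scalar_apply, Matrix.diagonal_apply]
    split_ifs
    · rfl
    · rw [map_zero]
  obtain ⟨P, hP, h2⟩ := exists_diag ι hιi hprin A ω hωd h1
  refine ⟨P, hP, ?_⟩
  have h3 := congrArg (fun M : Mat r R₂ => M.map φ₂) h2
  simp only [Matrix.map_mul] at h3
  have h4 : (A.map ι).map φ₂ = A.map φ₁ := by
    ext i j
    simp only [Matrix.map_apply, hι]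
  rw [h4, ← hA, Matrix.diagonal_map (map_zero φ₂)] at h3
  rw [h3]
  congr 2
  funext i
  exact hι _

/-- Units form an infinite set. -/
theorem infinite_units {R₁ R₂ : Type} [CommRing R₁] [CommRing R₂] {φ₁ : R₁ →+* ℂ}
    {φ₂ : R₂ →+* ℂ} (ι : R₁ →+* R₂) (hι : ∀ a, φ₂ (ι a) = φ₁ a) {E : Subgroup ℂˣ}
    (hc : CoefOK φ₁ E r) : {z : ℂ | ∃ w : R₂ˣ, φ₂ (w : R₂) = z}.Infinite := by
  obtain ⟨u, hu⟩ := hc.unit
  obtain ⟨v, hv⟩ : ∃ v : ℂˣ, v = Units.map (φ₁ : R₁ →* ℂ) u := ⟨_, rfl⟩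
  rw [← hv] at hu
  have hinj : Function.Injective fun k : ℕ => ((v ^ k : ℂˣ) : ℂ) := by
    have key : ∀ k l : ℕ, k < l → ((v ^ k : ℂˣ) : ℂ) ≠ ((v ^ l : ℂˣ) : ℂ) := by
      intro k l hkl h
      have h1 : v ^ k = v ^ l := Units.ext h
      apply hu (l - k) (by omega)
      have h2 : v ^ (l - k) = 1 := by
        apply mul_left_cancel (a := v ^ k)
        rw [← pow_add, Nat.add_sub_cancel' hkl.le, mul_one, h1]
      rw [h2]
      exact one_mem _
    intro k l h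
    rcases lt_trichotomy k l with h1 | h1 | h1
    · exact absurd h (key k l h1)
    · exact h1
    · exact absurd h.symm (key l k h1)
  refine (Set.infinite_range_of_injective hinj).mono ?_
  rintro _ ⟨k, rfl⟩
  refine ⟨Units.map (ι : R₁ →* R₂) (u ^ k), ?_⟩
  have h1 : φ₂ (ι ((u ^ k : R₁ˣ) : R₁)) = φ₁ ((u ^ k : R₁ˣ) : R₁) := hι _
  refine h1.trans ?_
  have h2 : v ^ k = Units.map (φ₁ : R₁ →* ℂ) (u ^ k) := by rw [hv, map_pow]
  change _ = ((v ^ k : ℂˣ) : ℂ)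
  rw [h2]
  rfl

theorem diag_single_mul (N : Mat r ℂ) (i : Fin r) :
    diagonal (Pi.single i (1 : ℂ)) * N * diagonal (Pi.single i 1) =
      diagonal (Pi.single i (N i i)) := by
  ext k l
  rw [Matrix.mul_diagonal, Matrix.diagonal_mul, Matrix.diagonal_apply]
  by_cases hk : k = i
  · subst hk
    rw [Pi.single_eq_same, one_mul]
    by_cases hl : l = k
    · subst hl
      rw [Pi.single_eq_same, mul_one, if_pos rfl, Pi.single_eq_same]
    · rw [Pi.single_eq_of_ne hl, mul_zero, if_neg (Ne.symm hl)]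
  · rw [Pi.single_eq_of_ne hk, zero_mul, zero_mul]
    split_ifs
    · rw [Pi.single_eq_of_ne hk]
    · rfl

theorem sum_proj_conj {M M' P P' : Mat r ℂ} {ω : Fin r → ℂ} (hω : Function.Injective ω)
    (hP : IsUnit P.det) (hP' : IsUnit P'.det) (h : M * P = P * diagonal ω)
    (h' : M' * P' = P' * diagonal ω) (B : Mat r ℂ) :
    ∑ i, proj ω i M * B * proj ω i M' = P * diagonal (fun i => (P⁻¹ * B * P') i i) * P'⁻¹ := by
  have h1 : ∀ i, proj ω i M = P * diagonal (Pi.single i 1) * P⁻¹ := fun i => by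
    rw [← proj_mul hω h i, mul_assoc, Matrix.mul_nonsing_inv P hP, mul_one]
  have h2 : ∀ i, proj ω i M' = P' * diagonal (Pi.single i 1) * P'⁻¹ := fun i => by
    rw [← proj_mul hω h' i, mul_assoc, Matrix.mul_nonsing_inv P' hP', mul_one]
  have h3 : ∀ i, proj ω i M * B * proj ω i M' =
      P * diagonal (Pi.single i ((P⁻¹ * B * P') i i)) * P'⁻¹ := by
    intro i
    rw [h1, h2, ← diag_single_mul]
    simp only [mul_assoc]
  simp only [h3]
  rw [← Finset.sum_mul, ← Finset.mul_sum]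
  congr 2
  ext k l
  rw [Matrix.sum_apply]
  simp only [Matrix.diagonal_apply]
  by_cases hkl : k = l
  · subst hkl
    simp only [if_true]
    rw [Finset.sum_eq_single k]
    · rw [Pi.single_eq_same]
    · intro j _ hj
      rw [Pi.single_eq_of_ne (Ne.symm hj)]
    · intro hk
      exact absurd (Finset.mem_univ _) hk
  · simp [hkl]

/-- Vanishing at the tuples over an integral genus zero tuple. -/
theorem fibre_vanish {m : ℕ} (hr : 0 < r) {R₁ R₂ R₃ : Type} [CommRing R₁] [CommRing R₂]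
    [CommRing R₃] {φ₁ : R₁ →+* ℂ} {φ₂ : R₂ →+* ℂ} {φ₃ : R₃ →+* ℂ}
    (ι₁ : R₁ →+* R₂) (h₁ : ∀ a, φ₂ (ι₁ a) = φ₁ a) (ι₂ : R₂ →+* R₃) (h₂ : ∀ a, φ₃ (ι₂ a) = φ₂ a)
    (hφ₂ : Function.Injective φ₂) (hprin : Prin ι₁)
    (hroot : ∀ u : R₂ˣ, ∃ c : R₃ˣ, ι₂ (u : R₂) = (c : R₃) ^ r)
    {E : Subgroup ℂˣ} (hc : CoefOK φ₁ E r) (ω : Fin r → R₁)
    (hωE : ∀ i, ∃ e ∈ E, (e : ℂ) = φ₁ (ω i)) (hωd : ∀ i j, i ≠ j → IsUnit (ω i - ω j))
    (Cl : Fin (m + 1) → (Mat r ℂ)ˣ) (f : MvPolynomial (GenU 1 (m + 1) × Fin r × Fin r) ℂ)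
    (hf : ∀ y ∈ DTor φ₃ Cl, evalG y f = 0) (b l : (Mat r ℂ)ˣ) (c : Fin (m + 1) → (Mat r ℂ)ˣ)
    (hrel : b⁻¹ * (List.ofFn c).prod * l = 1) (hyC : ∀ j, IsConj (Cl j) (c j))
    (hbG : b ∈ GR r φ₁) (hlG : l ∈ GR r φ₁) (hcG : ∀ j, c j ∈ GR r φ₁)
    (hb : (b : Mat r ℂ).charpoly = ∏ i, (X - C (φ₁ (ω i))))
    (hl : (l : Mat r ℂ).charpoly = ∏ i, (X - C (φ₁ (ω i)))) (B : Mat r ℂ) :
    evMat (hMat (∑ i, proj (fun i => φ₁ (ω i)) i (l : Mat r ℂ) * B *
      proj (fun i => φ₁ (ω i)) i (b : Mat r ℂ)) (b : Mat r ℂ) fun j => (c j : Mat r ℂ)) f = 0 := by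
  obtain ⟨P, hP, hbP⟩ := exists_diag_GR ι₁ h₁ hφ₂ hprin hc hr ω hωE hωd b hbG hb
  obtain ⟨Q, hQ, hlQ⟩ := exists_diag_GR ι₁ h₁ hφ₂ hprin hc hr ω hωE hωd l hlG hl
  obtain ⟨ω', hω'⟩ : ∃ ω' : Fin r → ℂ, ω' = fun i => φ₁ (ω i) := ⟨_, rfl⟩
  rw [← hω'] at hbP hlQ ⊢
  have hinj : Function.Injective ω' := by
    intro i j hij
    by_contra hne
    rw [hω'] at hij
    have : Nontrivial R₁ := ⟨1, 0, fun h => by
      have h3 := congrArg φ₁ h
      rw [map_one, map_zero] at h3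
      exact one_ne_zero h3⟩
    have h3 := hωd i j hne
    rw [sub_eq_zero.2 (hc.inj hij)] at h3
    exact not_isUnit_zero h3
  -- complex matrices
  have hdet : ∀ M : Mat r R₂, IsUnit M.det → IsUnit (M.map φ₂).det := by
    intro M hM
    have h3 : (M.map φ₂).det = φ₂ M.det := (RingHom.map_det φ₂ _).symm
    rw [h3]
    exact hM.map φ₂
  have hP' := hdet P hP
  have hQ' := hdet Q hQ
  obtain ⟨Pi, hPi⟩ : ∃ Pi : Mat r R₂, Pi = P⁻¹ := ⟨_, rfl⟩
  have hPPi : P * Pi = 1 := by rw [hPi]; exact Matrix.mul_nonsing_inv P hP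
  have hPiP : Pi * P = 1 := by rw [hPi]; exact Matrix.nonsing_inv_mul P hP
  have hPi' : (P.map φ₂)⁻¹ = Pi.map φ₂ := by
    apply Matrix.inv_eq_right_inv
    rw [← Matrix.map_mul, hPPi, Matrix.map_one φ₂ (map_zero φ₂) (map_one φ₂)]
  obtain ⟨G, hG⟩ := exists_torus_poly2 (b : Mat r ℂ) (Q.map φ₂) (Pi.map φ₂)
    (fun j => (c j : Mat r ℂ)) f
  have hG0 : G = 0 := by
    refine MvPolynomial.funext_set (fun _ => {z : ℂ | ∃ w : R₂ˣ, φ₂ (w : R₂) = z})
      (fun _ => infinite_units ι₁ h₁ hc) fun t ht => ?_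
    rw [map_zero, hG]
    choose w hw using fun i => ht i (Set.mem_univ i)
    -- the handle matrix
    obtain ⟨A, hA⟩ : ∃ A : Mat r R₂, A = Q * diagonal (fun i => (w i : R₂)) * Pi := ⟨_, rfl⟩
    have hAu : IsUnit A.det := by
      rw [hA, Matrix.det_mul, Matrix.det_mul, Matrix.det_diagonal]
      refine (hQ.mul ?_).mul ?_
      · exact IsUnit.prod_univ_iff.2 fun i => (w i).isUnit
      · exact IsUnit.of_mul_eq_one P.det (by rw [← Matrix.det_mul, hPiP, Matrix.det_one])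
    have hAmap : A.map φ₂ = Q.map φ₂ * diagonal t * Pi.map φ₂ := by
      rw [hA, Matrix.map_mul, Matrix.map_mul, Matrix.diagonal_map (map_zero φ₂)]
      congr 3
      funext i
      exact hw i
    obtain ⟨U, hU⟩ : ∃ U : (Mat r ℂ)ˣ, (U : Mat r ℂ) = A.map φ₂ :=
      (Matrix.isUnit_iff_isUnit_det _).2 (hdet A hAu)
    have hUb : U * b * U⁻¹ = l := by
      rw [mul_inv_eq_iff_eq_mul]
      apply Units.ext
      rw [Units.val_mul, Units.val_mul, hU, hAmap]
      have h3 : Pi.map φ₂ * (b : Mat r ℂ) = diagonal ω' * Pi.map φ₂ := by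
        have h4 : Pi.map φ₂ * P.map φ₂ = 1 := by
          rw [← Matrix.map_mul, hPiP, Matrix.map_one φ₂ (map_zero φ₂) (map_one φ₂)]
        have h5 : P.map φ₂ * Pi.map φ₂ = 1 := by
          rw [← Matrix.map_mul, hPPi, Matrix.map_one φ₂ (map_zero φ₂) (map_one φ₂)]
        calc Pi.map φ₂ * (b : Mat r ℂ)
            = Pi.map φ₂ * ((b : Mat r ℂ) * P.map φ₂) * Pi.map φ₂ := by
              rw [mul_assoc, mul_assoc, h5, mul_one]
          _ = (Pi.map φ₂ * P.map φ₂) * diagonal ω' * Pi.map φ₂ := by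
              rw [hbP]; simp only [mul_assoc]
          _ = _ := by rw [h4, one_mul]
      calc Q.map φ₂ * diagonal t * Pi.map φ₂ * (b : Mat r ℂ)
          = Q.map φ₂ * (diagonal t * diagonal ω') * Pi.map φ₂ := by
            rw [mul_assoc, h3]; simp only [mul_assoc]
        _ = Q.map φ₂ * (diagonal ω' * diagonal t) * Pi.map φ₂ := by
            rw [Matrix.diagonal_mul_diagonal, Matrix.diagonal_mul_diagonal]
            congr 3
            funext i
            exact mul_comm _ _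
        _ = (Q.map φ₂ * diagonal ω') * diagonal t * Pi.map φ₂ := by simp only [mul_assoc]
        _ = (l : Mat r ℂ) * (Q.map φ₂ * diagonal t * Pi.map φ₂) := by
            rw [← hlQ]; simp only [mul_assoc]
    obtain ⟨y, hy⟩ : ∃ y : FU 1 (m + 1) →* (Mat r ℂ)ˣ, y = FreeGroup.lift
      (Sum.elim (fun k => if k.2 then b else U) c) := ⟨_, rfl⟩
    have hy1 : y (FreeGroup.of (Sum.inl (0, false))) = U := by
      rw [hy, FreeGroup.lift_apply_of]; rfl
    have hy2 : y (FreeGroup.of (Sum.inl (0, true))) = b := by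
      rw [hy, FreeGroup.lift_apply_of]; rfl
    have hy3 : ∀ j, y (FreeGroup.of (Sum.inr j)) = c j := fun j => by
      rw [hy, FreeGroup.lift_apply_of]; rfl
    have hyD : y ∈ DTor φ₃ Cl := by
      refine ⟨?_, fun j => ?_, ?_⟩
      · rw [relU1_units, hy1, hy2]
        simp only [hy3]
        rw [hUb]
        have h3 : (List.ofFn c).prod * l = b := by
          rw [mul_assoc, inv_mul_eq_one] at hrel
          exact hrel.symm
        rw [← mul_assoc, h3, mul_inv_cancel]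
      · rw [hy3]
        exact hyC j
      · rintro (⟨k, _ | _⟩ | j)
        · obtain rfl : k = 0 := Subsingleton.elim _ _
          rw [hy1]
          exact mem_GR_of_two_rings φ₂ φ₃ ι₂ h₂ hroot A U hAu hU
        · obtain rfl : k = 0 := Subsingleton.elim _ _
          rw [hy2]
          exact GR_ring_mono (ι₂.comp ι₁) (fun a => (h₂ _).trans (h₁ a)) b hbG
        · rw [hy3]
          exact GR_ring_mono (ι₂.comp ι₁) (fun a => (h₂ _).trans (h₁ a)) _ (hcG j)
    have h3 := hf y hyD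
    rw [evalG_eq_evMat] at h3
    rw [← h3]
    congr 1
    funext k
    rcases k with ⟨k, _ | _⟩ | j
    · obtain rfl : k = 0 := Subsingleton.elim _ _
      rw [hy1, hU, hAmap]
      rfl
    · obtain rfl : k = 0 := Subsingleton.elim _ _
      rw [hy2]
      rfl
    · rw [hy3]
      rfl
  rw [sum_proj_conj hinj hQ' hP' hlQ hbP B, hPi', ← hG, hG0, map_zero]

end Vale.Agent.P002R
end

section

/-!
# Density over the fibre where the second handle matrix has prescribed eigenvalues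
-/

namespace Vale.Agent.P002R

open Matrix Polynomial

variable {r : ℕ}

theorem prin_id : Prin (RingHom.id ℂ) := by
  intro r v hv
  obtain ⟨i, hi⟩ : ∃ i, v i ≠ 0 := by
    by_contra h
    push Not at h
    exact hv (funext h)
  refine ⟨1, v, Pi.single i (v i)⁻¹, fun j => by simp, ?_⟩
  rw [Finset.sum_eq_single i]
  · rw [Pi.single_eq_same, inv_mul_cancel₀ hi]
  · intro j _ hj
    rw [Pi.single_eq_of_ne hj, zero_mul]
  · intro h
    exact absurd (Finset.mem_univ _) h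

/-- Complex matrices with prescribed distinct eigenvalues are diagonalizable. -/
theorem exists_diag_complex {M : Mat r ℂ} {ω : Fin r → ℂ} (hω : Function.Injective ω)
    (h : M.charpoly = ∏ i, (X - C (ω i))) :
    ∃ P : Mat r ℂ, IsUnit P.det ∧ M * P = P * diagonal ω := by
  obtain ⟨P, hP, h1⟩ := exists_diag (RingHom.id ℂ) Function.injective_id prin_id M ω
    (fun i j hij => isUnit_iff_ne_zero.2 (sub_ne_zero.2 fun h => hij (hω h)))
    (det_sub_of_charpoly h)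
  refine ⟨P, hP, ?_⟩
  have h2 : M.map (RingHom.id ℂ) = M := by
    ext i j
    rfl
  rwa [h2] at h1

theorem hasCyc_of_diag {M P : Mat r ℂ} {ω : Fin r → ℂ} (hω : Function.Injective ω)
    (hP : IsUnit P.det) (h : M * P = P * diagonal ω) : HasCyc r M := by
  refine ⟨P *ᵥ fun _ => 1, fun W hv hW => ?_⟩
  have h1 : ∀ i, P.col i ∈ W := fun i => mem_of_coeff hω hP h hW _ hv i (by
    rw [Matrix.mulVec_mulVec, Matrix.nonsing_inv_mul P hP, Matrix.one_mulVec]
    exact one_ne_zero)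
  rw [eq_top_iff]
  intro v _
  have h2 : v = ∑ i, (P⁻¹ *ᵥ v) i • P.col i := by
    have h3 : v = P *ᵥ (P⁻¹ *ᵥ v) := by
      rw [Matrix.mulVec_mulVec, Matrix.mul_nonsing_inv P hP, Matrix.one_mulVec]
    conv_lhs => rw [h3]
    ext k
    rw [Matrix.mulVec, dotProduct, Finset.sum_apply]
    refine Finset.sum_congr rfl fun i _ => ?_
    rw [Pi.smul_apply, smul_eq_mul, Matrix.col_apply, mul_comm]
  rw [h2]
  exact Submodule.sum_mem _ fun i _ => W.smul_mem _ (h1 i)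

theorem eigIn_of_charpoly {E : Subgroup ℂˣ} {M : Mat r ℂ} {ω : Fin r → ℂ}
    (h : M.charpoly = ∏ i, (X - C (ω i))) (hω : ∀ i, ∃ e ∈ E, (e : ℂ) = ω i) : EigIn E M := by
  intro z hz
  rw [h, IsRoot.def, eval_prod, Finset.prod_eq_zero_iff] at hz
  obtain ⟨i, _, hi⟩ := hz
  rw [eval_sub, eval_X, eval_C, sub_eq_zero] at hi
  rw [hi]
  exact hω i

theorem EigIn.mono {E E' : Subgroup ℂˣ} (h : E ≤ E') {M : Mat r ℂ} (hM : EigIn E M) :
    EigIn E' M := fun z hz => by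
  obtain ⟨e, he, h1⟩ := hM z hz
  exact ⟨e, h he, h1⟩

theorem eigIn_inv {E : Subgroup ℂˣ} {M : (Mat r ℂ)ˣ} (hM : EigIn E (M : Mat r ℂ)) :
    EigIn E ((M⁻¹ : (Mat r ℂ)ˣ) : Mat r ℂ) := by
  intro z hz
  have h1 : (Matrix.scalar (Fin r) z - ((M⁻¹ : (Mat r ℂ)ˣ) : Mat r ℂ)).det = 0 := by
    rw [← Matrix.eval_charpoly]
    exact hz
  have hz0 : z ≠ 0 := by
    rintro rfl
    rw [map_zero, zero_sub, Matrix.det_neg] at h1
    have h2 : IsUnit ((M⁻¹ : (Mat r ℂ)ˣ) : Mat r ℂ).det :=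
      (Matrix.isUnit_iff_isUnit_det _).1 (M⁻¹).isUnit
    rcases mul_eq_zero.1 h1 with h3 | h3
    · exact pow_ne_zero _ (by norm_num) h3
    · exact h2.ne_zero h3
  obtain ⟨v, hv, hv'⟩ := Matrix.exists_mulVec_eq_zero_iff.2 h1
  rw [Matrix.sub_mulVec, sub_eq_zero] at hv'
  have h3 : Matrix.scalar (Fin r) z *ᵥ v = z • v := by
    ext i
    simp [Matrix.scalar_apply, Matrix.mulVec_diagonal]
  rw [h3] at hv'
  have h4 : (M : Mat r ℂ) *ᵥ v = z⁻¹ • v := by
    have h5 := congrArg (fun w => (M : Mat r ℂ) *ᵥ w) hv'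
    simp only [Matrix.mulVec_smul, Matrix.mulVec_mulVec, Units.mul_inv, Matrix.one_mulVec] at h5
    calc (M : Mat r ℂ) *ᵥ v = z⁻¹ • z • (M : Mat r ℂ) *ᵥ v := by
          rw [smul_smul, inv_mul_cancel₀ hz0, one_smul]
      _ = z⁻¹ • v := by rw [h5]
  obtain ⟨e, he, h5⟩ := hM z⁻¹ (by
    rw [IsRoot.def, Matrix.eval_charpoly, ← Matrix.exists_mulVec_eq_zero_iff]
    refine ⟨v, hv, ?_⟩
    rw [Matrix.sub_mulVec, h4, sub_eq_zero]
    ext i
    simp [Matrix.scalar_apply, Matrix.mulVec_diagonal])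
  refine ⟨e⁻¹, inv_mem he, ?_⟩
  rw [Units.val_inv_eq_inv_val, h5, inv_inv]

/-- The genus zero representation attached to a representation in the fibre is irreducible. -/
theorem adjoin_zT {n : ℕ} (hr : 0 < r) {E : Subgroup ℂˣ} {ω : Fin r → ℂ}
    (hω : Function.Injective ω)
    (hno : ∀ (I J : Finset (Fin r)), (∃ ε ∈ E, ∏ i ∈ I, ω i = (ε : ℂ) * ∏ j ∈ J, ω j) → I = J)
    (z : FU 1 (n + 1) →* (Mat r ℂ)ˣ)
    (hz3 : Algebra.adjoin ℂ (Set.range fun w => (z w : Mat r ℂ)) = ⊤) (a b : (Mat r ℂ)ˣ)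
    (c : Fin (n + 1) → (Mat r ℂ)ˣ) (ha : z (FreeGroup.of (Sum.inl (0, false))) = a)
    (hb : z (FreeGroup.of (Sum.inl (0, true))) = b)
    (hc : ∀ j, z (FreeGroup.of (Sum.inr j)) = c j)
    (hrel : (List.ofFn c).prod * (a * b * a⁻¹) = b)
    (hE : ∀ j, EigIn E (c j : Mat r ℂ)) (hch : (b : Mat r ℂ).charpoly = ∏ i, (X - C (ω i))) :
    Algebra.adjoin ℂ (Set.range fun w => (mkR (zT a b c) w : Mat r ℂ)) = ⊤ := by
  obtain ⟨P, hP, hbP⟩ := exists_diag_complex hω hch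
  refine adjoin_top_of_simple hr _ fun W hW => ?_
  have hW1 : ∀ v ∈ W, (b : Mat r ℂ) *ᵥ v ∈ W := by
    intro v hv
    have h1 := hW (FreeGroup.of (Sum.inr 0))⁻¹ v hv
    rwa [map_inv, mkR_inr, zT_zero, inv_inv] at h1
  have hW2 : ∀ j, ∀ v ∈ W, (c j : Mat r ℂ) *ᵥ v ∈ W := by
    intro j v hv
    have h1 := hW (FreeGroup.of (Sum.inr ⟨j + 1, by omega⟩)) v hv
    rwa [mkR_inr, zT_mid] at h1
  have hW3 : ∀ v ∈ W, ((a : Mat r ℂ) * (b : Mat r ℂ) * (a : Mat r ℂ)⁻¹) *ᵥ v ∈ W := by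
    intro v hv
    have h1 := hW (FreeGroup.of (Sum.inr (Fin.last (n + 2)))) v hv
    rwa [mkR_inr, zT_last, Units.val_mul, Units.val_mul, Matrix.coe_units_inv] at h1
  have ha' : IsUnit (a : Mat r ℂ).det := (Matrix.isUnit_iff_isUnit_det _).1 a.isUnit
  have hW4 : ∀ v ∈ W, (a : Mat r ℂ) *ᵥ v ∈ W := by
    refine inv_of_inv (E := E) ha' (List.ofFn fun j => (c j : Mat r ℂ)) ?_ ?_ hω hP hbP hno hW1
      ?_ hW3
    · have h1 := congrArg (fun u : (Mat r ℂ)ˣ => (u : Mat r ℂ)) hrel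
      simp only [Units.val_mul, Matrix.coe_units_inv] at h1
      refine Eq.trans ?_ h1
      congr 1
      rw [← Units.coeHom_apply, map_list_prod, List.map_ofFn]
      rfl
    · intro M hM
      obtain ⟨j, rfl⟩ := (List.mem_ofFn' _ _).1 hM
      exact hE j
    · intro M hM
      obtain ⟨j, rfl⟩ := (List.mem_ofFn' _ _).1 hM
      exact hW2 j
  have hall : ∀ M : Mat r ℂ, ∀ v ∈ W, M *ᵥ v ∈ W := by
    intro M
    have hM : M ∈ Algebra.adjoin ℂ (Set.range fun k => (z (FreeGroup.of k) : Mat r ℂ)) := by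
      rw [adjoin_gen_eq_top z hz3]
      exact Algebra.mem_top
    induction hM using Algebra.adjoin_induction with
    | mem y hy =>
      obtain ⟨k, rfl⟩ := hy
      rcases k with ⟨k, _ | _⟩ | j
      · obtain rfl : k = 0 := Subsingleton.elim _ _
        simp only [ha]
        exact hW4
      · obtain rfl : k = 0 := Subsingleton.elim _ _
        simp only [hb]
        exact hW1
      · simp only [hc]
        exact hW2 j
    | algebraMap c =>
      intro v hv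
      rw [Algebra.algebraMap_eq_smul_one, Matrix.smul_mulVec, Matrix.one_mulVec]
      exact W.smul_mem _ hv
    | add x y _ _ hx hy =>
      intro v hv
      rw [Matrix.add_mulVec]
      exact W.add_mem (hx v hv) (hy v hv)
    | mul x y _ _ hx hy =>
      intro v hv
      rw [← Matrix.mulVec_mulVec]
      exact hx _ (hy v hv)
  by_cases h0 : W = ⊥
  · exact Or.inl h0
  · right
    obtain ⟨v, hv, hv0⟩ := Submodule.exists_mem_ne_zero_of_ne_bot h0
    obtain ⟨i, hi⟩ : ∃ i, v i ≠ 0 := by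
      by_contra h
      push Not at h
      exact hv0 (funext h)
    rw [eq_top_iff]
    intro u _
    have h1 := hall (Matrix.vecMulVec u (Pi.single i (v i)⁻¹)) v hv
    have h2 : Matrix.vecMulVec u (Pi.single i (v i)⁻¹) *ᵥ v = u := by
      ext k
      rw [Matrix.mulVec, dotProduct, Finset.sum_eq_single i]
      · rw [Matrix.vecMulVec_apply, Pi.single_eq_same, mul_assoc, inv_mul_cancel₀ hi, mul_one]
      · intro j _ hj
        rw [Matrix.vecMulVec_apply, Pi.single_eq_of_ne hj, mul_zero, zero_mul]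
      · intro h
        exact absurd (Finset.mem_univ _) h
    rwa [h2] at h1

/-- Density over the fibre. -/
theorem fibre_density (hG : G02Irr) {m : ℕ} (hr : 0 < r) {R₁ R₂ R₃ : Type} [CommRing R₁]
    [CommRing R₂] [CommRing R₃] {φ₁ : R₁ →+* ℂ} {φ₂ : R₂ →+* ℂ} {φ₃ : R₃ →+* ℂ}
    (ι₁ : R₁ →+* R₂) (h₁ : ∀ a, φ₂ (ι₁ a) = φ₁ a) (ι₂ : R₂ →+* R₃) (h₂ : ∀ a, φ₃ (ι₂ a) = φ₂ a)
    (hφ₂ : Function.Injective φ₂) (hprin : Prin ι₁)
    (hroot : ∀ u : R₂ˣ, ∃ c : R₃ˣ, ι₂ (u : R₂) = (c : R₃) ^ r)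
    {E E' : Subgroup ℂˣ} (hEE : E ≤ E') (hc : CoefOK φ₁ E' r)
    (hUP : ∀ (u : R₁ˣ) (D : R₁), D ≠ 0 → ∃ M : ℕ, 0 < M ∧ D ∣ (u : R₁) ^ M - 1)
    (ω : Fin r → R₁) (hωE : ∀ i, ∃ e ∈ E', (e : ℂ) = φ₁ (ω i))
    (hωd : ∀ i j, i ≠ j → IsUnit (ω i - ω j))
    (hno : ∀ (I J : Finset (Fin r)),
      (∃ ε ∈ E, ∏ i ∈ I, φ₁ (ω i) = (ε : ℂ) * ∏ j ∈ J, φ₁ (ω j)) → I = J)
    (Cl : Fin (m + 1) → (Mat r ℂ)ˣ) (hE : ∀ j, EigIn E (Cl j : Mat r ℂ))
    (z : FU 1 (m + 1) →* (Mat r ℂ)ˣ) (hz1 : z (relatorU 1 (m + 1)) = 1)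
    (hz2 : ∀ j, IsConj (Cl j) (z (FreeGroup.of (Sum.inr j))))
    (hz3 : Algebra.adjoin ℂ (Set.range fun w => (z w : Mat r ℂ)) = ⊤)
    (hz4 : (z (FreeGroup.of (Sum.inl (0, true))) : Mat r ℂ).charpoly =
      ∏ i, (X - C (φ₁ (ω i))))
    (f : MvPolynomial (GenU 1 (m + 1) × Fin r × Fin r) ℂ) (hf : ∀ y ∈ DTor φ₃ Cl, evalG y f = 0) :
    evalG z f = 0 := by
  obtain ⟨ω', hω'⟩ : ∃ ω' : Fin r → ℂ, ω' = fun i => φ₁ (ω i) := ⟨_, rfl⟩
  have hωi : ∀ i, φ₁ (ω i) = ω' i := fun i => by rw [hω']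
  have hinj : Function.Injective ω' := by
    intro i j hij
    by_contra hne
    rw [hω'] at hij
    have : Nontrivial R₁ := ⟨1, 0, fun h => by
      have h3 := congrArg φ₁ h
      rw [map_one, map_zero] at h3
      exact one_ne_zero h3⟩
    have h3 := hωd i j hne
    rw [sub_eq_zero.2 (hc.inj hij)] at h3
    exact not_isUnit_zero h3
  obtain ⟨a, ha⟩ : ∃ a, z (FreeGroup.of (Sum.inl (0, false))) = a := ⟨_, rfl⟩
  obtain ⟨b, hb⟩ : ∃ b, z (FreeGroup.of (Sum.inl (0, true))) = b := ⟨_, rfl⟩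
  obtain ⟨c, hcc⟩ : ∃ c : Fin (m + 1) → (Mat r ℂ)ˣ, ∀ j, z (FreeGroup.of (Sum.inr j)) = c j :=
    ⟨_, fun _ => rfl⟩
  have hrel : (List.ofFn c).prod * (a * b * a⁻¹) = b := by
    rw [relU1_units, ha, hb] at hz1
    simp only [hcc] at hz1
    rw [← mul_assoc, mul_inv_eq_one] at hz1
    exact hz1
  rw [hb] at hz4
  have hz4' : (b : Mat r ℂ).charpoly = ∏ i, (X - C (ω' i)) := by
    rw [hz4]
    simp only [hωi]
  obtain ⟨P, hP, hbP⟩ := exists_diag_complex hinj hz4'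
  have hEc : ∀ j, EigIn E (c j : Mat r ℂ) := by
    intro j w hw
    rw [charpoly_of_isConj (hcc j ▸ hz2 j)] at hw
    exact hE j w hw
  -- the genus zero representation
  have hadj := adjoin_zT hr hinj (E := E) (fun I J h => hno I J (by simpa only [hωi] using h)) z
    hz3 a b c ha hb hcc hrel hEc hz4'
  obtain ⟨x, hx⟩ : ∃ x, x = mkR (zT a b c) := ⟨_, rfl⟩
  rw [← hx] at hadj
  have hx0 : x (FreeGroup.of (Sum.inr 0)) = b⁻¹ := by rw [hx, mkR_inr, zT_zero]
  have hxl : x (FreeGroup.of (Sum.inr (Fin.last (m + 2)))) = a * b * a⁻¹ := by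
    rw [hx, mkR_inr, zT_last]
  have hxm : ∀ j : Fin (m + 1), x (FreeGroup.of (Sum.inr ⟨j + 1, by omega⟩)) = c j := fun j => by
    rw [hx, mkR_inr, zT_mid]
  have hxrel : x (relatorU 0 (m + 3)) = 1 := by
    rw [relU0_units, prod_ofFn3, hx0, hxl]
    simp only [hxm]
    rw [mul_assoc, hrel, inv_mul_cancel]
  obtain ⟨C', hC'⟩ : ∃ C' : Fin (m + 3) → (Mat r ℂ)ˣ, C' = zT 1 b Cl := ⟨_, rfl⟩
  have hC0 : C' 0 = b⁻¹ := by rw [hC', zT_zero]
  have hCl : C' (Fin.last (m + 2)) = b := by rw [hC', zT_last, one_mul, inv_one, mul_one]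
  have hCm : ∀ j : Fin (m + 1), C' ⟨j + 1, by omega⟩ = Cl j := fun j => by rw [hC', zT_mid]
  have hEb : EigIn E' (b : Mat r ℂ) := eigIn_of_charpoly hz4 hωE
  obtain ⟨δ, hδ⟩ : ∃ δ : ℂ, δ = (b : Mat r ℂ).det := ⟨_, rfl⟩
  have hδ0 : δ ≠ 0 := by
    rw [hδ]
    exact ((Matrix.isUnit_iff_isUnit_det _).1 b.isUnit).ne_zero
  obtain ⟨F, hF⟩ := exists_fib_poly2 (m := m) (fun i => Lagrange.basis Finset.univ ω' i) δ
    (a : Mat r ℂ) f
  -- the inverse of the first matrix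
  have hadjug : ∀ u : (Mat r ℂ)ˣ, IsConj b⁻¹ u →
      δ • (u : Mat r ℂ).adjugate = ((u⁻¹ : (Mat r ℂ)ˣ) : Mat r ℂ) := by
    intro u hu
    have h3 : (u : Mat r ℂ).det = δ⁻¹ := by
      obtain ⟨g, rfl⟩ := isConj_iff.1 hu
      have hg : IsUnit (g : Mat r ℂ).det := (Matrix.isUnit_iff_isUnit_det _).1 g.isUnit
      have hg' : (g : Mat r ℂ).det ≠ 0 := hg.ne_zero
      rw [Units.val_mul, Units.val_mul, Matrix.coe_units_inv, Matrix.coe_units_inv,
        Matrix.det_mul, Matrix.det_mul, Matrix.det_nonsing_inv, Matrix.det_nonsing_inv, hδ,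
        Ring.inverse_eq_inv']
      field_simp
    rw [Matrix.coe_units_inv, Matrix.inv_def, h3, Ring.inverse_eq_inv', inv_inv]
  have hev : evalG x F = 0 := by
    refine hG (m := m) hr φ₁ E' hc hUP C' ?_ ?_ ?_ x ⟨?_, ?_, ss_of_adjoin x hadj⟩
      (fun M hM => scalar_of_adjoin x hadj M hM) F ?_
    · refine fin_cases3 ?_ (fun j => ?_) ?_
      · rw [hC0]
        exact eigIn_inv hEb
      · rw [hCm]
        exact (hE j).mono hEE
      · rw [hCl]
        exact hEb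
    · rw [hC0]
      have hωne : ∀ i, ω' i ≠ 0 := by
        intro i h0
        obtain ⟨e, _, he⟩ := hωE i
        rw [hωi, h0] at he
        exact e.ne_zero he
      refine hasCyc_of_diag (P := P) (ω := fun i => (ω' i)⁻¹) (inv_injective.comp hinj) hP ?_
      have h3 : diagonal ω' * diagonal (fun i => (ω' i)⁻¹) = 1 := by
        rw [Matrix.diagonal_mul_diagonal, ← Matrix.diagonal_one]
        congr 1
        funext i
        exact mul_inv_cancel₀ (hωne i)
      calc ((b⁻¹ : (Mat r ℂ)ˣ) : Mat r ℂ) * P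
          = ((b⁻¹ : (Mat r ℂ)ˣ) : Mat r ℂ) * (P * diagonal ω') *
            diagonal (fun i => (ω' i)⁻¹) := by
              rw [mul_assoc, mul_assoc P, h3, mul_one]
        _ = (((b⁻¹ : (Mat r ℂ)ˣ) : Mat r ℂ) * (b : Mat r ℂ)) * P *
            diagonal (fun i => (ω' i)⁻¹) := by
              rw [← hbP]; simp only [mul_assoc]
        _ = _ := by rw [Units.inv_mul, one_mul]
    · rw [hCl]
      exact hasCyc_of_diag hinj hP hbP
    · rintro w rfl
      exact hxrel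
    · refine fin_cases3 ?_ (fun j => ?_) ?_
      · rw [hC0, hx0]
      · rw [hCm, hxm, ← hcc]
        exact hz2 j
      · rw [hCl, hxl]
        exact isConj_iff.2 ⟨a, rfl⟩
    · rintro y ⟨⟨⟨hy1, hy2, _⟩, hy3⟩, _⟩
      have hy0 := hy2 0
      have hyl := hy2 (Fin.last (m + 2))
      rw [hC0] at hy0
      rw [hCl] at hyl
      obtain ⟨b', hb'⟩ : ∃ b', b' = (y (FreeGroup.of (Sum.inr 0)))⁻¹ := ⟨_, rfl⟩
      have hbb : IsConj b b' := by
        obtain ⟨g, hg⟩ := isConj_iff.1 hy0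
        rw [hb', ← hg]
        refine isConj_iff.2 ⟨g, ?_⟩
        group
      rw [evalG_eq_evMat, hF, hadjug _ hy0, ← hb']
      have h3 := fibre_vanish hr ι₁ h₁ ι₂ h₂ hφ₂ hprin hroot hc ω hωE hωd Cl f hf b'
        (y (FreeGroup.of (Sum.inr (Fin.last (m + 2)))))
        (fun j : Fin (m + 1) => y (FreeGroup.of (Sum.inr ⟨j + 1, by omega⟩))) ?_ (fun j => ?_)
        ?_ (hy3 _) (fun j => hy3 _) ?_ ?_ (a : Mat r ℂ)
      · rw [← h3, hω']
        rfl
      · have h4 := hy1 _ rfl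
        rw [relU0_units, prod_ofFn3] at h4
        rw [hb', inv_inv]
        exact h4
      · have h4 := hy2 ⟨j + 1, by omega⟩
        rwa [hCm] at h4
      · rw [hb']
        exact (GR r φ₁).inv_mem (hy3 _)
      · rw [charpoly_of_isConj hbb, hz4]
      · rw [charpoly_of_isConj hyl, hz4]
  rw [evalG_eq_evMat, hF, hx0, hxl] at hev
  rw [hadjug b⁻¹ (IsConj.refl _), inv_inv] at hev
  have h5 := sum_proj_mul hinj hr hP hbP (a : Mat r ℂ)
    ((Matrix.isUnit_iff_isUnit_det _).1 a.isUnit)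
  have h6 : ∑ i, Polynomial.aeval ((a * b * a⁻¹ : (Mat r ℂ)ˣ) : Mat r ℂ)
      (Lagrange.basis Finset.univ ω' i) * (a : Mat r ℂ) *
      Polynomial.aeval (b : Mat r ℂ) (Lagrange.basis Finset.univ ω' i) = (a : Mat r ℂ) := by
    rw [Units.val_mul, Units.val_mul, Matrix.coe_units_inv]
    exact h5
  rw [h6] at hev
  rw [evalG_eq_evMat, ← hev]
  congr 1
  funext k
  rcases k with ⟨k, _ | _⟩ | j
  · obtain rfl : k = 0 := Subsingleton.elim _ _
    rw [ha]
    rfl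
  · obtain rfl : k = 0 := Subsingleton.elim _ _
    rw [hb]
    rfl
  · rw [hcc]
    change _ = (x (FreeGroup.of (Sum.inr ⟨j + 1, by omega⟩)) : Mat r ℂ)
    rw [hxm]

end Vale.Agent.P002R
end

section

/-!
# P002, genus 1, arbitrary classes: reduction to prescribed eigenvalues of the second handle matrix
-/

namespace Vale.Agent.P002R

open Matrix

variable {n r : ℕ}

/-- The characteristic polynomial of the inverse. -/
theorem charpoly_inv_prod (M M' : Mat r ℂ) (hM : M' * M = 1) (c : Fin r → ℂ)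
    (hc : ∀ i, c i ≠ 0)
    (h : M.charpoly = ∏ i, (Polynomial.X - Polynomial.C (c i))) :
    M'.charpoly = ∏ i, (Polynomial.X - Polynomial.C (c i)⁻¹) := by
  have hdet : M.det = ∏ i, c i := by
    have h1 : M.charpoly.eval 0 = ∏ i, (0 - c i) := by
      rw [h, Polynomial.eval_prod]
      refine Finset.prod_congr rfl fun i _ => ?_
      rw [Polynomial.eval_sub, Polynomial.eval_X, Polynomial.eval_C]
    rw [Matrix.eval_charpoly] at h1
    have h2 : (scalar (Fin r) (0 : ℂ) - M).det = (-1) ^ r * M.det := by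
      rw [map_zero, zero_sub, Matrix.det_neg, Fintype.card_fin]
    rw [h2] at h1
    have h3 : ∏ i, (0 - c i) = (-1) ^ r * ∏ i, c i := by
      have : ∀ i, 0 - c i = (-1) * c i := fun i => by ring
      simp only [this]
      rw [Finset.prod_mul_distrib, Finset.prod_const, Finset.card_univ, Fintype.card_fin]
    rw [h3] at h1
    exact mul_left_cancel₀ (pow_ne_zero _ (by norm_num)) h1
  have hdet0 : M.det ≠ 0 := by
    rw [hdet]
    exact Finset.prod_ne_zero_iff.2 fun i _ => hc i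
  apply Polynomial.eq_of_infinite_eval_eq
  refine Set.Infinite.mono (s := ({0} : Set ℂ)ᶜ) ?_ (Set.finite_singleton 0).infinite_compl
  intro x hx
  have hx0 : x ≠ 0 := hx
  show M'.charpoly.eval x = (∏ i, (Polynomial.X - Polynomial.C (c i)⁻¹)).eval x
  rw [Matrix.eval_charpoly, Polynomial.eval_prod]
  apply mul_right_cancel₀ hdet0
  rw [← Matrix.det_mul]
  have h1 : (scalar (Fin r) x - M') * M = (-x) • (scalar (Fin r) x⁻¹ - M) := by
    rw [Matrix.sub_mul, hM, Matrix.scalar_apply, Matrix.scalar_apply,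
      ← Matrix.smul_one_eq_diagonal, ← Matrix.smul_one_eq_diagonal, smul_sub, smul_smul,
      Matrix.smul_mul, Matrix.one_mul, neg_mul, mul_inv_cancel₀ hx0, neg_smul, neg_smul, one_smul]
    abel
  rw [h1, Matrix.det_smul, ← Matrix.eval_charpoly, h, Polynomial.eval_prod, Fintype.card_fin,
    hdet, ← Finset.prod_mul_distrib]
  have h2 : (-x) ^ r = ∏ _i : Fin r, (-x) := by
    rw [Finset.prod_const, Finset.card_univ, Fintype.card_fin]
  rw [h2, ← Finset.prod_mul_distrib]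
  refine Finset.prod_congr rfl fun i _ => ?_
  rw [Polynomial.eval_sub, Polynomial.eval_X, Polynomial.eval_C, Polynomial.eval_sub,
    Polynomial.eval_X, Polynomial.eval_C]
  have := hc i
  field_simp
  ring

/-- REDUCTION: if the representations (irreducible, with the prescribed classes, not all scalar)
whose second handle matrix has the eigenvalues `ω` are in the closure of the twist stable set `D`,
then all irreducible representations are. -/
theorem irr_of_fibre (hr : 0 < r) (C : Fin n → (Mat r ℂ)ˣ) (j₀ : Fin n)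
    (hns : ∀ μ : ℂ, (C j₀ : Mat r ℂ) ≠ μ • (1 : Mat r ℂ))
    {D : Set (FU 1 n →* (Mat r ℂ)ˣ)}
    (hD : ∀ y ∈ D, flow y kB (y (FreeGroup.of kA)) ∈ D)
    (ω : Fin r → ℂ) (hω : ∀ i, ω i ≠ 0)
    (hfib : ∀ z : FU 1 n →* (Mat r ℂ)ˣ, z (relatorU 1 n) = 1 →
      (∀ j, IsConj (C j) (z (FreeGroup.of (Sum.inr j)))) →
      Algebra.adjoin ℂ (Set.range fun w => (z w : Mat r ℂ)) = ⊤ →
      (z (FreeGroup.of kB) : Mat r ℂ).charpoly =
        ∏ i, (Polynomial.X - Polynomial.C (ω i)) →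
      ∀ f : MvPolynomial (GenU 1 n × Fin r × Fin r) ℂ, (∀ y ∈ D, evalG y f = 0) →
        evalG z f = 0)
    (x : FU 1 n →* (Mat r ℂ)ˣ) (hrel : x (relatorU 1 n) = 1)
    (hcl : ∀ j, IsConj (C j) (x (FreeGroup.of (Sum.inr j))))
    (hadj : Algebra.adjoin ℂ (Set.range fun w => (x w : Mat r ℂ)) = ⊤)
    (f : MvPolynomial (GenU 1 n × Fin r × Fin r) ℂ) (hf : ∀ y ∈ D, evalG y f = 0) :
    evalG x f = 0 := by
  by_contra hxf
  obtain ⟨z, A, ν, hzf, hzr, hzC, -, hG⟩ := exists_genRep hr C j₀ hns x hrel hcl hadj f hxf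
  have hAd : IsUnit A.det := (Matrix.isUnit_iff_isUnit_det _).1 hG.unit
  have hAA : A * A⁻¹ = 1 := Matrix.mul_nonsing_inv _ hAd
  have hAA' : A⁻¹ * A = 1 := Matrix.nonsing_inv_mul _ hAd
  obtain ⟨b, hb⟩ : ∃ b : Mat r ℂ, b = (z (FreeGroup.of kB) : Mat r ℂ) := ⟨_, rfl⟩
  have hbu : IsUnit b := by rw [hb]; exact Units.isUnit _
  have hbd : IsUnit b.det := (Matrix.isUnit_iff_isUnit_det _).1 hbu
  obtain ⟨N, hN⟩ : ∃ N : Mat r ℂ, N = A⁻¹ * b⁻¹ * A := ⟨_, rfl⟩
  have hmin : ∀ S : Finset (Fin r),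
      (N.submatrix (Subtype.val : S → Fin r) Subtype.val).det ≠ 0 := by
    intro S
    have h1 := hG.minor [] (List.finRange n) rfl S.card (fun k => (S.equivFin.symm k : Fin r))
      (fun k => (S.equivFin.symm k : Fin r))
      (Subtype.val_injective.comp S.equivFin.symm.injective)
      (Subtype.val_injective.comp S.equivFin.symm.injective)
    rw [List.map_nil, List.prod_nil, Matrix.mul_one, Matrix.mul_inv_rev] at h1
    have h2 : mt z (Sum.inr true) = b := by rw [hb]; rfl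
    rw [h2, ← hN] at h1
    have h3 : N.submatrix (fun k => (S.equivFin.symm k : Fin r))
        (fun k => (S.equivFin.symm k : Fin r)) =
        (N.submatrix (Subtype.val : S → Fin r) Subtype.val).submatrix S.equivFin.symm
          S.equivFin.symm := rfl
    rw [h3, Matrix.det_submatrix_equiv_self] at h1
    exact h1
  have hdeg : (∏ i : Fin r, (Polynomial.X - Polynomial.C (ω i)⁻¹)).natDegree = r := by
    rw [Polynomial.natDegree_prod_of_monic _ _ fun i _ => Polynomial.monic_X_sub_C _]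
    simp
  obtain ⟨w, hw0, hw⟩ := P002G.InvEig.inv_eig N hmin
    (∏ i : Fin r, (Polynomial.X - Polynomial.C (ω i)⁻¹))
    (Polynomial.monic_prod_of_monic _ _ fun i _ => Polynomial.monic_X_sub_C _)
    hdeg (by
      rw [Polynomial.coeff_zero_eq_eval_zero, Polynomial.eval_prod]
      refine Finset.prod_ne_zero_iff.2 fun i _ => ?_
      rw [Polynomial.eval_sub, Polynomial.eval_X, Polynomial.eval_C, zero_sub]
      exact neg_ne_zero.2 (inv_ne_zero (hω i)))
  -- the flow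
  have hww : diagonal (fun i => (w i)⁻¹) * diagonal w = (1 : Mat r ℂ) := by
    rw [Matrix.diagonal_mul_diagonal, ← Matrix.diagonal_one]
    congr 1
    funext i
    exact inv_mul_cancel₀ (hw0 i)
  have hww' : diagonal w * diagonal (fun i => (w i)⁻¹) = (1 : Mat r ℂ) := by
    rw [Matrix.diagonal_mul_diagonal, ← Matrix.diagonal_one]
    congr 1
    funext i
    exact mul_inv_cancel₀ (hw0 i)
  obtain ⟨P, hP1, hP2⟩ : ∃ P : (Mat r ℂ)ˣ, (P : Mat r ℂ) = A * diagonal (fun i => (w i)⁻¹) * A⁻¹ ∧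
      ((P⁻¹ : (Mat r ℂ)ˣ) : Mat r ℂ) = A * diagonal w * A⁻¹ := by
    refine ⟨⟨A * diagonal (fun i => (w i)⁻¹) * A⁻¹, A * diagonal w * A⁻¹, ?_, ?_⟩, rfl, rfl⟩
    · calc _ = A * diagonal (fun i => (w i)⁻¹) * (A⁻¹ * A) * diagonal w * A⁻¹ := by
            simp only [Matrix.mul_assoc]
        _ = A * (diagonal (fun i => (w i)⁻¹) * diagonal w) * A⁻¹ := by
            rw [hAA', Matrix.mul_one]
            simp only [Matrix.mul_assoc]
        _ = 1 := by rw [hww, Matrix.mul_one, hAA]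
    · calc _ = A * diagonal w * (A⁻¹ * A) * diagonal (fun i => (w i)⁻¹) * A⁻¹ := by
            simp only [Matrix.mul_assoc]
        _ = A * (diagonal w * diagonal (fun i => (w i)⁻¹)) * A⁻¹ := by
            rw [hAA', Matrix.mul_one]
            simp only [Matrix.mul_assoc]
        _ = 1 := by rw [hww', Matrix.mul_one, hAA]
  have hPA : (P : Mat r ℂ) * A = A * diagonal (fun i => (w i)⁻¹) := by
    rw [hP1, Matrix.mul_assoc, hAA', Matrix.mul_one]
  have hPA' : ((P⁻¹ : (Mat r ℂ)ˣ) : Mat r ℂ) * A = A * diagonal w := by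
    rw [hP2, Matrix.mul_assoc, hAA', Matrix.mul_one]
  have hcomm : Commute (z (FreeGroup.of kA)) P := by
    have h1 : (z (FreeGroup.of kA) : Mat r ℂ) * A = A * diagonal ν := hG.eig
    have h2 : (z (FreeGroup.of kA) : Mat r ℂ) = A * diagonal ν * A⁻¹ := by
      rw [← h1, Matrix.mul_assoc, hAA, Matrix.mul_one]
    apply Units.ext
    rw [Units.val_mul, Units.val_mul, h2, hP1]
    calc _ = A * diagonal ν * (A⁻¹ * A) * diagonal (fun i => (w i)⁻¹) * A⁻¹ := by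
            simp only [Matrix.mul_assoc]
      _ = A * (diagonal ν * diagonal (fun i => (w i)⁻¹)) * A⁻¹ := by
            rw [hAA', Matrix.mul_one]
            simp only [Matrix.mul_assoc]
      _ = A * (diagonal (fun i => (w i)⁻¹) * diagonal ν) * A⁻¹ := by
            rw [Matrix.diagonal_mul_diagonal, Matrix.diagonal_mul_diagonal]
            congr 3
            funext i
            ring
      _ = A * diagonal (fun i => (w i)⁻¹) * (A⁻¹ * A) * diagonal ν * A⁻¹ := by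
            rw [hAA', Matrix.mul_one]
            simp only [Matrix.mul_assoc]
      _ = _ := by simp only [Matrix.mul_assoc]
  obtain ⟨z', hz'⟩ : ∃ z', z' = flow z kB P := ⟨_, rfl⟩
  have hz'A : z' (FreeGroup.of kA) = z (FreeGroup.of kA) := by rw [hz', flow_kB_kA]
  have hz'r : z' (relatorU 1 n) = 1 := by rw [hz', flow_kB_relator _ _ hcomm, hzr]
  have hz'c : ∀ j, z' (FreeGroup.of (Sum.inr j)) = z (FreeGroup.of (Sum.inr j)) := fun j => by
    rw [hz', flow_kB_inr]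
  have hz'top : Algebra.adjoin ℂ (Set.range fun w => (z' w : Mat r ℂ)) = ⊤ := by
    apply adjoin_top_of_simple hr
    intro W hW
    refine hG.irr W (fun j v hv => ?_) (fun v hv => ?_)
    · have h1 := hW (FreeGroup.of (Sum.inr j)) v hv
      rw [hz'c] at h1
      exact h1
    · have h1 := hW (FreeGroup.of kA) v hv
      rw [hz'A] at h1
      exact h1
  have hz'b : (z' (FreeGroup.of kB) : Mat r ℂ) = b * (P : Mat r ℂ) := by
    rw [hz', flow_kB_kB, Units.val_mul, hb]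
  have hz'ch : (z' (FreeGroup.of kB) : Mat r ℂ).charpoly =
      ∏ i, (Polynomial.X - Polynomial.C (ω i)) := by
    have h1 : (((P⁻¹ : (Mat r ℂ)ˣ) : Mat r ℂ) * b⁻¹).charpoly =
        ∏ i, (Polynomial.X - Polynomial.C (ω i)⁻¹) := by
      rw [← hw, hP2, hN]
      calc (A * diagonal w * A⁻¹ * b⁻¹).charpoly = (A * (diagonal w * A⁻¹ * b⁻¹)).charpoly := by
            simp only [Matrix.mul_assoc]
        _ = ((diagonal w * A⁻¹ * b⁻¹) * A).charpoly := Matrix.charpoly_mul_comm _ _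
        _ = (diagonal w * (A⁻¹ * b⁻¹ * A)).charpoly := by simp only [Matrix.mul_assoc]
        _ = _ := Matrix.charpoly_mul_comm _ _
    have h2 := charpoly_inv_prod (((P⁻¹ : (Mat r ℂ)ˣ) : Mat r ℂ) * b⁻¹)
      (z' (FreeGroup.of kB) : Mat r ℂ) (by
        rw [hz'b]
        calc b * (P : Mat r ℂ) * (((P⁻¹ : (Mat r ℂ)ˣ) : Mat r ℂ) * b⁻¹) =
            b * ((P : Mat r ℂ) * ((P⁻¹ : (Mat r ℂ)ˣ) : Mat r ℂ)) * b⁻¹ := by
              simp only [Matrix.mul_assoc]
          _ = 1 := by rw [Units.mul_inv, Matrix.mul_one, Matrix.mul_nonsing_inv _ hbd])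
      (fun i => (ω i)⁻¹) (fun i => inv_ne_zero (hω i)) h1
    simpa only [inv_inv] using h2
  have hclo := hfib z' hz'r (fun j => by rw [hz'c]; exact hzC j) hz'top hz'ch
  have hback := twist_flow hD hclo hG.unit (by
    rw [mt_inr, hz'A]
    exact hG.eig) hG.indep P⁻¹ w hPA' f hf
  apply hzf
  have h1 : flow z' kB P⁻¹ = z := by
    ext1 l
    rw [flow_of]
    split_ifs with hl
    · rw [hz', flow_kB_kB, mul_inv_cancel_right, hl]
    · rw [hz', flow_of, if_neg hl]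
  rwa [h1] at hback

end Vale.Agent.P002R
end

section

/-!
# Genus one: all classes
-/

namespace Vale.Agent.P002R

open Matrix Polynomial

/-- Conditions on the coefficient ring in genus one. -/
def TorOK {R₃ : Type} [CommRing R₃] (φ₃ : R₃ →+* ℂ) (E : Subgroup ℂˣ) (r : ℕ) : Prop :=
  ∃ (R₁ R₂ : Type) (_ : CommRing R₁) (_ : CommRing R₂) (φ₁ : R₁ →+* ℂ) (φ₂ : R₂ →+* ℂ)
    (ι₁ : R₁ →+* R₂) (ι₂ : R₂ →+* R₃) (E' : Subgroup ℂˣ) (ω : Fin r → R₁),
    (∀ a, φ₂ (ι₁ a) = φ₁ a) ∧ (∀ a, φ₃ (ι₂ a) = φ₂ a) ∧ Function.Injective φ₂ ∧ Prin ι₁ ∧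
    (∀ r' ≤ r, 0 < r' → ∀ u : R₂ˣ, ∃ c : R₃ˣ, ι₂ (u : R₂) = (c : R₃) ^ r') ∧
    E ≤ E' ∧ CoefOK φ₁ E' r ∧
    (∀ (u : R₁ˣ) (D : R₁), D ≠ 0 → ∃ M : ℕ, 0 < M ∧ D ∣ (u : R₁) ^ M - 1) ∧
    (∀ i, ∃ e ∈ E', (e : ℂ) = φ₁ (ω i)) ∧ (∀ i j, i ≠ j → IsUnit (ω i - ω j)) ∧
    ∀ (I J : Finset (Fin r)), (∃ ε ∈ E, ∏ i ∈ I, φ₁ (ω i) = (ε : ℂ) * ∏ j ∈ J, φ₁ (ω j)) → I = J

theorem TorOK.mono {R₃ : Type} [CommRing R₃] {φ₃ : R₃ →+* ℂ} {E : Subgroup ℂˣ} {r r' : ℕ}
    (h : TorOK φ₃ E r) (hr : r' ≤ r) : TorOK φ₃ E r' := by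
  obtain ⟨R₁, R₂, i₁, i₂, φ₁, φ₂, ι₁, ι₂, E', ω, h1, h2, h3, h4, h5, h6, h7, h8, h9, h10, h11⟩ := h
  refine ⟨R₁, R₂, i₁, i₂, φ₁, φ₂, ι₁, ι₂, E', fun i => ω (Fin.castLE hr i), h1, h2, h3, h4,
    fun s hs => h5 s (hs.trans hr), h6, h7.mono hr, h8, fun i => h9 _, fun i j hij => h10 _ _ ?_,
    fun I J h => ?_⟩
  · intro h
    exact hij (Fin.castLE_injective hr h)
  · have h12 := h11 (I.map (Fin.castLEEmb hr)) (J.map (Fin.castLEEmb hr)) (by
      simpa only [Finset.prod_map, Fin.castLEEmb_apply] using h)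
    exact Finset.map_injective _ h12

/-- The main theorem in genus one, all classes. -/
theorem g1_all (hG : G02Irr) {m r : ℕ} (hr : 0 < r) {R₃ : Type} [CommRing R₃] (φ₃ : R₃ →+* ℂ)
    (E : Subgroup ℂˣ) (hT : TorOK φ₃ E r) (hc₃ : CoefOK φ₃ E r) (Cl : Fin (m + 1) → (Mat r ℂ)ˣ)
    (hE : ∀ j, EigIn E (Cl j : Mat r ℂ)) (x : FU 1 (m + 1) →* (Mat r ℂ)ˣ)
    (hx : x ∈ YG ({relatorU 1 (m + 1)} : Set (FreeGroup ((Fin 1 × Bool) ⊕ Fin (m + 1)))) Cl)
    (hirr : ∀ M : Mat r ℂ, (∀ w, Commute M (x w : Mat r ℂ)) → ∃ c : ℂ, M = c • (1 : Mat r ℂ))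
    (f : MvPolynomial (((Fin 1 × Bool) ⊕ Fin (m + 1)) × Fin r × Fin r) ℂ)
    (hf : ∀ y ∈ DGT ({relatorU 1 (m + 1)} : Set (FreeGroup ((Fin 1 × Bool) ⊕ Fin (m + 1)))) φ₃ Cl,
      evalG y f = 0) : evalG x f = 0 := by
  by_cases hsc : ∀ j, ∃ μ : ℂ, (Cl j : Mat r ℂ) = μ • (1 : Mat r ℂ)
  · exact scalar_case hr φ₃ E hc₃ Cl hE hsc x hx hirr f hf
  push Not at hsc
  obtain ⟨j₀, hns⟩ := hsc
  obtain ⟨hx1, hx2, hx3⟩ := hx
  have hadj := adjoin_top_of_irr x hx3 hirr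
  obtain ⟨R₁, R₂, i₁, i₂, φ₁, φ₂, ι₁, ι₂, E', ω, h1, h2, h3, h4, h5, h6, h7, h8, h9, h10, h11⟩ := hT
  refine upgrade x hadj (DTor φ₃ Cl) (fun f' hf' => ?_) f fun y hy hadj' => ?_
  · refine irr_of_fibre hr Cl j₀ hns (D := DTor φ₃ Cl) (fun y hy => ?_) (fun i => φ₁ (ω i))
      (fun i => ?_) (fun z hz1 hz2 hz3 hz4 f'' hf'' => ?_) x (hx1 _ rfl) hx2 hadj f' hf'
    · exact twist_mem_general Cl (GR r φ₃) y hy.1 hy.2.1 hy.2.2
    · obtain ⟨e, _, he⟩ := h9 i
      rw [← he]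
      exact e.ne_zero
    · exact fibre_density hG hr ι₁ h1 ι₂ h2 h3 h4 (h5 r le_rfl hr) h6 h7 h8 ω h9 h10 h11 Cl hE z
        hz1 hz2 hz3 hz4 f'' hf''
  · refine hf y ⟨⟨⟨?_, hy.2.1, ss_of_adjoin y hadj'⟩, hy.2.2⟩, hadj'⟩
    rintro w rfl
    exact hy.1

/-- Punctured tori. -/
theorem g1_irrDenseAll (hG : G02Irr) {n r : ℕ} (hn : 0 < n) {R : Type} [CommRing R]
    (φ : R →+* ℂ) (E : Subgroup ℂˣ) (hT : TorOK φ E r) (hc : CoefOK φ E r)
    {Q : Fin n → ∀ r : ℕ, Mat r ℂ → Prop} (hE : ∀ j r M, Q j r M → EigIn E M) :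
    ∀ r' ≤ r, 0 < r' →
      IrrDenseQ Q ({relatorU 1 n} : Set (FreeGroup ((Fin 1 × Bool) ⊕ Fin n))) φ r' := by
  intro r' hr' hr'0
  obtain ⟨m, rfl⟩ : ∃ m, n = m + 1 := ⟨n - 1, by omega⟩
  intro C hC x hx hirr f hf
  exact g1_all hG hr'0 φ E (hT.mono hr') (hc.mono hr') C (fun j => hE _ _ _ (hC j)) x hx hirr f hf

/-- Two given punctures can be moved to two given places. -/
theorem exists_perm_two_g1 {n : ℕ} {T : Finset (Fin n)} (hT : 2 ≤ T.card) (a b : Fin n)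
    (hab : a ≠ b) : ∃ e : Equiv.Perm (Fin n), e a ∈ T ∧ e b ∈ T := by
  obtain ⟨x, hx, y, hy, hxy⟩ := Finset.one_lt_card.1 hT
  have hb' : (Equiv.swap x a) b ≠ x := by
    intro h
    apply hab
    have h1 : (Equiv.swap x a) a = x := Equiv.swap_apply_right x a
    exact (Equiv.swap x a).injective (h1.trans h.symm)
  refine ⟨Equiv.swap x a * 1 |>.trans (Equiv.swap ((Equiv.swap x a) b) y), ?_, ?_⟩
  · have h1 : ((Equiv.swap x a * 1).trans (Equiv.swap ((Equiv.swap x a) b) y)) a = x := by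
      rw [mul_one, Equiv.trans_apply, Equiv.swap_apply_right]
      exact Equiv.swap_apply_of_ne_of_ne hb'.symm hxy
    rw [h1]
    exact hx
  · have h1 : ((Equiv.swap x a * 1).trans (Equiv.swap ((Equiv.swap x a) b) y)) b = y := by
      rw [mul_one, Equiv.trans_apply, Equiv.swap_apply_left]
    rw [h1]
    exact hy

/-- Spheres with at least two regular classes. -/
theorem g02_irrDenseQ (hG : G02Irr) {n r : ℕ} (hn : 3 ≤ n) {R : Type} [CommRing R] (φ : R →+* ℂ)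
    (E : Subgroup ℂˣ) (hc : CoefOK φ E r)
    (hUP : ∀ (u : Rˣ) (D : R), D ≠ 0 → ∃ M : ℕ, 0 < M ∧ D ∣ (u : R) ^ M - 1)
    {T : Finset (Fin n)} (hT : 2 ≤ T.card) {Q : Fin n → ∀ r : ℕ, Mat r ℂ → Prop}
    (hE : ∀ j r M, Q j r M → EigIn E M) (hQ : ∀ j ∈ T, ∀ r M, Q j r M → HasCyc r M) :
    ∀ r' ≤ r, 0 < r' →
      IrrDenseQ Q ({relatorU 0 n} : Set (FreeGroup ((Fin 0 × Bool) ⊕ Fin n))) φ r' := by
  intro r' hr' hr'0
  obtain ⟨m, rfl⟩ : ∃ m, n = m + 3 := ⟨n - 3, by omega⟩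
  obtain ⟨e, ha, hl⟩ := exists_perm_two_g1 hT (0 : Fin (m + 3)) (Fin.last (m + 2))
    (by rw [Ne, Fin.ext_iff]; simp)
  refine irrDenseQ_reorder e fun C hC x hx hirr f hf => ?_
  exact hG hr'0 φ E (hc.mono hr') hUP C (fun j => hE _ _ _ (hC j)) (hQ _ ha _ _ (hC 0))
    (hQ _ hl _ _ (hC _)) x hx hirr f hf

end Vale.Agent.P002R
end

section

/-!
# The number fields for genus one
-/

namespace Vale.Agent.P002R

open NumberField

theorem CoefOK.group_mono {R : Type*} [CommRing R] {φ : R →+* ℂ} {E E' : Subgroup ℂˣ} {r : ℕ}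
    (hc : CoefOK φ E' r) (h : E ≤ E') (hneg : (-1 : ℂˣ) ∈ E) : CoefOK φ E r := by
  refine ⟨hc.inj, hneg, fun k hk hkr z hz => hc.root k hk hkr z (h hz), ?_⟩
  obtain ⟨u, hu⟩ := hc.unit
  exact ⟨u, fun k hk hmem => hu k hk (h hmem)⟩

/-- Integral elements of `ℂ` in the field are in the ring of integers. -/
theorem exists_O {L : IntermediateField ℚ ℂ} {z : ℂ} (hz : z ∈ L) (hint : IsIntegral ℤ z) :
    ∃ w : 𝓞 L, phiO (algebraMap L ℂ) w = z := by
  have hint' : IsIntegral ℤ (⟨z, hz⟩ : L) := by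
    rw [← isIntegral_algebraMap_iff (A := L) (B := ℂ) (algebraMap L ℂ).injective]
    exact hint
  obtain ⟨w, hw⟩ : ∃ w : 𝓞 L, w = ⟨⟨z, hz⟩, hint'⟩ := ⟨_, rfl⟩
  exact ⟨w, by rw [hw]; rfl⟩

theorem mem_of_phiO {L : IntermediateField ℚ ℂ} (w : 𝓞 L) : phiO (algebraMap L ℂ) w ∈ L :=
  ((w : L) : L).2

/-- The number field for genus one. -/
theorem exists_tor_field (S : Set ℂˣ) (hS : S.Finite)
    (hint : ∀ z ∈ S, IsIntegral ℤ (z : ℂ) ∧ IsIntegral ℤ ((z⁻¹ : ℂˣ) : ℂ)) (r : ℕ) :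
    ∃ L : IntermediateField ℚ ℂ, FiniteDimensional ℚ L ∧
      CoefOK (phiO (algebraMap L ℂ)) (Subgroup.closure (insert (-1) S)) r ∧
      TorOK (phiO (algebraMap L ℂ)) (Subgroup.closure (insert (-1) S)) r := by
  obtain ⟨E, hE⟩ : ∃ E, E = Subgroup.closure (insert (-1) S) := ⟨_, rfl⟩
  rw [← hE]
  -- the field of the eigenvalues
  obtain ⟨K, hK, hcK⟩ := exists_field_E S hS hint (r + 1)
  rw [← hE] at hcK
  have hEK : ∀ e ∈ E, (e : ℂ) ∈ K := by
    intro e he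
    obtain ⟨w, hw⟩ := hcK.root 1 one_pos (by omega) e (by rwa [pow_one])
    rw [← hw]
    exact mem_of_phiO w
  -- the exceptional units
  obtain ⟨ω, hω1, hω2, hω3⟩ := exists_omega r K
  obtain ⟨S', hS'⟩ : ∃ S', S' = S ∪ Set.range ω := ⟨_, rfl⟩
  have hS'f : S'.Finite := hS' ▸ hS.union (Set.finite_range ω)
  have hint' : ∀ z ∈ S', IsIntegral ℤ (z : ℂ) ∧ IsIntegral ℤ ((z⁻¹ : ℂˣ) : ℂ) := by
    intro z hz
    rw [hS'] at hz
    rcases hz with hz | ⟨i, rfl⟩
    · exact hint z hz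
    · rw [Units.val_inv_eq_inv_val]
      exact hω1 i
  obtain ⟨L₁, hL₁, hc₁⟩ := exists_field_E S' hS'f hint' r
  obtain ⟨E', hE'⟩ : ∃ E', E' = Subgroup.closure (insert (-1) S') := ⟨_, rfl⟩
  rw [← hE'] at hc₁
  have hEE : E ≤ E' := by
    rw [hE, hE', hS']
    exact Subgroup.closure_mono (Set.insert_subset_insert Set.subset_union_left)
  have hneg : (-1 : ℂˣ) ∈ E := by
    rw [hE]
    exact Subgroup.subset_closure (Set.mem_insert _ _)
  have hωE : ∀ i, ω i ∈ E' := by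
    intro i
    rw [hE', hS']
    exact Subgroup.subset_closure (Set.mem_insert_of_mem _ (Or.inr ⟨i, rfl⟩))
  obtain ⟨L₂, hL₂, h12, hprin⟩ := exists_prin_field L₁ hL₁
  obtain ⟨L₃, hL₃, h23, hroot⟩ := exists_root_field L₂ hL₂ r.factorial (Nat.factorial_pos r)
  have hc₂ : CoefOK (phiO (algebraMap L₂ ℂ)) E' r :=
    hc₁.ring_mono (iotaO h12) (phiO_iotaO h12) (phiO_injective _)
  have hc₃ : CoefOK (phiO (algebraMap L₃ ℂ)) E' r :=
    hc₂.ring_mono (iotaO h23) (phiO_iotaO h23) (phiO_injective _)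
  refine ⟨L₃, hL₃, hc₃.group_mono hEE hneg, ?_⟩
  have hω₁ : ∀ i, ∃ w : 𝓞 L₁, phiO (algebraMap L₁ ℂ) w = (ω i : ℂ) := by
    intro i
    obtain ⟨w, hw⟩ := hc₁.root 1 one_pos (Nat.succ_le_of_lt (lt_of_le_of_lt (Nat.zero_le _) i.2))
      (ω i) (by rw [pow_one]; exact hωE i)
    exact ⟨w, hw⟩
  choose w hw using hω₁
  refine ⟨𝓞 L₁, 𝓞 L₂, inferInstance, inferInstance, phiO (algebraMap L₁ ℂ),
    phiO (algebraMap L₂ ℂ), iotaO h12, iotaO h23, E', w, phiO_iotaO h12, phiO_iotaO h23,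
    phiO_injective _, hprin, fun r' hr' hr'0 u => ?_, hEE, hc₁, Product.hUP_field L₁ hL₁,
    fun i => ⟨ω i, hωE i, (hw i).symm⟩, fun i j hij => ?_, fun I J h => ?_⟩
  · refine exists_unit_root h23 r (fun u => ?_) r' hr' hr'0 u
    obtain ⟨z, hz⟩ := IsAlgClosed.exists_pow_nat_eq (phiO (algebraMap L₂ ℂ) (u : 𝓞 L₂))
      (Nat.factorial_pos r)
    exact ⟨z, hroot u z hz, hz⟩
  · obtain ⟨hne, hinv⟩ := hω2 i j hij
    have h1 : (ω i : ℂ) - ω j ∈ L₁ := by
      rw [← hw, ← hw]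
      exact L₁.sub_mem (mem_of_phiO _) (mem_of_phiO _)
    obtain ⟨v, hv⟩ := exists_O (L₁.inv_mem h1) hinv
    refine IsUnit.of_mul_eq_one v ?_
    apply phiO_injective (algebraMap L₁ ℂ)
    rw [map_mul, map_sub, hw, hw, hv, map_one]
    exact mul_inv_cancel₀ (sub_ne_zero.2 hne)
  · obtain ⟨ε, hε, h1⟩ := h
    refine hω3 I J (ε : ℂ) (hEK ε hε) ?_
    simpa only [hw] using h1

end Vale.Agent.P002R
end

section

/-!
# Density for products of curves with at least `3 - 2g` regular classes: quasi-unipotent classes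
and classes with algebraic unit eigenvalues
-/

namespace Vale.Agent.P002R.Product

open Matrix NumberField

variable {k r : ℕ} {g n : Fin k → ℕ}

theorem coefOK_roots (N : ℕ) (hN : 0 < N) (r : ℕ) (L : IntermediateField ℚ ℂ)
    (hL : FiniteDimensional ℚ L)
    (hμ : ∀ z : ℂ, z ^ (2 * N * r.factorial) = 1 → z ∈ L) (hu : Infinite (𝓞 L)ˣ) :
    CoefOK (phiO (algebraMap L ℂ)) (powMonoidHom (α := ℂˣ) (2 * N)).ker r := by
  have : NumberField L := { to_charZero := inferInstance, to_finiteDimensional := hL }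
  obtain ⟨u, hu⟩ := exists_unit_infinite_order (L := L) (algebraMap L ℂ)
  obtain ⟨E, hE', hE⟩ : ∃ E : Subgroup ℂˣ, E = (powMonoidHom (α := ℂˣ) (2 * N)).ker ∧
    ∀ z, z ∈ E ↔ z ^ (2 * N) = 1 := ⟨_, rfl, fun z => Iff.rfl⟩
  rw [← hE']
  refine coefOK_of_field E ?_ ?_ r L ?_ ⟨u, ?_⟩
  · intro z hz
    rw [hE] at hz
    refine IsIntegral.of_pow (n := 2 * N) (by positivity) ?_
    rw [← Units.val_pow_eq_pow_val, hz, Units.val_one]
    exact isIntegral_one
  · rw [hE, pow_mul, neg_one_sq, one_pow]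
  · intro m hm hmr z hz
    rw [hE] at hz
    apply hμ
    obtain ⟨c, hc⟩ := mul_dvd_mul_left (2 * N) (Nat.dvd_factorial hm hmr)
    have h1 : (z : ℂ) ^ (2 * N * m) = 1 := by
      rw [mul_comm (2 * N) m, pow_mul, ← Units.val_pow_eq_pow_val, ← Units.val_pow_eq_pow_val, hz,
        Units.val_one]
    rw [hc, pow_mul, h1, one_pow]
  · intro m hm e he h
    rw [hE] at he
    refine hu (m * (2 * N)) (by positivity) ?_
    rw [pow_mul, h, ← Units.val_pow_eq_pow_val, he, Units.val_one]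

theorem eigIn_roots (C : SpecialLinearGroup (Fin r) ℂ) (N : ℕ) (hN : 0 < N)
    (hC : ∀ z, IsEigenvalue C z → z ^ N = 1) :
    EigIn (powMonoidHom (α := ℂˣ) (2 * N)).ker C.1 := by
  intro z hz
  have h1 : z ^ N = 1 := hC z hz
  have h0 : z ≠ 0 := by
    rintro rfl
    rw [zero_pow hN.ne'] at h1
    exact zero_ne_one h1
  refine ⟨Units.mk0 z h0, ?_, rfl⟩
  change Units.mk0 z h0 ^ (2 * N) = 1
  ext1
  rw [Units.val_pow_eq_pow_val, Units.val_mk0, Units.val_one, mul_comm, pow_mul, h1, one_pow]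

/-- The field of coefficients attached to eigenvalues that are algebraic units. -/
theorem exists_field_eig (C : ∀ i, Fin (n i) → SpecialLinearGroup (Fin r) ℂ)
    (hC : ∀ i j z, IsEigenvalue (C i j) z → IsIntegral ℤ z ∧ IsIntegral ℤ z⁻¹) :
    ∃ E : Subgroup ℂˣ, (∀ i j, EigIn E ((C i j).1)) ∧ ∃ L : IntermediateField ℚ ℂ,
      FiniteDimensional ℚ L ∧ CoefOK (phiO (algebraMap L ℂ)) E r := by
  have h0 : ∀ i j z, IsEigenvalue (C i j) z → z ≠ 0 := by
    rintro i j z hz rfl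
    have h1 : (C i j).1.charpoly.eval 0 = 0 := hz
    rw [Matrix.eval_charpoly, map_zero, zero_sub, Matrix.det_neg, (C i j).2, mul_one] at h1
    exact pow_ne_zero _ (by norm_num) h1
  obtain ⟨S, hS⟩ : ∃ S : Set ℂˣ, S = {z : ℂˣ | ∃ i j, IsEigenvalue (C i j) (z : ℂ)} :=
    ⟨_, rfl⟩
  have hSf : S.Finite := by
    have h1 : (⋃ p : (i : Fin k) × Fin (n i), {z : ℂ | (C p.1 p.2).1.charpoly.IsRoot z}).Finite :=
      Set.finite_iUnion fun p => Polynomial.finite_setOfPred_isRoot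
        (Matrix.charpoly_monic _).ne_zero
    refine Set.Finite.of_injOn (f := fun z : ℂˣ => (z : ℂ)) ?_ (Units.val_injective.injOn) h1
    intro z hz
    rw [hS] at hz
    obtain ⟨i, j, hz⟩ := hz
    exact Set.mem_iUnion.2 ⟨⟨i, j⟩, hz⟩
  obtain ⟨L, hL, hc⟩ := exists_field_E S hSf (fun z hz => by
    rw [hS] at hz
    obtain ⟨i, j, hz⟩ := hz
    rw [Units.val_inv_eq_inv_val]
    exact hC i j z hz) r
  refine ⟨_, fun i j z hz => ?_, L, hL, hc⟩
  refine ⟨Units.mk0 z (h0 i j z hz), Subgroup.subset_closure (Set.mem_insert_of_mem _ ?_), rfl⟩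
  rw [hS]
  exact ⟨i, j, hz⟩

/-- No punctured torus, quasi-unipotent classes, explicit fields. -/
theorem density_roots0 (hG : G0Irr) (C : ∀ i, Fin (n i) → SpecialLinearGroup (Fin r) ℂ) (N : ℕ)
    (hN : 0 < N) (hC : ∀ i j z, IsEigenvalue (C i j) z → z ^ N = 1)
    (hg : ∀ i, OKCurveQ (g i) (n i) r (C i)) (hg1 : ∀ i, g i = 1 → n i = 0)
    (L : IntermediateField ℚ ℂ) (hL : FiniteDimensional ℚ L)
    (hμ : ∀ z : ℂ, z ^ (2 * N * r.factorial) = 1 → z ∈ L) (hu : Infinite (𝓞 L)ˣ) :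
    IsZariskiDenseRep {X ∈ Y g C | IsIntegralRep L X} (Y g C) :=
  density_E0 hG C _ (fun i j => eigIn_roots (C i j) N hN (hC i j)) hg hg1 L hL
    (coefOK_roots N hN r L hL hμ hu)

/-- No punctured torus, existence of the field. -/
theorem exists_density0 (hG : G0Irr) (C : ∀ i, Fin (n i) → SpecialLinearGroup (Fin r) ℂ)
    (hC : ∀ i j z, IsEigenvalue (C i j) z → IsIntegral ℤ z ∧ IsIntegral ℤ z⁻¹)
    (hg : ∀ i, OKCurveQ (g i) (n i) r (C i)) (hg1 : ∀ i, g i = 1 → n i = 0) :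
    ∃ L : IntermediateField ℚ ℂ, FiniteDimensional ℚ L ∧
      IsZariskiDenseRep {X ∈ Y g C | IsIntegralRep L X} (Y g C) := by
  obtain ⟨E, hE, L, hL, hc⟩ := exists_field_eig C hC
  exact ⟨L, hL, density_E0 hG C E hE hg hg1 L hL hc⟩

/-- Quasi-unipotent classes, explicit fields. -/
theorem density_roots2 (hG : G0Irr) (hG1 : G1Irr2)
    (C : ∀ i, Fin (n i) → SpecialLinearGroup (Fin r) ℂ) (N : ℕ)
    (hN : 0 < N) (hC : ∀ i j z, IsEigenvalue (C i j) z → z ^ N = 1)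
    (hg : ∀ i, OKCurveQ (g i) (n i) r (C i))
    (L₀ L : IntermediateField ℚ ℂ) (hL : FiniteDimensional ℚ L) (h : L₀ ≤ L)
    (hμ : ∀ z : ℂ, z ^ (2 * N * r.factorial) = 1 → z ∈ L₀) (hu : Infinite (𝓞 L₀)ˣ)
    (hroot : (∀ i, g i = 1 → n i = 0) ∨
      ∀ u : (𝓞 L₀)ˣ, ∃ z ∈ L, z ^ r.factorial = ((u : 𝓞 L₀) : ℂ)) :
    IsZariskiDenseRep {X ∈ Y g C | IsIntegralRep L X} (Y g C) := by
  have hL₀ : FiniteDimensional ℚ L₀ :=
    FiniteDimensional.of_injective (IntermediateField.inclusion h).toLinearMap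
      (IntermediateField.inclusion h).injective
  have hE := fun i j => eigIn_roots (C i j) N hN (hC i j)
  have hc := coefOK_roots N hN r L₀ hL₀ hμ hu
  rcases hroot with hg1 | hroot
  · exact density_E0 hG C _ hE hg hg1 L hL
      (hc.ring_mono (iotaO h) (phiO_iotaO h) (phiO_injective _))
  · exact density_E2 hG hG1 C _ hE hg L₀ L hL₀ hL h hc hroot

/-- Existence of the field. -/
theorem exists_density2 (hG : G0Irr) (hG1 : G1Irr2)
    (C : ∀ i, Fin (n i) → SpecialLinearGroup (Fin r) ℂ)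
    (hC : ∀ i j z, IsEigenvalue (C i j) z → IsIntegral ℤ z ∧ IsIntegral ℤ z⁻¹)
    (hg : ∀ i, OKCurveQ (g i) (n i) r (C i)) :
    ∃ L : IntermediateField ℚ ℂ, FiniteDimensional ℚ L ∧
      IsZariskiDenseRep {X ∈ Y g C | IsIntegralRep L X} (Y g C) := by
  obtain ⟨E, hE, L₀, hL₀, hc⟩ := exists_field_eig C hC
  obtain ⟨L, hL, h, hroot⟩ := exists_root_field L₀ hL₀ r.factorial (Nat.factorial_pos r)
  refine ⟨L, hL, density_E2 hG hG1 C E hE hg L₀ L hL₀ hL h hc fun u => ?_⟩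
  obtain ⟨z, hz⟩ := IsAlgClosed.exists_pow_nat_eq (phiO (algebraMap L₀ ℂ) (u : 𝓞 L₀))
    (Nat.factorial_pos r)
  exact ⟨z, hroot u z hz, hz⟩

end Vale.Agent.P002R.Product
end

section

/-!
# P002, genus 0: the main theorem for irreducible representations, from total density
-/

namespace Vale.Agent.P002R

open Matrix

/-- The main theorem in genus zero, given total density for the arbitrary classes. -/
theorem g0Irr_of_totD
    (hT : ∀ {r : ℕ} {R : Type} [CommRing R] (φ : R →+* ℂ) (E : Subgroup ℂˣ), CoefOK φ E r →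
      (∀ (u : Rˣ) (D : R), D ≠ 0 → ∃ M : ℕ, 0 < M ∧ D ∣ (u : R) ^ M - 1) → 0 < r →
      ∀ J : (Mat r ℂ)ˣ, EigIn E (J : Mat r ℂ) → TotD φ (J : Mat r ℂ)) : G0Irr := by
  intro m r hr R _ φ E hc hUP C hE h0 hm hl x hx hirr f hf
  obtain ⟨n, rfl⟩ : ∃ n, r = n + 1 := ⟨r - 1, by omega⟩
  refine irr_of_chartDens φ C (fun x hx1 hx2 hup hlo hcell hcyc f hf => ?_) hm x hx hirr f hf
  exact chart_density φ E hc (fibD φ E hc hUP n) C hE
    (fun j _ _ => hT φ E hc hUP (Nat.succ_pos n) (C j) (hE j)) h0 hl x hx1 hx2 hup hlo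
    hcell hcyc f hf

end Vale.Agent.P002R
end

section

/-!
# P002, genus 0: the main theorem for irreducible representations
-/

namespace Vale.Agent.P002R

/-- The main theorem in genus zero: at least three nonderogatory classes. -/
theorem g0Irr : G0Irr :=
  g0Irr_of_totD fun _ _ hc _ hr J hJ => totD_of_eigIn hc hr J hJ

end Vale.Agent.P002R
end

section

/-!
# Potential density of integral points for products of curves: spheres with three regular classes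
-/

namespace Vale.Agent.P002R.Product

open Matrix NumberField

theorem IsNonderogatory.hasCyc {r : ℕ} {M : SpecialLinearGroup (Fin r) ℂ}
    (h : IsNonderogatory M) : HasCyc r M.1 := by
  obtain ⟨v, hv⟩ := h
  refine ⟨v, fun W hW hWM => ?_⟩
  have h1 : ∀ k : ℕ, (M.1 ^ k) *ᵥ v ∈ W := by
    intro k
    induction k with
    | zero => rwa [pow_zero, Matrix.one_mulVec]
    | succ k ih =>
      rw [pow_succ', ← Matrix.mulVec_mulVec]
      exact hWM _ ih
  rcases Nat.eq_zero_or_pos r with hr | hr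
  · subst hr
    exact Subsingleton.elim _ _
  · have : Nonempty (Fin r) := ⟨⟨0, hr⟩⟩
    have h2 := hv.span_eq_top_of_card_eq_finrank (by simp)
    rw [eq_top_iff, ← h2, Submodule.span_le]
    rintro _ ⟨i, rfl⟩
    exact h1 i

/-- The curves which are allowed in terms of the number of nonderogatory classes. -/
theorem okCurveQ_of_ncard {g n r : ℕ} (C : Fin n → SpecialLinearGroup (Fin r) ℂ)
    (h : 3 ≤ 2 * g + {j | IsNonderogatory (C j)}.ncard) : OKCurveQ g n r C := by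
  refine Or.inr ⟨(Set.toFinite {j | IsNonderogatory (C j)}).toFinset, ?_, fun j hj => ?_⟩
  · rw [← Set.ncard_eq_toFinset_card]
    exact h
  · exact ((Set.Finite.mem_toFinset (Set.toFinite {j | IsNonderogatory (C j)})).1 hj).hasCyc

/-- Spheres with at least three nonderogatory classes are allowed. -/
theorem main0 (k : ℕ) (g n : Fin k → ℕ) (r : ℕ) :
    (∃ L : IntermediateField ℚ ℂ, FiniteDimensional ℚ L ∧
      IsZariskiDense {X ∈ YNone g n r | IsIntegralPoint L X} (YNone g n r)) ∧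
    ∀ C : (i : Fin k) → Fin (n i) → SpecialLinearGroup (Fin r) ℂ,
      (∀ i, 2 ≤ g i ∨ n i = 0 ∨
        (g i = 0 ∧ (n i ≤ 2 ∨ 3 ≤ {j | IsNonderogatory (C i j)}.ncard))) →
      ((∀ i j z, IsEigenvalue (C i j) z → IsIntegral ℤ z ∧ IsIntegral ℤ z⁻¹) →
        ∃ L : IntermediateField ℚ ℂ, FiniteDimensional ℚ L ∧
          IsZariskiDense {X ∈ Y g C | IsIntegralPoint L X} (Y g C)) ∧
      ∀ N : ℕ, 0 < N → (∀ i j z, IsEigenvalue (C i j) z → z ^ N = 1) →
        ∀ L : IntermediateField ℚ ℂ, FiniteDimensional ℚ L →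
          (∀ z : ℂ, z ^ (2 * N * r.factorial) = 1 → z ∈ L) → Infinite (𝓞 L)ˣ →
          IsZariskiDenseRep {X ∈ Y g C | IsIntegralRep L X} (Y g C) := by
  refine ⟨?_, fun C hg => ?_⟩
  · obtain ⟨L, hL, h⟩ := none_density_prod g n r
    exact ⟨L, hL, h.isZariskiDense⟩
  · have hg' : ∀ i, OKCurveQ (g i) (n i) r (C i) := by
      intro i
      rcases hg i with h | h | ⟨h, h2 | h3⟩
      · exact Or.inl (Or.inl h)
      · exact Or.inl (Or.inr (Or.inl h))
      · exact Or.inl (Or.inr (Or.inr ⟨h, h2⟩))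
      · exact okCurveQ_of_ncard (C i) (h3.trans (Nat.le_add_left _ _))
    have hg1 : ∀ i, g i = 1 → n i = 0 := by
      intro i h
      have h1 := hg i
      omega
    refine ⟨fun hC => ?_, fun N hN hC L hL hμ hu =>
      density_roots0 Vale.Agent.P002R.g0Irr C N hN hC hg' hg1 L hL hμ hu⟩
    obtain ⟨L, hL, h⟩ := exists_density0 Vale.Agent.P002R.g0Irr C hC hg' hg1
    exact ⟨L, hL, h.isZariskiDense⟩

end Vale.Agent.P002R.Product
end

section

/-!
# Potential density of integral points for products of curves: the final form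
-/

namespace Vale.Agent.P002R.Product

open Matrix NumberField Vale.Agent.P002L

variable {k r : ℕ} {g n : Fin k → ℕ}

theorem FRel_irrDense3 {R : Type} [CommRing R] (φ : R →+* ℂ) (E : Subgroup ℂˣ)
    (hc : CoefOK φ E r) (Q : ∀ i, Fin (n i) → ∀ r : ℕ, Mat r ℂ → Prop)
    (hQ : ∀ i j, ClassOK E (Q i j))
    (hI : ∀ i, ¬ OKCurve (g i) (n i) → ∀ r' ≤ r, 0 < r' →
      IrrDenseQ (fun j => Q i j)
        ({relatorU (g i) (n i)} : Set (FreeGroup ((Fin (g i) × Bool) ⊕ Fin (n i)))) φ r') :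
    ∀ r' ≤ r, 0 < r' → IrrDenseQ (fun p : Σ i, Fin (n i) => Q p.1 p.2)
      (FRel g n) φ r' := by
  refine fam_irrDenseQ φ E r k _ _ (fun i j => Q i j) hQ _ fun i r' hr' hr'0 => ?_
  by_cases h : 2 ≤ g i ∨ n i = 0
  · exact (surface_irrDense φ E hc h r' hr' hr'0).toQ fun j M hM => (hQ i j).eig hM
  by_cases h1 : g i = 0 ∧ n i ≤ 2
  · exact (abel_irrDense φ E _ (fun r'' x hx => surface_comm (Or.inl h1) r'' x hx) r' hr'0).toQ
      fun j M hM => (hQ i j).eig hM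
  · have h2 : ¬ OKCurve (g i) (n i) := by
      unfold OKCurve
      omega
    exact hI i h2 r' hr' hr'0

theorem density_EQ3 (C : ∀ i, Fin (n i) → SpecialLinearGroup (Fin r) ℂ) (E : Subgroup ℂˣ)
    (Q : ∀ i, Fin (n i) → ∀ r : ℕ, Mat r ℂ → Prop) (hQ : ∀ i j, ClassOK E (Q i j))
    (hC : ∀ i j, Q i j r ((C i j).1))
    (L : IntermediateField ℚ ℂ) (hL : FiniteDimensional ℚ L)
    (hc : CoefOK (phiO (algebraMap L ℂ)) E r)
    (hI : ∀ i, ¬ OKCurve (g i) (n i) → ∀ r' ≤ r, 0 < r' →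
      IrrDenseQ (fun j => Q i j)
        ({relatorU (g i) (n i)} : Set (FreeGroup ((Fin (g i) × Bool) ⊕ Fin (n i))))
        (phiO (algebraMap L ℂ)) r') :
    IsZariskiDenseRep {X ∈ Y g C | IsIntegralRep L X} (Y g C) := by
  have : NumberField L := { to_charZero := inferInstance, to_finiteDimensional := hL }
  obtain ⟨φ, hφ⟩ : ∃ φ, φ = phiO (algebraMap L ℂ) := ⟨_, rfl⟩
  rw [← hφ] at hc hI
  have hφi : Function.Injective φ := hc.inj
  obtain ⟨C', hC'⟩ : ∃ C' : ((i : Fin k) × Fin (n i)) → (Mat r ℂ)ˣ,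
      C' = fun p => SpecialLinearGroup.toGL (C p.1 p.2) := ⟨_, rfl⟩
  refine ⟨fun _ hX => hX.1, fun F hF X hX => ?_⟩
  rw [← evalG_toU]
  -- integral representations
  have key : ∀ y : FreeGroup (Gens g n) →* SpecialLinearGroup (Fin r) (𝓞 L),
      (∀ w ∈ FRel g n, y w = 1) →
      (∀ p, IsConj (C' p) (slU φ (y (FreeGroup.of (Sum.inr p))))) →
      SS ((slU φ).comp y) → evalG ((slU φ).comp y) F = 0 := by
    intro y hy hyC hyS
    obtain ⟨Z, hZ⟩ : ∃ Z : Gens g n → SpecialLinearGroup (Fin r) (𝓞 L),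
        ∀ p, Z p = y (FreeGroup.of p) := ⟨_, fun _ => rfl⟩
    obtain ⟨X', hX'⟩ : ∃ X' : Gens g n → SpecialLinearGroup (Fin r) ℂ,
        X' = fun p => SpecialLinearGroup.map (phiO (algebraMap L ℂ)) (Z p) := ⟨_, rfl⟩
    have h0 : FreeGroup.lift X' = (SpecialLinearGroup.map (phiO (algebraMap L ℂ))).comp y := by
      apply FreeGroup.ext_hom
      intro p
      rw [FreeGroup.lift_apply_of, hX', MonoidHom.comp_apply, ← hZ]
    have h1 : (slU φ).comp y = toU X' := by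
      rw [toU, h0, hφ]; rfl
    rw [h1, evalG_toU]
    refine hF _ ⟨⟨⟨?_, ?_⟩, fun i j => Statement.isConj_toGL _ _ ?_⟩, ?_⟩
    · rw [isRep_iff]
      intro w hw
      rw [h0, MonoidHom.comp_apply, hy w hw, map_one]
    · rw [← SS_toU, ← h1]; exact hyS
    · have := hyC ⟨i, j⟩
      rw [hC', ← MonoidHom.comp_apply, h1, toU_of] at this
      exact this
    · rw [hX']; exact isIntegralRep_map Z
  rcases Nat.eq_zero_or_pos r with hr | hr
  · subst hr
    have h1 : toU X = (slU φ).comp 1 := by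
      ext w i
      exact i.elim0
    rw [h1]
    refine key 1 (fun w _ => rfl) (fun p => ?_) ?_
    · have : C' p = slU φ ((1 : FreeGroup (Gens g n) →* SpecialLinearGroup (Fin 0) (𝓞 L))
          (FreeGroup.of (Sum.inr p))) := Units.ext (Subsingleton.elim _ _)
      rw [← this]
    · rw [← h1]; exact (SS_toU X).2 hX.1.2
  · have hEig : ∀ p : Σ i, Fin (n i), Q p.1 p.2 r (C' p : Mat r ℂ) := by
      intro p
      rw [hC']
      exact hC p.1 p.2
    have hYG : toU X ∈ YG (FRel g n) C' := by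
      refine ⟨fun w hw => ?_, fun p => ?_, (SS_toU X).2 hX.1.2⟩
      · rw [toU, MonoidHom.comp_apply, (isRep_iff X).1 hX.1.1 w hw, map_one]
      · rw [hC', toU_of]
        exact Statement.toGL_isConj _ _ (hX.2 p.1 p.2)
    obtain ⟨ζ, hζ⟩ := hc.root r hr le_rfl
      (Units.mk0 (Complex.exp (2 * Real.pi * Complex.I / r)) (Complex.exp_ne_zero _)) (by
        have h1 : (Units.mk0 (Complex.exp (2 * Real.pi * Complex.I / r))
            (Complex.exp_ne_zero _)) ^ r = 1 := by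
          ext1
          rw [Units.val_pow_eq_pow_val, Units.val_mk0, Units.val_one,
            (Complex.isPrimitiveRoot_exp r hr.ne').pow_eq_one]
        rw [h1]
        exact one_mem _)
    rw [Units.val_mk0] at hζ
    have hζp : IsPrimitiveRoot (φ ζ) r := by
      rw [hζ]
      exact Complex.isPrimitiveRoot_exp r hr.ne'
    refine unscaleG φ hφi ζ (hφi ?_) hζp hr (FRel g n) (FRel_charOK g n) C' ?_ F key (toU X) ?_
      fun f' hf' => partIVQ φ E (Q := fun p : Σ i, Fin (n i) => Q p.1 p.2)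
        (fun p => hQ p.1 p.2) hc.weak (FRel g n) (FRel_charOK g n)
        (FRel_irrDense3 φ E hc Q hQ hI) C' hEig (toU X) hYG f' hf'
    · rw [map_pow, map_one]
      exact hζp.pow_eq_one
    · intro p
      rw [hC']
      exact (C p.1 p.2).2
    · intro w
      rw [toU_coe]
      exact (FreeGroup.lift X w).2


/-- The allowed curves: positive genus, at most two punctures, rank at most three, one regular
class, or all classes but one scalar plus rank one. -/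
def OKCurve3 (g n r : ℕ) (C : Fin n → SpecialLinearGroup (Fin r) ℂ) : Prop :=
  1 ≤ g ∨ n ≤ 2 ∨ r ≤ 3 ∨ (∃ j, HasCyc r (C j).1) ∨ ∃ j₀, ∀ j, j ≠ j₀ → RO r (C j).1

/-- Low genus. -/
theorem low_irrDenseQ3 {g n r : ℕ} {R : Type} [CommRing R] (h01 : G01Irr) (hR : G0R) (φ : R →+* ℂ)
    (E : Subgroup ℂˣ) (hc : CoefOK φ E r)
    (hUP : ∀ (u : Rˣ) (D : R), D ≠ 0 → ∃ M : ℕ, 0 < M ∧ D ∣ (u : R) ^ M - 1)
    (C : Fin n → SpecialLinearGroup (Fin r) ℂ) (hg : OKCurve3 g n r C)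
    (h : ¬ OKCurve g n) (h1 : g = 1 → TorOK φ E r) :
    ∀ r' ≤ r, 0 < r' → IrrDenseQ (fun j => QD E (HasCyc r (C j).1) (RO r (C j).1))
      ({relatorU g n} : Set (FreeGroup ((Fin g × Bool) ⊕ Fin n))) φ r' := by
  have h4 : g = 0 ∨ g = 1 := by
    unfold OKCurve at h
    omega
  rcases h4 with rfl | rfl
  · have hn : 3 ≤ n := by
      unfold OKCurve at h
      omega
    intro r' hr' hr'0 C' hC' x hx hirr f hf
    refine g0_cases h01 hR (by omega) hr'0 φ E (hc.le_mono hr') hUP C' (fun j => (hC' j).1) ?_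
      x hx hirr f hf
    rcases hg with hg | hg | hg | ⟨j, hj⟩ | ⟨j₀, hj₀⟩
    · omega
    · omega
    · exact Or.inl (by omega)
    · exact Or.inr (Or.inl ⟨j, (hC' j).2.1 hj⟩)
    · exact Or.inr (Or.inr ⟨j₀, fun j hj => (hC' j).2.2 (hj₀ j hj)⟩)
  · refine g1_irrDenseAll (g02_of_g01 h01) ?_ φ E (h1 rfl) hc fun j r M hM => hM.1
    unfold OKCurve at h
    omega

/-- Density of the integral representations. -/
theorem density_E4 (h01 : G01Irr) (hR : G0R) (C : ∀ i, Fin (n i) → SpecialLinearGroup (Fin r) ℂ)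
    (E : Subgroup ℂˣ) (hC : ∀ i j, EigIn E ((C i j).1))
    (hg : ∀ i, OKCurve3 (g i) (n i) r (C i)) (L : IntermediateField ℚ ℂ)
    (hL : FiniteDimensional ℚ L) (hc : CoefOK (phiO (algebraMap L ℂ)) E r)
    (hT : (∀ i, g i = 1 → n i = 0) ∨ TorOK (phiO (algebraMap L ℂ)) E r) :
    IsZariskiDenseRep {X ∈ Y g C | IsIntegralRep L X} (Y g C) := by
  refine density_EQ3 C E (fun i j => QD E (HasCyc r (C i j).1) (RO r (C i j).1))
    (fun i j => classOK_QD E _ _) (fun i j => ⟨hC i j, id, id⟩) L hL hc fun i hi => ?_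
  refine low_irrDenseQ3 h01 hR _ E hc (hUP_field L hL) (C i) (hg i) hi fun h => ?_
  rcases hT with h1 | h1
  · exact absurd (Or.inr (Or.inl (h1 i h))) hi
  · exact h1

/-- Existence of the field. -/
theorem exists_density4 (h01 : G01Irr) (hR : G0R)
    (C : ∀ i, Fin (n i) → SpecialLinearGroup (Fin r) ℂ)
    (hC : ∀ i j z, IsEigenvalue (C i j) z → IsIntegral ℤ z ∧ IsIntegral ℤ z⁻¹)
    (hg : ∀ i, OKCurve3 (g i) (n i) r (C i)) :
    ∃ L : IntermediateField ℚ ℂ, FiniteDimensional ℚ L ∧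
      IsZariskiDenseRep {X ∈ Y g C | IsIntegralRep L X} (Y g C) := by
  have h0 : ∀ i j z, IsEigenvalue (C i j) z → z ≠ 0 := by
    rintro i j z hz rfl
    have h1 : (C i j).1.charpoly.eval 0 = 0 := hz
    rw [Matrix.eval_charpoly, map_zero, zero_sub, Matrix.det_neg, (C i j).2, mul_one] at h1
    exact pow_ne_zero _ (by norm_num) h1
  obtain ⟨S, hS⟩ : ∃ S : Set ℂˣ, S = {z : ℂˣ | ∃ i j, IsEigenvalue (C i j) (z : ℂ)} :=
    ⟨_, rfl⟩
  have hSf : S.Finite := by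
    have h1 : (⋃ p : (i : Fin k) × Fin (n i), {z : ℂ | (C p.1 p.2).1.charpoly.IsRoot z}).Finite :=
      Set.finite_iUnion fun p => Polynomial.finite_setOfPred_isRoot
        (Matrix.charpoly_monic _).ne_zero
    refine Set.Finite.of_injOn (f := fun z : ℂˣ => (z : ℂ)) ?_ (Units.val_injective.injOn) h1
    intro z hz
    rw [hS] at hz
    obtain ⟨i, j, hz⟩ := hz
    exact Set.mem_iUnion.2 ⟨⟨i, j⟩, hz⟩
  obtain ⟨L, hL, hc, hT⟩ := exists_tor_field S hSf (fun z hz => by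
    rw [hS] at hz
    obtain ⟨i, j, hz⟩ := hz
    rw [Units.val_inv_eq_inv_val]
    exact hC i j z hz) r
  refine ⟨L, hL, density_E4 h01 hR C _ (fun i j z hz => ?_) hg L hL hc (Or.inr hT)⟩
  refine ⟨Units.mk0 z (h0 i j z hz), Subgroup.subset_closure (Set.mem_insert_of_mem _ ?_), rfl⟩
  rw [hS]
  exact ⟨i, j, hz⟩

/-- Quasi-unipotent classes, explicit fields, no punctured torus. -/
theorem density_roots4 (h01 : G01Irr) (hR : G0R)
    (C : ∀ i, Fin (n i) → SpecialLinearGroup (Fin r) ℂ) (N : ℕ)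
    (hN : 0 < N) (hC : ∀ i j z, IsEigenvalue (C i j) z → z ^ N = 1)
    (hg : ∀ i, OKCurve3 (g i) (n i) r (C i)) (hg1 : ∀ i, g i = 1 → n i = 0)
    (L : IntermediateField ℚ ℂ) (hL : FiniteDimensional ℚ L)
    (hμ : ∀ z : ℂ, z ^ (2 * N * r.factorial) = 1 → z ∈ L) (hu : Infinite (𝓞 L)ˣ) :
    IsZariskiDenseRep {X ∈ Y g C | IsIntegralRep L X} (Y g C) :=
  density_E4 h01 hR C _ (fun i j => eigIn_roots (C i j) N hN (hC i j)) hg L hL
    (coefOK_roots N hN r L hL hμ hu) (Or.inl hg1)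

theorem okCurve3_of {g n r : ℕ} (C : Fin n → SpecialLinearGroup (Fin r) ℂ)
    (h : 1 ≤ g ∨ n ≤ 2 ∨ r ≤ 3 ∨ (∃ j, IsNonderogatory (C j)) ∨
      ∃ j₀, ∀ j, j ≠ j₀ → ∃ z : ℂ, ((C j).1 - z • 1).rank ≤ 1) : OKCurve3 g n r C := by
  refine h.imp_right (Or.imp_right (Or.imp_right (Or.imp_left fun h => ?_)))
  obtain ⟨j, hj⟩ := h
  exact ⟨j, hj.hasCyc⟩

/-- The main theorem, final form. -/
theorem main3 (h01 : G01Irr) (hR : G0R) (k : ℕ) (g n : Fin k → ℕ) (r : ℕ) :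
    (∃ L : IntermediateField ℚ ℂ, FiniteDimensional ℚ L ∧
      IsZariskiDense {X ∈ YNone g n r | IsIntegralPoint L X} (YNone g n r)) ∧
    ∀ C : (i : Fin k) → Fin (n i) → SpecialLinearGroup (Fin r) ℂ,
      (∀ i, 1 ≤ g i ∨ n i ≤ 2 ∨ r ≤ 3 ∨ (∃ j, IsNonderogatory (C i j)) ∨
        ∃ j₀, ∀ j, j ≠ j₀ → ∃ z : ℂ, ((C i j).1 - z • 1).rank ≤ 1) →
      ((∀ i j z, IsEigenvalue (C i j) z → IsIntegral ℤ z ∧ IsIntegral ℤ z⁻¹) →
        ∃ L : IntermediateField ℚ ℂ, FiniteDimensional ℚ L ∧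
          IsZariskiDense {X ∈ Y g C | IsIntegralPoint L X} (Y g C) ∧
          IsZariskiDenseRep {X ∈ Y g C | IsIntegralRep L X} (Y g C)) ∧
      ((∀ i, g i = 1 → n i = 0) →
        ∀ N : ℕ, 0 < N → (∀ i j z, IsEigenvalue (C i j) z → z ^ N = 1) →
        ∀ L : IntermediateField ℚ ℂ, FiniteDimensional ℚ L →
          (∀ z : ℂ, z ^ (2 * N * r.factorial) = 1 → z ∈ L) → Infinite (𝓞 L)ˣ →
          IsZariskiDenseRep {X ∈ Y g C | IsIntegralRep L X} (Y g C)) := by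
  refine ⟨?_, fun C hg => ?_⟩
  · obtain ⟨L, hL, h⟩ := none_density_prod g n r
    exact ⟨L, hL, h.isZariskiDense⟩
  · have hg' : ∀ i, OKCurve3 (g i) (n i) r (C i) := fun i => okCurve3_of (C i) (hg i)
    refine ⟨fun hC => ?_, fun hg1 N hN hC L hL hμ hu =>
      density_roots4 h01 hR C N hN hC hg' hg1 L hL hμ hu⟩
    obtain ⟨L, hL, h⟩ := exists_density4 h01 hR C hC hg'
    exact ⟨L, hL, h.isZariskiDense, h⟩

end Vale.Agent.P002R.Product
end

section

/-!
# Density of the integral representations of a finitely presented group with prescribed classes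
-/

namespace Vale.Agent.P002R.Orb

open Matrix NumberField

variable {ι : Type} {r : ℕ}

/-- The representation of the free group attached to a complex representation. -/
noncomputable def toU (X : ι → SpecialLinearGroup (Fin r) ℂ) :
    FreeGroup ι →* (Mat r ℂ)ˣ :=
  SpecialLinearGroup.toGL.comp (FreeGroup.lift X)

theorem toU_coe (X : ι → SpecialLinearGroup (Fin r) ℂ) (w : FreeGroup ι) :
    (toU X w : Mat r ℂ) = (FreeGroup.lift X w).1 := rfl

theorem toU_of (X : ι → SpecialLinearGroup (Fin r) ℂ) (p : ι) :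
    toU X (FreeGroup.of p) = SpecialLinearGroup.toGL (X p) := by
  rw [toU, MonoidHom.comp_apply, FreeGroup.lift_apply_of]

theorem evalG_toU (F : MvPolynomial (ι × Fin r × Fin r) ℂ)
    (X : ι → SpecialLinearGroup (Fin r) ℂ) : evalG (toU X) F = value F X := by
  rw [evalG_eqn, MvPolynomial.aeval_def, value]
  congr 1
  funext p
  rw [toU_of]
  rfl

theorem stable_iff (X : ι → SpecialLinearGroup (Fin r) ℂ) (W : Submodule ℂ (Fin r → ℂ)) :
    (∀ w, ∀ v ∈ W, (toU X w : Mat r ℂ) *ᵥ v ∈ W) ↔ IsInv X W := by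
  constructor
  · intro h p
    have := h (FreeGroup.of p)
    rw [toU_of] at this
    exact this
  · intro h w
    obtain ⟨H, hH⟩ : ∃ H : Subgroup (Mat r ℂ)ˣ, ∀ M, M ∈ H ↔
        ∀ v ∈ W, (M : Mat r ℂ) *ᵥ v ∈ W :=
      ⟨{ carrier := {M | ∀ v ∈ W, (M : Mat r ℂ) *ᵥ v ∈ W}
         mul_mem' := fun {a b} ha hb v hv => by
          rw [Units.val_mul, ← Matrix.mulVec_mulVec]
          exact ha _ (hb v hv)
         one_mem' := fun v hv => by rwa [Units.val_one, Matrix.one_mulVec]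
         inv_mem' := fun {a} ha => Statement.inv_stable a W ha }, fun M => Iff.rfl⟩
    have h1 : (⊤ : Subgroup (FreeGroup ι)) ≤ H.comap (toU X) := by
      rw [← FreeGroup.closure_range_of, Subgroup.closure_le]
      rintro _ ⟨k, rfl⟩
      rw [SetLike.mem_coe, Subgroup.mem_comap, hH, toU_of]
      exact h k
    exact (hH _).1 (h1 (Subgroup.mem_top w))

/-- Complete reducibility. -/
def IsSS (X : ι → SpecialLinearGroup (Fin r) ℂ) : Prop :=
  ∀ W, IsInv X W → ∃ W', IsInv X W' ∧ IsCompl W W'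

theorem SS_toU (X : ι → SpecialLinearGroup (Fin r) ℂ) : SS (toU X) ↔ IsSS X := by
  unfold SS IsSS
  simp only [stable_iff]

theorem IsIntegralRep.exists_lift {L : IntermediateField ℚ ℂ}
    {X : ι → SpecialLinearGroup (Fin r) ℂ} (h : IsIntegralRep L X) :
    ∃ Z : ι → SpecialLinearGroup (Fin r) (𝓞 L),
      ∀ p, X p = SpecialLinearGroup.map (phiO (algebraMap L ℂ)) (Z p) := by
  choose a ha using h
  have h1 : ∀ p, (X p).1 = (Matrix.of (a p)).map (phiO (algebraMap L ℂ)) := by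
    intro p
    ext i j
    exact ha p i j
  have h2 : ∀ p, (Matrix.of (a p)).det = 1 := by
    intro p
    apply phiO_injective (algebraMap L ℂ)
    rw [map_one, RingHom.map_det]
    have := (X p).2
    rw [h1] at this
    exact this
  refine ⟨fun p => ⟨Matrix.of (a p), h2 p⟩, fun p => Subtype.ext ?_⟩
  rw [h1]
  rfl

theorem isIntegralRep_map {L : IntermediateField ℚ ℂ}
    (Z : ι → SpecialLinearGroup (Fin r) (𝓞 L)) :
    IsIntegralRep L fun p => SpecialLinearGroup.map (phiO (algebraMap L ℂ)) (Z p) :=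
  fun p i j => ⟨(Z p).1 i j, rfl⟩

theorem IsIntegralRep.isIntegralPoint {L : IntermediateField ℚ ℂ} {R : Set (FreeGroup ι)}
    {X : ι → SpecialLinearGroup (Fin r) ℂ} (h : IsIntegralRep L X) :
    IsIntegralPoint R L X := by
  obtain ⟨Z, hZ⟩ := h.exists_lift
  intro F _
  refine ⟨value F Z, ?_⟩
  have h1 : (phiO (algebraMap L ℂ)).comp (algebraMap ℤ (𝓞 L)) = algebraMap ℤ ℂ :=
    RingHom.ext_int _ _
  rw [value, value, ← h1]
  change _ = phiO (algebraMap L ℂ) _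
  rw [MvPolynomial.hom_eval₂]
  congr 1
  funext p
  rw [hZ]
  rfl

theorem IsDenseRep.isDense {L : IntermediateField ℚ ℂ} {R : Set (FreeGroup ι)}
    {T : Set (ι → SpecialLinearGroup (Fin r) ℂ)} (h : IsDenseRep L T) : IsDense R L T :=
  fun F _ hF X hX => h F (fun X' hX' hX'' => hF X' hX' hX''.isIntegralPoint) X hX

/-- Words in integral matrices are integral. -/
theorem IsIntegralRep.lift {ι' : Type} {L : IntermediateField ℚ ℂ}
    {X : ι → SpecialLinearGroup (Fin r) ℂ} (h : IsIntegralRep L X) (a : ι' → FreeGroup ι) :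
    IsIntegralRep L fun p => FreeGroup.lift X (a p) := by
  obtain ⟨Z, hZ⟩ := h.exists_lift
  have h1 : FreeGroup.lift X =
      (SpecialLinearGroup.map (phiO (algebraMap L ℂ))).comp (FreeGroup.lift Z) := by
    apply FreeGroup.ext_hom
    intro p
    rw [MonoidHom.comp_apply, FreeGroup.lift_apply_of, FreeGroup.lift_apply_of, hZ]
  have h2 : (fun p => FreeGroup.lift X (a p)) =
      fun p => SpecialLinearGroup.map (phiO (algebraMap L ℂ)) (FreeGroup.lift Z (a p)) := by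
    funext p
    rw [h1, MonoidHom.comp_apply]
  rw [h2]
  exact isIntegralRep_map _

/-- Semisimple representations with given relators and given classes of the generators in `ι`. -/
def TG {κ ι : Type} (Rel : Set (FreeGroup (κ ⊕ ι))) (C : ι → SpecialLinearGroup (Fin r) ℂ) :
    Set (κ ⊕ ι → SpecialLinearGroup (Fin r) ℂ) :=
  {X | (∀ w ∈ Rel, FreeGroup.lift X w = 1) ∧ (∀ j, IsConj (C j) (X (Sum.inr j))) ∧ IsSS X}

theorem density_gen {κ ι : Type} [Finite κ] [Finite ι] (Rel : Set (FreeGroup (κ ⊕ ι)))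
    (hchar : CharOK Rel) (C : ι → SpecialLinearGroup (Fin r) ℂ) (E : Subgroup ℂˣ)
    (Q : ι → ∀ r : ℕ, Mat r ℂ → Prop) (hQ : ∀ j, ClassOK E (Q j)) (hC : ∀ j, Q j r ((C j).1))
    (L : IntermediateField ℚ ℂ) (hL : FiniteDimensional ℚ L)
    (hc : CoefOK (phiO (algebraMap L ℂ)) E r)
    (hirr : ∀ r' ≤ r, 0 < r' → IrrDenseQ Q Rel (phiO (algebraMap L ℂ)) r') :
    IsDenseRep L (TG Rel C) := by
  have : NumberField L := { to_charZero := inferInstance, to_finiteDimensional := hL }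
  obtain ⟨φ, hφ⟩ : ∃ φ, φ = phiO (algebraMap L ℂ) := ⟨_, rfl⟩
  rw [← hφ] at hc hirr
  have hφi : Function.Injective φ := hc.inj
  obtain ⟨C', hC'⟩ : ∃ C' : ι → (Mat r ℂ)ˣ,
      C' = fun p => SpecialLinearGroup.toGL (C p) := ⟨_, rfl⟩
  intro F hF X hX
  rw [← evalG_toU]
  -- integral representations
  have key : ∀ y : FreeGroup (κ ⊕ ι) →* SpecialLinearGroup (Fin r) (𝓞 L),
      (∀ w ∈ Rel, y w = 1) →
      (∀ p, IsConj (C' p) (slU φ (y (FreeGroup.of (Sum.inr p))))) →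
      SS ((slU φ).comp y) → evalG ((slU φ).comp y) F = 0 := by
    intro y hy hyC hyS
    obtain ⟨Z, hZ⟩ : ∃ Z : κ ⊕ ι → SpecialLinearGroup (Fin r) (𝓞 L),
        ∀ p, Z p = y (FreeGroup.of p) := ⟨_, fun _ => rfl⟩
    obtain ⟨X', hX'⟩ : ∃ X' : κ ⊕ ι → SpecialLinearGroup (Fin r) ℂ,
        X' = fun p => SpecialLinearGroup.map (phiO (algebraMap L ℂ)) (Z p) := ⟨_, rfl⟩
    have h0 : FreeGroup.lift X' = (SpecialLinearGroup.map (phiO (algebraMap L ℂ))).comp y := by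
      apply FreeGroup.ext_hom
      intro p
      rw [FreeGroup.lift_apply_of, hX', MonoidHom.comp_apply, ← hZ]
    have h1 : (slU φ).comp y = toU X' := by
      rw [toU, h0, hφ]; rfl
    rw [h1, evalG_toU]
    refine hF _ ⟨fun w hw => ?_, fun j => Statement.isConj_toGL _ _ ?_, ?_⟩ ?_
    · rw [h0, MonoidHom.comp_apply, hy w hw, map_one]
    · have := hyC j
      rw [hC', ← MonoidHom.comp_apply, h1, toU_of] at this
      exact this
    · rw [← SS_toU, ← h1]; exact hyS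
    · rw [hX']; exact isIntegralRep_map Z
  rcases Nat.eq_zero_or_pos r with hr | hr
  · subst hr
    have h1 : toU X = (slU φ).comp 1 := by
      ext w i
      exact i.elim0
    rw [h1]
    refine key 1 (fun w _ => rfl) (fun p => ?_) ?_
    · have : C' p = slU φ ((1 : FreeGroup (κ ⊕ ι) →* SpecialLinearGroup (Fin 0) (𝓞 L))
          (FreeGroup.of (Sum.inr p))) := Units.ext (Subsingleton.elim _ _)
      rw [← this]
    · rw [← h1]; exact (SS_toU X).2 hX.2.2
  · have hEig : ∀ p : ι, Q p r (C' p : Mat r ℂ) := by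
      intro p
      rw [hC']
      exact hC p
    have hYG : toU X ∈ YG Rel C' := by
      refine ⟨fun w hw => ?_, fun p => ?_, (SS_toU X).2 hX.2.2⟩
      · rw [toU, MonoidHom.comp_apply, hX.1 w hw, map_one]
      · rw [hC', toU_of]
        exact Statement.toGL_isConj _ _ (hX.2.1 p)
    obtain ⟨ζ, hζ⟩ := hc.root r hr le_rfl
      (Units.mk0 (Complex.exp (2 * Real.pi * Complex.I / r)) (Complex.exp_ne_zero _)) (by
        have h1 : (Units.mk0 (Complex.exp (2 * Real.pi * Complex.I / r))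
            (Complex.exp_ne_zero _)) ^ r = 1 := by
          ext1
          rw [Units.val_pow_eq_pow_val, Units.val_mk0, Units.val_one,
            (Complex.isPrimitiveRoot_exp r hr.ne').pow_eq_one]
        rw [h1]
        exact one_mem _)
    rw [Units.val_mk0] at hζ
    have hζp : IsPrimitiveRoot (φ ζ) r := by
      rw [hζ]
      exact Complex.isPrimitiveRoot_exp r hr.ne'
    refine unscaleG φ hφi ζ (hφi ?_) hζp hr Rel hchar C' ?_ F key (toU X) ?_
      fun f' hf' => partIVQ φ E hQ hc.weak Rel hchar hirr C' hEig (toU X) hYG f' hf'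
    · rw [map_pow, map_one]
      exact hζp.pow_eq_one
    · intro p
      rw [hC']
      exact (C p).2
    · intro w
      rw [toU_coe]
      exact (FreeGroup.lift X w).2

/-! ### Change of generators -/

theorem exists_pullback {ι' : Type} (a : ι → FreeGroup ι')
    (F : MvPolynomial (ι × Fin r × Fin r) ℂ) :
    ∃ f : MvPolynomial (ι' × Fin r × Fin r) ℂ,
      ∀ X : ι' → SpecialLinearGroup (Fin r) ℂ,
        value f X = value F fun p => FreeGroup.lift X (a p) := by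
  choose M hM using fun p : ι => Product.exists_word_matrix r (a p)
  refine ⟨MvPolynomial.aeval (fun p => M p.1 p.2.1 p.2.2) F, fun X => ?_⟩
  rw [← evalG_toU]
  have h : (evalG (toU X)).comp
      (MvPolynomial.aeval (R := ℂ) (fun p : ι × Fin r × Fin r => M p.1 p.2.1 p.2.2)) =
      MvPolynomial.aeval (fun p : ι × Fin r × Fin r =>
        (FreeGroup.lift X (a p.1)).1 p.2.1 p.2.2) := by
    apply MvPolynomial.algHom_ext
    intro p
    rw [AlgHom.comp_apply, MvPolynomial.aeval_X, MvPolynomial.aeval_X, ← hM p.1 (FreeGroup.lift X)]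
    rfl
  exact DFunLike.congr_fun h F

/-- Invariant subspaces are stable under words. -/
theorem IsInv.lift {ι' : Type} {X : ι → SpecialLinearGroup (Fin r) ℂ}
    {W : Submodule ℂ (Fin r → ℂ)} (h : IsInv X W) (a : ι' → FreeGroup ι) :
    IsInv (fun p => FreeGroup.lift X (a p)) W :=
  fun p v hv => (stable_iff X W).2 h (a p) v hv

/-- Tietze transformations: the generators of the second presentation are a part of the generators
of the first one. -/
theorem tietze {ι' : Type} {L : IntermediateField ℚ ℂ}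
    (T : Set (ι → SpecialLinearGroup (Fin r) ℂ)) (T' : Set (ι' → SpecialLinearGroup (Fin r) ℂ))
    (a : ι → FreeGroup ι') (β : ι' → ι)
    (h1 : ∀ X ∈ T, X ∘ β ∈ T' ∧ ∀ p, FreeGroup.lift (X ∘ β) (a p) = X p)
    (h2 : ∀ X ∈ T', (fun p => FreeGroup.lift X (a p)) ∈ T)
    (h : IsDenseRep L T') : IsDenseRep L T := by
  intro F hF X hX
  obtain ⟨f, hf⟩ := exists_pullback a F
  obtain ⟨h3, h4⟩ := h1 X hX
  have h5 : X = fun p => FreeGroup.lift (X ∘ β) (a p) := funext fun p => (h4 p).symm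
  rw [h5, ← hf]
  refine h f (fun Y hY hY' => ?_) _ h3
  rw [hf]
  exact hF _ (h2 Y hY) (hY'.lift a)

end Vale.Agent.P002R.Orb
end

section

/-!
# Products of curves with free punctures and prescribed classes
-/

namespace Vale.Agent.P002R.Orb

open Matrix NumberField

section fam

variable {k r : ℕ} {g n : Fin k → ℕ}

/-- The generators. -/
abbrev GF (g : Fin k → ℕ) (P : ∀ i, Fin (n i) → Prop) (o : ∀ i, Option (Fin (n i))) :=
  (Σ i, KO (g i) (P i) (o i)) ⊕ (Σ i, IO (P i))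

/-- The relators. -/
def RelF (g : Fin k → ℕ) (P : ∀ i, Fin (n i) → Prop) (o : ∀ i, Option (Fin (n i))) :
    Set (FreeGroup (GF g P o)) := famRel fun i => RelO (g i) (P i) (o i)

variable (g) (P : ∀ i, Fin (n i) → Prop) (o : ∀ i, Option (Fin (n i)))

/-- Inclusion of a factor. -/
def incF (i : Fin k) : FreeGroup (KO (g i) (P i) (o i) ⊕ IO (P i)) →* FreeGroup (GF g P o) :=
  FreeGroup.map (incS (κ := fun i => KO (g i) (P i) (o i)) (ι := fun i => IO (P i)) i)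

/-- The generators as words. -/
noncomputable def aF : Gens g n → FreeGroup (GF g P o)
  | Sum.inl ⟨i, p⟩ => incF g P o i (wO (g i) (P i) (o i) (Sum.inl p))
  | Sum.inr ⟨i, j⟩ => incF g P o i (wO (g i) (P i) (o i) (Sum.inr j))

/-- The generators are a part of the given generators. -/
def bF : GF g P o → Gens g n
  | Sum.inl ⟨i, Sum.inl p⟩ => Sum.inl ⟨i, p⟩
  | Sum.inl ⟨i, Sum.inr j⟩ => Sum.inr ⟨i, j.1⟩
  | Sum.inr ⟨i, j⟩ => Sum.inr ⟨i, j.1⟩

variable {g P o}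

theorem aF_incG (i : Fin k) (p : GenU (g i) (n i)) :
    aF g P o (Product.incG i p) = incF g P o i (wO (g i) (P i) (o i) p) := by
  rcases p with p | p <;> rfl

theorem bF_incS (i : Fin k) (p : KO (g i) (P i) (o i) ⊕ IO (P i)) :
    bF g P o (incS (κ := fun i => KO (g i) (P i) (o i)) (ι := fun i => IO (P i)) i p) =
      Product.incG i (bO (g i) (P i) (o i) p) := by
  rcases p with (p | p) | p <;> rfl

theorem exists_incS (q : GF g P o) : ∃ (i : Fin k) (p : KO (g i) (P i) (o i) ⊕ IO (P i)),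
    q = incS (κ := fun i => KO (g i) (P i) (o i)) (ι := fun i => IO (P i)) i p := by
  rcases q with ⟨i, p⟩ | ⟨i, p⟩
  · exact ⟨i, Sum.inl p, rfl⟩
  · exact ⟨i, Sum.inr p, rfl⟩

theorem aF_bF (ho : ∀ i j, o i = some j → ¬ P i j) (q : GF g P o) :
    aF g P o (bF g P o q) = FreeGroup.of q := by
  obtain ⟨i, p, rfl⟩ := exists_incS q
  rw [bF_incS, aF_incG, wO_bO (ho i), incF, FreeGroup.map.of]

/-- The semisimple representations with prescribed classes at the marked points in `P`. -/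
def TP (g : Fin k → ℕ) (P : ∀ i, Fin (n i) → Prop)
    (C : ∀ i, Fin (n i) → SpecialLinearGroup (Fin r) ℂ) :
    Set (Gens g n → SpecialLinearGroup (Fin r) ℂ) :=
  {X | (∀ i, SRel fun p => X (Product.incG i p)) ∧
    (∀ p q : Gens g n, Product.factor p ≠ Product.factor q → X p * X q = X q * X p) ∧
    (∀ i j, P i j → IsConj (C i j) (X (Sum.inr ⟨i, j⟩))) ∧ IsSS X}

theorem comp_incF {H : Type*} [Group H] (x : FreeGroup (GF g P o) →* H) (i : Fin k)
    (w : FreeGroup (KO (g i) (P i) (o i) ⊕ IO (P i))) :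
    x (incF g P o i w) = (x.comp (incF g P o i)) w := rfl

theorem tp_to_tg (C : ∀ i, Fin (n i) → SpecialLinearGroup (Fin r) ℂ)
    (X : Gens g n → SpecialLinearGroup (Fin r) ℂ) (hX : X ∈ TP g P C) :
    X ∘ bF g P o ∈ TG (RelF g P o) (fun p => C p.1 p.2.1) ∧
      ∀ p, FreeGroup.lift (X ∘ bF g P o) (aF g P o p) = X p := by
  obtain ⟨h1, h2, h3, h4⟩ := hX
  have key : ∀ i, (∀ w ∈ RelO (g i) (P i) (o i),
      FreeGroup.lift (X ∘ bF g P o) (incF g P o i w) = 1) ∧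
      ∀ p, FreeGroup.lift (X ∘ bF g P o) (incF g P o i (wO (g i) (P i) (o i) p)) =
        X (Product.incG i p) := by
    intro i
    refine word_comp (fun p => X (Product.incG i p)) (h1 i)
      ((FreeGroup.lift (X ∘ bF g P o)).comp (incF g P o i)) fun p => ?_
    rw [MonoidHom.comp_apply, incF, FreeGroup.map.of, FreeGroup.lift_apply_of, Function.comp,
      bF_incS]
  have key2 : ∀ p, FreeGroup.lift (X ∘ bF g P o) (aF g P o p) = X p := by
    intro p
    obtain ⟨q, hq⟩ := Product.exists_incG p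
    rw [hq, aF_incG]
    exact (key _).2 q
  refine ⟨⟨?_, fun j => h3 j.1 j.2.1 j.2.2, ?_⟩, key2⟩
  · rintro w (⟨i, v, hv, rfl⟩ | ⟨i, j, p, q, hij, rfl⟩)
    · exact (key i).1 v hv
    · rw [map_mul, map_mul, map_mul, map_inv, map_inv, mul_inv_eq_one, mul_inv_eq_iff_eq_mul,
        FreeGroup.lift_apply_of, FreeGroup.lift_apply_of, Function.comp, Function.comp,
        bF_incS, bF_incS]
      exact h2 _ _ (by rw [Product.factor_incG, Product.factor_incG]; exact hij)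
  · intro W hW
    have hW' : IsInv X W := by
      have := hW.lift (aF g P o)
      rwa [funext key2] at this
    obtain ⟨W', h5, h6⟩ := h4 W hW'
    exact ⟨W', fun q => h5 _, h6⟩

/-- Words in different factors commute. -/
theorem commute_words {H : Type*} [Group H] (x : FreeGroup (GF g P o) →* H)
    (hx : ∀ w ∈ RelF g P o, x w = 1) {i j : Fin k} (hij : i ≠ j)
    (w : FreeGroup (KO (g i) (P i) (o i) ⊕ IO (P i)))
    (w' : FreeGroup (KO (g j) (P j) (o j) ⊕ IO (P j))) :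
    Commute (x (incF g P o i w)) (x (incF g P o j w')) := by
  have h0 : ∀ p q, Commute (x (incF g P o i (FreeGroup.of p)))
      (x (incF g P o j (FreeGroup.of q))) := by
    intro p q
    have := hx _ (Or.inr ⟨i, j, p, q, hij, rfl⟩)
    rw [map_mul, map_mul, map_mul, map_inv, map_inv, mul_inv_eq_one, mul_inv_eq_iff_eq_mul] at this
    rw [incF, incF, FreeGroup.map.of, FreeGroup.map.of]
    exact this
  have step : ∀ {K : Type} (z : FreeGroup K →* H) (y : H), (∀ p, Commute y (z (FreeGroup.of p))) →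
      ∀ w, Commute y (z w) := by
    intro K z y hy w
    have : (⊤ : Subgroup (FreeGroup K)) ≤ (Subgroup.centralizer {y}).comap z := by
      rw [← FreeGroup.closure_range_of, Subgroup.closure_le]
      rintro _ ⟨p, rfl⟩
      rw [SetLike.mem_coe, Subgroup.mem_comap, Subgroup.mem_centralizer_singleton_iff]
      exact (hy p).symm
    have h := this (Subgroup.mem_top w)
    rw [Subgroup.mem_comap, Subgroup.mem_centralizer_singleton_iff] at h
    exact h.symm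
  have h1 : ∀ q, Commute (x (incF g P o i w)) (x (incF g P o j (FreeGroup.of q))) := fun q =>
    (step (x.comp (incF g P o i)) _ (fun p => (h0 p q).symm) w).symm
  exact step (x.comp (incF g P o j)) _ h1 w'

theorem tg_to_tp (ho : ∀ i j, o i = some j → ¬ P i j)
    (C : ∀ i, Fin (n i) → SpecialLinearGroup (Fin r) ℂ)
    (X : GF g P o → SpecialLinearGroup (Fin r) ℂ)
    (hX : X ∈ TG (RelF g P o) (fun p => C p.1 p.2.1)) :
    (fun p => FreeGroup.lift X (aF g P o p)) ∈ TP g P C := by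
  obtain ⟨h1, h2, h3⟩ := hX
  have hb : ∀ q, FreeGroup.lift X (aF g P o (bF g P o q)) = X q := by
    intro q
    rw [aF_bF ho, FreeGroup.lift_apply_of]
  refine ⟨fun i => ?_, fun p q hpq => ?_, fun i j h => ?_, fun W hW => ?_⟩
  · simp only [aF_incG]
    exact srel_word ((FreeGroup.lift X).comp (incF g P o i)) fun w hw =>
      h1 _ (Or.inl ⟨i, w, hw, rfl⟩)
  · obtain ⟨p', hp'⟩ := Product.exists_incG p
    obtain ⟨q', hq'⟩ := Product.exists_incG q
    dsimp only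
    rw [hp', hq', aF_incG, aF_incG]
    exact commute_words (FreeGroup.lift X) h1 hpq _ _
  · have h4 := hb (Sum.inr ⟨i, ⟨j, h⟩⟩)
    change FreeGroup.lift X (aF g P o (Sum.inr ⟨i, j⟩)) = _ at h4
    simp only
    rw [h4]
    exact h2 ⟨i, ⟨j, h⟩⟩
  · have hW' : IsInv X W := by
      intro q v hv
      have := hW (bF g P o q) v hv
      simp only at this
      rwa [hb] at this
    obtain ⟨W', h5, h6⟩ := h3 W hW'
    exact ⟨W', h5.lift _, h6⟩

/-- Reduction to the presentation with one generator less for every curve with a free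
puncture. -/
theorem tp_dense {L : IntermediateField ℚ ℂ} (ho : ∀ i j, o i = some j → ¬ P i j)
    (C : ∀ i, Fin (n i) → SpecialLinearGroup (Fin r) ℂ)
    (h : IsDenseRep L (TG (RelF g P o) (fun p => C p.1 p.2.1))) : IsDenseRep L (TP g P C) :=
  tietze _ _ (aF g P o) (bF g P o) (tp_to_tg C) (tg_to_tp ho C) h

end fam

end Vale.Agent.P002R.Orb
end

section

/-!
# Free products of a free group and of groups with prescribed classes of the generators
-/

namespace Vale.Agent.P002R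

open Matrix

/-- Every class with eigenvalues in `E` contains a matrix which is integral up to a scalar. -/
theorem exists_int_class {R : Type*} [CommRing R] (φ : R →+* ℂ) (E : Subgroup ℂˣ) {r : ℕ}
    (hr : 0 < r) (hc : CoefOK φ E r) (C : (Mat r ℂ)ˣ) (hC : EigIn E (C : Mat r ℂ)) :
    ∃ (c : ℂˣ) (Z : SpecialLinearGroup (Fin r) R), IsConj C (scalarU c * slU φ Z) := by
  obtain ⟨d, ν, -, h2, h3, h4⟩ := P002.exists_jordan (C : Mat r ℂ)
  have hd : ∀ i, ∃ e ∈ E, (e : ℂ) = d i := by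
    intro i
    apply hC
    rw [h3, Polynomial.IsRoot.def, Polynomial.eval_prod]
    apply Finset.prod_eq_zero (Finset.mem_univ i)
    simp
  choose e heE he using hd
  obtain ⟨δ, hδ⟩ : ∃ δ : ℂˣ, δ = ∏ i, e i := ⟨_, rfl⟩
  have hδE : δ ∈ E := by
    rw [hδ]
    exact Subgroup.prod_mem E fun i _ => heE i
  obtain ⟨a, ha⟩ : ∃ a : ℂˣ, a ^ r = δ := by
    obtain ⟨z, hz⟩ := IsAlgClosed.exists_pow_nat_eq (δ : ℂ) hr
    have hz0 : z ≠ 0 := by
      rintro rfl
      rw [zero_pow hr.ne'] at hz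
      exact δ.ne_zero hz.symm
    exact ⟨Units.mk0 z hz0, Units.ext (by rw [Units.val_pow_eq_pow_val, Units.val_mk0, hz])⟩
  have hw : ∀ i, ∃ w : R, φ w = ((e i * a⁻¹ : ℂˣ) : ℂ) := by
    intro i
    obtain ⟨w, hw⟩ := hc.root r hr le_rfl (e i * a⁻¹) (by
      rw [mul_pow, inv_pow, ha]
      exact E.mul_mem (E.pow_mem (heE i) r) (E.inv_mem hδE))
    exact ⟨w, hw⟩
  choose w hw using hw
  have hlow : ∀ i j, j < i → (diagonal w + ν.map (Int.castRingHom R)) i j = 0 := by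
    intro i j hij
    rw [Matrix.add_apply, Matrix.diagonal_apply_ne _ hij.ne', Matrix.map_apply,
      h2 i j (not_lt.2 hij.le), map_zero, add_zero]
  have hdet : (diagonal w + ν.map (Int.castRingHom R)).det = 1 := by
    rw [Matrix.det_of_isUpperTriangular (fun i j hij => hlow i j hij)]
    have h5 : ∀ i, (diagonal w + ν.map (Int.castRingHom R)) i i = w i := by
      intro i
      rw [Matrix.add_apply, Matrix.diagonal_apply_eq, Matrix.map_apply, h2 i i (lt_irrefl i),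
        map_zero, add_zero]
    rw [Finset.prod_congr rfl fun i _ => h5 i]
    apply hc.inj
    rw [map_prod, map_one, Finset.prod_congr rfl fun i _ => hw i, ← Units.coe_prod,
      Finset.prod_mul_distrib, Finset.prod_const, Finset.card_univ, Fintype.card_fin, inv_pow, ha,
      hδ, mul_inv_cancel, Units.val_one]
  obtain ⟨P, hP⟩ := h4 a a.ne_zero
  refine ⟨a, ⟨_, hdet⟩, ?_⟩
  have h6 : (diagonal d + (a : ℂ) • ν.map (Int.cast : ℤ → ℂ) : Mat r ℂ) =
      ((scalarU a * slU φ ⟨_, hdet⟩ : (Mat r ℂ)ˣ) : Mat r ℂ) := by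
    change _ = algebraMap ℂ (Mat r ℂ) (a : ℂ) * ((diagonal w + ν.map (Int.castRingHom R)).map φ)
    rw [Algebra.algebraMap_eq_smul_one, Matrix.smul_mul, Matrix.one_mul]
    ext i j
    simp only [Matrix.add_apply, Matrix.smul_apply, Matrix.map_apply, map_add, smul_eq_mul,
      mul_add, eq_intCast, map_intCast]
    congr 1
    by_cases hij : i = j
    · subst hij
      rw [Matrix.diagonal_apply_eq, Matrix.diagonal_apply_eq, hw, Units.val_mul, he, mul_comm,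
        mul_assoc, Units.inv_mul, mul_one]
    · rw [Matrix.diagonal_apply_ne _ hij, Matrix.diagonal_apply_ne _ hij, map_zero, mul_zero]
  rw [h6] at hP
  refine (isConj_iff.2 ⟨P, ?_⟩).symm
  exact Units.ext (by rw [Units.val_mul, Units.val_mul]; exact hP.symm)

/-- The representations with given classes: all generators are moved by matrices of
determinant one. -/
noncomputable def yV {κ ι : Type} {r : ℕ} (a : κ → ℂˣ) (M : ι → (Mat r ℂ)ˣ)
    (V : κ ⊕ ι → SpecialLinearGroup (Fin r) ℂ) : FreeGroup (κ ⊕ ι) →* (Mat r ℂ)ˣ :=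
  FreeGroup.lift (Sum.elim (fun k => scalarU (a k) * SpecialLinearGroup.toGL (V (Sum.inl k)))
    (fun j => SpecialLinearGroup.toGL (V (Sum.inr j)) * M j *
      (SpecialLinearGroup.toGL (V (Sum.inr j)))⁻¹))

theorem yV_poly {κ ι : Type} {r : ℕ} (a : κ → ℂˣ) (M : ι → (Mat r ℂ)ˣ) {T : Type}
    (Φ : κ ⊕ ι → SpecialLinearGroup (Fin r) (MvPolynomial T ℤ))
    (G : MvPolynomial ((κ ⊕ ι) × Fin r × Fin r) ℂ) :
    ∃ p : MvPolynomial T ℂ, ∀ s : T → ℂ,
      MvPolynomial.eval s p = evalG (yV a M fun k => Statement.spec s (Φ k)) G := by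
  obtain ⟨Ψ, hΨ⟩ : ∃ Ψ : κ ⊕ ι → SpecialLinearGroup (Fin r) (MvPolynomial T ℂ), Ψ = fun k =>
      SpecialLinearGroup.map (MvPolynomial.map (Int.castRingHom ℂ)) (Φ k) := ⟨_, rfl⟩
  have hspec : ∀ (s : T → ℂ) (k : κ ⊕ ι),
      SpecialLinearGroup.map (MvPolynomial.eval s) (Ψ k) = Statement.spec s (Φ k) := by
    intro s k
    rw [hΨ]
    apply Subtype.ext
    ext i j
    change MvPolynomial.eval s (MvPolynomial.map (Int.castRingHom ℂ) ((Φ k).1 i j)) =
      MvPolynomial.eval₂ (Int.castRingHom ℂ) s ((Φ k).1 i j)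
    rw [MvPolynomial.eval_map]
  obtain ⟨B, hB⟩ : ∃ B : κ ⊕ ι → Matrix (Fin r) (Fin r) (MvPolynomial T ℂ), B = Sum.elim
      (fun k => (MvPolynomial.C (a k : ℂ) : MvPolynomial T ℂ) • (Ψ (Sum.inl k)).1)
      (fun j => (Ψ (Sum.inr j)).1 * (M j : Mat r ℂ).map MvPolynomial.C *
        (Ψ (Sum.inr j)).1.adjugate) := ⟨_, rfl⟩
  have hBs : ∀ (s : T → ℂ) (q : κ ⊕ ι), (B q).map (MvPolynomial.eval s) =
      (yV a M (fun k => Statement.spec s (Φ k)) (FreeGroup.of q) : Mat r ℂ) := by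
    intro s q
    rw [yV, FreeGroup.lift_apply_of, hB]
    rcases q with k | j
    · simp only [Sum.elim_inl]
      rw [← hspec]
      change _ = algebraMap ℂ (Mat r ℂ) (a k : ℂ) * ((Ψ (Sum.inl k)).1.map (MvPolynomial.eval s))
      rw [Algebra.algebraMap_eq_smul_one, Matrix.smul_mul, Matrix.one_mul]
      ext i j
      simp [Matrix.map_apply, Matrix.smul_apply]
    · simp only [Sum.elim_inr]
      rw [← hspec]
      have h1 : (((SpecialLinearGroup.toGL
          (SpecialLinearGroup.map (MvPolynomial.eval s) (Ψ (Sum.inr j))))⁻¹ : (Mat r ℂ)ˣ) :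
          Mat r ℂ) = (Ψ (Sum.inr j)).1.adjugate.map (MvPolynomial.eval s) := by
        rw [← map_inv]
        change ((SpecialLinearGroup.map (MvPolynomial.eval s) (Ψ (Sum.inr j)))⁻¹).1 = _
        rw [Matrix.SpecialLinearGroup.coe_inv]
        exact (RingHom.map_adjugate (MvPolynomial.eval s) _).symm
      rw [Units.val_mul, Units.val_mul, h1]
      have h2 : ((M j : Mat r ℂ).map (MvPolynomial.C (σ := T))).map (MvPolynomial.eval s) =
          (M j : Mat r ℂ) := by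
        ext i j'
        simp [Matrix.map_apply]
      rw [Matrix.map_mul, Matrix.map_mul, h2]
      rfl
  refine ⟨MvPolynomial.aeval (fun p : (κ ⊕ ι) × Fin r × Fin r => B p.1 p.2.1 p.2.2) G,
    fun s => ?_⟩
  rw [evalG_eq_eval]
  have h3 : ((MvPolynomial.aeval s : MvPolynomial T ℂ →ₐ[ℂ] ℂ)).comp
      (MvPolynomial.aeval (R := ℂ) (fun p : (κ ⊕ ι) × Fin r × Fin r => B p.1 p.2.1 p.2.2)) =
      MvPolynomial.aeval (fun p : (κ ⊕ ι) × Fin r × Fin r =>
        (yV a M (fun k => Statement.spec s (Φ k)) (FreeGroup.of p.1) : Mat r ℂ) p.2.1 p.2.2) := by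
    apply MvPolynomial.algHom_ext
    intro p
    rw [AlgHom.comp_apply, MvPolynomial.aeval_X, MvPolynomial.aeval_X, ← hBs]
    rfl
  exact DFunLike.congr_fun h3 G

theorem free_irrDense_cls {κ ι : Type} {R : Type*} [CommRing R] (φ : R →+* ℂ) (E : Subgroup ℂˣ)
    {r : ℕ} (hr : 0 < r) (hc : CoefOK φ E r) :
    IrrDense (∅ : Set (FreeGroup (κ ⊕ ι))) φ E r := by
  intro C hC x hx hirr f hf
  have htop := adjoin_gen_eq_top x (burnside_top x hx.2.2 hirr)
  obtain ⟨D, hD0, hD⟩ := Statement.exists_generating_poly_at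
    (fun k => (x (FreeGroup.of k) : Mat r ℂ)) htop
  choose c Z hZ using fun j => exists_int_class φ E hr hc (C j) (hC j)
  obtain ⟨M, hM⟩ : ∃ M : ι → (Mat r ℂ)ˣ, M = fun j => scalarU (c j) * slU φ (Z j) := ⟨_, rfl⟩
  -- the given representation
  have hx' : ∃ (a : κ → ℂˣ) (V : κ ⊕ ι → SpecialLinearGroup (Fin r) ℂ), x = yV a M V := by
    have hdet : ∀ U : (Mat r ℂ)ˣ, (U : Mat r ℂ).det ≠ 0 := fun U =>
      ((Matrix.isUnit_iff_isUnit_det _).1 U.isUnit).ne_zero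
    have h1 : ∀ k : κ, ∃ (a : ℂˣ) (V : SpecialLinearGroup (Fin r) ℂ),
        x (FreeGroup.of (Sum.inl k)) = scalarU a * SpecialLinearGroup.toGL V := by
      intro k
      obtain ⟨s, Q, hs, hQ⟩ := Statement.exists_scale hr _ (hdet (x (FreeGroup.of (Sum.inl k))))
      refine ⟨(Units.mk0 s hs)⁻¹, Q, Units.ext ?_⟩
      change _ = algebraMap ℂ (Mat r ℂ) (((Units.mk0 s hs)⁻¹ : ℂˣ) : ℂ) * (Q : Mat r ℂ)
      rw [hQ, Algebra.algebraMap_eq_smul_one, Matrix.smul_mul, Matrix.one_mul, smul_smul,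
        Units.val_inv_eq_inv_val, Units.val_mk0, inv_mul_cancel₀ hs, one_smul]
    have h2 : ∀ j : ι, ∃ V : SpecialLinearGroup (Fin r) ℂ,
        x (FreeGroup.of (Sum.inr j)) =
          SpecialLinearGroup.toGL V * M j * (SpecialLinearGroup.toGL V)⁻¹ := by
      intro j
      have h3 : IsConj (M j) (x (FreeGroup.of (Sum.inr j))) := by
        rw [hM]
        exact (hZ j).symm.trans (hx.2.1 j)
      obtain ⟨U, hU⟩ := isConj_iff.1 h3
      obtain ⟨s, Q, hs, hQ⟩ := Statement.exists_scale hr _ (hdet U)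
      refine ⟨Q, ?_⟩
      have h4 : SpecialLinearGroup.toGL Q = scalarU (Units.mk0 s hs) * U := by
        apply Units.ext
        change (Q : Mat r ℂ) = algebraMap ℂ (Mat r ℂ) ((Units.mk0 s hs : ℂˣ) : ℂ) * (U : Mat r ℂ)
        rw [hQ, Algebra.algebraMap_eq_smul_one, Matrix.smul_mul, Matrix.one_mul, Units.val_mk0]
      have h5 := scalarU_comm (Units.mk0 s hs) (U * M j * U⁻¹)
      calc x (FreeGroup.of (Sum.inr j)) =
          (U * M j * U⁻¹) * scalarU (Units.mk0 s hs) * (scalarU (Units.mk0 s hs))⁻¹ := by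
            rw [mul_inv_cancel_right, hU]
        _ = scalarU (Units.mk0 s hs) * (U * M j * U⁻¹) * (scalarU (Units.mk0 s hs))⁻¹ := by
            rw [h5]
        _ = SpecialLinearGroup.toGL Q * M j * (SpecialLinearGroup.toGL Q)⁻¹ := by
            rw [h4, _root_.mul_inv_rev]
            simp only [mul_assoc]
    choose a V hV using h1
    choose V' hV' using h2
    refine ⟨a, Sum.elim V V', ?_⟩
    apply FreeGroup.ext_hom
    rintro (k | j)
    · rw [yV, FreeGroup.lift_apply_of, Sum.elim_inl, hV, Sum.elim_inl]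
    · rw [yV, FreeGroup.lift_apply_of, Sum.elim_inr, hV', Sum.elim_inr]
  obtain ⟨a, V, rfl⟩ := hx'
  obtain ⟨T, Φ, t, -, ht, -⟩ := Statement.exists_family V V
  obtain ⟨p, hp⟩ := yV_poly a M Φ (D * f)
  have hp0 : p = 0 := by
    apply Statement.eq_zero_of_int
    intro s
    rw [hp]
    obtain ⟨Y, hY⟩ : ∃ Y : κ ⊕ ι → SpecialLinearGroup (Fin r) ℤ,
        Y = fun k => Statement.spec s (Φ k) := ⟨_, rfl⟩
    have h2 : (fun k => Statement.spec (fun i => (s i : ℂ)) (Φ k)) =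
        fun k => SpecialLinearGroup.map (Int.castRingHom ℂ) (Y k) := by
      funext k
      rw [hY]
      apply Subtype.ext
      ext i j
      change MvPolynomial.eval₂ (Int.castRingHom ℂ) (fun i => (s i : ℂ)) ((Φ k).1 i j) =
        Int.castRingHom ℂ (MvPolynomial.eval₂ (Int.castRingHom ℤ) s ((Φ k).1 i j))
      rw [MvPolynomial.hom_eval₂]
      congr 1
    rw [h2]
    obtain ⟨y, hy⟩ : ∃ y, y = yV a M fun k => SpecialLinearGroup.map (Int.castRingHom ℂ) (Y k) :=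
      ⟨_, rfl⟩
    rw [← hy, map_mul, mul_eq_zero, or_iff_not_imp_left]
    intro h3
    rw [evalG_eq_eval] at h3
    have h4 := hD (fun k => (y (FreeGroup.of k) : Mat r ℂ)) h3
    have h5 : Algebra.adjoin ℂ (Set.range fun w => (y w : Mat r ℂ)) = ⊤ := by
      rw [eq_top_iff, ← h4]
      apply Algebra.adjoin_mono
      rintro _ ⟨k, rfl⟩
      exact ⟨FreeGroup.of k, rfl⟩
    have h6 : ∀ k, SpecialLinearGroup.toGL (SpecialLinearGroup.map (Int.castRingHom ℂ) (Y k)) =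
        slU φ (SpecialLinearGroup.map (Int.castRingHom R) (Y k)) := by
      intro k
      apply Units.ext
      change (Y k).1.map (Int.castRingHom ℂ) = ((Y k).1.map (Int.castRingHom R)).map φ
      ext i j
      simp
    have h7 : ∀ Y : SpecialLinearGroup (Fin r) R, slU φ Y ∈ GR r φ := fun Y =>
      ⟨1, Y, by rw [map_one, one_mul]⟩
    refine hf y ⟨⟨⟨fun w hw => absurd hw (Set.notMem_empty w), fun j => ?_,
      ss_of_adjoin y h5⟩, ?_⟩, h5⟩
    · refine (hZ j).trans ?_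
      rw [hy, yV, FreeGroup.lift_apply_of, Sum.elim_inr, hM]
      exact isConj_iff.2 ⟨_, rfl⟩
    · rintro (k | j)
      · rw [hy, yV, FreeGroup.lift_apply_of, Sum.elim_inl, h6]
        exact ⟨_, _, rfl⟩
      · rw [hy, yV, FreeGroup.lift_apply_of, Sum.elim_inr, h6, hM]
        exact (GR r φ).mul_mem ((GR r φ).mul_mem (h7 _) ⟨_, _, rfl⟩) ((GR r φ).inv_mem (h7 _))
  have h8 := hp t
  rw [hp0, map_zero, funext ht, map_mul, eq_comm, mul_eq_zero] at h8
  rcases h8 with h8 | h8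
  · rw [evalG_eq_eval] at h8
    exact absurd h8 hD0
  · exact h8

end Vale.Agent.P002R
end

section

/-!
# Density for products of curves with free punctures and prescribed classes
-/

namespace Vale.Agent.P002R.Orb

open Matrix NumberField Vale.Agent.P002L

section curve

variable {g n : ℕ} {r : ℕ}

/-- One curve with prescribed classes. -/
theorem curve_irrDenseQ3 {R : Type} [CommRing R] (h01 : G01Irr) (hR : G0R) (φ : R →+* ℂ)
    (E : Subgroup ℂˣ) (hc : CoefOK φ E r)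
    (hUP : ∀ (u : Rˣ) (D : R), D ≠ 0 → ∃ M : ℕ, 0 < M ∧ D ∣ (u : R) ^ M - 1)
    (C : Fin n → SpecialLinearGroup (Fin r) ℂ) (hg : Product.OKCurve3 g n r C)
    (h1 : g = 1 → n = 0 ∨ TorOK φ E r) :
    ∀ r' ≤ r, 0 < r' → IrrDenseQ (fun j => QD E (HasCyc r (C j).1) (RO r (C j).1))
      ({relatorU g n} : Set (FreeGroup ((Fin g × Bool) ⊕ Fin n))) φ r' := by
  intro r' hr' hr'0
  by_cases h : 2 ≤ g ∨ n = 0
  · exact (surface_irrDense φ E hc h r' hr' hr'0).toQ fun j M hM => hM.1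
  by_cases h2 : g = 0 ∧ n ≤ 2
  · exact (abel_irrDense φ E _ (fun r'' x hx => surface_comm (Or.inl h2) r'' x hx) r' hr'0).toQ
      fun j M hM => hM.1
  · have h3 : ¬ Product.OKCurve g n := by
      unfold Product.OKCurve
      omega
    refine Product.low_irrDenseQ3 h01 hR φ E hc hUP C hg h3 (fun h4 => ?_) r' hr' hr'0
    exact (h1 h4).resolve_left fun h5 => h (Or.inr h5)

variable {P : Fin n → Prop} {o : Option (Fin n)}

/-- One curve, general form. -/
theorem relO_irrDenseQ {R : Type} [CommRing R] (h01 : G01Irr) (hR : G0R) (φ : R →+* ℂ)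
    (E : Subgroup ℂˣ) (hc : CoefOK φ E r)
    (hUP : ∀ (u : Rˣ) (D : R), D ≠ 0 → ∃ M : ℕ, 0 < M ∧ D ∣ (u : R) ^ M - 1)
    (C : Fin n → SpecialLinearGroup (Fin r) ℂ) (hn : o = none → ∀ j, P j)
    (hg : o = none → Product.OKCurve3 g n r C)
    (h1 : o = none → g = 1 → n = 0 ∨ TorOK φ E r) :
    ∀ r' ≤ r, 0 < r' → IrrDenseQ (fun j : IO P => QD E (HasCyc r (C j.1).1) (RO r (C j.1).1))
      (RelO g P o) φ r' := by
  intro r' hr' hr'0
  rcases o with _ | j₀
  · have hE : IsEmpty {j : Fin n // ¬ P j ∧ (none : Option (Fin n)) ≠ some j} :=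
      ⟨fun j => j.2.1 (hn rfl j.1)⟩
    refine IrrDenseQ.congr (Equiv.sumEmpty (Fin g × Bool) _).symm
      (Equiv.subtypeUnivEquiv (hn rfl)).symm (fun j M hM => hM) _ _ (fun y => ?_)
      (curve_irrDenseQ3 h01 hR φ E hc hUP C (hg rfl) (h1 rfl) r' hr' hr'0)
    have h2 : y (renE (Equiv.sumEmpty (Fin g × Bool) _).symm.symm
        (Equiv.subtypeUnivEquiv (hn rfl)).symm.symm (tO g P none)) =
        (List.ofFn fun l : Fin g => y (FreeGroup.of (Sum.inl (l, false))) *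
          y (FreeGroup.of (Sum.inl (l, true))) * (y (FreeGroup.of (Sum.inl (l, false))))⁻¹ *
          (y (FreeGroup.of (Sum.inl (l, true))))⁻¹).prod *
          (List.ofFn fun j : Fin n => y (FreeGroup.of (Sum.inr j))).prod := by
      rw [tO, hO, map_mul, map_mul, map_list_prod, map_list_prod, map_list_prod, map_list_prod,
        List.map_ofFn, List.map_ofFn, List.map_ofFn, List.map_ofFn]
      congr 3
      · funext l
        simp only [Function.comp, map_mul, map_inv, renE_inl]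
        rfl
      · funext j
        simp only [Function.comp, gO]
        rw [dif_pos (hn rfl j), renE_inr]
        rfl
    have h3 : y (relatorU g n) = (List.ofFn fun j : Fin n => y (FreeGroup.of (Sum.inr j))).prod *
        (List.ofFn fun l : Fin g => y (FreeGroup.of (Sum.inl (l, false))) *
          y (FreeGroup.of (Sum.inl (l, true))) * (y (FreeGroup.of (Sum.inl (l, false))))⁻¹ *
          (y (FreeGroup.of (Sum.inl (l, true))))⁻¹).prod := by
      rw [relatorU_eqn, map_mul, map_list_prod, map_list_prod, List.map_ofFn, List.map_ofFn]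
      congr 3
      funext l
      simp only [Function.comp, map_mul, map_inv]
    constructor
    · rintro hy w ⟨-, rfl⟩
      rw [h2]
      have := hy _ rfl
      rw [h3, mul_eq_one_iff_eq_inv] at this
      rw [this, mul_inv_cancel]
    · rintro hy w hw
      rw [Set.mem_singleton_iff.1 hw, h3]
      have := hy _ ⟨rfl, rfl⟩
      rw [h2, mul_eq_one_iff_eq_inv] at this
      rw [this, mul_inv_cancel]
  · have h2 : RelO g P (some j₀) = ∅ := by
      rw [Set.eq_empty_iff_forall_notMem]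
      rintro w ⟨h, -⟩
      cases h
    rw [h2]
    exact (free_irrDense_cls φ E hr'0 (hc.le_mono hr')).toQ fun j M hM => hM.1

end curve

variable {k r : ℕ} {g n : Fin k → ℕ}

/-- Density of the integral representations. -/
theorem density_mixed (h01 : G01Irr) (hR : G0R) (P : ∀ i, Fin (n i) → Prop)
    (C : ∀ i, Fin (n i) → SpecialLinearGroup (Fin r) ℂ)
    (E : Subgroup ℂˣ) (hC : ∀ i j, P i j → EigIn E ((C i j).1))
    (hg : ∀ i, (∀ j, P i j) → Product.OKCurve3 (g i) (n i) r (C i)) (L : IntermediateField ℚ ℂ)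
    (hL : FiniteDimensional ℚ L) (hc : CoefOK (phiO (algebraMap L ℂ)) E r)
    (hT : (∀ i, g i = 1 → (∀ j, P i j) → n i = 0) ∨ TorOK (phiO (algebraMap L ℂ)) E r) :
    IsDenseRep L (TP g P C) := by
  have ho : ∀ i, ∃ o : Option (Fin (n i)), (∀ j, o = some j → ¬ P i j) ∧
      (o = none → ∀ j, P i j) := by
    intro i
    by_cases h : ∃ j, ¬ P i j
    · obtain ⟨j, hj⟩ := h
      refine ⟨some j, fun j' hj' => ?_, fun h => ?_⟩
      · rw [← Option.some.inj hj']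
        exact hj
      · cases h
    · push Not at h
      exact ⟨none, fun j hj => (by cases hj), fun _ => h⟩
  choose o ho hn using ho
  refine tp_dense ho C ?_
  refine density_gen (RelF g P o) ?_ _ E
    (fun p => QD E (HasCyc r (C p.1 p.2.1).1) (RO r (C p.1 p.2.1).1))
    (fun p => classOK_QD E _ _) (fun p => ⟨hC _ _ p.2.2, id, id⟩) L hL hc ?_
  · exact famRel_charOK _ fun i => RelO_charOK (hn i)
  · refine fam_irrDenseQ _ E r k _ _
      (fun i (j : IO (P i)) => QD E (HasCyc r (C i j.1).1) (RO r (C i j.1).1))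
      (fun i j => classOK_QD E _ _) _ fun i => ?_
    refine relO_irrDenseQ h01 hR _ E hc (Product.hUP_field L hL) (C i) (hn i)
      (fun h => hg i (hn i h)) fun h h1 => ?_
    exact hT.imp_left fun h2 => h2 i h1 (hn i h)

end Vale.Agent.P002R.Orb
end

section

/-!
# Potential density of integral points for products of orbifold curves
-/

namespace Vale.Agent.P002R.Orb

open Matrix NumberField Vale.Agent.P002L commutatorElement

variable {k r : ℕ} {g n : Fin k → ℕ}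

theorem dense_of_cover {ι : Type} {L : IntermediateField ℚ ℂ}
    (T : Set (ι → SpecialLinearGroup (Fin r) ℂ))
    (h : ∀ X ∈ T, ∃ T' ⊆ T, X ∈ T' ∧ IsDenseRep L T') : IsDenseRep L T := by
  intro F hF X hX
  obtain ⟨T', h1, h2, h3⟩ := h X hX
  exact h3 F (fun Z hZ hZ' => hF Z (h1 hZ) hZ') X h2

theorem IsNonderogatory.conj {M N : SpecialLinearGroup (Fin r) ℂ} (h : IsConj M N)
    (hM : IsNonderogatory M) : IsNonderogatory N := by
  obtain ⟨U, rfl⟩ := isConj_iff.1 h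
  obtain ⟨v, hv⟩ := hM
  have hU : U.1⁻¹ * U.1 = 1 := Matrix.nonsing_inv_mul _ (by rw [U.2]; exact isUnit_one)
  have hU' : (U⁻¹).1 = U.1⁻¹ := by
    rw [Matrix.inv_def, U.2, Ring.inverse_one, one_smul]
    exact Matrix.SpecialLinearGroup.coe_inv U
  refine ⟨U.1 *ᵥ v, ?_⟩
  have h1 : ∀ i : ℕ, (U * M * U⁻¹).1 ^ i = U.1 * M.1 ^ i * U.1⁻¹ := by
    intro i
    have h2 : (U * M * U⁻¹).1 = U.1 * M.1 * U.1⁻¹ := by
      rw [← hU']
      rfl
    rw [h2]
    induction i with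
    | zero =>
      rw [pow_zero, pow_zero, Matrix.mul_one]
      exact (Matrix.mul_nonsing_inv _ (by rw [U.2]; exact isUnit_one)).symm
    | succ i ih =>
      rw [pow_succ, ih, pow_succ]
      simp only [Matrix.mul_assoc]
      rw [← Matrix.mul_assoc U.1⁻¹ U.1, hU, Matrix.one_mul]
  have h3 : (fun i : Fin r => ((U * M * U⁻¹).1 ^ (i : ℕ)) *ᵥ (U.1 *ᵥ v)) =
      fun i : Fin r => U.1.mulVecLin ((M.1 ^ (i : ℕ)) *ᵥ v) := by
    funext i
    rw [h1, Matrix.mulVec_mulVec, Matrix.mul_assoc, hU, Matrix.mul_one, ← Matrix.mulVec_mulVec]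
    rfl
  rw [h3]
  refine hv.map' _ (LinearMap.ker_eq_bot.2 fun a b hab => ?_)
  have h4 := congrArg (fun w => U.1⁻¹ *ᵥ w) hab
  simpa only [Matrix.mulVecLin_apply, Matrix.mulVec_mulVec, hU, Matrix.one_mulVec] using h4

theorem rank_conj {M N : SpecialLinearGroup (Fin r) ℂ} (h : IsConj M N) (z : ℂ) :
    (N.1 - z • (1 : Mat r ℂ)).rank = (M.1 - z • (1 : Mat r ℂ)).rank := by
  obtain ⟨U, rfl⟩ := isConj_iff.1 h
  have h1 : (U * M * U⁻¹).1 - z • (1 : Mat r ℂ) = U.1 * (M.1 - z • (1 : Mat r ℂ)) * (U⁻¹).1 := by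
    have h2 : U.1 * (U⁻¹).1 = 1 := by
      have := congrArg Subtype.val (mul_inv_cancel U)
      exact this
    rw [Matrix.mul_sub, Matrix.sub_mul, Matrix.mul_smul, Matrix.mul_one, Matrix.smul_mul, h2]
    rfl
  rw [h1, Matrix.rank_mul_eq_left_of_isUnit_det _ _ (by rw [(U⁻¹).2]; exact isUnit_one),
    Matrix.rank_mul_eq_right_of_isUnit_det _ _ (by rw [U.2]; exact isUnit_one)]

theorem eigenvalue_conj {M N : SpecialLinearGroup (Fin r) ℂ} (h : IsConj M N) {z : ℂ}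
    (hz : IsEigenvalue N z) : IsEigenvalue M z := by
  have h1 := Statement.toGL_isConj _ _ h
  obtain ⟨U, hU⟩ := isConj_iff.1 h1
  have h2 : N.1 = (U : Mat r ℂ) * M.1 * ((U⁻¹ : (Mat r ℂ)ˣ) : Mat r ℂ) := by
    have := congrArg (fun V : (Mat r ℂ)ˣ => (V : Mat r ℂ)) hU
    exact this.symm
  have h3 : N.1.charpoly = M.1.charpoly := by
    rw [h2, Matrix.coe_units_inv]
    exact Matrix.charpoly_units_conj U M.1
  unfold IsEigenvalue at hz ⊢
  rwa [h3] at hz

theorem eigenvalue_pow {M : SpecialLinearGroup (Fin r) ℂ} {m : ℕ} (h : M ^ m = 1) {z : ℂ}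
    (hz : IsEigenvalue M z) : z ^ m = 1 := by
  refine nilpotent_eigen M.1 m ?_ z hz
  have h1 : M.1 ^ m = 1 := by
    have := congrArg Subtype.val h
    exact (Matrix.SpecialLinearGroup.coe_pow M m).symm.trans this
  rw [h1, sub_self]
  exact IsNilpotent.zero

/-! ### The group of the product of orbifold curves -/

theorem isRep_iff (m : ∀ i, Fin (n i) → ℕ) (X : Gens g n → SpecialLinearGroup (Fin r) ℂ) :
    IsRep (Rels g n m) X ↔ (∀ i, SRel fun p => X (Product.incG i p)) ∧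
      (∀ p q : Gens g n, Product.factor p ≠ Product.factor q → X p * X q = X q * X p) ∧
      ∀ i j, X (Sum.inr ⟨i, j⟩) ^ m i j = 1 := by
  have h1 : ∀ i, FreeGroup.lift X ((List.ofFn fun l : Fin (g i) =>
      ⁅(FreeGroup.of (Sum.inl ⟨i, l, false⟩) : FreeGroup (Gens g n)),
        (FreeGroup.of (Sum.inl ⟨i, l, true⟩) : FreeGroup (Gens g n))⁆).prod *
      (List.ofFn fun j : Fin (n i) =>
        (FreeGroup.of (Sum.inr ⟨i, j⟩) : FreeGroup (Gens g n))).prod) =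
      (List.ofFn fun l : Fin (g i) => X (Sum.inl ⟨i, l, false⟩) * X (Sum.inl ⟨i, l, true⟩) *
        (X (Sum.inl ⟨i, l, false⟩))⁻¹ * (X (Sum.inl ⟨i, l, true⟩))⁻¹).prod *
      (List.ofFn fun j : Fin (n i) => X (Sum.inr ⟨i, j⟩)).prod := by
    intro i
    rw [map_mul, map_list_prod, map_list_prod, List.map_ofFn, List.map_ofFn]
    congr 3
    · funext l
      simp only [Function.comp, commutatorElement_def, map_mul, map_inv, FreeGroup.lift_apply_of]
    · funext j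
      simp only [Function.comp, FreeGroup.lift_apply_of]
  constructor
  · intro h
    refine ⟨fun i => ?_, fun p q hpq => ?_, fun i j => ?_⟩
    · have := h _ (Or.inl ⟨i, rfl⟩)
      rw [h1] at this
      exact this
    · have := h _ (Or.inr (Or.inl ⟨p, q, hpq, rfl⟩))
      rw [commutatorElement_def, map_mul, map_mul, map_mul, map_inv, map_inv, mul_inv_eq_one,
        mul_inv_eq_iff_eq_mul, FreeGroup.lift_apply_of, FreeGroup.lift_apply_of] at this
      exact this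
    · have := h _ (Or.inr (Or.inr ⟨i, j, rfl⟩))
      rwa [map_pow, FreeGroup.lift_apply_of] at this
  · rintro ⟨h2, h3, h4⟩ w (⟨i, rfl⟩ | ⟨p, q, hpq, rfl⟩ | ⟨i, j, rfl⟩)
    · rw [h1]
      exact h2 i
    · rw [commutatorElement_def, map_mul, map_mul, map_mul, map_inv, map_inv, mul_inv_eq_one,
        mul_inv_eq_iff_eq_mul, FreeGroup.lift_apply_of, FreeGroup.lift_apply_of]
      exact h3 p q hpq
    · rw [map_pow, FreeGroup.lift_apply_of]
      exact h4 i j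

variable (m : ∀ i, Fin (n i) → ℕ) (S : ∀ i, Set (Fin (n i)))
  (C : ∀ i, Fin (n i) → SpecialLinearGroup (Fin r) ℂ)

/-- The piece of `Y` that contains a given representation. -/
theorem cover (X : Gens g n → SpecialLinearGroup (Fin r) ℂ)
    (hX : X ∈ Z m S C) :
    TP g (fun i j => j ∈ S i ∨ m i j ≠ 0) (fun i j => X (Sum.inr ⟨i, j⟩)) ⊆ Z m S C ∧
    X ∈ TP g (fun i j => j ∈ S i ∨ m i j ≠ 0) (fun i j => X (Sum.inr ⟨i, j⟩)) := by
  obtain ⟨⟨⟨h1, h2⟩, h3⟩, h4⟩ := hX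
  rw [isRep_iff] at h1
  constructor
  · rintro Z ⟨z1, z2, z3, z4⟩
    refine ⟨⟨⟨(isRep_iff m Z).2 ⟨z1, z2, fun i j => ?_⟩, z4⟩, fun i j hj =>
      (h3 i j hj).trans (z3 i j (Or.inl hj))⟩, fun i => ?_⟩
    · by_cases hm : m i j = 0
      · rw [hm, pow_zero]
      · obtain ⟨U, hU⟩ := isConj_iff.1 (z3 i j (Or.inr hm))
        rw [← hU, conj_pow, h1.2.2 i j, mul_one, mul_inv_cancel]
    · by_cases hf : ∃ j, m i j = 0 ∧ j ∉ S i
      · exact Or.inr (Or.inr (Or.inr (Or.inl hf)))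
      have hc : ∀ j, IsConj (X (Sum.inr ⟨i, j⟩)) (Z (Sum.inr ⟨i, j⟩)) := by
        intro j
        refine z3 i j ?_
        by_contra hcon
        push Not at hcon
        exact hf ⟨j, hcon.2, hcon.1⟩
      rcases h4 i with h | h | h | h | ⟨j, h⟩ | ⟨j₀, h⟩
      · exact Or.inl h
      · exact Or.inr (Or.inl h)
      · exact Or.inr (Or.inr (Or.inl h))
      · exact absurd h hf
      · exact Or.inr (Or.inr (Or.inr (Or.inr (Or.inl ⟨j, h.conj (hc j)⟩))))
      · refine Or.inr (Or.inr (Or.inr (Or.inr (Or.inr ⟨j₀, fun j hj => ?_⟩))))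
        obtain ⟨z, hz⟩ := h j hj
        exact ⟨z, by rw [rank_conj (hc j)]; exact hz⟩
  · exact ⟨h1.1, h1.2.1, fun i j _ => IsConj.refl _, h2⟩

theorem good_curve (X : Gens g n → SpecialLinearGroup (Fin r) ℂ) (hX : X ∈ Z m S C) (i : Fin k)
    (h : ∀ j, j ∈ S i ∨ m i j ≠ 0) :
    Product.OKCurve3 (g i) (n i) r fun j => X (Sum.inr ⟨i, j⟩) := by
  apply Product.okCurve3_of
  rcases hX.2 i with h' | h' | h' | ⟨j, h1, h2⟩ | ⟨j, h'⟩ | ⟨j₀, h'⟩
  · exact Or.inl h'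
  · exact Or.inr (Or.inl h')
  · exact Or.inr (Or.inr (Or.inl h'))
  · exact ((h j).elim h2 fun h3 => h3 h1).elim
  · exact Or.inr (Or.inr (Or.inr (Or.inl ⟨j, h'⟩)))
  · exact Or.inr (Or.inr (Or.inr (Or.inr ⟨j₀, h'⟩)))

/-- Existence of the field. -/
theorem exists_density_orb (h01 : G01Irr) (hR : G0R)
    (hC : ∀ i, ∀ j ∈ S i, ∀ z, IsEigenvalue (C i j) z → IsIntegral ℤ z ∧ IsIntegral ℤ z⁻¹) :
    ∃ L : IntermediateField ℚ ℂ, FiniteDimensional ℚ L ∧ IsDenseRep L (Z (g := g) m S C) := by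
  obtain ⟨V, hV⟩ : ∃ V : Set ℂˣ, V = {z : ℂˣ | (∃ i, ∃ j ∈ S i, IsEigenvalue (C i j) (z : ℂ)) ∨
      ∃ i j, m i j ≠ 0 ∧ (z : ℂ) ^ m i j = 1} := ⟨_, rfl⟩
  have hVf : V.Finite := by
    have h1 : (⋃ p : (i : Fin k) × Fin (n i), {z : ℂ | (C p.1 p.2).1.charpoly.IsRoot z}).Finite :=
      Set.finite_iUnion fun p => Polynomial.finite_setOfPred_isRoot
        (Matrix.charpoly_monic _).ne_zero
    have h2 : (⋃ p : (i : Fin k) × Fin (n i),
        {z : ℂ | m p.1 p.2 ≠ 0 ∧ z ^ m p.1 p.2 = 1}).Finite := by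
      refine Set.finite_iUnion fun p => ?_
      by_cases hm : m p.1 p.2 = 0
      · refine Set.Finite.subset Set.finite_empty fun z hz => ?_
        exact (hz.1 hm).elim
      · refine Set.Finite.subset (Polynomial.finite_setOfPred_isRoot
          (Polynomial.X_pow_sub_C_ne_zero (Nat.pos_of_ne_zero hm) (1 : ℂ))) fun z hz => ?_
        change Polynomial.eval z _ = 0
        rw [Polynomial.eval_sub, Polynomial.eval_pow, Polynomial.eval_X, Polynomial.eval_C, hz.2,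
          sub_self]
    refine Set.Finite.of_injOn (f := fun z : ℂˣ => (z : ℂ)) ?_ (Units.val_injective.injOn)
      (h1.union h2)
    intro z hz
    rw [hV] at hz
    rcases hz with ⟨i, j, -, hz⟩ | ⟨i, j, hz⟩
    · exact Or.inl (Set.mem_iUnion.2 ⟨⟨i, j⟩, hz⟩)
    · exact Or.inr (Set.mem_iUnion.2 ⟨⟨i, j⟩, hz⟩)
  obtain ⟨L, hL, hc, hT⟩ := exists_tor_field V hVf (fun z hz => by
    rw [hV] at hz
    rw [Units.val_inv_eq_inv_val]
    rcases hz with ⟨i, j, hj, hz⟩ | ⟨i, j, hm, hz⟩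
    · exact hC i j hj z hz
    · refine ⟨IsIntegral.of_pow (Nat.pos_of_ne_zero hm) (by rw [hz]; exact isIntegral_one),
        IsIntegral.of_pow (Nat.pos_of_ne_zero hm) ?_⟩
      rw [inv_pow, hz, inv_one]
      exact isIntegral_one) r
  refine ⟨L, hL, dense_of_cover _ fun X hX => ?_⟩
  obtain ⟨h1, h2⟩ := cover m S C X hX
  refine ⟨_, h1, h2, density_mixed h01 hR _ _ _ (fun i j hj z hz => ?_)
    (fun i h => good_curve m S C X hX i h) L hL hc (Or.inr hT)⟩
  have hz0 : z ≠ 0 := by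
    rintro rfl
    have h3 : (X (Sum.inr ⟨i, j⟩)).1.charpoly.eval 0 = 0 := hz
    rw [Matrix.eval_charpoly, map_zero, zero_sub, Matrix.det_neg, (X (Sum.inr ⟨i, j⟩)).2,
      mul_one] at h3
    exact pow_ne_zero _ (by norm_num) h3
  refine ⟨Units.mk0 z hz0, Subgroup.subset_closure (Set.mem_insert_of_mem _ ?_), rfl⟩
  rw [hV]
  rcases hj with hj | hj
  · exact Or.inl ⟨i, j, hj, eigenvalue_conj (hX.1.2 i j hj) hz⟩
  · exact Or.inr ⟨i, j, hj, eigenvalue_pow (((isRep_iff m X).1 hX.1.1.1).2.2 i j) hz⟩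

/-- Quasi-unipotent classes: explicit fields. -/
theorem density_roots_orb (h01 : G01Irr) (hR : G0R)
    (hg1 : ∀ i, g i = 1 → n i = 0 ∨ ∃ j, m i j = 0 ∧ j ∉ S i) (N : ℕ) (hN : 0 < N)
    (hm : ∀ i j, m i j ≠ 0 → m i j ∣ N)
    (hC : ∀ i, ∀ j ∈ S i, ∀ z, IsEigenvalue (C i j) z → z ^ N = 1)
    (L : IntermediateField ℚ ℂ) (hL : FiniteDimensional ℚ L)
    (hμ : ∀ z : ℂ, z ^ (2 * N * r.factorial) = 1 → z ∈ L) (hu : Infinite (𝓞 L)ˣ) :
    IsDenseRep L (Z (g := g) m S C) := by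
  refine dense_of_cover _ fun X hX => ?_
  obtain ⟨h1, h2⟩ := cover m S C X hX
  refine ⟨_, h1, h2, density_mixed h01 hR _ _ _ (fun i j hj => ?_)
    (fun i h => good_curve m S C X hX i h) L hL (Product.coefOK_roots N hN r L hL hμ hu)
    (Or.inl fun i hi hj => ?_)⟩
  · refine Product.eigIn_roots (X (Sum.inr ⟨i, j⟩)) N hN fun z hz => ?_
    rcases hj with hj | hj
    · exact hC i j hj z (eigenvalue_conj (hX.1.2 i j hj) hz)
    · obtain ⟨c, hc⟩ := hm i j hj
      rw [hc, pow_mul, eigenvalue_pow (((isRep_iff m X).1 hX.1.1.1).2.2 i j) hz, one_pow]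
  · refine (hg1 i hi).resolve_right ?_
    rintro ⟨j, h3, h4⟩
    exact (hj j).elim h4 fun h5 => h5 h3

/-- The main theorem for products of orbifold curves. -/
theorem main4 (h01 : G01Irr) (hR : G0R) (k : ℕ) (g n : Fin k → ℕ) (m : ∀ i, Fin (n i) → ℕ)
    (r : ℕ) (S : ∀ i, Set (Fin (n i))) (C : ∀ i, Fin (n i) → SpecialLinearGroup (Fin r) ℂ) :
    ((∀ i, ∀ j ∈ S i, ∀ z, IsEigenvalue (C i j) z → IsIntegral ℤ z ∧ IsIntegral ℤ z⁻¹) →
      ∃ L : IntermediateField ℚ ℂ, FiniteDimensional ℚ L ∧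
        IsDense (Rels g n m) L (Z m S C) ∧ IsDenseRep L (Z (g := g) m S C)) ∧
    ((∀ i, g i = 1 → n i = 0 ∨ ∃ j, m i j = 0 ∧ j ∉ S i) →
      ∀ N : ℕ, 0 < N → (∀ i j, m i j ≠ 0 → m i j ∣ N) →
      (∀ i, ∀ j ∈ S i, ∀ z, IsEigenvalue (C i j) z → z ^ N = 1) →
      ∀ L : IntermediateField ℚ ℂ, FiniteDimensional ℚ L →
        (∀ z : ℂ, z ^ (2 * N * r.factorial) = 1 → z ∈ L) → Infinite (𝓞 L)ˣ →
        IsDenseRep L (Z (g := g) m S C)) := by
  refine ⟨fun hC => ?_, fun hg1 N hN hm hC L hL hμ hu =>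
    density_roots_orb m S C h01 hR hg1 N hN hm hC L hL hμ hu⟩
  obtain ⟨L, hL, h⟩ := exists_density_orb m S C h01 hR hC
  exact ⟨L, hL, h.isDense, h⟩

end Vale.Agent.P002R.Orb
end
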